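import Claimed.Agent.R291.Dis.Base

/-!
# Row 291 (S0539), Dis/Amb : THE LAW INSIDE AN OPEN CUT IS INTRINSIC (AMB)      (owner helper62; head of the unit DIS helper146; prefix `dam_` / `Dam` / `dam`)

TEX[lem:cell-cut] 02-discrete l.112-150 ("this inside law depends only on γ, s, and the constraints inside"), l.168-190 (identification of the law of Theorem 2.3 with the law inside a prescribed open cut).

* sec. 1  ABSTRACT: two systems `S` (ambient), `S'` (inner), `DamSub S S'`.  `damX` = cells of `S` which are not cells of `S'` and touch `S'.A` (crossing cells), `damLay` = sites of `S'.A` in crossing cells.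
          SWAP `(ω, η) ↦ (damMix η ω, damRes ω)` on `S.cfgs ×ˢ S'.cfgs`:   `N(F) M(1) = N(1) M(F)`   (`dam_swap`), hence `dam_amb` : `S.E (Cut ∧ Kin ∧ Kout) F = S'.E (Lay ∧ Kin) F`.
* sec. 2  the cut in `clTau` form (equal up to configurations of weight `0`).
* sec. 3  PLANAR: `clAmb x V`, `clInn x I`, `latCl I ⊆ V`, layer `= latBd I`.
* sec. 4  translation covariance.
* (FEAS) = `dis_feas` of Dis/Base (claimed by helper182).
-/

set_option autoImplicit false

namespace Claimed.Agent.R291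

open Finset

section abs

variable {V Y : Type} [DecidableEq V] [DecidableEq Y]

/-- restriction of a configuration to the sites `T` and the cells `T'` -/
def damRes (T : Finset V) (T' : Finset Y) (ω : ClCfg V Y) : ClCfg V Y := ⟨ω.B ∩ T, ω.W ∩ T, ω.O ∩ T'⟩

/-- `η` on the sites `T` and the cells `T'`, `ω` elsewhere -/
def damMix (T : Finset V) (T' : Finset Y) (η ω : ClCfg V Y) : ClCfg V Y :=
  ⟨(η.B ∩ T) ∪ (ω.B \ T), (η.W ∩ T) ∪ (ω.W \ T), (η.O ∩ T') ∪ (ω.O \ T')⟩

/-- an event which does not see the sites of `T` and the cells of `T'` -/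
def DamOut (T : Finset V) (T' : Finset Y) (K : ClCfg V Y → Prop) : Prop :=
  ∀ ω ω' : ClCfg V Y, ω.B \ T = ω'.B \ T → ω.W \ T = ω'.W \ T → ω.O \ T' = ω'.O \ T' → (K ω ↔ K ω')

/-- `S'` is an inner system of `S` -/
structure DamSub (S S' : ClSys V Y) : Prop where
  hA : S'.A ⊆ S.A
  hC : S'.C ⊆ S.C
  sv_eq : ∀ y ∈ S'.C, S'.sv y = S.sv y
  sv_in : ∀ y ∈ S'.C, S.sv y ⊆ S'.A
  q_eq : ∀ y ∈ S'.C, S'.q y = S.q y

/-- the crossing cells -/
def damX (S S' : ClSys V Y) : Finset Y := (S.C \ S'.C).filter fun y => (S.sv y ∩ S'.A).Nonempty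

/-- the layer: sites of the inner system in crossing cells -/
def damLay (S S' : ClSys V Y) : Finset V := (damX S S').biUnion (fun y => S.sv y) ∩ S'.A

/-- the first spin has the sign `s` at `v` -/
def DamSg (s : Bool) (P : Finset V) (v : V) : Prop := v ∈ P ↔ s = true

/-- STRONG cut: the cells of `X` are open and the first spin is `s` on all their sites -/
def DamCut (S : ClSys V Y) (X : Finset Y) (s : Bool) (ω : ClCfg V Y) : Prop :=
  ∀ y ∈ X, y ∈ ω.O ∧ ∀ v ∈ S.sv y, DamSg s ω.B v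

/-- the first spin is `s` on `L` -/
def DamPin (L : Finset V) (s : Bool) (ω : ClCfg V Y) : Prop := ∀ v ∈ L, DamSg s ω.B v

/-- the factor of one cell -/
def damCw (S : ClSys V Y) (ω : ClCfg V Y) (y : Y) : ℝ :=
  clCellW (S.q y) (ClConst ω.B (S.sv y)) (ClConst ω.W (S.sv y)) (y ∈ ω.O)

theorem dam_eqns_cite : True := by
  have := @damRes.eq_1
  have := @damMix.eq_1
  have := @DamOut.eq_1
  have := @damX.eq_1
  have := @damLay.eq_1
  have := @DamSg.eq_1
  have := @DamCut.eq_1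
  have := @DamPin.eq_1
  have := @damCw.eq_1
  trivial

/-! ### set algebra -/

theorem dam_const_congr {P P' s : Finset V} (h : ∀ v ∈ s, (v ∈ P ↔ v ∈ P')) : ClConst P s ↔ ClConst P' s := by
  unfold ClConst
  constructor
  · rintro (h1 | h1)
    · exact Or.inl fun v hv => (h v hv).1 (h1 hv)
    · exact Or.inr fun v hv hv' => h1 v hv ((h v hv).2 hv')
  · rintro (h1 | h1)
    · exact Or.inl fun v hv => (h v hv).2 (h1 hv)
    · exact Or.inr fun v hv hv' => h1 v hv ((h v hv).1 hv')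

theorem dam_cw_congr (S S' : ClSys V Y) (ω ω' : ClCfg V Y) (y : Y) (hq : S.q y = S'.q y) (hsv : S.sv y = S'.sv y)
    (hB : ∀ v ∈ S.sv y, (v ∈ ω.B ↔ v ∈ ω'.B)) (hW : ∀ v ∈ S.sv y, (v ∈ ω.W ↔ v ∈ ω'.W)) (hO : y ∈ ω.O ↔ y ∈ ω'.O) :
    damCw S ω y = damCw S' ω' y := by
  unfold damCw clCellW
  rw [← hsv, ← hq]
  simp only [dam_const_congr hB, dam_const_congr hW, hO]

theorem dam_wt_eq (S : ClSys V Y) (ω : ClCfg V Y) : S.wt ω = ∏ y ∈ S.C, damCw S ω y := rfl

theorem dam_res_mem (S S' : ClSys V Y) (ω : ClCfg V Y) : damRes S'.A S'.C ω ∈ S'.cfgs := by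
  rw [cl_mem_cfgs]
  exact ⟨inter_subset_right, inter_subset_right, inter_subset_right⟩

theorem dam_mix_mem {S S' : ClSys V Y} (h : DamSub S S') {η ω : ClCfg V Y} (hω : ω ∈ S.cfgs) : damMix S'.A S'.C η ω ∈ S.cfgs := by
  rw [cl_mem_cfgs] at hω ⊢
  refine ⟨union_subset (inter_subset_right.trans h.hA) (sdiff_subset.trans hω.1),
    union_subset (inter_subset_right.trans h.hA) (sdiff_subset.trans hω.2.1),
    union_subset (inter_subset_right.trans h.hC) (sdiff_subset.trans hω.2.2)⟩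

theorem dam_set1 {α : Type} [DecidableEq α] (a b T : Finset α) : ((a ∩ T) ∩ T) ∪ (((b ∩ T) ∪ (a \ T)) \ T) = a := by
  ext v
  simp only [mem_union, mem_inter, mem_sdiff]
  tauto

theorem dam_set2 {α : Type} [DecidableEq α] {a b T : Finset α} (hb : b ⊆ T) : ((b ∩ T) ∪ (a \ T)) ∩ T = b := by
  ext v
  simp only [mem_union, mem_inter, mem_sdiff]
  constructor
  · rintro ⟨h1 | h1, h2⟩
    · exact h1.1
    · exact absurd h2 h1.2
  · intro h; exact ⟨Or.inl ⟨h, hb h⟩, hb h⟩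

theorem dam_mix_res_mix (T : Finset V) (T' : Finset Y) (η ω : ClCfg V Y) : damMix T T' (damRes T T' ω) (damMix T T' η ω) = ω := by
  unfold damMix damRes
  ext1 <;> exact dam_set1 _ _ _

theorem dam_res_mix {S' : ClSys V Y} {η : ClCfg V Y} (hη : η ∈ S'.cfgs) (ω : ClCfg V Y) : damRes S'.A S'.C (damMix S'.A S'.C η ω) = η := by
  rw [cl_mem_cfgs] at hη
  unfold damMix damRes
  ext1
  · exact dam_set2 hη.1
  · exact dam_set2 hη.2.1
  · exact dam_set2 hη.2.2

/-! ### weights -/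

/-- the factors of the cells which are not inner cells -/
def damRw (S S' : ClSys V Y) (ω : ClCfg V Y) : ℝ := ∏ y ∈ S.C \ S'.C, damCw S ω y

theorem dam_wt_split {S S' : ClSys V Y} (h : DamSub S S') (ω : ClCfg V Y) :
    S.wt ω = S'.wt (damRes S'.A S'.C ω) * damRw S S' ω := by
  rw [dam_wt_eq, dam_wt_eq, damRw, mul_comm, ← Finset.prod_sdiff h.hC]
  congr 1
  refine Finset.prod_congr rfl fun y hy => ?_
  refine dam_cw_congr S S' ω _ y (h.q_eq y hy).symm (h.sv_eq y hy).symm (fun v hv => ?_) (fun v hv => ?_) ?_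
  · simp [damRes, h.sv_in y hy hv]
  · simp [damRes, h.sv_in y hy hv]
  · simp [damRes, hy]

theorem dam_cw_cut (S : ClSys V Y) {s : Bool} {ω : ClCfg V Y} {y : Y} (h : y ∈ ω.O ∧ ∀ v ∈ S.sv y, DamSg s ω.B v) :
    damCw S ω y = S.q y := by
  have hc : ClConst ω.B (S.sv y) := by
    cases s with
    | true => exact Or.inl fun v hv => (h.2 v hv).2 rfl
    | false => exact Or.inr fun v hv hv' => by simpa using (h.2 v hv).1 hv'
  unfold damCw clCellW
  rw [if_pos h.1, if_pos hc]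

theorem dam_mix_B_out {T : Finset V} (T' : Finset Y) (η ω : ClCfg V Y) {v : V} (hv : v ∉ T) : v ∈ (damMix T T' η ω).B ↔ v ∈ ω.B := by
  simp [damMix, hv]

theorem dam_mix_W_out {T : Finset V} (T' : Finset Y) (η ω : ClCfg V Y) {v : V} (hv : v ∉ T) : v ∈ (damMix T T' η ω).W ↔ v ∈ ω.W := by
  simp [damMix, hv]

theorem dam_mix_O_out (T : Finset V) {T' : Finset Y} (η ω : ClCfg V Y) {y : Y} (hy : y ∉ T') : y ∈ (damMix T T' η ω).O ↔ y ∈ ω.O := by
  simp [damMix, hy]

theorem dam_mix_B_in {T : Finset V} (T' : Finset Y) (η ω : ClCfg V Y) {v : V} (hv : v ∈ T) : v ∈ (damMix T T' η ω).B ↔ v ∈ η.B := by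
  simp [damMix, hv]

theorem dam_rw_mix {S S' : ClSys V Y} {s : Bool} {η ω : ClCfg V Y} (h1 : DamCut S (damX S S') s ω)
    (h2 : DamCut S (damX S S') s (damMix S'.A S'.C η ω)) : damRw S S' (damMix S'.A S'.C η ω) = damRw S S' ω := by
  unfold damRw
  refine Finset.prod_congr rfl fun y hy => ?_
  by_cases hX : y ∈ damX S S'
  · rw [dam_cw_cut S (h1 y hX), dam_cw_cut S (h2 y hX)]
  · have hy' := Finset.mem_sdiff.1 hy
    have hdis : ∀ v ∈ S.sv y, v ∉ S'.A := fun v hv hv' =>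
      hX (Finset.mem_filter.2 ⟨hy, ⟨v, Finset.mem_inter.2 ⟨hv, hv'⟩⟩⟩)
    exact dam_cw_congr S S _ _ y rfl rfl (fun v hv => dam_mix_B_out _ _ _ (hdis v hv)) (fun v hv => dam_mix_W_out _ _ _ (hdis v hv))
      (dam_mix_O_out _ _ _ hy'.2)

/-! ### events -/

/-- the outer part of the cut -/
def DamCutO (S S' : ClSys V Y) (s : Bool) (ω : ClCfg V Y) : Prop :=
  ∀ y ∈ damX S S', y ∈ ω.O ∧ ∀ v ∈ S.sv y, v ∉ S'.A → DamSg s ω.B v

theorem dam_cut_iff (S S' : ClSys V Y) (s : Bool) (ω : ClCfg V Y) :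
    DamCut S (damX S S') s ω ↔ DamCutO S S' s ω ∧ DamPin (damLay S S') s ω := by
  constructor
  · intro h
    refine ⟨fun y hy => ⟨(h y hy).1, fun v hv _ => (h y hy).2 v hv⟩, fun v hv => ?_⟩
    obtain ⟨h1, _⟩ := Finset.mem_inter.1 hv
    obtain ⟨y, hy, hvy⟩ := Finset.mem_biUnion.1 h1
    exact (h y hy).2 v hvy
  · rintro ⟨h1, h2⟩ y hy
    refine ⟨(h1 y hy).1, fun v hv => ?_⟩
    by_cases hvA : v ∈ S'.A
    · exact h2 v (Finset.mem_inter.2 ⟨Finset.mem_biUnion.2 ⟨y, hy, hv⟩, hvA⟩)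
    · exact (h1 y hy).2 v hv hvA

theorem dam_cutO_mix (S S' : ClSys V Y) (s : Bool) (η ω : ClCfg V Y) :
    DamCutO S S' s (damMix S'.A S'.C η ω) ↔ DamCutO S S' s ω := by
  unfold DamCutO DamSg
  refine forall₂_congr fun y hy => ?_
  have hy' : y ∉ S'.C := (Finset.mem_sdiff.1 (Finset.mem_filter.1 hy).1).2
  rw [dam_mix_O_out _ _ _ hy']
  refine and_congr_right fun _ => forall₂_congr fun v _ => ?_
  refine imp_congr_right fun hv => ?_
  rw [dam_mix_B_out _ _ _ hv]

theorem dam_pin_mix (S S' : ClSys V Y) (s : Bool) (η ω : ClCfg V Y) :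
    DamPin (damLay S S') s (damMix S'.A S'.C η ω) ↔ DamPin (damLay S S') s η := by
  unfold DamPin DamSg
  refine forall₂_congr fun v hv => ?_
  rw [dam_mix_B_in _ _ _ (Finset.mem_inter.1 hv).2]

theorem dam_pin_res (S S' : ClSys V Y) (s : Bool) (ω : ClCfg V Y) :
    DamPin (damLay S S') s (damRes S'.A S'.C ω) ↔ DamPin (damLay S S') s ω := by
  unfold DamPin DamSg
  refine forall₂_congr fun v hv => ?_
  simp [damRes, (Finset.mem_inter.1 hv).2]

theorem dam_set3 {α : Type} [DecidableEq α] (a T : Finset α) : (a ∩ T) ∩ T = a ∩ T := by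
  ext v; simp only [mem_inter]; tauto

theorem dam_set4 {α : Type} [DecidableEq α] (a b T : Finset α) : ((b ∩ T) ∪ (a \ T)) ∩ T = b ∩ T := by
  ext v; simp only [mem_union, mem_inter, mem_sdiff]; tauto

theorem dam_set5 {α : Type} [DecidableEq α] (a b T : Finset α) : ((b ∩ T) ∪ (a \ T)) \ T = a \ T := by
  ext v; simp only [mem_union, mem_inter, mem_sdiff]; tauto

theorem dam_in_res {T : Finset V} {T' : Finset Y} {K : ClCfg V Y → Prop} (hK : ClLocP T T' K) (ω : ClCfg V Y) : K (damRes T T' ω) ↔ K ω :=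
  hK _ _ (dam_set3 _ _) (dam_set3 _ _) (dam_set3 _ _)

theorem dam_in_mix {T : Finset V} {T' : Finset Y} {K : ClCfg V Y → Prop} (hK : ClLocP T T' K) (η ω : ClCfg V Y) : K (damMix T T' η ω) ↔ K η :=
  hK _ _ (dam_set4 _ _ _) (dam_set4 _ _ _) (dam_set4 _ _ _)

theorem dam_out_mix {T : Finset V} {T' : Finset Y} {K : ClCfg V Y → Prop} (hK : DamOut T T' K) (η ω : ClCfg V Y) : K (damMix T T' η ω) ↔ K ω :=
  hK _ _ (dam_set5 _ _ _) (dam_set5 _ _ _) (dam_set5 _ _ _)

theorem dam_loc_res {T : Finset V} {T' : Finset Y} {F : ClCfg V Y → ℝ} (hF : ClLoc T T' F) (ω : ClCfg V Y) : F (damRes T T' ω) = F ω :=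
  hF _ _ (dam_set3 _ _) (dam_set3 _ _) (dam_set3 _ _)

/-! ### the swap -/

theorem dam_E_eq (S : ClSys V Y) (K : ClCfg V Y → Prop) (G : ClCfg V Y → ℝ) : S.E K G = S.N K G / S.N K fun _ => 1 := by
  unfold ClSys.E ClSys.Z ClSys.N
  simp only [mul_one]

theorem dam_Z_eq (S : ClSys V Y) (K : ClCfg V Y → Prop) : S.Z K = S.N K fun _ => 1 := by
  unfold ClSys.Z ClSys.N
  simp only [mul_one]

/-- the ambient constraint -/
def DamKa (S S' : ClSys V Y) (s : Bool) (Kin Kout : ClCfg V Y → Prop) (ω : ClCfg V Y) : Prop :=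
  DamCut S (damX S S') s ω ∧ Kin ω ∧ Kout ω

/-- the inner constraint -/
def DamKi (S S' : ClSys V Y) (s : Bool) (Kin : ClCfg V Y → Prop) (η : ClCfg V Y) : Prop :=
  DamPin (damLay S S') s η ∧ Kin η

theorem dam_ev_swap (S S' : ClSys V Y) (s : Bool) {Kin Kout : ClCfg V Y → Prop} (hKin : ClLocP S'.A S'.C Kin)
    (hKout : DamOut S'.A S'.C Kout) (η ω : ClCfg V Y) :
    (DamKa S S' s Kin Kout ω ∧ DamKi S S' s Kin η) ↔
      (DamKa S S' s Kin Kout (damMix S'.A S'.C η ω) ∧ DamKi S S' s Kin (damRes S'.A S'.C ω)) := by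
  unfold DamKa DamKi
  rw [dam_cut_iff, dam_cut_iff, dam_cutO_mix, dam_pin_mix, dam_pin_res, dam_in_res hKin, dam_in_mix hKin, dam_out_mix hKout]
  tauto

/-- **SWAP**: `N(F) M(1) = N(1) M(F)` -/
theorem dam_swap {S S' : ClSys V Y} (h : DamSub S S') (s : Bool) {Kin Kout : ClCfg V Y → Prop} {F : ClCfg V Y → ℝ}
    (hKin : ClLocP S'.A S'.C Kin) (hKout : DamOut S'.A S'.C Kout) (hF : ClLoc S'.A S'.C F) :
    S.N (DamKa S S' s Kin Kout) F * S'.N (DamKi S S' s Kin) (fun _ => 1)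
      = S.N (DamKa S S' s Kin Kout) (fun _ => 1) * S'.N (DamKi S S' s Kin) F := by
  classical
  unfold ClSys.N
  rw [Finset.sum_mul_sum, Finset.sum_mul_sum, ← Finset.sum_product', ← Finset.sum_product']
  refine Finset.sum_nbij' (fun p => (damMix S'.A S'.C p.2 p.1, damRes S'.A S'.C p.1))
    (fun p => (damMix S'.A S'.C p.2 p.1, damRes S'.A S'.C p.1)) ?_ ?_ ?_ ?_ ?_
  · intro p hp
    obtain ⟨h1, _⟩ := Finset.mem_product.1 hp
    exact Finset.mem_product.2 ⟨dam_mix_mem h h1, dam_res_mem S S' _⟩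
  · intro p hp
    obtain ⟨h1, _⟩ := Finset.mem_product.1 hp
    exact Finset.mem_product.2 ⟨dam_mix_mem h h1, dam_res_mem S S' _⟩
  · intro p hp
    obtain ⟨_, h2⟩ := Finset.mem_product.1 hp
    exact Prod.ext (dam_mix_res_mix _ _ _ _) (dam_res_mix h2 _)
  · intro p hp
    obtain ⟨_, h2⟩ := Finset.mem_product.1 hp
    exact Prod.ext (dam_mix_res_mix _ _ _ _) (dam_res_mix h2 _)
  · rintro ⟨ω, η⟩ hp
    obtain ⟨_, h2⟩ := Finset.mem_product.1 hp
    have hev := dam_ev_swap S S' s hKin hKout η ω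
    simp only
    by_cases hc : DamKa S S' s Kin Kout ω ∧ DamKi S S' s Kin η
    · obtain ⟨c1, c2⟩ := hc
      obtain ⟨c3, c4⟩ := hev.1 ⟨c1, c2⟩
      rw [if_pos c1, if_pos c2, if_pos c3, if_pos c4, dam_wt_split h ω, dam_wt_split h (damMix S'.A S'.C η ω), dam_res_mix h2,
        dam_rw_mix c1.1 c3.1, dam_loc_res hF]
      ring
    · have hc' := fun hh => hc (hev.2 hh)
      have e1 : (if DamKa S S' s Kin Kout ω then S.wt ω * F ω else 0) * (if DamKi S S' s Kin η then S'.wt η * 1 else 0) = 0 := by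
        by_cases c1 : DamKa S S' s Kin Kout ω
        · rw [if_neg (fun c2 => hc ⟨c1, c2⟩), mul_zero]
        · rw [if_neg c1, zero_mul]
      have e2 : (if DamKa S S' s Kin Kout (damMix S'.A S'.C η ω) then S.wt (damMix S'.A S'.C η ω) * 1 else 0)
          * (if DamKi S S' s Kin (damRes S'.A S'.C ω) then S'.wt (damRes S'.A S'.C ω) * F (damRes S'.A S'.C ω) else 0) = 0 := by
        by_cases c1 : DamKa S S' s Kin Kout (damMix S'.A S'.C η ω)
        · rw [if_neg (fun c2 => hc' ⟨c1, c2⟩), mul_zero]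
        · rw [if_neg c1, zero_mul]
      rw [e1, e2]

theorem dam_cw_nonneg (S : ClSys V Y) {y : Y} (hq : 0 ≤ S.q y ∧ S.q y ≤ 1) (ω : ClCfg V Y) : 0 ≤ damCw S ω y := by
  unfold damCw clCellW
  split_ifs <;> linarith [hq.1, hq.2]

theorem dam_wt_nonneg (S : ClSys V Y) (hq : ∀ y ∈ S.C, 0 ≤ S.q y ∧ S.q y ≤ 1) (ω : ClCfg V Y) : 0 ≤ S.wt ω :=
  Finset.prod_nonneg fun y hy => dam_cw_nonneg S (hq y hy) ω

theorem dam_sub_q {S S' : ClSys V Y} (h : DamSub S S') (hq : ∀ y ∈ S.C, 0 ≤ S.q y ∧ S.q y ≤ 1) : ∀ y ∈ S'.C, 0 ≤ S'.q y ∧ S'.q y ≤ 1 :=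
  fun y hy => by rw [h.q_eq y hy]; exact hq y (h.hC hy)

/-- feasibility passes to the inner system -/
theorem dam_feas_in {S S' : ClSys V Y} (h : DamSub S S') (hq : ∀ y ∈ S.C, 0 ≤ S.q y ∧ S.q y ≤ 1) (s : Bool)
    {Kin Kout : ClCfg V Y → Prop} (hKin : ClLocP S'.A S'.C Kin) (hfe : S.Z (DamKa S S' s Kin Kout) ≠ 0) :
    S'.Z (DamKi S S' s Kin) ≠ 0 := by
  classical
  intro h0
  apply hfe
  rw [dam_Z_eq] at h0 ⊢
  unfold ClSys.N at h0 ⊢
  have hnn : ∀ η ∈ S'.cfgs, 0 ≤ (if DamKi S S' s Kin η then S'.wt η * 1 else 0) := fun η _ => by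
    split_ifs
    · rw [mul_one]; exact dam_wt_nonneg S' (dam_sub_q h hq) η
    · exact le_rfl
  have hz := (Finset.sum_eq_zero_iff_of_nonneg hnn).1 h0
  refine Finset.sum_eq_zero fun ω _ => ?_
  split_ifs with hK
  · have hKi : DamKi S S' s Kin (damRes S'.A S'.C ω) :=
      ⟨(dam_pin_res S S' s ω).2 ((dam_cut_iff S S' s ω).1 hK.1).2, (dam_in_res hKin ω).2 hK.2.1⟩
    have := hz _ (dam_res_mem S S' ω)
    rw [if_pos hKi, mul_one] at this
    rw [dam_wt_split h ω, this]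
    ring
  · rfl

/-- **(AMB), abstract**: the law inside an open cut is the intrinsic law of the inner system with the first spin pinned on the layer -/
theorem dam_amb {S S' : ClSys V Y} (h : DamSub S S') (hq : ∀ y ∈ S.C, 0 ≤ S.q y ∧ S.q y ≤ 1) (s : Bool)
    {Kin Kout : ClCfg V Y → Prop} {F : ClCfg V Y → ℝ} (hKin : ClLocP S'.A S'.C Kin) (hKout : DamOut S'.A S'.C Kout)
    (hF : ClLoc S'.A S'.C F) (hfe : S.Z (DamKa S S' s Kin Kout) ≠ 0) :
    S.E (DamKa S S' s Kin Kout) F = S'.E (DamKi S S' s Kin) F := by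
  have h1 := dam_feas_in h hq s hKin hfe
  rw [dam_Z_eq] at hfe h1
  rw [dam_E_eq, dam_E_eq, div_eq_div_iff hfe h1, dam_swap h s hKin hKout hF]
  ring

/-! ## 2. The cut in `clTau` form -/

/-- two constraints which agree on the configurations of nonzero weight -/
theorem dam_N_congr (S : ClSys V Y) {K K' : ClCfg V Y → Prop} (h : ∀ ω ∈ S.cfgs, S.wt ω ≠ 0 → (K ω ↔ K' ω)) (G : ClCfg V Y → ℝ) :
    S.N K G = S.N K' G := by
  classical
  unfold ClSys.N
  refine Finset.sum_congr rfl fun ω hω => ?_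
  by_cases hw : S.wt ω = 0
  · simp [hw]
  · simp only [h ω hω hw]

theorem dam_E_congr (S : ClSys V Y) {K K' : ClCfg V Y → Prop} (h : ∀ ω ∈ S.cfgs, S.wt ω ≠ 0 → (K ω ↔ K' ω)) (G : ClCfg V Y → ℝ) :
    S.E K G = S.E K' G := by
  rw [dam_E_eq, dam_E_eq, dam_N_congr S h, dam_N_congr S h]

theorem dam_Z_congr (S : ClSys V Y) {K K' : ClCfg V Y → Prop} (h : ∀ ω ∈ S.cfgs, S.wt ω ≠ 0 → (K ω ↔ K' ω)) : S.Z K = S.Z K' := by
  rw [dam_Z_eq, dam_Z_eq, dam_N_congr S h]

theorem dam_cw_ne {S : ClSys V Y} {ω : ClCfg V Y} (hw : S.wt ω ≠ 0) {y : Y} (hy : y ∈ S.C) : damCw S ω y ≠ 0 :=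
  fun h0 => hw (Finset.prod_eq_zero hy h0)

/-- an open cell of a configuration of nonzero weight has a constant first spin -/
theorem dam_open_const {S : ClSys V Y} {ω : ClCfg V Y} (hw : S.wt ω ≠ 0) {y : Y} (hy : y ∈ S.C) (ho : y ∈ ω.O) : ClConst ω.B (S.sv y) := by
  by_contra hc
  apply dam_cw_ne hw hy
  unfold damCw clCellW
  rw [if_pos ho, if_neg hc]

/-- on configurations of nonzero weight the status form of a cut is the strong form -/
theorem dam_cut_tau {S : ClSys V Y} {X : Finset Y} (hX : X ⊆ S.C) (hne : ∀ y ∈ X, (S.sv y).Nonempty) (s : Bool) {ω : ClCfg V Y}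
    (hw : S.wt ω ≠ 0) : (∀ y ∈ X, clTau S ω y = clSg s) ↔ DamCut S X s ω := by
  refine forall₂_congr fun y hy => ?_
  unfold clTau clSg DamSg
  constructor
  · intro h
    have ho : y ∈ ω.O := by
      by_contra ho
      rw [if_neg ho] at h
      cases s <;> simp at h
    refine ⟨ho, fun v hv => ?_⟩
    rw [if_pos ho] at h
    have hc := dam_open_const hw (hX hy) ho
    cases s with
    | true =>
      have hsub : S.sv y ⊆ ω.B := by
        by_contra hn
        rw [if_neg hn] at h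
        simp at h
      simp [hsub hv]
    | false =>
      have hn : ¬ S.sv y ⊆ ω.B := by
        intro hsub
        rw [if_pos hsub] at h
        simp at h
      rcases hc with hc | hc
      · exact absurd hc hn
      · simp [hc v hv]
  · rintro ⟨ho, h⟩
    rw [if_pos ho]
    cases s with
    | true =>
      have hsub : S.sv y ⊆ ω.B := fun v hv => (h v hv).2 rfl
      simp [hsub]
    | false =>
      obtain ⟨v, hv⟩ := hne y hy
      have hn : ¬ S.sv y ⊆ ω.B := fun hsub => by simpa using (h v hv).1 (hsub hv)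
      simp [hn]

/-- the abstract inner system of the site set `I`: sites `I`, cells inside `I` -/
def damInn (S : ClSys V Y) (I : Finset V) : ClSys V Y := ⟨I, S.cin I, S.sv, S.q⟩

theorem dam_inn_sub (S : ClSys V Y) {I : Finset V} (hI : I ⊆ S.A) : DamSub S (damInn S I) where
  hA := hI
  hC := Finset.filter_subset _ _
  sv_eq := fun _ _ => rfl
  sv_in := fun _ hy => (Finset.mem_filter.1 hy).2
  q_eq := fun _ _ => rfl

/-- `S'` is THE inner system of its site set: its cells are the cells of `S` inside `S'.A` -/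
theorem dam_X_cross {S S' : ClSys V Y} (hC : S'.C = S.cin S'.A) (y : Y) : y ∈ damX S S' ↔ y ∈ S.C ∧ clCross S S'.A y := by
  unfold damX clCross
  rw [Finset.mem_filter, Finset.mem_sdiff, hC, ClSys.cin, Finset.mem_filter]
  constructor
  · rintro ⟨⟨h1, h2⟩, v, hv⟩
    obtain ⟨hv1, hv2⟩ := Finset.mem_inter.1 hv
    refine ⟨h1, ⟨v, hv1, hv2⟩, ?_⟩
    by_contra hn
    exact h2 ⟨h1, fun u hu => by by_contra hu'; exact hn ⟨u, hu, hu'⟩⟩
  · rintro ⟨h1, ⟨u, hu1, hu2⟩, v, hv1, hv2⟩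
    exact ⟨⟨h1, fun hh => hv2 (hh.2 hv1)⟩, u, Finset.mem_inter.2 ⟨hu1, hu2⟩⟩

theorem dam_cut_X {S S' : ClSys V Y} (hC : S'.C = S.cin S'.A) (s : Bool) (ω : ClCfg V Y) :
    ClCut S s S'.A ω ↔ ∀ y ∈ damX S S', clTau S ω y = clSg s := by
  unfold ClCut
  constructor
  · intro h y hy
    obtain ⟨h1, h2⟩ := (dam_X_cross hC y).1 hy
    exact h y h1 h2
  · intro h y h1 h2
    exact h y ((dam_X_cross hC y).2 ⟨h1, h2⟩)

/-- **(AMB), abstract, `ClCut` form**.   `S'` any system with `DamSub S S'` whose cells are the cells of `S` inside `S'.A` -/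
theorem dam_amb_cut {S S' : ClSys V Y} (hS : ClOk S) (h : DamSub S S') (hC : S'.C = S.cin S'.A) (s : Bool)
    {Kin Kout : ClCfg V Y → Prop} {F : ClCfg V Y → ℝ} (hKin : ClLocP S'.A S'.C Kin) (hKout : DamOut S'.A S'.C Kout)
    (hF : ClLoc S'.A S'.C F) (hfe : S.Z (fun ω => ClCut S s S'.A ω ∧ Kin ω ∧ Kout ω) ≠ 0) :
    S.E (fun ω => ClCut S s S'.A ω ∧ Kin ω ∧ Kout ω) F = S'.E (fun η => DamPin (damLay S S') s η ∧ Kin η) F := by
  have hX : damX S S' ⊆ S.C := fun y hy => (Finset.mem_sdiff.1 (Finset.mem_filter.1 hy).1).1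
  have hcg : ∀ ω ∈ S.cfgs, S.wt ω ≠ 0 → ((ClCut S s S'.A ω ∧ Kin ω ∧ Kout ω) ↔ DamKa S S' s Kin Kout ω) := by
    intro ω _ hw
    unfold DamKa
    rw [dam_cut_X hC, dam_cut_tau hX (fun y hy => hS.ne y (hX hy)) s hw]
  rw [dam_Z_congr S hcg] at hfe
  rw [dam_E_congr S hcg]
  exact dam_amb h (fun y hy => ⟨(hS.q0 y hy).le, hS.q1 y hy⟩) s hKin hKout hF hfe

/-- an event local to the outside in the sense of `Dis/Base` is `DamOut` -/
theorem dam_out_of_loc (S : ClSys V Y) (I : Finset V) {K : ClCfg V Y → Prop} (hK : ClLocP (S.A \ I) (S.cout I) K) : DamOut I (S.cin I) K := by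
  intro ω ω' h1 h2 h3
  refine hK ω ω' ?_ ?_ ?_
  · ext v
    have := Finset.ext_iff.1 h1 v
    simp only [Finset.mem_sdiff, Finset.mem_inter] at this ⊢
    tauto
  · ext v
    have := Finset.ext_iff.1 h2 v
    simp only [Finset.mem_sdiff, Finset.mem_inter] at this ⊢
    tauto
  · ext y
    have := Finset.ext_iff.1 h3 y
    simp only [Finset.mem_sdiff, Finset.mem_inter, ClSys.cin, ClSys.cout, Finset.mem_filter] at this ⊢
    tauto

end abs

/-! ## 3. The planar systems -/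

theorem dam_cell_adj {y u v : TV} (hu : u ∈ cellV y) (hv : v ∈ cellV y) (huv : u ≠ v) : Claims.C0467.triAdj u v := by
  rw [lat_adj_iff]
  simp only [cellV, Finset.mem_insert, Finset.mem_singleton] at hu hv
  rcases hu with rfl | rfl | rfl <;> rcases hv with rfl | rfl | rfl <;>
    first
      | exact absurd rfl huv
      | simp [latDirs, Prod.ext_iff]

theorem dam_adj_cell {u v : TV} (h : Claims.C0467.triAdj u v) : ∃ y, u ∈ cellV y ∧ v ∈ cellV y := by
  rw [lat_adj_iff, lat_dirs_eq, Finset.mem_union, Finset.mem_image] at h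
  rcases h with h | ⟨d, hd, hd'⟩
  · have := lat_cellOf_mem (p := (u, v - u)) h
    exact ⟨_, this.1, by simpa using this.2⟩
  · have := lat_cellOf_mem (p := (v, d)) hd
    have e : v + d = u := by
      have : d = u - v := by rw [← neg_sub, ← hd', neg_neg]
      rw [this]; abel
    exact ⟨_, by simpa [e] using this.2, this.1⟩

theorem dam_cell_cl {I : Finset TV} {y u : TV} (hu : u ∈ cellV y) (huI : u ∈ I) : cellV y ⊆ latCl I := by
  intro v hv
  by_cases huv : u = v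
  · exact lat_mem_cl.2 (Or.inl (huv ▸ huI))
  · exact lat_mem_cl.2 (Or.inr ⟨u, huI, dam_cell_adj hu hv huv⟩)

theorem dam_sub_cl (I : Finset TV) : I ⊆ latCl I := fun _ hu => lat_mem_cl.2 (Or.inl hu)

theorem dam_pl_ok {x : ℝ} (hx0 : 0 < x) (hx1 : x ≤ 1) (V : Finset TV) : ClOk (clAmb x V) where
  sub := fun _ _ => Finset.inter_subset_right
  ne := fun y hy => by
    obtain ⟨u, hu, huV⟩ := lat_mem_cells.1 hy
    exact ⟨u, Finset.mem_inter.2 ⟨hu, huV⟩⟩
  q0 := fun y _ => by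
    show 0 < (if (cellV y ∩ V).card = 3 then x ^ 2 else x)
    split_ifs <;> positivity
  q1 := fun y _ => by
    show (if (cellV y ∩ V).card = 3 then x ^ 2 else x) ≤ 1
    split_ifs
    · exact pow_le_one₀ hx0.le hx1
    · exact hx1

theorem dam_pl_sub (x : ℝ) {V I : Finset TV} (hI : latCl I ⊆ V) : DamSub (clAmb x V) (clInn x I) := by
  have hIV : I ⊆ V := (dam_sub_cl I).trans hI
  have e1 : ∀ y ∈ latCellsIn I, cellV y ∩ I = cellV y := fun y hy => Finset.inter_eq_left.2 (lat_mem_cellsIn.1 hy)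
  have e2 : ∀ y ∈ latCellsIn I, cellV y ∩ V = cellV y := fun y hy => Finset.inter_eq_left.2 ((lat_mem_cellsIn.1 hy).trans hIV)
  refine ⟨hIV, fun y hy => ?_, fun y hy => ?_, fun y hy => ?_, fun y hy => ?_⟩
  · exact lat_mem_cells.2 ⟨y, by simp [cellV], hIV (lat_mem_cellsIn.1 hy (by simp [cellV]))⟩
  · show cellV y ∩ I = cellV y ∩ V
    rw [e1 y hy, e2 y hy]
  · show cellV y ∩ V ⊆ I
    rw [e2 y hy]; exact lat_mem_cellsIn.1 hy
  · show (if (cellV y ∩ I).card = 3 then x ^ 2 else x) = (if (cellV y ∩ V).card = 3 then x ^ 2 else x)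
    rw [e1 y hy, e2 y hy]

theorem dam_pl_cin (x : ℝ) {V I : Finset TV} (hI : latCl I ⊆ V) : (clInn x I).C = (clAmb x V).cin (clInn x I).A := by
  show latCellsIn I = (latCells V).filter (fun y => cellV y ∩ V ⊆ I)
  ext y
  rw [Finset.mem_filter, lat_mem_cellsIn, lat_mem_cells]
  constructor
  · intro h
    exact ⟨⟨y, by simp [cellV], hI (dam_sub_cl I (h (by simp [cellV])))⟩, Finset.inter_subset_left.trans h⟩
  · rintro ⟨⟨u, hu, huV⟩, h⟩
    have huI : u ∈ I := h (Finset.mem_inter.2 ⟨hu, huV⟩)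
    intro v hv
    exact h (Finset.mem_inter.2 ⟨hv, hI (dam_cell_cl hu huI hv)⟩)

/-- the layer of the planar cut is the boundary layer of `I` -/
theorem dam_pl_lay (x : ℝ) {V I : Finset TV} (hI : latCl I ⊆ V) : damLay (clAmb x V) (clInn x I) = latBd I := by
  have hC := dam_pl_cin x hI
  ext u
  unfold damLay
  rw [Finset.mem_inter, Finset.mem_biUnion, lat_mem_bd]
  constructor
  · rintro ⟨⟨y, hy, huy⟩, huI⟩
    obtain ⟨_, _, v, hv, hvI⟩ := (dam_X_cross hC y).1 hy
    refine ⟨huI, v, dam_cell_adj (Finset.mem_inter.1 huy).1 (Finset.mem_inter.1 hv).1 ?_, hvI⟩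
    rintro rfl
    exact hvI huI
  · rintro ⟨huI, v, huv, hvI⟩
    obtain ⟨y, hu, hv⟩ := dam_adj_cell huv
    have huV : u ∈ V := hI (dam_sub_cl I huI)
    have hvV : v ∈ V := hI (dam_cell_cl hu huI hv)
    refine ⟨⟨y, (dam_X_cross hC y).2 ⟨lat_mem_cells.2 ⟨u, hu, huV⟩, ⟨u, Finset.mem_inter.2 ⟨hu, huV⟩, huI⟩,
      v, Finset.mem_inter.2 ⟨hv, hvV⟩, hvI⟩, Finset.mem_inter.2 ⟨hu, huV⟩⟩, huI⟩

/-- **(AMB)** TEX[lem:cell-cut]: inside a cut set `I` (with `latCl I ⊆ V`) of sign `s` of the free ambient law on `V`, the law is the law of `clInn x I` (boundary cells excluded)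
with `B = s` on the boundary layer `latBd I`: it does not depend on `V` nor on the constraints outside. -/
theorem dam_amb_pl {x : ℝ} (hx0 : 0 < x) (hx1 : x ≤ 1) {V I : Finset TV} (hI : latCl I ⊆ V) (s : Bool)
    {Kin Kout : ClCfg TV TV → Prop} {F : ClCfg TV TV → ℝ} (hKin : ClLocP I (latCellsIn I) Kin) (hKout : DamOut I (latCellsIn I) Kout)
    (hF : ClLoc I (latCellsIn I) F) (hfe : (clAmb x V).Z (fun ω => ClCut (clAmb x V) s I ω ∧ Kin ω ∧ Kout ω) ≠ 0) :
    (clAmb x V).E (fun ω => ClCut (clAmb x V) s I ω ∧ Kin ω ∧ Kout ω) F = (clInn x I).E (fun η => DamPin (latBd I) s η ∧ Kin η) F := by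
  have := dam_amb_cut (dam_pl_ok hx0 hx1 V) (dam_pl_sub x hI) (dam_pl_cin x hI) s (Kin := Kin) (Kout := Kout) (F := F) hKin hKout hF hfe
  rw [dam_pl_lay x hI] at this
  exact this

/-! ## 4. Transport by bijections; translation covariance -/

section iso

variable {V Y V' Y' : Type} [DecidableEq V] [DecidableEq Y] [DecidableEq V'] [DecidableEq Y']

/-- image of a configuration under bijections of the sites and of the cells -/
def damMap (e : V ≃ V') (e' : Y ≃ Y') (ω : ClCfg V Y) : ClCfg V' Y' :=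
  ⟨ω.B.map e.toEmbedding, ω.W.map e.toEmbedding, ω.O.map e'.toEmbedding⟩

/-- `S'` is the image of `S` -/
structure DamIso (e : V ≃ V') (e' : Y ≃ Y') (S : ClSys V Y) (S' : ClSys V' Y') : Prop where
  hA : S'.A = S.A.map e.toEmbedding
  hC : S'.C = S.C.map e'.toEmbedding
  sv : ∀ y ∈ S.C, S'.sv (e' y) = (S.sv y).map e.toEmbedding
  q : ∀ y ∈ S.C, S'.q (e' y) = S.q y

theorem dam_const_map (e : V ≃ V') (P s : Finset V) : ClConst (P.map e.toEmbedding) (s.map e.toEmbedding) ↔ ClConst P s := by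
  unfold ClConst
  rw [Finset.map_subset_map]
  refine or_congr Iff.rfl ?_
  constructor
  · intro h v hv hv'
    exact h (e v) (Finset.mem_map_of_mem _ hv) (Finset.mem_map_of_mem _ hv')
  · intro h w hw hw'
    obtain ⟨v, hv, rfl⟩ := Finset.mem_map.1 hw
    obtain ⟨v', hv', he⟩ := Finset.mem_map.1 hw'
    have : v' = v := e.injective he
    exact h v hv (this ▸ hv')

theorem dam_iso_wt {e : V ≃ V'} {e' : Y ≃ Y'} {S : ClSys V Y} {S' : ClSys V' Y'} (h : DamIso e e' S S') (ω : ClCfg V Y) :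
    S'.wt (damMap e e' ω) = S.wt ω := by
  unfold ClSys.wt
  rw [h.hC, Finset.prod_map]
  refine Finset.prod_congr rfl fun y hy => ?_
  have e1 : e'.toEmbedding y = e' y := rfl
  have e2 : (e' y ∈ (damMap e e' ω).O) ↔ y ∈ ω.O := by
    unfold damMap
    exact Finset.mem_map' e'.toEmbedding
  unfold clCellW
  simp only [e1, h.sv y hy, h.q y hy, e2]
  simp only [damMap, dam_const_map]

theorem dam_map_symm (e : V ≃ V') (e' : Y ≃ Y') (ω : ClCfg V Y) : damMap e.symm e'.symm (damMap e e' ω) = ω := by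
  unfold damMap
  ext1 <;> (ext v; simp)

theorem dam_map_symm' (e : V ≃ V') (e' : Y ≃ Y') (ω : ClCfg V' Y') : damMap e e' (damMap e.symm e'.symm ω) = ω := by
  unfold damMap
  ext1 <;> (ext v; simp)

theorem dam_map_sub {α β : Type} (e : α ≃ β) {a A : Finset α} {b : Finset β} (hb : b ⊆ A.map e.toEmbedding) : b.map e.symm.toEmbedding ⊆ A := by
  intro v hv
  obtain ⟨w, hw, rfl⟩ := Finset.mem_map.1 hv
  obtain ⟨u, hu, rfl⟩ := Finset.mem_map.1 (hb hw)
  simpa using hu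

/-- transport of unnormalised expectations -/
theorem dam_iso_N {e : V ≃ V'} {e' : Y ≃ Y'} {S : ClSys V Y} {S' : ClSys V' Y'} (h : DamIso e e' S S') (K : ClCfg V' Y' → Prop)
    (G : ClCfg V' Y' → ℝ) : S'.N K G = S.N (fun ω => K (damMap e e' ω)) (fun ω => G (damMap e e' ω)) := by
  classical
  unfold ClSys.N
  symm
  refine Finset.sum_nbij' (damMap e e') (damMap e.symm e'.symm) ?_ ?_ ?_ ?_ ?_
  · intro ω hω
    rw [cl_mem_cfgs] at hω ⊢
    rw [h.hA, h.hC]
    exact ⟨Finset.map_subset_map.2 hω.1, Finset.map_subset_map.2 hω.2.1, Finset.map_subset_map.2 hω.2.2⟩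
  · intro ω hω
    rw [cl_mem_cfgs] at hω ⊢
    rw [h.hA, h.hC] at hω
    exact ⟨dam_map_sub e (a := ∅) hω.1, dam_map_sub e (a := ∅) hω.2.1, dam_map_sub e' (a := ∅) hω.2.2⟩
  · intro ω _; exact dam_map_symm e e' ω
  · intro ω _; exact dam_map_symm' e e' ω
  · intro ω _
    rw [dam_iso_wt h]

theorem dam_iso_Z {e : V ≃ V'} {e' : Y ≃ Y'} {S : ClSys V Y} {S' : ClSys V' Y'} (h : DamIso e e' S S') (K : ClCfg V' Y' → Prop) :
    S'.Z K = S.Z (fun ω => K (damMap e e' ω)) := by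
  rw [dis_Z_eq, dis_Z_eq, dam_iso_N h]

/-- **transport of expectations** -/
theorem dam_iso_E {e : V ≃ V'} {e' : Y ≃ Y'} {S : ClSys V Y} {S' : ClSys V' Y'} (h : DamIso e e' S S') (K : ClCfg V' Y' → Prop)
    (G : ClCfg V' Y' → ℝ) : S'.E K G = S.E (fun ω => K (damMap e e' ω)) (fun ω => G (damMap e e' ω)) := by
  rw [dis_E_eq, dis_E_eq, dam_iso_N h, dam_iso_Z h]

end iso

/-- translation of a set of sites -/
def damSh (a : TV) (A : Finset TV) : Finset TV := A.map (Equiv.addRight a).toEmbedding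

/-- translation of a configuration -/
def damShC (a : TV) (ω : ClCfg TV TV) : ClCfg TV TV := damMap (Equiv.addRight a) (Equiv.addRight a) ω

theorem dam_mem_sh {a u : TV} {A : Finset TV} : u ∈ damSh a A ↔ u - a ∈ A := by
  unfold damSh
  constructor
  · intro h
    obtain ⟨v, hv, rfl⟩ := Finset.mem_map.1 h
    simpa using hv
  · intro h
    exact Finset.mem_map.2 ⟨u - a, h, by simp⟩

theorem dam_cell_sh (a y : TV) : cellV (y + a) = damSh a (cellV y) := by
  ext u
  rw [dam_mem_sh]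
  simp only [cellV, Finset.mem_insert, Finset.mem_singleton, sub_eq_iff_eq_add]
  refine or_congr Iff.rfl (or_congr ?_ ?_) <;> rw [add_right_comm]

theorem dam_pl_iso (x : ℝ) (a : TV) (A C : Finset TV) :
    DamIso (Equiv.addRight a) (Equiv.addRight a) (clPl x A C) (clPl x (damSh a A) (damSh a C)) := by
  have e1 : ∀ y, cellV (y + a) ∩ damSh a A = (cellV y ∩ A).map (Equiv.addRight a).toEmbedding := fun y => by
    rw [dam_cell_sh, Finset.map_inter]; rfl
  refine ⟨rfl, rfl, fun y _ => e1 y, fun y _ => ?_⟩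
  show (if (cellV (y + a) ∩ damSh a A).card = 3 then x ^ 2 else x) = (if (cellV y ∩ A).card = 3 then x ^ 2 else x)
  rw [e1, Finset.card_map]

theorem dam_cells_sh (a : TV) (A : Finset TV) : latCells (damSh a A) = damSh a (latCells A) := by
  ext y
  rw [dam_mem_sh, lat_mem_cells, lat_mem_cells]
  have e : cellV y = damSh a (cellV (y - a)) := by rw [← dam_cell_sh, sub_add_cancel]
  constructor
  · rintro ⟨u, hu, huA⟩
    rw [e] at hu
    exact ⟨u - a, dam_mem_sh.1 hu, dam_mem_sh.1 huA⟩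
  · rintro ⟨u, hu, huA⟩
    refine ⟨u + a, ?_, dam_mem_sh.2 (by simpa using huA)⟩
    rw [e]; exact dam_mem_sh.2 (by simpa using hu)

theorem dam_cellsIn_sh (a : TV) (A : Finset TV) : latCellsIn (damSh a A) = damSh a (latCellsIn A) := by
  ext y
  rw [dam_mem_sh, lat_mem_cellsIn, lat_mem_cellsIn]
  have e : cellV y = damSh a (cellV (y - a)) := by rw [← dam_cell_sh, sub_add_cancel]
  rw [e]
  exact Finset.map_subset_map

theorem dam_bd_sh (a : TV) (A : Finset TV) : latBd (damSh a A) = damSh a (latBd A) := by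
  ext u
  rw [dam_mem_sh, lat_mem_bd, lat_mem_bd, dam_mem_sh]
  refine and_congr_right fun _ => ?_
  constructor
  · rintro ⟨v, hv, hvA⟩
    refine ⟨v - a, ?_, fun h => hvA (dam_mem_sh.2 h)⟩
    have := (lat_adj_shift (-a) (u := u) (v := v)).2 hv
    simpa [sub_eq_add_neg] using this
  · rintro ⟨v, hv, hvA⟩
    refine ⟨v + a, ?_, fun h => hvA (by simpa using dam_mem_sh.1 h)⟩
    have := (lat_adj_shift a (u := u - a) (v := v)).2 hv
    simpa using this

/-- **translation covariance** of the free ambient law -/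
theorem dam_amb_sh (x : ℝ) (a : TV) (A : Finset TV) (K : ClCfg TV TV → Prop) (G : ClCfg TV TV → ℝ) :
    (clAmb x (damSh a A)).E K G = (clAmb x A).E (fun ω => K (damShC a ω)) (fun ω => G (damShC a ω)) := by
  unfold clAmb
  rw [dam_cells_sh]
  exact dam_iso_E (dam_pl_iso x a A (latCells A)) K G

/-- **translation covariance** of the law with the boundary cells excluded -/
theorem dam_inn_sh (x : ℝ) (a : TV) (A : Finset TV) (K : ClCfg TV TV → Prop) (G : ClCfg TV TV → ℝ) :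
    (clInn x (damSh a A)).E K G = (clInn x A).E (fun ω => K (damShC a ω)) (fun ω => G (damShC a ω)) := by
  unfold clInn
  rw [dam_cellsIn_sh]
  exact dam_iso_E (dam_pl_iso x a A (latCellsIn A)) K G

theorem dam_eqns_cite2 : True := by
  have := @damRw.eq_1
  have := @DamCutO.eq_1
  have := @DamKa.eq_1
  have := @DamKi.eq_1
  have := @damInn.eq_1
  have := @damMap.eq_1
  have := @damSh.eq_1
  have := @damShC.eq_1
  trivial

end Claimed.Agent.R291
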