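import Claimed.Agent.R291.Cell.Adapt

/-!
# Row 291 (S0539), Dis/Base : SEC. 2 IN SET LANGUAGE, ABSTRACT LAYER      (owner helper146, HEAD DIS; prefix `dis_`, defs `cl…`/`Cl…`)

TEX 02-discrete.tex.  Design note: `origin/helper146:notes/R291/sec2_146.md`.  Carrier: `ClSys V Y`, `ClCfg V Y`, `ClCon V Y` of Defs/Cell.

NO circuits, NO couplings, NO Strassen, NO Jordan curve.
* every law of the paper = the free weight `S.wt` conditioned on an event `K`; `S.N K G` = unnormalised expectation, `S.E K G = S.N K G / S.Z K`.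
* HISTORY = a `ClCon` without `W` labels which is `ClLegal` (an observed cell has all its sites pinned; equality edges lie inside cells).
  Pins have CONJUNCTION semantics, so total probability (`dis_tot_pin`, `dis_tot_obs`) is an identity of sums.
* ORDER of histories `ClLe K₁ K₂` (`K₁` below): six inclusions.  It contains: equal observation sets with ordered values, extra plus pins above,
  extra minus pins below, extra open-plus cells above, extra open-minus cells below (TEX[prop:history-order], all clauses).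
* `ClCut S s I ω` : every cell meeting `I` and its complement is open of sign `s` ("good circuit" = the site set `I` inside it).
* `clInv S s E ω O` : INVADED SET = closure of `O` under cells that are not open of sign `s` and under the equality edges `E`.
  `ClSep S s E ω O A` : the invasion from `O` does not reach `A` = "a good circuit of sign `s` separates `O` from `A`".
  `S.A \ clInv … O` = the largest cut set missing `O` = "the outermost circuit found from `O`".
* `ClDisk S` : the ONLY topological hypothesis (connectedness + SPLIT = wall splitting; follows from TriSC, unit PLA/147).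

EXITS (typed here; owners in the docstrings): `dis_assoc`, `dis_order` (160+133+adapter), `dis_cut`, `dis_dec` (50), `dis_match` (146),
`dis_cond` (141), `dis_feas` (62), `dis_lbl` (64).
-/

set_option autoImplicit false
set_option linter.unusedSectionVars false

namespace Claimed.Agent.R291

open Claims Claims.C0467

section abstract

variable {V Y : Type} [DecidableEq V] [DecidableEq Y]

/-! ### 1-4. sums, histories, cuts and invasion, small API: now in `Defs/Dis.lean` (moved verbatim; imported through `Cell/Adapt`) -/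

/-! ### 5. EXITS (typed; prove IN PLACE or in `Dis/<Unit>.lean` and link here) -/

/-- (ORD-A) TEX[prop:history-order], association.  OWNER 160+133 (CellSys) + adapter. -/
theorem dis_assoc (S : ClSys V Y) (hS : ClDisk S) (K : ClCon V Y) (hK : ClLegal S K)
    (F G : ClCfg V Y → ℝ) (hF : ClMono S F) (hG : ClMono S G) :
    S.N (K.Holds S) F * S.N (K.Holds S) G ≤ S.Z (K.Holds S) * S.N (K.Holds S) (fun ω => F ω * G ω) :=
  cad_assoc S hS K hK F G hF hG

/-- (ORD-B) TEX[prop:history-order], conditional order, ALL clauses (unequal extreme pins, extra extreme cells).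
OWNER 160+133 (CellSys, equal observation sets) + adapter + total probability. -/
theorem dis_order (S : ClSys V Y) (hS : ClDisk S) (K₁ K₂ : ClCon V Y) (h₁ : ClLegal S K₁) (h₂ : ClLegal S K₂)
    (hle : ClLe K₁ K₂) (F : ClCfg V Y → ℝ) (hF : ClMono S F) :
    S.N (K₁.Holds S) F * S.Z (K₂.Holds S) ≤ S.Z (K₁.Holds S) * S.N (K₂.Holds S) F :=
  cad_order S hS K₁ K₂ h₁ h₂ hle F hF

/-! ### 5z. the swap across a cut (helper67; prefix `dcu_`) -/

/-- `ω` on the sites of `I` and on the cells of `J`, `ω'` elsewhere -/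
def clMix (I : Finset V) (J : Finset Y) (ω ω' : ClCfg V Y) : ClCfg V Y :=
  ⟨(ω.B ∩ I) ∪ (ω'.B \ I), (ω.W ∩ I) ∪ (ω'.W \ I), (ω.O ∩ J) ∪ (ω'.O \ J)⟩

theorem dcu_mem_mix {α : Type} [DecidableEq α] (I P P' : Finset α) (v : α) :
    v ∈ (P ∩ I) ∪ (P' \ I) ↔ (v ∈ I ∧ v ∈ P) ∨ (v ∉ I ∧ v ∈ P') := by
  simp only [Finset.mem_union, Finset.mem_inter, Finset.mem_sdiff]
  tauto

theorem dcu_mix_set {α : Type} [DecidableEq α] (I P P' : Finset α) :
    (((P ∩ I) ∪ (P' \ I)) ∩ I) ∪ (((P' ∩ I) ∪ (P \ I)) \ I) = P := by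
  ext v
  simp only [Finset.mem_union, Finset.mem_inter, Finset.mem_sdiff]
  tauto

/-- the swap is an involution -/
theorem dcu_mix_mix (I : Finset V) (J : Finset Y) (ω ω' : ClCfg V Y) :
    clMix I J (clMix I J ω ω') (clMix I J ω' ω) = ω := by
  unfold clMix
  ext1 <;> exact dcu_mix_set _ _ _

theorem dcu_mix_cfgs (S : ClSys V Y) (I : Finset V) (J : Finset Y) {ω ω' : ClCfg V Y} (h : ω ∈ S.cfgs) (h' : ω' ∈ S.cfgs) :
    clMix I J ω ω' ∈ S.cfgs := by
  rw [cl_mem_cfgs] at h h' ⊢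
  refine ⟨?_, ?_, ?_⟩
  · exact Finset.union_subset (Finset.inter_subset_left.trans h.1) (Finset.sdiff_subset.trans h'.1)
  · exact Finset.union_subset (Finset.inter_subset_left.trans h.2.1) (Finset.sdiff_subset.trans h'.2.1)
  · exact Finset.union_subset (Finset.inter_subset_left.trans h.2.2) (Finset.sdiff_subset.trans h'.2.2)

/-- constancy on a set inside `I` is read on the first argument -/
theorem dcu_const_in {I P P' s : Finset V} (hs : s ⊆ I) : ClConst ((P ∩ I) ∪ (P' \ I)) s ↔ ClConst P s := by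
  unfold ClConst
  constructor
  · rintro (h | h)
    · left; intro v hv
      have := (dcu_mem_mix I P P' v).1 (h hv)
      rcases this with h1 | h1
      · exact h1.2
      · exact absurd (hs hv) h1.1
    · right; intro v hv hP
      exact h v hv ((dcu_mem_mix I P P' v).2 (Or.inl ⟨hs hv, hP⟩))
  · rintro (h | h)
    · left; intro v hv
      exact (dcu_mem_mix I P P' v).2 (Or.inl ⟨hs hv, h hv⟩)
    · right; intro v hv hP
      rcases (dcu_mem_mix I P P' v).1 hP with h1 | h1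
      · exact h v hv h1.2
      · exact h1.1 (hs hv)

/-- constancy on a set off `I` is read on the second argument -/
theorem dcu_const_out {I P P' s : Finset V} (hs : Disjoint s I) : ClConst ((P ∩ I) ∪ (P' \ I)) s ↔ ClConst P' s := by
  have hd : ∀ v ∈ s, v ∉ I := fun v hv hI => (Finset.disjoint_left.1 hs) hv hI
  unfold ClConst
  constructor
  · rintro (h | h)
    · left; intro v hv
      rcases (dcu_mem_mix I P P' v).1 (h hv) with h1 | h1
      · exact absurd h1.1 (hd v hv)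
      · exact h1.2
    · right; intro v hv hP
      exact h v hv ((dcu_mem_mix I P P' v).2 (Or.inr ⟨hd v hv, hP⟩))
  · rintro (h | h)
    · left; intro v hv
      exact (dcu_mem_mix I P P' v).2 (Or.inr ⟨hd v hv, h hv⟩)
    · right; intro v hv hP
      rcases (dcu_mem_mix I P P' v).1 hP with h1 | h1
      · exact hd v hv h1.1
      · exact h v hv h1.2

/-- the first spin has the sign `s` on the set `t` -/
def ClSgn (s : Bool) (P t : Finset V) : Prop := if s then t ⊆ P else ∀ v ∈ t, v ∉ P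

theorem dcu_sgn_const {s : Bool} {P t : Finset V} (h : ClSgn s P t) : ClConst P t := by
  unfold ClSgn at h
  cases s
  · exact Or.inr (by simpa using h)
  · exact Or.inl (by simpa using h)

theorem dcu_sgn_mix {s : Bool} {I P P' t : Finset V} (h : ClSgn s P t) (h' : ClSgn s P' t) : ClSgn s ((P ∩ I) ∪ (P' \ I)) t := by
  unfold ClSgn at *
  cases s
  · simp only [Bool.false_eq_true, if_false] at *
    intro v hv hm
    rcases (dcu_mem_mix I P P' v).1 hm with h1 | h1
    · exact h v hv h1.2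
    · exact h' v hv h1.2
  · simp only [if_true] at *
    intro v hv
    by_cases hI : v ∈ I
    · exact (dcu_mem_mix I P P' v).2 (Or.inl ⟨hI, h hv⟩)
    · exact (dcu_mem_mix I P P' v).2 (Or.inr ⟨hI, h' hv⟩)

/-- `(I, J, X)` splits the cells of `S`: the cells of `J` live in `I`, the cells of `X` are the crossing ones, all the others avoid `I` -/
structure ClSplit (S : ClSys V Y) (I : Finset V) (J X : Finset Y) : Prop where
  inn : ∀ y ∈ S.C, y ∈ J → S.sv y ⊆ I
  out : ∀ y ∈ S.C, y ∉ J → y ∉ X → Disjoint (S.sv y) I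
  dis : ∀ y ∈ X, y ∉ J

/-- the cells of `X` are open with the sign `s` -/
def ClOpenOn (S : ClSys V Y) (X : Finset Y) (s : Bool) (ω : ClCfg V Y) : Prop :=
  ∀ y ∈ X, y ∈ ω.O ∧ ClSgn s ω.B (S.sv y)

/-- one factor of the weight -/
def ClSys.fac (S : ClSys V Y) (ω : ClCfg V Y) (y : Y) : ℝ :=
  clCellW (S.q y) (ClConst ω.B (S.sv y)) (ClConst ω.W (S.sv y)) (y ∈ ω.O)

theorem dcu_cellW_congr (q : ℝ) {a b c a' b' c' : Prop} [Decidable a] [Decidable b] [Decidable c] [Decidable a'] [Decidable b'] [Decidable c']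
    (ha : a ↔ a') (hb : b ↔ b') (hc : c ↔ c') : clCellW q a b c = clCellW q a' b' c' := by
  unfold clCellW
  simp only [ha, hb, hc]

theorem dcu_fac_in (S : ClSys V Y) {I : Finset V} {J : Finset Y} (ω ω' : ClCfg V Y) {y : Y} (hJ : y ∈ J) (hs : S.sv y ⊆ I) :
    S.fac (clMix I J ω ω') y = S.fac ω y := by
  unfold ClSys.fac clMix
  refine dcu_cellW_congr _ (dcu_const_in hs) (dcu_const_in hs) ?_
  rw [dcu_mem_mix]
  tauto

theorem dcu_fac_out (S : ClSys V Y) {I : Finset V} {J : Finset Y} (ω ω' : ClCfg V Y) {y : Y} (hJ : y ∉ J) (hs : Disjoint (S.sv y) I) :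
    S.fac (clMix I J ω ω') y = S.fac ω' y := by
  unfold ClSys.fac clMix
  refine dcu_cellW_congr _ (dcu_const_out hs) (dcu_const_out hs) ?_
  rw [dcu_mem_mix]
  tauto

theorem dcu_fac_open (S : ClSys V Y) {ω : ClCfg V Y} {y : Y} {s : Bool} (ho : y ∈ ω.O) (hs : ClSgn s ω.B (S.sv y)) : S.fac ω y = S.q y := by
  unfold ClSys.fac clCellW
  rw [if_pos ho, if_pos (dcu_sgn_const hs)]

theorem dcu_open_mix (S : ClSys V Y) {I : Finset V} {J X : Finset Y} {s : Bool} {ω ω' : ClCfg V Y}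
    (h : ClOpenOn S X s ω) (h' : ClOpenOn S X s ω') : ClOpenOn S X s (clMix I J ω ω') := by
  intro y hy
  refine ⟨?_, dcu_sgn_mix (h y hy).2 (h' y hy).2⟩
  unfold clMix
  rw [dcu_mem_mix]
  by_cases hJ : y ∈ J
  · exact Or.inl ⟨hJ, (h y hy).1⟩
  · exact Or.inr ⟨hJ, (h' y hy).1⟩

/-- **the swap preserves the product of the weights** on the cut event -/
theorem dcu_wt_swap (S : ClSys V Y) {I : Finset V} {J X : Finset Y} (hS : ClSplit S I J X) {s : Bool} {ω ω' : ClCfg V Y}
    (h : ClOpenOn S X s ω) (h' : ClOpenOn S X s ω') :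
    S.wt (clMix I J ω ω') * S.wt (clMix I J ω' ω) = S.wt ω * S.wt ω' := by
  have e : ∀ η : ClCfg V Y, S.wt η = ∏ y ∈ S.C, S.fac η y := fun _ => rfl
  rw [e, e, e, e, ← Finset.prod_mul_distrib, ← Finset.prod_mul_distrib]
  refine Finset.prod_congr rfl fun y hy => ?_
  by_cases hJ : y ∈ J
  · rw [dcu_fac_in S ω ω' hJ (hS.inn y hy hJ), dcu_fac_in S ω' ω hJ (hS.inn y hy hJ)]
  · by_cases hX : y ∈ X
    · have m1 := dcu_open_mix S (I := I) (J := J) h h' y hX
      have m2 := dcu_open_mix S (I := I) (J := J) h' h y hX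
      rw [dcu_fac_open S m1.1 m1.2, dcu_fac_open S m2.1 m2.2, dcu_fac_open S (h y hX).1 (h y hX).2, dcu_fac_open S (h' y hX).1 (h' y hX).2]
    · rw [dcu_fac_out S ω ω' hJ (hS.out y hy hJ hX), dcu_fac_out S ω' ω hJ (hS.out y hy hJ hX), mul_comm]

/-- `g` depends only on the sites off `I` and on the cells off `J` -/
def ClLocOut (I : Finset V) (J : Finset Y) (g : ClCfg V Y → ℝ) : Prop :=
  ∀ ω ω' : ClCfg V Y, ω.B \ I = ω'.B \ I → ω.W \ I = ω'.W \ I → ω.O \ J = ω'.O \ J → g ω = g ω'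

theorem dcu_set_in {α : Type} [DecidableEq α] (I P P' : Finset α) : ((P ∩ I) ∪ (P' \ I)) ∩ I = P ∩ I := by
  ext v
  simp only [Finset.mem_union, Finset.mem_inter, Finset.mem_sdiff]
  tauto

theorem dcu_set_out {α : Type} [DecidableEq α] (I P P' : Finset α) : ((P ∩ I) ∪ (P' \ I)) \ I = P' \ I := by
  ext v
  simp only [Finset.mem_union, Finset.mem_inter, Finset.mem_sdiff]
  tauto

theorem dcu_loc_mix {I : Finset V} {J : Finset Y} {f : ClCfg V Y → ℝ} (hf : ClLoc I J f) (ω ω' : ClCfg V Y) : f (clMix I J ω ω') = f ω :=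
  hf _ _ (dcu_set_in _ _ _) (dcu_set_in _ _ _) (dcu_set_in _ _ _)

theorem dcu_locOut_mix {I : Finset V} {J : Finset Y} {g : ClCfg V Y → ℝ} (hg : ClLocOut I J g) (ω ω' : ClCfg V Y) : g (clMix I J ω ω') = g ω' :=
  hg _ _ (dcu_set_out _ _ _) (dcu_set_out _ _ _) (dcu_set_out _ _ _)

/-- reindexing of a double sum by the swap -/
theorem dcu_sum_swap (S : ClSys V Y) (I : Finset V) (J : Finset Y) (F : ClCfg V Y → ClCfg V Y → ℝ) :
    ∑ ω ∈ S.cfgs, ∑ ω' ∈ S.cfgs, F ω ω' = ∑ ω ∈ S.cfgs, ∑ ω' ∈ S.cfgs, F (clMix I J ω ω') (clMix I J ω' ω) := by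
  rw [← Finset.sum_product', ← Finset.sum_product']
  refine Finset.sum_nbij' (fun p => (clMix I J p.1 p.2, clMix I J p.2 p.1)) (fun p => (clMix I J p.1 p.2, clMix I J p.2 p.1)) ?_ ?_ ?_ ?_ ?_
  · intro p hp
    rw [Finset.mem_product] at hp ⊢
    exact ⟨dcu_mix_cfgs S I J hp.1 hp.2, dcu_mix_cfgs S I J hp.2 hp.1⟩
  · intro p hp
    rw [Finset.mem_product] at hp ⊢
    exact ⟨dcu_mix_cfgs S I J hp.1 hp.2, dcu_mix_cfgs S I J hp.2 hp.1⟩
  · intro p _
    exact Prod.ext (dcu_mix_mix I J p.1 p.2) (dcu_mix_mix I J p.2 p.1)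
  · intro p _
    exact Prod.ext (dcu_mix_mix I J p.1 p.2) (dcu_mix_mix I J p.2 p.1)
  · intro p _
    simp only [dcu_mix_mix]

/-- **(CUT), general form**: on the event that all the crossing cells are open of sign `s`, functions of the inside and functions of the outside are independent -/
theorem dcu_cut (S : ClSys V Y) {I : Finset V} {J X : Finset Y} (hS : ClSplit S I J X) (s : Bool) {f g : ClCfg V Y → ℝ}
    (hf : ClLoc I J f) (hg : ClLocOut I J g) :
    S.N (ClOpenOn S X s) (fun ω => f ω * g ω) * S.N (ClOpenOn S X s) (fun _ => 1)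
      = S.N (ClOpenOn S X s) f * S.N (ClOpenOn S X s) g := by
  classical
  unfold ClSys.N
  rw [Finset.sum_mul_sum, Finset.sum_mul_sum, dcu_sum_swap S I J]
  refine Finset.sum_congr rfl fun ω _ => Finset.sum_congr rfl fun ω' _ => ?_
  by_cases h : ClOpenOn S X s ω
  · by_cases h' : ClOpenOn S X s ω'
    · rw [if_pos (dcu_open_mix S h h'), if_pos (dcu_open_mix S h' h), if_pos h, if_pos h']
      beta_reduce
      rw [dcu_loc_mix hf, dcu_locOut_mix hg]
      have := dcu_wt_swap S hS h h'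
      calc _ = (S.wt (clMix I J ω ω') * S.wt (clMix I J ω' ω)) * (f ω * g ω') := by ring
        _ = _ := by rw [this]; ring
    · have : ¬ (ClOpenOn S X s (clMix I J ω ω') ∧ ClOpenOn S X s (clMix I J ω' ω)) := by
        rintro ⟨m1, m2⟩
        apply h'
        have := dcu_open_mix S (I := I) (J := J) m2 m1
        rwa [dcu_mix_mix] at this
      rw [if_neg h', mul_zero]
      by_cases m1 : ClOpenOn S X s (clMix I J ω ω')
      · rw [if_neg (fun m2 => this ⟨m1, m2⟩), mul_zero]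
      · rw [if_neg m1, zero_mul]
  · have : ¬ (ClOpenOn S X s (clMix I J ω ω') ∧ ClOpenOn S X s (clMix I J ω' ω)) := by
      rintro ⟨m1, m2⟩
      apply h
      have := dcu_open_mix S (I := I) (J := J) m1 m2
      rwa [dcu_mix_mix] at this
    rw [if_neg h, zero_mul]
    by_cases m1 : ClOpenOn S X s (clMix I J ω ω')
    · rw [if_neg (fun m2 => this ⟨m1, m2⟩), mul_zero]
    · rw [if_neg m1, zero_mul]

/-! ### the bridge to `ClCut` -/

/-- the crossing cells -/
def ClSys.cx (S : ClSys V Y) (I : Finset V) : Finset Y := S.C.filter (clCross S I)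

theorem dcu_split (S : ClSys V Y) (I : Finset V) : ClSplit S I (S.cin I) (S.cx I) where
  inn := fun y _ hJ => (Finset.mem_filter.1 hJ).2
  out := fun y hy hJ hX => by
    have h1 : ¬ S.sv y ⊆ I := fun h => hJ (Finset.mem_filter.2 ⟨hy, h⟩)
    have h2 : ¬ clCross S I y := fun h => hX (Finset.mem_filter.2 ⟨hy, h⟩)
    rw [Finset.disjoint_left]
    intro u hu hI
    apply h2
    refine ⟨⟨u, hu, hI⟩, ?_⟩
    by_contra h3
    push Not at h3
    exact h1 h3
  dis := fun y hX hJ => by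
    obtain ⟨v, hv, hvI⟩ := (Finset.mem_filter.1 hX).2.2
    exact hvI ((Finset.mem_filter.1 hJ).2 hv)

/-- an open cell of a configuration of nonzero weight carries a constant first spin -/
theorem dcu_open_const (S : ClSys V Y) {ω : ClCfg V Y} (hw : S.wt ω ≠ 0) {y : Y} (hy : y ∈ S.C) (ho : y ∈ ω.O) :
    ClConst ω.B (S.sv y) := by
  have h := (Finset.prod_ne_zero_iff.1 hw) y hy
  unfold clCellW at h
  rw [if_pos ho] at h
  by_contra hc
  rw [if_neg hc] at h
  exact h rfl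

theorem dcu_sgn_false {P t : Finset V} : ClSgn false P t ↔ ∀ v ∈ t, v ∉ P := by simp [ClSgn]
theorem dcu_sgn_true {P t : Finset V} : ClSgn true P t ↔ t ⊆ P := by simp [ClSgn]

theorem dcu_open_cut (S : ClSys V Y) (s : Bool) (I : Finset V) {ω : ClCfg V Y} (h : ClOpenOn S (S.cx I) s ω) : ClCut S s I ω := by
  intro y hy hcr
  obtain ⟨ho, hs⟩ := h y (Finset.mem_filter.2 ⟨hy, hcr⟩)
  unfold clTau
  rw [if_pos ho]
  cases s
  · obtain ⟨u, hu, _⟩ := hcr.1
    rw [if_neg (fun hsub => dcu_sgn_false.1 hs u hu (hsub hu))]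
    rfl
  · rw [if_pos (dcu_sgn_true.1 hs)]; rfl

theorem dcu_cut_iff (S : ClSys V Y) (s : Bool) (I : Finset V) {ω : ClCfg V Y} (hw : S.wt ω ≠ 0) :
    ClCut S s I ω ↔ ClOpenOn S (S.cx I) s ω := by
  refine ⟨fun h y hy => ?_, dcu_open_cut S s I⟩
  obtain ⟨hyC, hcr⟩ := Finset.mem_filter.1 hy
  have ht := h y hyC hcr
  have ho : y ∈ ω.O := by
    by_contra ho
    rw [(dis_tau_zero S ω y).2 ho] at ht
    cases s <;> simp [clSg] at ht
  refine ⟨ho, ?_⟩
  unfold clTau at ht
  rw [if_pos ho] at ht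
  cases s
  · have hn : ¬ S.sv y ⊆ ω.B := by
      intro hsub; rw [if_pos hsub] at ht; simp [clSg] at ht
    rcases dcu_open_const S hw hyC ho with hc | hc
    · exact absurd hc hn
    · exact dcu_sgn_false.2 hc
  · have : S.sv y ⊆ ω.B := by
      by_contra hsub; rw [if_neg hsub] at ht; simp [clSg] at ht
    exact dcu_sgn_true.2 this

/-- events which coincide on the configurations of nonzero weight -/
theorem dcu_N_congr' (S : ClSys V Y) {C C' : ClCfg V Y → Prop} (H : ClCfg V Y → ℝ)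
    (hC : ∀ ω ∈ S.cfgs, S.wt ω ≠ 0 → (C ω ↔ C' ω)) : S.N C H = S.N C' H := by
  classical
  unfold ClSys.N
  refine Finset.sum_congr rfl fun ω hω => ?_
  by_cases hw : S.wt ω = 0
  · simp [hw]
  · simp only [hC ω hω hw]

theorem dcu_mem_of_sdiff {α : Type} [DecidableEq α] {P P' I : Finset α} (h : P \ I = P' \ I) {v : α} (hv : v ∉ I) : v ∈ P ↔ v ∈ P' := by
  have h1 : v ∈ P \ I ↔ v ∈ P' \ I := by rw [h]
  simpa [Finset.mem_sdiff, hv] using h1

theorem dcu_mem_of_inter {α : Type} [DecidableEq α] {P P' I : Finset α} (h : P ∩ I = P' ∩ I) {v : α} (hv : v ∈ I) : v ∈ P ↔ v ∈ P' := by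
  have h1 : v ∈ P ∩ I ↔ v ∈ P' ∩ I := by rw [h]
  simpa [Finset.mem_inter, hv] using h1

theorem dcu_inter_of_sdiff {α : Type} [DecidableEq α] {P P' I T : Finset α} (h : P \ I = P' \ I) (hT : ∀ v ∈ T, v ∉ I) : P ∩ T = P' ∩ T := by
  ext v
  simp only [Finset.mem_inter]
  exact and_congr_left fun hv => dcu_mem_of_sdiff h (hT v hv)

theorem dcu_inter_of_inter {α : Type} [DecidableEq α] {P P' I T : Finset α} (h : P ∩ I = P' ∩ I) (hT : T ⊆ I) : P ∩ T = P' ∩ T := by
  ext v
  simp only [Finset.mem_inter]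
  exact and_congr_left fun hv => dcu_mem_of_inter h (hT hv)

theorem dcu_out_of_loc (S : ClSys V Y) (I : Finset V) {g : ClCfg V Y → ℝ} (hg : ClLoc (S.A \ I) (S.cout I) g) : ClLocOut I (S.cin I) g := by
  intro ω ω' h1 h2 h3
  refine hg ω ω' (dcu_inter_of_sdiff h1 fun v hv => (Finset.mem_sdiff.1 hv).2) (dcu_inter_of_sdiff h2 fun v hv => (Finset.mem_sdiff.1 hv).2)
    (dcu_inter_of_sdiff h3 fun y hy hJ => (Finset.mem_filter.1 hy).2.1 (Finset.mem_filter.1 hJ).2)

/-- (CUT) TEX[lem:cell-cut]: product formula across a cut set.  No topological hypothesis.  PROVED (67).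
PLAN: swap involution `(ω, ω') ↦ (mix I ω ω', mix I ω' ω)` on `S.cfgs ×ˢ S.cfgs`; `1_cut * wt` = product over `cin`, `cout` and the
crossing cells, whose factor is `q * 1{y ∈ O} * 1{B ≡ s on sv y}`. -/
theorem dis_cut (S : ClSys V Y) (hS : ClOk S) (s : Bool) (I : Finset V) (f g : ClCfg V Y → ℝ)
    (hf : ClLoc I (S.cin I) f) (hg : ClLoc (S.A \ I) (S.cout I) g) :
    S.N (ClCut S s I) (fun ω => f ω * g ω) * S.Z (ClCut S s I) =
      S.N (ClCut S s I) f * S.N (ClCut S s I) g := by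
  have e : ∀ H, S.N (ClCut S s I) H = S.N (ClOpenOn S (S.cx I) s) H := fun H =>
    dcu_N_congr' S H fun ω _ hw => dcu_cut_iff S s I hw
  rw [dis_Z_eq, e, e, e, e]
  exact dcu_cut S (dcu_split S I) s hf (dcu_out_of_loc S I hg)

/-! ### 5a. factorisation of a constraint on a cut (helper50; prefix `dde_`) -/

/-- crossing cells -/
def ClSys.ccr (S : ClSys V Y) (I : Finset V) : Finset Y := S.C.filter (fun y => clCross S I y)

/-- the inside view of a configuration -/
def ddeRin (S : ClSys V Y) (I : Finset V) (ω : ClCfg V Y) : ClCfg V Y :=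
  ⟨ω.B ∩ I, ω.W ∩ I, ω.O ∩ S.cin I⟩

/-- the outside view of a configuration on a cut of sign `s` -/
def ddeExt (S : ClSys V Y) (s : Bool) (I : Finset V) (ω : ClCfg V Y) : ClCfg V Y :=
  ⟨(ω.B ∩ (S.A \ I)) ∪ (if s then I else ∅), ω.W ∩ (S.A \ I), (ω.O ∩ S.cout I) ∪ S.ccr I⟩

/-- the constraints inside `I` -/
def ClCon.inn (K : ClCon V Y) (S : ClSys V Y) (I : Finset V) : ClCon V Y :=
  ⟨K.Bp ∩ I, K.Bm ∩ I, K.Eq.filter (fun e => e.1 ∈ I ∨ e.2 ∈ I), K.Op ∩ S.cin I, K.Om ∩ S.cin I,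
    K.Cl ∩ S.cin I, K.Wp ∩ I, K.Wm ∩ I⟩

/-- the other constraints -/
def ClCon.out (K : ClCon V Y) (S : ClSys V Y) (I : Finset V) : ClCon V Y :=
  ⟨K.Bp \ I, K.Bm \ I, K.Eq.filter (fun e => ¬ (e.1 ∈ I ∨ e.2 ∈ I)), K.Op \ S.cin I, K.Om \ S.cin I,
    K.Cl \ S.cin I, K.Wp \ I, K.Wm \ I⟩

theorem dde_loc_rin (S : ClSys V Y) (I : Finset V) (φ : ClCfg V Y → ℝ) :
    ClLoc I (S.cin I) (fun ω => φ (ddeRin S I ω)) := by
  intro ω ω' h1 h2 h3
  simp only [ddeRin, h1, h2, h3]

theorem dde_loc_ext (S : ClSys V Y) (s : Bool) (I : Finset V) (φ : ClCfg V Y → ℝ) :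
    ClLoc (S.A \ I) (S.cout I) (fun ω => φ (ddeExt S s I ω)) := by
  intro ω ω' h1 h2 h3
  simp only [ddeExt, h1, h2, h3]

theorem dde_loc_mul {T : Finset V} {T' : Finset Y} {f g : ClCfg V Y → ℝ} (hf : ClLoc T T' f)
    (hg : ClLoc T T' g) : ClLoc T T' (fun ω => f ω * g ω) := by
  intro ω ω' h1 h2 h3
  simp only [hf ω ω' h1 h2 h3, hg ω ω' h1 h2 h3]

theorem dde_inter_mono {α : Type} [DecidableEq α] {a b T U : Finset α} (hT : T ⊆ U) (h : a ∩ U = b ∩ U) :
    a ∩ T = b ∩ T := by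
  rw [← Finset.inter_eq_right.2 hT, ← Finset.inter_assoc, h, Finset.inter_assoc]

theorem dde_loc_mono {T U : Finset V} {T' U' : Finset Y} {f : ClCfg V Y → ℝ} (hT : T ⊆ U) (hT' : T' ⊆ U')
    (hf : ClLoc T T' f) : ClLoc U U' f := by
  intro ω ω' h1 h2 h3
  exact hf ω ω' (dde_inter_mono hT h1) (dde_inter_mono hT h2) (dde_inter_mono hT' h3)

theorem dde_cin_mono (S : ClSys V Y) {A I : Finset V} (h : A ⊆ I) : S.cin A ⊆ S.cin I := by
  intro y hy
  simp only [ClSys.cin, Finset.mem_filter] at hy ⊢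
  exact ⟨hy.1, hy.2.trans h⟩

theorem dde_cin_cout (S : ClSys V Y) (hS : ClOk S) {O I : Finset V} (h : O ⊆ S.A \ I) :
    S.cin O ⊆ S.cout I := by
  intro y hy
  simp only [ClSys.cin, ClSys.cout, Finset.mem_filter] at hy ⊢
  obtain ⟨v, hv⟩ := hS.ne y hy.1
  have hn : ∀ u ∈ S.sv y, u ∉ I := fun u hu => (Finset.mem_sdiff.1 (h (hy.2 hu))).2
  exact ⟨hy.1, fun hc => hn v hv (hc hv), fun hc => by
    obtain ⟨⟨u, hu, huI⟩, _⟩ := hc
    exact hn u hu huI⟩

/-! ### statuses of the two views -/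

theorem dde_tau_rin (S : ClSys V Y) (I : Finset V) (ω : ClCfg V Y) {y : Y} (hy : y ∈ S.cin I) :
    clTau S (ddeRin S I ω) y = clTau S ω y := by
  have hy' := hy
  simp only [ClSys.cin, Finset.mem_filter] at hy'
  have h1 : y ∈ (ddeRin S I ω).O ↔ y ∈ ω.O := by
    simp only [ddeRin, Finset.mem_inter, hy, and_true]
  have h2 : S.sv y ⊆ (ddeRin S I ω).B ↔ S.sv y ⊆ ω.B := by
    simp only [ddeRin, Finset.subset_inter_iff, hy'.2, and_true]
  unfold clTau
  simp only [h1, h2]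

theorem dde_tau_ext (S : ClSys V Y) (hS : ClOk S) (s : Bool) (I : Finset V) (ω : ClCfg V Y)
    (hω : ω ∈ S.cfgs) (hc : ClCut S s I ω) {y : Y} (hy : y ∉ S.cin I) :
    clTau S (ddeExt S s I ω) y = clTau S ω y := by
  rw [cl_mem_cfgs] at hω
  by_cases hyC : y ∈ S.C
  · by_cases hcr : clCross S I y
    · rw [hc y hyC hcr]
      have hO : y ∈ (ddeExt S s I ω).O := by
        simp only [ddeExt, Finset.mem_union, ClSys.ccr, Finset.mem_filter]
        exact Or.inr ⟨hyC, hcr⟩
      have ht := hc y hyC hcr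
      cases s
      · obtain ⟨⟨u, hu, huI⟩, _⟩ := hcr
        have hB : ¬ S.sv y ⊆ (ddeExt S false I ω).B := by
          intro h
          have := h hu
          simp only [ddeExt, Finset.mem_union, Finset.mem_inter, Finset.mem_sdiff] at this
          rcases this with h1 | h1
          · exact h1.2.2 huI
          · simp at h1
        simp only [clTau, hO, hB, if_true, if_false, clSg]
        simp
      · have hsub : S.sv y ⊆ ω.B := by
          by_contra h
          unfold clTau at ht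
          simp only [clSg, if_true] at ht
          split_ifs at ht
          all_goals omega
        have hB : S.sv y ⊆ (ddeExt S true I ω).B := by
          intro v hv
          simp only [ddeExt, Finset.mem_union, Finset.mem_inter, Finset.mem_sdiff, if_true]
          by_cases hvI : v ∈ I
          · exact Or.inr hvI
          · exact Or.inl ⟨hsub hv, hS.sub y hyC hv, hvI⟩
        simp only [clTau, hO, hB, if_true, clSg]
    · have hnI : ¬ S.sv y ⊆ I := fun h => hy (by simp only [ClSys.cin, Finset.mem_filter]; exact ⟨hyC, h⟩)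
      have hn : ∀ u ∈ S.sv y, u ∉ I := by
        intro u hu huI
        apply hcr
        refine ⟨⟨u, hu, huI⟩, ?_⟩
        by_contra h
        push Not at h
        exact hnI h
      have hO : y ∈ (ddeExt S s I ω).O ↔ y ∈ ω.O := by
        simp only [ddeExt, Finset.mem_union, Finset.mem_inter, ClSys.ccr, ClSys.cout, Finset.mem_filter]
        tauto
      have hB : S.sv y ⊆ (ddeExt S s I ω).B ↔ S.sv y ⊆ ω.B := by
        constructor
        · intro h v hv
          have := h hv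
          simp only [ddeExt, Finset.mem_union, Finset.mem_inter] at this
          rcases this with h1 | h1
          · exact h1.1
          · cases s
            · simp at h1
            · exact absurd h1 (hn v hv)
        · intro h v hv
          simp only [ddeExt, Finset.mem_union, Finset.mem_inter, Finset.mem_sdiff]
          exact Or.inl ⟨h hv, hS.sub y hyC hv, hn v hv⟩
      unfold clTau
      simp only [hO, hB]
  · have h1 : y ∉ ω.O := fun h => hyC (hω.2.2 h)
    have h2 : y ∉ (ddeExt S s I ω).O := by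
      simp only [ddeExt, Finset.mem_union, Finset.mem_inter, ClSys.ccr, ClSys.cout, Finset.mem_filter]
      tauto
    simp only [clTau, h1, h2, if_false]

/-! ### factorisation of a constraint -/

theorem dde_holds_congr (S : ClSys V Y) (K : ClCon V Y) (ω ω' : ClCfg V Y)
    (hB : ∀ v, v ∈ K.Bp ∨ v ∈ K.Bm → (v ∈ ω.B ↔ v ∈ ω'.B))
    (hW : ∀ v, v ∈ K.Wp ∨ v ∈ K.Wm → (v ∈ ω.W ↔ v ∈ ω'.W))
    (hE : ∀ e ∈ K.Eq, (e.1 ∈ ω.W ↔ e.1 ∈ ω'.W) ∧ (e.2 ∈ ω.W ↔ e.2 ∈ ω'.W))
    (hT : ∀ y, y ∈ K.Op ∨ y ∈ K.Om ∨ y ∈ K.Cl → clTau S ω y = clTau S ω' y) :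
    K.Holds S ω ↔ K.Holds S ω' := by
  unfold ClCon.Holds
  have h1 : K.Bp ⊆ ω.B ↔ K.Bp ⊆ ω'.B :=
    ⟨fun h v hv => (hB v (Or.inl hv)).1 (h hv), fun h v hv => (hB v (Or.inl hv)).2 (h hv)⟩
  have h2 : (∀ v ∈ K.Bm, v ∉ ω.B) ↔ (∀ v ∈ K.Bm, v ∉ ω'.B) :=
    forall₂_congr fun v hv => not_congr (hB v (Or.inr hv))
  have h3 : (∀ e ∈ K.Eq, (e.1 ∈ ω.W ↔ e.2 ∈ ω.W)) ↔ (∀ e ∈ K.Eq, (e.1 ∈ ω'.W ↔ e.2 ∈ ω'.W)) :=
    forall₂_congr fun e he => by rw [(hE e he).1, (hE e he).2]
  have h4 : (∀ y ∈ K.Op, clTau S ω y = 1) ↔ (∀ y ∈ K.Op, clTau S ω' y = 1) :=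
    forall₂_congr fun y hy => by rw [hT y (Or.inl hy)]
  have h5 : (∀ y ∈ K.Om, clTau S ω y = -1) ↔ (∀ y ∈ K.Om, clTau S ω' y = -1) :=
    forall₂_congr fun y hy => by rw [hT y (Or.inr (Or.inl hy))]
  have h6 : (∀ y ∈ K.Cl, y ∉ ω.O) ↔ (∀ y ∈ K.Cl, y ∉ ω'.O) :=
    forall₂_congr fun y hy => by rw [← dis_tau_zero S, ← dis_tau_zero S, hT y (Or.inr (Or.inr hy))]
  have h7 : K.Wp ⊆ ω.W ↔ K.Wp ⊆ ω'.W :=
    ⟨fun h v hv => (hW v (Or.inl hv)).1 (h hv), fun h v hv => (hW v (Or.inl hv)).2 (h hv)⟩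
  have h8 : (∀ v ∈ K.Wm, v ∉ ω.W) ↔ (∀ v ∈ K.Wm, v ∉ ω'.W) :=
    forall₂_congr fun v hv => not_congr (hW v (Or.inr hv))
  rw [h1, h2, h3, h4, h5, h6, h7, h8]

theorem dde_forall_split {α : Type} [DecidableEq α] (X T : Finset α) (P : α → Prop) :
    (∀ v ∈ X, P v) ↔ ((∀ v ∈ X ∩ T, P v) ∧ (∀ v ∈ X \ T, P v)) := by
  constructor
  · intro h
    exact ⟨fun v hv => h v (Finset.mem_inter.1 hv).1, fun v hv => h v (Finset.mem_sdiff.1 hv).1⟩
  · rintro ⟨h1, h2⟩ v hv
    by_cases hT : v ∈ T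
    · exact h1 v (Finset.mem_inter.2 ⟨hv, hT⟩)
    · exact h2 v (Finset.mem_sdiff.2 ⟨hv, hT⟩)

theorem dde_forall_filter {α : Type} (X : Finset α) (p : α → Prop) [DecidablePred p] (P : α → Prop) :
    (∀ v ∈ X, P v) ↔ ((∀ v ∈ X.filter p, P v) ∧ (∀ v ∈ X.filter (fun a => ¬ p a), P v)) := by
  constructor
  · intro h
    exact ⟨fun v hv => h v (Finset.mem_filter.1 hv).1, fun v hv => h v (Finset.mem_filter.1 hv).1⟩
  · rintro ⟨h1, h2⟩ v hv
    by_cases hT : p v
    · exact h1 v (Finset.mem_filter.2 ⟨hv, hT⟩)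
    · exact h2 v (Finset.mem_filter.2 ⟨hv, hT⟩)

theorem dde_holds_split (S : ClSys V Y) (K : ClCon V Y) (I : Finset V) (ω : ClCfg V Y) :
    K.Holds S ω ↔ (K.inn S I).Holds S ω ∧ (K.out S I).Holds S ω := by
  simp only [ClCon.Holds, ClCon.inn, ClCon.out, Finset.subset_iff]
  rw [dde_forall_split K.Bp I, dde_forall_split K.Bm I,
    dde_forall_filter K.Eq (fun e => e.1 ∈ I ∨ e.2 ∈ I), dde_forall_split K.Op (S.cin I),
    dde_forall_split K.Om (S.cin I), dde_forall_split K.Cl (S.cin I), dde_forall_split K.Wp I,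
    dde_forall_split K.Wm I]
  tauto

/-- no equality edge joins `I` to `S.A \ I` -/
def DdeNoX (S : ClSys V Y) (E : Finset (V × V)) (I : Finset V) : Prop :=
  ∀ e ∈ E, ¬ (e.1 ∈ I ∧ e.2 ∈ S.A \ I) ∧ ¬ (e.2 ∈ I ∧ e.1 ∈ S.A \ I)

theorem dde_holds_inn (S : ClSys V Y) (K : ClCon V Y) (I : Finset V) (hx : DdeNoX S K.Eq I)
    (ω : ClCfg V Y) (hω : ω ∈ S.cfgs) :
    (K.inn S I).Holds S ω ↔ (K.inn S I).Holds S (ddeRin S I ω) := by
  rw [cl_mem_cfgs] at hω
  refine dde_holds_congr S _ _ _ ?_ ?_ ?_ ?_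
  · intro v hv
    have hvI : v ∈ I := by
      simp only [ClCon.inn, Finset.mem_inter] at hv
      tauto
    simp only [ddeRin, Finset.mem_inter, hvI, and_true]
  · intro v hv
    have hvI : v ∈ I := by
      simp only [ClCon.inn, Finset.mem_inter] at hv
      tauto
    simp only [ddeRin, Finset.mem_inter, hvI, and_true]
  · intro e he
    simp only [ClCon.inn, Finset.mem_filter] at he
    have h := hx e he.1
    simp only [Finset.mem_sdiff] at h
    simp only [ddeRin, Finset.mem_inter]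
    constructor
    · constructor
      · intro h1
        refine ⟨h1, ?_⟩
        by_contra h2
        rcases he.2 with h3 | h3
        · exact h2 h3
        · exact h.2 ⟨h3, hω.2.1 h1, h2⟩
      · exact fun h1 => h1.1
    · constructor
      · intro h1
        refine ⟨h1, ?_⟩
        by_contra h2
        rcases he.2 with h3 | h3
        · exact h.1 ⟨h3, hω.2.1 h1, h2⟩
        · exact h2 h3
      · exact fun h1 => h1.1
  · intro y hy
    have hyI : y ∈ S.cin I := by
      simp only [ClCon.inn, Finset.mem_inter] at hy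
      tauto
    exact (dde_tau_rin S I ω hyI).symm

theorem dde_holds_out (S : ClSys V Y) (hS : ClOk S) (s : Bool) (K : ClCon V Y) (I : Finset V)
    (ω : ClCfg V Y) (hω : ω ∈ S.cfgs) (hc : ClCut S s I ω) :
    (K.out S I).Holds S ω ↔ (K.out S I).Holds S (ddeExt S s I ω) := by
  have hω' := hω
  rw [cl_mem_cfgs] at hω'
  have hBm : ∀ v, v ∉ I → (v ∈ ω.B ↔ v ∈ (ddeExt S s I ω).B) := by
    intro v hvI
    simp only [ddeExt, Finset.mem_union, Finset.mem_inter, Finset.mem_sdiff]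
    constructor
    · exact fun h => Or.inl ⟨h, hω'.1 h, hvI⟩
    · rintro (h | h)
      · exact h.1
      · cases s
        · simp at h
        · exact absurd h hvI
  have hWm : ∀ v, v ∉ I → (v ∈ ω.W ↔ v ∈ (ddeExt S s I ω).W) := by
    intro v hvI
    simp only [ddeExt, Finset.mem_inter, Finset.mem_sdiff]
    exact ⟨fun h => ⟨h, hω'.2.1 h, hvI⟩, fun h => h.1⟩
  refine dde_holds_congr S _ _ _ ?_ ?_ ?_ ?_
  · intro v hv
    refine hBm v ?_
    simp only [ClCon.out, Finset.mem_sdiff] at hv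
    tauto
  · intro v hv
    refine hWm v ?_
    simp only [ClCon.out, Finset.mem_sdiff] at hv
    tauto
  · intro e he
    simp only [ClCon.out, Finset.mem_filter, not_or] at he
    exact ⟨hWm _ he.2.1, hWm _ he.2.2⟩
  · intro y hy
    refine (dde_tau_ext S hS s I ω hω hc ?_).symm
    simp only [ClCon.out, Finset.mem_sdiff] at hy
    tauto

/-- **factorisation of a constraint on a cut**. -/
theorem dde_fact (S : ClSys V Y) (hS : ClOk S) (s : Bool) (K : ClCon V Y) (I : Finset V)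
    (hx : DdeNoX S K.Eq I) (ω : ClCfg V Y) (hω : ω ∈ S.cfgs) (hc : ClCut S s I ω) :
    K.Holds S ω ↔ (K.inn S I).Holds S (ddeRin S I ω) ∧ (K.out S I).Holds S (ddeExt S s I ω) := by
  rw [dde_holds_split S K I, dde_holds_inn S K I hx ω hω, dde_holds_out S hS s K I ω hω hc]

/-! ### sums -/

theorem dde_N_zero (S : ClSys V Y) (hS : ClOk S) (L : ClCfg V Y → Prop) (hZ : S.Z L = 0)
    (G : ClCfg V Y → ℝ) : S.N L G = 0 := by
  classical
  unfold ClSys.Z at hZ
  have h := (Finset.sum_eq_zero_iff_of_nonneg (fun ω _ => by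
    split_ifs
    · exact dis_wt_nonneg S hS ω
    · exact le_rfl)).1 hZ
  unfold ClSys.N
  refine Finset.sum_eq_zero fun ω hω => ?_
  have h1 := h ω hω
  by_cases hL : L ω
  · rw [if_pos hL] at h1 ⊢
    rw [h1, zero_mul]
  · rw [if_neg hL]

/-- four-term form of the product formula. -/
theorem dde_four (S : ClSys V Y) (hS : ClOk S) (s : Bool) (I : Finset V) (f₁ f₂ g₁ g₂ : ClCfg V Y → ℝ)
    (hf₁ : ClLoc I (S.cin I) f₁) (hf₂ : ClLoc I (S.cin I) f₂)
    (hg₁ : ClLoc (S.A \ I) (S.cout I) g₁) (hg₂ : ClLoc (S.A \ I) (S.cout I) g₂) :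
    S.N (ClCut S s I) (fun ω => f₁ ω * g₁ ω) * S.N (ClCut S s I) (fun ω => f₂ ω * g₂ ω) =
      S.N (ClCut S s I) (fun ω => f₁ ω * g₂ ω) * S.N (ClCut S s I) (fun ω => f₂ ω * g₁ ω) := by
  by_cases hZ : S.Z (ClCut S s I) = 0
  · rw [dde_N_zero S hS _ hZ, dde_N_zero S hS _ hZ (fun ω => f₁ ω * g₂ ω), zero_mul, zero_mul]
  · have e11 := dis_cut S hS s I f₁ g₁ hf₁ hg₁
    have e22 := dis_cut S hS s I f₂ g₂ hf₂ hg₂
    have e12 := dis_cut S hS s I f₁ g₂ hf₁ hg₂
    have e21 := dis_cut S hS s I f₂ g₁ hf₂ hg₁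
    refine mul_right_cancel₀ (mul_ne_zero hZ hZ) ?_
    calc _ = (S.N (ClCut S s I) (fun ω => f₁ ω * g₁ ω) * S.Z (ClCut S s I))
          * (S.N (ClCut S s I) (fun ω => f₂ ω * g₂ ω) * S.Z (ClCut S s I)) := by ring
      _ = (S.N (ClCut S s I) (fun ω => f₁ ω * g₂ ω) * S.Z (ClCut S s I))
          * (S.N (ClCut S s I) (fun ω => f₂ ω * g₁ ω) * S.Z (ClCut S s I)) := by
          rw [e11, e22, e12, e21]; ring
      _ = _ := by ring

open Classical in
/-- the inside factor of a constraint -/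
noncomputable def ddeKin (S : ClSys V Y) (K : ClCon V Y) (I : Finset V) (ω : ClCfg V Y) : ℝ :=
  if (K.inn S I).Holds S (ddeRin S I ω) then 1 else 0

open Classical in
/-- the outside factor of a constraint -/
noncomputable def ddeKout (S : ClSys V Y) (s : Bool) (K : ClCon V Y) (I : Finset V) (ω : ClCfg V Y) : ℝ :=
  if (K.out S I).Holds S (ddeExt S s I ω) then 1 else 0

theorem dde_kin_loc (S : ClSys V Y) (K : ClCon V Y) (I : Finset V) : ClLoc I (S.cin I) (ddeKin S K I) := by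
  classical
  exact dde_loc_rin S I (fun ω => if (K.inn S I).Holds S ω then 1 else 0)

theorem dde_kout_loc (S : ClSys V Y) (s : Bool) (K : ClCon V Y) (I : Finset V) :
    ClLoc (S.A \ I) (S.cout I) (ddeKout S s K I) := by
  classical
  exact dde_loc_ext S s I (fun ω => if (K.out S I).Holds S ω then 1 else 0)

/-- a constrained sum on a cut as a free sum on the cut. -/
theorem dde_N_fact (S : ClSys V Y) (hS : ClOk S) (s : Bool) (K : ClCon V Y) (I : Finset V)
    (hx : DdeNoX S K.Eq I) (H : ClCfg V Y → ℝ) :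
    S.N (fun ω => K.Holds S ω ∧ ClCut S s I ω) H =
      S.N (ClCut S s I) (fun ω => ddeKin S K I ω * ddeKout S s K I ω * H ω) := by
  classical
  unfold ClSys.N
  refine Finset.sum_congr rfl fun ω hω => ?_
  by_cases hc : ClCut S s I ω
  · have hf := dde_fact S hS s K I hx ω hω hc
    rw [if_pos hc]
    unfold ddeKin ddeKout
    dsimp only
    by_cases h1 : (K.inn S I).Holds S (ddeRin S I ω)
    · by_cases h2 : (K.out S I).Holds S (ddeExt S s I ω)
      · rw [if_pos ⟨hf.2 ⟨h1, h2⟩, hc⟩, if_pos h1, if_pos h2]; ring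
      · rw [if_neg (fun h => h2 (hf.1 h.1).2), if_neg h2]; ring
    · rw [if_neg (fun h => h1 (hf.1 h.1).1), if_neg h1]; ring
  · rw [if_neg hc, if_neg (fun h => hc h.2)]

/-- (CUT-LAW) the law inside a cut depends only on `I`, `s` and the constraints inside.  OWNER 50. -/
theorem dis_cut_law (S : ClSys V Y) (hS : ClOk S) (s : Bool) (I : Finset V) (K K' : ClCon V Y)
    (hx : ∀ e ∈ K.Eq, (e.1 ∈ I ↔ e.2 ∈ I)) (hx' : ∀ e ∈ K'.Eq, (e.1 ∈ I ↔ e.2 ∈ I))
    (hin : ClAgreeIn S K K' I)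
    (hf : 0 < S.Z (fun ω => K.Holds S ω ∧ ClCut S s I ω))
    (hf' : 0 < S.Z (fun ω => K'.Holds S ω ∧ ClCut S s I ω))
    (F : ClCfg V Y → ℝ) (hF : ClLoc I (S.cin I) F) :
    S.E (fun ω => K.Holds S ω ∧ ClCut S s I ω) F = S.E (fun ω => K'.Holds S ω ∧ ClCut S s I ω) F := by
  have hX : DdeNoX S K.Eq I := fun e he =>
    ⟨fun h => (Finset.mem_sdiff.1 h.2).2 ((hx e he).1 h.1), fun h => (Finset.mem_sdiff.1 h.2).2 ((hx e he).2 h.1)⟩
  have hX' : DdeNoX S K'.Eq I := fun e he =>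
    ⟨fun h => (Finset.mem_sdiff.1 h.2).2 ((hx' e he).1 h.1),
      fun h => (Finset.mem_sdiff.1 h.2).2 ((hx' e he).2 h.1)⟩
  have hinn : K.inn S I = K'.inn S I := by
    have a : ∀ X X' : Finset V, (∀ v ∈ I, (v ∈ X ↔ v ∈ X')) → X ∩ I = X' ∩ I := by
      intro X X' h
      ext v
      simp only [Finset.mem_inter]
      exact ⟨fun h1 => ⟨(h v h1.2).1 h1.1, h1.2⟩, fun h1 => ⟨(h v h1.2).2 h1.1, h1.2⟩⟩
    have b : ∀ X X' : Finset Y, (∀ v ∈ S.cin I, (v ∈ X ↔ v ∈ X')) → X ∩ S.cin I = X' ∩ S.cin I := by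
      intro X X' h
      ext v
      simp only [Finset.mem_inter]
      exact ⟨fun h1 => ⟨(h v h1.2).1 h1.1, h1.2⟩, fun h1 => ⟨(h v h1.2).2 h1.1, h1.2⟩⟩
    have c : K.Eq.filter (fun e => e.1 ∈ I ∨ e.2 ∈ I) = K'.Eq.filter (fun e => e.1 ∈ I ∨ e.2 ∈ I) := by
      ext e
      simp only [Finset.mem_filter]
      constructor
      · rintro ⟨h1, h2⟩
        have h3 := hx e h1
        have h4 : e.1 ∈ I ∧ e.2 ∈ I := by tauto
        exact ⟨(hin.eq e h4.1 h4.2).1 h1, h2⟩
      · rintro ⟨h1, h2⟩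
        have h3 := hx' e h1
        have h4 : e.1 ∈ I ∧ e.2 ∈ I := by tauto
        exact ⟨(hin.eq e h4.1 h4.2).2 h1, h2⟩
    unfold ClCon.inn
    rw [a _ _ hin.bp, a _ _ hin.bm, a _ _ hin.wp, a _ _ hin.wm, b _ _ hin.op, b _ _ hin.om, b _ _ hin.cl, c]
  have hkk : ddeKin S K I = ddeKin S K' I := by
    funext ω
    unfold ddeKin
    rw [hinn]
  have hkin := dde_kin_loc S K I
  have four := dde_four S hS s I (fun ω => ddeKin S K I ω * F ω) (ddeKin S K I)
      (ddeKout S s K I) (ddeKout S s K' I)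
      (dde_loc_mul hkin hF) hkin (dde_kout_loc S s K I) (dde_kout_loc S s K' I)
  have E3 : ∀ K : ClCon V Y, DdeNoX S K.Eq I → S.Z (fun ω => K.Holds S ω ∧ ClCut S s I ω)
      = S.N (ClCut S s I) (fun ω => ddeKin S K I ω * ddeKout S s K I ω) := by
    intro K hx
    rw [dis_Z_eq, dde_N_fact S hS s K I hx]
    congr 1
    funext ω
    ring
  have E4 : ∀ K : ClCon V Y, DdeNoX S K.Eq I → S.N (fun ω => K.Holds S ω ∧ ClCut S s I ω) F
      = S.N (ClCut S s I) (fun ω => (ddeKin S K I ω * F ω) * ddeKout S s K I ω) := by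
    intro K hx
    rw [dde_N_fact S hS s K I hx]
    congr 1
    funext ω
    ring
  rw [dis_E_eq, dis_E_eq, div_eq_div_iff hf.ne' hf'.ne', E3 K hX, E3 K' hX', E4 K hX, E4 K' hX', ← hkk, four]

/-- the complement of the invaded set is a cut set.  OWNER 50. -/
theorem dis_inv_cut (S : ClSys V Y) (hS : ClOk S) (s : Bool) (E : Finset (V × V)) (ω : ClCfg V Y) (O : Finset V) :
    ClCut S s (S.A \ clInv S s E ω O) ω := by
  classical
  intro y hy hc
  obtain ⟨⟨u, hu, huI⟩, v, hv, hvI⟩ := hc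
  by_contra hne
  have hvA : v ∈ S.A := hS.sub y hy hv
  have huA : u ∈ S.A := hS.sub y hy hu
  have hvInv : v ∈ clInv S s E ω O := by
    by_contra h; exact hvI (Finset.mem_sdiff.2 ⟨hvA, h⟩)
  obtain ⟨_, o, ho, hr⟩ := Finset.mem_filter.1 hvInv
  have huInv : u ∈ clInv S s E ω O :=
    Finset.mem_filter.2 ⟨huA, o, ho, hr.tail (Or.inl ⟨y, hy, hv, hu, hne⟩)⟩
  exact (Finset.mem_sdiff.1 huI).2 huInv

/-- `Sep_+` is increasing.  OWNER 50. -/
theorem dis_sep_mono (S : ClSys V Y) (E : Finset (V × V)) (O A : Finset V) :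
    ClMonoP S (fun ω => ClSep S true E ω O A) := by
  intro ω ω' _ ht h u hu v hv hr
  refine h u hu v hv (Relation.ReflTransGen.mono ?_ _ _ hr)
  rintro a b (⟨y, hy, ha, hb, hne⟩ | h2)
  · refine Or.inl ⟨y, hy, ha, hb, ?_⟩
    have h1 := ht y hy
    simp only [clSg, if_true] at hne ⊢
    rcases dis_tau_cases S ω' y with h3 | h3 | h3
    · exact absurd h3 hne
    · omega
    · omega
  · exact Or.inr h2

/-- `not Sep_-` is increasing.  OWNER 50. -/
theorem dis_sep_anti (S : ClSys V Y) (E : Finset (V × V)) (O A : Finset V) :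
    ClMonoP S (fun ω => ¬ ClSep S false E ω O A) := by
  intro ω ω' _ ht h h'
  refine h fun u hu v hv hr => h' u hu v hv (Relation.ReflTransGen.mono ?_ _ _ hr)
  rintro a b (⟨y, hy, ha, hb, hne⟩ | h2)
  · refine Or.inl ⟨y, hy, ha, hb, ?_⟩
    have h1 := ht y hy
    simp only [clSg, Bool.false_eq_true, if_false] at hne ⊢
    rcases dis_tau_cases S ω y with h3 | h3 | h3
    · omega
    · exact absurd h3 hne
    · omega
  · exact Or.inr h2

/-! ### 5b. the invaded set seen from outside, one term of (D) (helper50; prefix `dde_`) -/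

theorem dde_mem_inv (S : ClSys V Y) (s : Bool) (E : Finset (V × V)) (ω : ClCfg V Y) (O : Finset V) (v : V) :
    v ∈ clInv S s E ω O ↔ v ∈ S.A ∧ ∃ u ∈ O, Relation.ReflTransGen (clStep S s E ω) u v := by
  classical
  unfold clInv
  rw [Finset.mem_filter]

theorem dde_reach_congr (S : ClSys V Y) (hS : ClOk S) (s : Bool) (E : Finset (V × V)) (ω₁ ω₂ : ClCfg V Y)
    (O I : Finset V) (hT : ∀ y ∈ S.C, y ∉ S.cin I → clTau S ω₁ y = clTau S ω₂ y)
    (hI : ∀ v ∈ clInv S s E ω₁ O, v ∉ I) {u : V} (hu : u ∈ O) (v : V) :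
    Relation.ReflTransGen (clStep S s E ω₁) u v ↔ Relation.ReflTransGen (clStep S s E ω₂) u v := by
  have key : ∀ b c, Relation.ReflTransGen (clStep S s E ω₁) u b →
      (clStep S s E ω₁ b c ↔ clStep S s E ω₂ b c) := by
    intro b c hb
    unfold clStep
    refine or_congr ?_ Iff.rfl
    refine exists_congr fun y => ?_
    refine and_congr_right fun hy => and_congr_right fun hby => and_congr_right fun _ => ?_
    have hbA : b ∈ S.A := hS.sub y hy hby
    have hbInv : b ∈ clInv S s E ω₁ O := (dde_mem_inv S s E ω₁ O b).2 ⟨hbA, u, hu, hb⟩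
    have hyI : y ∉ S.cin I := by
      intro h
      simp only [ClSys.cin, Finset.mem_filter] at h
      exact hI b hbInv (h.2 hby)
    rw [hT y hy hyI]
  constructor
  · intro h
    induction h with
    | refl => exact Relation.ReflTransGen.refl
    | tail hab hbc ih => exact ih.tail ((key _ _ hab).1 hbc)
  · intro h
    induction h with
    | refl => exact Relation.ReflTransGen.refl
    | tail hab hbc ih => exact ih.tail ((key _ _ ih).2 hbc)

theorem dde_inv_congr (S : ClSys V Y) (hS : ClOk S) (s : Bool) (E : Finset (V × V)) (ω₁ ω₂ : ClCfg V Y)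
    (O I : Finset V) (hT : ∀ y ∈ S.C, y ∉ S.cin I → clTau S ω₁ y = clTau S ω₂ y)
    (hI : ∀ v ∈ clInv S s E ω₁ O, v ∉ I) : clInv S s E ω₁ O = clInv S s E ω₂ O := by
  ext v
  rw [dde_mem_inv, dde_mem_inv]
  refine and_congr_right fun _ => ?_
  refine exists_congr fun u => and_congr_right fun hu => ?_
  exact dde_reach_congr S hS s E ω₁ ω₂ O I hT hI hu v

theorem dde_inv_iff (S : ClSys V Y) (hS : ClOk S) (s : Bool) (E : Finset (V × V)) (O I : Finset V)
    (hI : I ⊆ S.A) (ω : ClCfg V Y) (hω : ω ∈ S.cfgs) :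
    clInv S s E ω O = S.A \ I ↔ ClCut S s I ω ∧ clInv S s E (ddeExt S s I ω) O = S.A \ I := by
  constructor
  · intro h
    have hc : ClCut S s I ω := by
      have := dis_inv_cut S hS s E ω O
      rwa [h, Finset.sdiff_sdiff_eq_self hI] at this
    refine ⟨hc, ?_⟩
    rw [← dde_inv_congr S hS s E ω (ddeExt S s I ω) O I
      (fun y _ hy => (dde_tau_ext S hS s I ω hω hc hy).symm)
      (fun v hv => by rw [h] at hv; exact (Finset.mem_sdiff.1 hv).2), h]
  · rintro ⟨hc, h⟩
    rw [← dde_inv_congr S hS s E (ddeExt S s I ω) ω O I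
      (fun y _ hy => dde_tau_ext S hS s I ω hω hc hy)
      (fun v hv => by rw [h] at hv; exact (Finset.mem_sdiff.1 hv).2), h]

theorem dde_inv_noX (S : ClSys V Y) (s : Bool) (E : Finset (V × V)) (O I : Finset V)
    (hI : I ⊆ S.A) (ω : ClCfg V Y) (h : clInv S s E ω O = S.A \ I) : DdeNoX S E I := by
  have key : ∀ a b, ((a, b) ∈ E ∨ (b, a) ∈ E) → a ∈ I → b ∈ S.A \ I → False := by
    intro a b he ha hb
    rw [← h] at hb
    obtain ⟨_, u, hu, hr⟩ := (dde_mem_inv S s E ω O b).1 hb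
    have hr' : Relation.ReflTransGen (clStep S s E ω) u a :=
      hr.tail (Or.inr (by tauto))
    have : a ∈ clInv S s E ω O := (dde_mem_inv S s E ω O a).2 ⟨hI ha, u, hu, hr'⟩
    rw [h] at this
    exact (Finset.mem_sdiff.1 this).2 ha
  intro e he
  exact ⟨fun h1 => key e.1 e.2 (Or.inl he) h1.1 h1.2, fun h1 => key e.2 e.1 (Or.inr he) h1.1 h1.2⟩

open Classical in
/-- the event "the invaded set is `S.A \ I`" as an outside event on the cut. -/
theorem dde_N_inv (S : ClSys V Y) (hS : ClOk S) (s : Bool) (K : ClCon V Y) (O I : Finset V) (hI : I ⊆ S.A)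
    (X : ClCfg V Y → ℝ) :
    S.N (K.Holds S) (fun ω => if clInv S s K.Eq ω O = S.A \ I then X ω else 0) =
      S.N (fun ω => K.Holds S ω ∧ ClCut S s I ω)
        (fun ω => (if clInv S s K.Eq (ddeExt S s I ω) O = S.A \ I then 1 else 0) * X ω) := by
  unfold ClSys.N
  refine Finset.sum_congr rfl fun ω hω => ?_
  have hi := dde_inv_iff S hS s K.Eq O I hI ω hω
  dsimp only
  by_cases hK : K.Holds S ω
  · by_cases hc : ClCut S s I ω
    · by_cases h1 : clInv S s K.Eq (ddeExt S s I ω) O = S.A \ I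
      · have h0 : clInv S s K.Eq ω O = S.A \ I := hi.2 ⟨hc, h1⟩
        simp only [hK, hc, h1, h0, and_self, if_true, one_mul]
      · have h0 : ¬ clInv S s K.Eq ω O = S.A \ I := fun h => h1 (hi.1 h).2
        simp only [hK, hc, h1, h0, and_self, if_true, if_false, zero_mul]
    · have h0 : ¬ clInv S s K.Eq ω O = S.A \ I := fun h => hc (hi.1 h).1
      simp only [hK, hc, h0, and_false, if_true, if_false, mul_zero]
  · simp only [hK, false_and, if_false]

open Classical in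
/-- one term of the decomposition. -/
theorem dde_term (S : ClSys V Y) (hS : ClOk S) (s : Bool) (K : ClCon V Y) (O A I : Finset V)
    (hI : I ⊆ S.A \ O) (hO : O ⊆ S.A) (hAI : A ⊆ I) (G F : ClCfg V Y → ℝ) (hG : ClLoc O (S.cin O) G)
    (hF : ClLoc A (S.cin A) F) :
    S.N (K.Holds S) (fun ω => if clInv S s K.Eq ω O = S.A \ I then G ω * F ω else 0) =
      S.N (K.Holds S) (fun ω => if clInv S s K.Eq ω O = S.A \ I then G ω else 0) *
          S.E (fun ω => K.Holds S ω ∧ ClCut S s I ω) F := by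
  have hIA : I ⊆ S.A := hI.trans Finset.sdiff_subset
  have hOI : O ⊆ S.A \ I := by
    intro v hv
    exact Finset.mem_sdiff.2 ⟨hO hv, fun h => (Finset.mem_sdiff.1 (hI h)).2 hv⟩
  by_cases hx : DdeNoX S K.Eq I
  · set a : ClCfg V Y → ℝ :=
      fun ω => (if clInv S s K.Eq (ddeExt S s I ω) O = S.A \ I then (1:ℝ) else 0) with ha
    have haL : ClLoc (S.A \ I) (S.cout I) a :=
      dde_loc_ext S s I (fun ω => if clInv S s K.Eq ω O = S.A \ I then (1:ℝ) else 0)
    have hGL : ClLoc (S.A \ I) (S.cout I) G := dde_loc_mono hOI (dde_cin_cout S hS hOI) hG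
    have hFL : ClLoc I (S.cin I) F := dde_loc_mono hAI (dde_cin_mono S hAI) hF
    have hkin := dde_kin_loc S K I
    have hkout := dde_kout_loc S s K I
    have four := dde_four S hS s I (fun ω => ddeKin S K I ω * F ω) (ddeKin S K I)
      (fun ω => ddeKout S s K I ω * (a ω * G ω)) (ddeKout S s K I)
      (dde_loc_mul hkin hFL) hkin (dde_loc_mul hkout (dde_loc_mul haL hGL)) hkout
    have E1 : S.N (K.Holds S) (fun ω => if clInv S s K.Eq ω O = S.A \ I then G ω * F ω else 0)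
        = S.N (ClCut S s I) (fun ω => (ddeKin S K I ω * F ω) * (ddeKout S s K I ω * (a ω * G ω))) := by
      rw [dde_N_inv S hS s K O I hIA, dde_N_fact S hS s K I hx]
      congr 1
      funext ω
      simp only [ha]
      ring
    have E2 : S.N (K.Holds S) (fun ω => if clInv S s K.Eq ω O = S.A \ I then G ω else 0)
        = S.N (ClCut S s I) (fun ω => ddeKin S K I ω * (ddeKout S s K I ω * (a ω * G ω))) := by
      rw [dde_N_inv S hS s K O I hIA, dde_N_fact S hS s K I hx]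
      congr 1
      funext ω
      simp only [ha]
      ring
    have E3 : S.Z (fun ω => K.Holds S ω ∧ ClCut S s I ω)
        = S.N (ClCut S s I) (fun ω => ddeKin S K I ω * ddeKout S s K I ω) := by
      rw [dis_Z_eq, dde_N_fact S hS s K I hx]
      congr 1
      funext ω
      ring
    have E4 : S.N (fun ω => K.Holds S ω ∧ ClCut S s I ω) F
        = S.N (ClCut S s I) (fun ω => (ddeKin S K I ω * F ω) * ddeKout S s K I ω) := by
      rw [dde_N_fact S hS s K I hx]
      congr 1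
      funext ω
      ring
    rw [dis_E_eq]
    by_cases hZ : S.Z (fun ω => K.Holds S ω ∧ ClCut S s I ω) = 0
    · rw [hZ, div_zero, mul_zero, dde_N_inv S hS s K O I hIA]
      exact dde_N_zero S hS _ hZ _
    · rw [← mul_div_assoc, eq_div_iff hZ, E1, E2, E3, E4, four]
      ring
  · have hne : ∀ ω, clInv S s K.Eq ω O ≠ S.A \ I := fun ω h => hx (dde_inv_noX S s K.Eq O I hIA ω h)
    have z1 : (fun ω => if clInv S s K.Eq ω O = S.A \ I then G ω * F ω else 0) = fun _ => (0:ℝ) := by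
      funext ω; rw [if_neg (hne ω)]
    have z2 : (fun ω => if clInv S s K.Eq ω O = S.A \ I then G ω else 0) = fun _ => (0:ℝ) := by
      funext ω; rw [if_neg (hne ω)]
    rw [z1, z2]
    have z3 : S.N (K.Holds S) (fun _ => (0:ℝ)) = 0 := by
      unfold ClSys.N
      simp
    rw [z3, zero_mul]

open Classical in
/-- (D) decomposition over the cut found from `O` (TEX l.470-510 "stopped cut" + first half of Cor. conditional-plane-matching).
`K` may contain `W` labels.  OWNER 50. -/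
theorem dis_dec (S : ClSys V Y) (hS : ClOk S) (s : Bool) (K : ClCon V Y) (O A : Finset V) (hO : O ⊆ S.A)
    (hA : A ⊆ S.A) (G F : ClCfg V Y → ℝ) (hG : ClLoc O (S.cin O) G) (hF : ClLoc A (S.cin A) F) :
    S.N (K.Holds S) (fun ω => if ClSep S s K.Eq ω O A then G ω * F ω else 0) =
      ∑ I ∈ (S.A \ O).powerset.filter (fun I => A ⊆ I),
        S.N (K.Holds S) (fun ω => if clInv S s K.Eq ω O = S.A \ I then G ω else 0) *
          S.E (fun ω => K.Holds S ω ∧ ClCut S s I ω) F := by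
  have h1 : ∀ I ∈ (S.A \ O).powerset.filter (fun I => A ⊆ I),
      S.N (K.Holds S) (fun ω => if clInv S s K.Eq ω O = S.A \ I then G ω else 0) *
          S.E (fun ω => K.Holds S ω ∧ ClCut S s I ω) F
      = S.N (K.Holds S) (fun ω => if clInv S s K.Eq ω O = S.A \ I then G ω * F ω else 0) := by
    intro I hI
    rw [Finset.mem_filter, Finset.mem_powerset] at hI
    exact (dde_term S hS s K O A I hI.1 hO hI.2 G F hG hF).symm
  rw [Finset.sum_congr rfl h1]
  unfold ClSys.N
  rw [Finset.sum_comm]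
  refine Finset.sum_congr rfl fun ω hω => ?_
  by_cases hK : K.Holds S ω
  · simp only [if_pos hK]
    rw [← Finset.mul_sum]
    congr 1
    have hInvA : clInv S s K.Eq ω O ⊆ S.A := fun v hv => ((dde_mem_inv S s K.Eq ω O v).1 hv).1
    by_cases hsep : ClSep S s K.Eq ω O A
    · rw [if_pos hsep]
      rw [Finset.sum_eq_single (S.A \ clInv S s K.Eq ω O)]
      · rw [if_pos (Finset.sdiff_sdiff_eq_self hInvA).symm]
      · intro I hI hne
        rw [Finset.mem_filter, Finset.mem_powerset] at hI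
        rw [if_neg]
        intro h
        apply hne
        rw [h, Finset.sdiff_sdiff_eq_self (hI.1.trans Finset.sdiff_subset)]
      · intro hn
        exfalso
        apply hn
        rw [Finset.mem_filter, Finset.mem_powerset]
        constructor
        · intro v hv
          rw [Finset.mem_sdiff] at hv ⊢
          refine ⟨hv.1, fun hvO => hv.2 ?_⟩
          exact (dde_mem_inv S s K.Eq ω O v).2 ⟨hv.1, v, hvO, Relation.ReflTransGen.refl⟩
        · intro v hv
          rw [Finset.mem_sdiff]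
          refine ⟨hA hv, fun h => ?_⟩
          obtain ⟨_, u, hu, hr⟩ := (dde_mem_inv S s K.Eq ω O v).1 h
          exact hsep u hu v hv hr
    · rw [if_neg hsep]
      symm
      refine Finset.sum_eq_zero fun I hI => ?_
      rw [Finset.mem_filter, Finset.mem_powerset] at hI
      rw [if_neg]
      intro h
      apply hsep
      intro u hu v hv hr
      have : v ∈ clInv S s K.Eq ω O := (dde_mem_inv S s K.Eq ω O v).2 ⟨hA hv, u, hu, hr⟩
      rw [h] at this
      exact (Finset.mem_sdiff.1 this).2 (hI.2 hv)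
  · simp only [if_neg hK]
    simp

/-! ### 5b. MATCHING (kit `dmt_`, helper182): exploration from `O` in the lower law, WITHOUT coupling -/

theorem dmt_N_congr (S : ClSys V Y) {L L' : ClCfg V Y → Prop} (h : ∀ ω, L ω ↔ L' ω) (X : ClCfg V Y → ℝ) :
    S.N L X = S.N L' X := by
  have : L = L' := funext fun ω => propext (h ω)
  rw [this]

theorem dmt_N_congr' (S : ClSys V Y) (L : ClCfg V Y → Prop) {X X' : ClCfg V Y → ℝ} (h : ∀ ω, L ω → X ω = X' ω) :
    S.N L X = S.N L X' := by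
  classical
  unfold ClSys.N
  refine Finset.sum_congr rfl fun ω _ => ?_
  by_cases hl : L ω
  · rw [if_pos hl, if_pos hl, h ω hl]
  · rw [if_neg hl, if_neg hl]

theorem dmt_N_mono (S : ClSys V Y) (hS : ClOk S) (L : ClCfg V Y → Prop) {X X' : ClCfg V Y → ℝ}
    (h : ∀ ω, L ω → X ω ≤ X' ω) : S.N L X ≤ S.N L X' := by
  classical
  unfold ClSys.N
  refine Finset.sum_le_sum fun ω _ => ?_
  by_cases hl : L ω
  · rw [if_pos hl, if_pos hl]; exact mul_le_mul_of_nonneg_left (h ω hl) (dis_wt_nonneg S hS ω)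
  · rw [if_neg hl, if_neg hl]

theorem dmt_N_smul (S : ClSys V Y) (L : ClCfg V Y → Prop) (c : ℝ) (X : ClCfg V Y → ℝ) :
    S.N L (fun ω => c * X ω) = c * S.N L X := by
  classical
  unfold ClSys.N
  rw [Finset.mul_sum]
  refine Finset.sum_congr rfl fun ω _ => ?_
  split_ifs <;> ring

theorem dmt_N_sub (S : ClSys V Y) (L : ClCfg V Y → Prop) (X X' : ClCfg V Y → ℝ) :
    S.N L (fun ω => X ω - X' ω) = S.N L X - S.N L X' := by
  classical
  unfold ClSys.N
  rw [← Finset.sum_sub_distrib]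
  refine Finset.sum_congr rfl fun ω _ => ?_
  split_ifs <;> ring

theorem dmt_Z_nonneg (S : ClSys V Y) (hS : ClOk S) (L : ClCfg V Y → Prop) : 0 ≤ S.Z L := by
  classical
  unfold ClSys.Z
  refine Finset.sum_nonneg fun ω _ => ?_
  split_ifs
  · exact dis_wt_nonneg S hS ω
  · exact le_rfl

theorem dmt_N_zero (S : ClSys V Y) (hS : ClOk S) (L : ClCfg V Y → Prop) (h : S.Z L = 0) (X : ClCfg V Y → ℝ) :
    S.N L X = 0 := by
  classical
  unfold ClSys.Z at h
  have h1 := (Finset.sum_eq_zero_iff_of_nonneg (fun ω _ => by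
    split_ifs
    · exact dis_wt_nonneg S hS ω
    · exact le_rfl)).1 h
  unfold ClSys.N
  refine Finset.sum_eq_zero fun ω hω => ?_
  have h2 := h1 ω hω
  by_cases hl : L ω
  · rw [if_pos hl] at h2 ⊢; rw [h2, zero_mul]
  · rw [if_neg hl]

theorem dmt_fib {α : Type} [Fintype α] [DecidableEq α] (S : ClSys V Y) (L : ClCfg V Y → Prop) (c : ClCfg V Y → α)
    (f : α → ℝ) (X : ClCfg V Y → ℝ) :
    ∑ a, S.N (fun ω => L ω ∧ c ω = a) X * f a = S.N L (fun ω => X ω * f (c ω)) := by
  classical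
  unfold ClSys.N
  simp only [Finset.sum_mul]
  rw [Finset.sum_comm]
  refine Finset.sum_congr rfl fun ω _ => ?_
  rw [Finset.sum_eq_single (c ω)]
  · by_cases hl : L ω
    · rw [if_pos ⟨hl, rfl⟩, if_pos hl]; ring
    · rw [if_neg (fun h => hl h.1), if_neg hl, zero_mul]
  · intro b _ hb
    rw [if_neg (fun h => hb h.2.symm), zero_mul]
  · intro h; exact absurd (Finset.mem_univ _) h

/-- QUERY of one coordinate `c` in both laws (envelope principle + total probability) -/
theorem dmt_query {α : Type} [Fintype α] [DecidableEq α] [PartialOrder α] (S : ClSys V Y) (hS : ClOk S)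
    (L₁ L₂ : ClCfg V Y → Prop) (c : ClCfg V Y → α) (X₁ X₂ : ClCfg V Y → ℝ)
    (hdom : ∀ f : α → ℝ, Monotone f →
      S.N L₁ (fun ω => f (c ω)) * S.Z L₂ ≤ S.Z L₁ * S.N L₂ (fun ω => f (c ω)))
    (hst : ∀ a b, a ≤ b → S.N (fun ω => L₁ ω ∧ c ω = a) X₁ * S.Z (fun ω => L₂ ω ∧ c ω = b) ≤
      S.Z (fun ω => L₁ ω ∧ c ω = a) * S.N (fun ω => L₂ ω ∧ c ω = b) X₂) :
    S.N L₁ X₁ * S.Z L₂ ≤ S.Z L₁ * S.N L₂ X₂ := by
  classical
  set p₁ : α → ℝ := fun a => S.Z (fun ω => L₁ ω ∧ c ω = a) with hp₁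
  set p₂ : α → ℝ := fun a => S.Z (fun ω => L₂ ω ∧ c ω = a) with hp₂
  set u : α → ℝ := fun a => S.N (fun ω => L₁ ω ∧ c ω = a) X₁ / p₁ a with hu
  set v : α → ℝ := fun a => S.N (fun ω => L₂ ω ∧ c ω = a) X₂ / p₂ a with hv
  have sZ : ∀ (L : ClCfg V Y → Prop) (f : α → ℝ),
      ∑ a, S.Z (fun ω => L ω ∧ c ω = a) * f a = S.N L (fun ω => f (c ω)) := by
    intro L f
    have := dmt_fib S L c f (fun _ => 1)
    simp only [one_mul] at this
    rw [← this]
    refine Finset.sum_congr rfl fun a _ => ?_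
    rw [dis_Z_eq]
  have sZ1 : ∀ (L : ClCfg V Y → Prop), ∑ a, S.Z (fun ω => L ω ∧ c ω = a) = S.Z L := by
    intro L
    have := sZ L (fun _ => 1)
    simp only [mul_one] at this
    rw [this, dis_Z_eq]
  have sN : ∀ (L : ClCfg V Y → Prop) (X : ClCfg V Y → ℝ),
      ∑ a, S.Z (fun ω => L ω ∧ c ω = a) * (S.N (fun ω => L ω ∧ c ω = a) X / S.Z (fun ω => L ω ∧ c ω = a))
        = S.N L X := by
    intro L X
    have := dmt_fib S L c (fun _ => 1) X
    simp only [mul_one] at this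
    rw [← this]
    refine Finset.sum_congr rfl fun a _ => ?_
    by_cases hz : S.Z (fun ω => L ω ∧ c ω = a) = 0
    · rw [hz, zero_mul, dmt_N_zero S hS _ hz]
    · field_simp
  have key := dis_envelope p₁ p₂ (fun a => dmt_Z_nonneg S hS _) (fun a => dmt_Z_nonneg S hS _)
    (fun f hf => by
      simp only [hp₁, hp₂]
      rw [sZ L₁ f, sZ L₂ f, sZ1 L₁, sZ1 L₂]
      exact hdom f hf) u v
    (fun a b hab h1 h2 => by
      simp only [hu, hv]
      rw [div_le_div_iff₀ h1 h2]
      have := hst a b hab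
      simp only [hp₁, hp₂]
      linarith)
  simp only [hp₁, hp₂, hu, hv] at key
  rw [sN L₁ X₁, sN L₂ X₂, sZ1 L₁, sZ1 L₂] at key
  exact key

open Classical in
/-- the observable of the lower law: `F - 2 * 1{no plus cut between O and A}` -/
noncomputable def dmtX (S : ClSys V Y) (E : Finset (V × V)) (O A : Finset V) (F : ClCfg V Y → ℝ) : ClCfg V Y → ℝ :=
  fun ω => F ω - 2 * (if ¬ ClSep S true E ω O A then 1 else 0)

/-- the claim of the induction, cross multiplied (no feasibility needed) -/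
def DmtC (S : ClSys V Y) (A : Finset V) (F : ClCfg V Y → ℝ) (K₁ K₂ : ClCon V Y) (O : Finset V) : Prop :=
  S.N (K₁.Holds S) (dmtX S K₁.Eq O A F) * S.Z (K₂.Holds S) ≤ S.Z (K₁.Holds S) * S.N (K₂.Holds S) F

/-- the invariant of the exploration -/
structure DmtInv (S : ClSys V Y) (K₁ K₂ : ClCon V Y) (O : Finset V) : Prop where
  l1 : ClLegal S K₁
  l2 : ClLegal S K₂
  le : ClLe K₁ K₂
  sub : O ⊆ S.A
  ag : ClAgree S K₁ K₂ O

/-- number of unobserved coordinates -/
def dmtM (S : ClSys V Y) (K : ClCon V Y) : ℕ :=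
  (S.A \ (K.Bp ∪ K.Bm)).card + (S.C \ (K.Op ∪ K.Om ∪ K.Cl)).card

/-- (a) `O` meets `A` -/
theorem dmt_hit (S : ClSys V Y) (hS : ClOk S) (A : Finset V) (F : ClCfg V Y → ℝ) (hb : ∀ ω, |F ω| ≤ 1)
    (K₁ K₂ : ClCon V Y) (O : Finset V) (u : V) (hu : u ∈ O) (hu' : u ∈ A) : DmtC S A F K₁ K₂ O := by
  classical
  unfold DmtC
  have h1 : S.N (K₁.Holds S) (dmtX S K₁.Eq O A F) ≤ S.N (K₁.Holds S) (fun _ => (-1) * 1) := by
    refine dmt_N_mono S hS _ fun ω _ => ?_
    have hn : ¬ ClSep S true K₁.Eq ω O A := fun h => h u hu u hu' Relation.ReflTransGen.refl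
    unfold dmtX
    rw [if_pos hn]
    have := (abs_le.1 (hb ω)).2
    linarith
  have h2 : S.N (K₂.Holds S) (fun _ => (-1) * 1) ≤ S.N (K₂.Holds S) F := by
    refine dmt_N_mono S hS _ fun ω _ => ?_
    have := (abs_le.1 (hb ω)).1
    linarith
  rw [dmt_N_smul, ← dis_Z_eq] at h1 h2
  have z1 := dmt_Z_nonneg S hS (K₁.Holds S)
  have z2 := dmt_Z_nonneg S hS (K₂.Holds S)
  calc S.N (K₁.Holds S) (dmtX S K₁.Eq O A F) * S.Z (K₂.Holds S)
      ≤ (-1 * S.Z (K₁.Holds S)) * S.Z (K₂.Holds S) := mul_le_mul_of_nonneg_right h1 z2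
    _ = S.Z (K₁.Holds S) * (-1 * S.Z (K₂.Holds S)) := by ring
    _ ≤ S.Z (K₁.Holds S) * S.N (K₂.Holds S) F := mul_le_mul_of_nonneg_left h2 z1

/-- (b) enlarge `O` by sites which are invaded under every configuration of the lower history -/
theorem dmt_enl (S : ClSys V Y) (A : Finset V) (F : ClCfg V Y → ℝ) (K₁ K₂ : ClCon V Y) (O T : Finset V)
    (hT : ∀ ω, K₁.Holds S ω → ∀ v ∈ T, ∃ u ∈ O, clStep S true K₁.Eq ω u v)
    (h : DmtC S A F K₁ K₂ (O ∪ T)) : DmtC S A F K₁ K₂ O := by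
  classical
  unfold DmtC at h ⊢
  rw [dmt_N_congr' S (K₁.Holds S) (X := dmtX S K₁.Eq O A F) (X' := dmtX S K₁.Eq (O ∪ T) A F)]
  · exact h
  intro ω hω
  have e : ClSep S true K₁.Eq ω O A ↔ ClSep S true K₁.Eq ω (O ∪ T) A := by
    constructor
    · intro hs u hu a ha hr
      rcases Finset.mem_union.1 hu with hu | hu
      · exact hs u hu a ha hr
      · obtain ⟨u', hu', hst⟩ := hT ω hω u hu
        exact hs u' hu' a ha (Relation.ReflTransGen.head hst hr)
    · intro hs u hu a ha hr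
      exact hs u (Finset.mem_union_left _ hu) a ha hr
  unfold dmtX
  by_cases hs : ClSep S true K₁.Eq ω O A
  · rw [if_neg (not_not.2 hs), if_neg (not_not.2 (e.1 hs))]
  · rw [if_pos hs, if_pos (fun h => hs (e.2 h))]

/-- (d) terminal position: `S.A \ O` is a plus cut under both histories -/
theorem dmt_term (S : ClSys V Y) (hS : ClOk S) (A : Finset V) (hA : A ⊆ S.A) (F : ClCfg V Y → ℝ)
    (hF : ClLoc A (S.cin A) F) (K₁ K₂ : ClCon V Y) (O : Finset V) (hI : DmtInv S K₁ K₂ O)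
    (h0 : ∀ u ∈ O, u ∉ A) (h1 : ∀ e ∈ K₁.Eq, (e.1 ∈ O ↔ e.2 ∈ O))
    (h2 : ∀ y ∈ S.C, (∃ u ∈ S.sv y, u ∈ O) → ¬ S.sv y ⊆ O → y ∈ K₁.Op) : DmtC S A F K₁ K₂ O := by
  classical
  unfold DmtC
  have z1 := dmt_Z_nonneg S hS (K₁.Holds S)
  have z2 := dmt_Z_nonneg S hS (K₂.Holds S)
  rcases z1.eq_or_lt with z1' | z1'
  · rw [dmt_N_zero S hS _ z1'.symm, ← z1']; simp
  rcases z2.eq_or_lt with z2' | z2'
  · rw [dmt_N_zero S hS _ z2'.symm F, ← z2']; simp
  set I : Finset V := S.A \ O with hIdef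
  have hcut : ∀ K : ClCon V Y, K₁.Op ⊆ K.Op → ∀ ω, K.Holds S ω ↔ (K.Holds S ω ∧ ClCut S true I ω) := by
    intro K hK ω
    refine ⟨fun h => ⟨h, ?_⟩, fun h => h.1⟩
    intro y hy hc
    obtain ⟨⟨u, hu, huI⟩, v, hv, hvI⟩ := hc
    have hvO : v ∈ O := by
      by_contra hn; exact hvI (Finset.mem_sdiff.2 ⟨hS.sub y hy hv, hn⟩)
    have hy' : y ∈ K₁.Op := h2 y hy ⟨v, hv, hvO⟩ (fun hsub => (Finset.mem_sdiff.1 huI).2 (hsub hu))
    exact h.2.2.2.1 y (hK hy')
  have hx : ∀ e ∈ K₁.Eq, (e.1 ∈ I ↔ e.2 ∈ I) := by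
    intro e he
    obtain ⟨y, hy, ha, hb⟩ := hI.l1.eq e he
    have ha' := hS.sub y hy ha
    have hb' := hS.sub y hy hb
    have := h1 e he
    simp only [hIdef, Finset.mem_sdiff]
    tauto
  have hin : ClAgreeIn S K₁ K₂ I := by
    refine ⟨fun v hv => hI.ag.bp v (Finset.mem_sdiff.1 hv).2, fun v hv => hI.ag.bm v (Finset.mem_sdiff.1 hv).2,
      fun v _ => by rw [hI.l1.wp, hI.l2.wp], fun v _ => by rw [hI.l1.wm, hI.l2.wm], ?_, ?_, ?_,
      fun e _ _ => by rw [hI.le.eq]⟩
    all_goals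
      intro y hy
      obtain ⟨hyC, hyI⟩ := Finset.mem_filter.1 hy
      obtain ⟨v, hv⟩ := hS.ne y hyC
      have hn : ¬ S.sv y ⊆ O := fun h => (Finset.mem_sdiff.1 (hyI hv)).2 (h hv)
    · exact hI.ag.op y hyC hn
    · exact hI.ag.om y hyC hn
    · exact hI.ag.cl y hyC hn
  have hAI : A ⊆ I := fun a ha => Finset.mem_sdiff.2 ⟨hA ha, fun h => h0 a h ha⟩
  have hFI : ClLoc I (S.cin I) F := by
    intro ω ω' hB hW hO
    refine hF ω ω' ?_ ?_ ?_
    · ext v
      have := Finset.ext_iff.1 hB v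
      simp only [Finset.mem_inter] at this ⊢
      constructor
      · rintro ⟨a, b⟩; exact ⟨(this.1 ⟨a, hAI b⟩).1, b⟩
      · rintro ⟨a, b⟩; exact ⟨(this.2 ⟨a, hAI b⟩).1, b⟩
    · ext v
      have := Finset.ext_iff.1 hW v
      simp only [Finset.mem_inter] at this ⊢
      constructor
      · rintro ⟨a, b⟩; exact ⟨(this.1 ⟨a, hAI b⟩).1, b⟩
      · rintro ⟨a, b⟩; exact ⟨(this.2 ⟨a, hAI b⟩).1, b⟩
    · have hsub : S.cin A ⊆ S.cin I := by
        intro y hy
        obtain ⟨h1, h2⟩ := Finset.mem_filter.1 hy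
        exact Finset.mem_filter.2 ⟨h1, h2.trans hAI⟩
      ext v
      have := Finset.ext_iff.1 hO v
      simp only [Finset.mem_inter] at this ⊢
      constructor
      · rintro ⟨a, b⟩; exact ⟨(this.1 ⟨a, hsub b⟩).1, b⟩
      · rintro ⟨a, b⟩; exact ⟨(this.2 ⟨a, hsub b⟩).1, b⟩
  have c1 : K₁.Holds S = fun ω => K₁.Holds S ω ∧ ClCut S true I ω :=
    funext fun ω => propext (hcut K₁ subset_rfl ω)
  have c2 : K₂.Holds S = fun ω => K₂.Holds S ω ∧ ClCut S true I ω :=
    funext fun ω => propext (hcut K₂ hI.le.op ω)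
  have law := dis_cut_law S hS true I K₁ K₂ hx (by rw [← hI.le.eq]; exact hx) hin
    (by rw [← c1]; exact z1') (by rw [← c2]; exact z2') F hFI
  rw [← c1, ← c2, dis_E_eq, dis_E_eq, div_eq_div_iff z1'.ne' z2'.ne'] at law
  have hle : S.N (K₁.Holds S) (dmtX S K₁.Eq O A F) ≤ S.N (K₁.Holds S) F := by
    refine dmt_N_mono S hS _ fun ω _ => ?_
    unfold dmtX
    split_ifs <;> linarith
  calc S.N (K₁.Holds S) (dmtX S K₁.Eq O A F) * S.Z (K₂.Holds S)
      ≤ S.N (K₁.Holds S) F * S.Z (K₂.Holds S) := mul_le_mul_of_nonneg_right hle z2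
    _ = S.Z (K₁.Holds S) * S.N (K₂.Holds S) F := by rw [law]; ring

theorem dmt_pin_eq (K : ClCon V Y) (v : V) (a : Bool) : (K.pin v a).Eq = K.Eq := by cases a <;> rfl

theorem dmt_holds_pin (S : ClSys V Y) (K : ClCon V Y) (v : V) (a : Bool) (ω : ClCfg V Y) :
    (K.Holds S ω ∧ decide (v ∈ ω.B) = a) ↔ (K.pin v a).Holds S ω := by
  cases a
  · rw [dis_holds_pin_false]; simp
  · rw [dis_holds_pin_true]; simp

theorem dmt_legal_pin (S : ClSys V Y) (K : ClCon V Y) (h : ClLegal S K) (v : V) (a : Bool) :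
    ClLegal S (K.pin v a) := by
  cases a
  · refine ⟨h.wp, h.wm, fun y hy hy' => (h.full y hy hy').trans ?_, h.eq⟩
    intro w hw
    simp only [ClCon.pin, Bool.false_eq_true, if_false, Finset.mem_union, Finset.mem_insert] at hw ⊢
    tauto
  · refine ⟨h.wp, h.wm, fun y hy hy' => (h.full y hy hy').trans ?_, h.eq⟩
    intro w hw
    simp only [ClCon.pin, if_true, Finset.mem_union, Finset.mem_insert] at hw ⊢
    tauto

theorem dmt_le_pin (K₁ K₂ : ClCon V Y) (h : ClLe K₁ K₂) (v : V) (a b : Bool) (hab : a ≤ b) :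
    ClLe (K₁.pin v a) (K₂.pin v b) := by
  obtain ⟨bp, bm, op, om, cl1, cl2, eq⟩ := h
  cases a <;> cases b
  · exact ⟨bp, Finset.insert_subset_insert _ bm, op, om, cl1, cl2, eq⟩
  · exact ⟨bp.trans (Finset.subset_insert _ _), bm.trans (Finset.subset_insert _ _), op, om, cl1, cl2, eq⟩
  · exact absurd hab (by decide)
  · exact ⟨Finset.insert_subset_insert _ bp, bm, op, om, cl1, cl2, eq⟩

/-- agreement after a pin: off `O` if the two values coincide, off `O ∪ {v}` in general -/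
theorem dmt_agree_pin (S : ClSys V Y) (K₁ K₂ : ClCon V Y) (O : Finset V) (h : ClAgree S K₁ K₂ O) (v : V)
    (a b : Bool) (O' : Finset V) (hO : O ⊆ O') (hv : a = b ∨ v ∈ O') : ClAgree S (K₁.pin v a) (K₂.pin v b) O' := by
  have hc : ∀ y, ¬ S.sv y ⊆ O' → ¬ S.sv y ⊆ O := fun y hy h' => hy (h'.trans hO)
  have hs : ∀ w, w ∉ O' → w ∉ O := fun w hw h' => hw (hO h')
  have key : ∀ w, w ∉ O' → ((w ∈ (K₁.pin v a).Bp ↔ w ∈ (K₂.pin v b).Bp) ∧
      (w ∈ (K₁.pin v a).Bm ↔ w ∈ (K₂.pin v b).Bm)) := by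
    intro w hw
    have h1 := h.bp w (hs w hw)
    have h2 := h.bm w (hs w hw)
    rcases hv with rfl | hv
    · cases a
      · simp only [ClCon.pin, Bool.false_eq_true, if_false, Finset.mem_insert]; tauto
      · simp only [ClCon.pin, if_true, Finset.mem_insert]; tauto
    · have hne : w ≠ v := fun e => hw (e ▸ hv)
      cases a <;> cases b <;>
        simp only [ClCon.pin, Bool.false_eq_true, if_false, if_true, Finset.mem_insert, hne, false_or] <;> tauto
  refine ⟨fun w hw => (key w hw).1, fun w hw => (key w hw).2, ?_, ?_, ?_⟩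
  · intro y hy hy'; have := h.op y hy (hc y hy'); cases a <;> cases b <;> exact this
  · intro y hy hy'; have := h.om y hy (hc y hy'); cases a <;> cases b <;> exact this
  · intro y hy hy'; have := h.cl y hy (hc y hy'); cases a <;> cases b <;> exact this

theorem dmt_M_pin_le (S : ClSys V Y) (K : ClCon V Y) (v : V) (a : Bool) : dmtM S (K.pin v a) ≤ dmtM S K := by
  unfold dmtM
  have h1 : S.A \ ((K.pin v a).Bp ∪ (K.pin v a).Bm) ⊆ S.A \ (K.Bp ∪ K.Bm) := by
    refine Finset.sdiff_subset_sdiff subset_rfl ?_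
    intro w hw
    cases a
    · simp only [ClCon.pin, Bool.false_eq_true, if_false, Finset.mem_union, Finset.mem_insert] at hw ⊢; tauto
    · simp only [ClCon.pin, if_true, Finset.mem_union, Finset.mem_insert] at hw ⊢; tauto
  have h2 : (K.pin v a).Op ∪ (K.pin v a).Om ∪ (K.pin v a).Cl = K.Op ∪ K.Om ∪ K.Cl := by cases a <;> rfl
  rw [h2]
  exact Nat.add_le_add_right (Finset.card_le_card h1) _

theorem dmt_M_pin_lt (S : ClSys V Y) (K : ClCon V Y) (v : V) (a : Bool) (hv : v ∈ S.A) (h1 : v ∉ K.Bp)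
    (h2 : v ∉ K.Bm) : dmtM S (K.pin v a) < dmtM S K := by
  unfold dmtM
  have h1 : S.A \ ((K.pin v a).Bp ∪ (K.pin v a).Bm) ⊂ S.A \ (K.Bp ∪ K.Bm) := by
    refine Finset.ssubset_iff_of_subset ?_ |>.2 ⟨v, ?_, ?_⟩
    · refine Finset.sdiff_subset_sdiff subset_rfl ?_
      intro w hw
      cases a
      · simp only [ClCon.pin, Bool.false_eq_true, if_false, Finset.mem_union, Finset.mem_insert] at hw ⊢; tauto
      · simp only [ClCon.pin, if_true, Finset.mem_union, Finset.mem_insert] at hw ⊢; tauto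
    · simp only [Finset.mem_sdiff, Finset.mem_union]; tauto
    · cases a
      · simp only [ClCon.pin, Bool.false_eq_true, if_false, Finset.mem_sdiff, Finset.mem_union, Finset.mem_insert]
        tauto
      · simp only [ClCon.pin, if_true, Finset.mem_sdiff, Finset.mem_union, Finset.mem_insert]; tauto
  have h2 : (K.pin v a).Op ∪ (K.pin v a).Om ∪ (K.pin v a).Cl = K.Op ∪ K.Om ∪ K.Cl := by cases a <;> rfl
  rw [h2]
  exact Nat.add_lt_add_right (Finset.card_lt_card h1) _

/-- the status observed by the Boolean query `τ_y = 1 ?` -/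
def dmtT (a : Bool) : ℤ := if a then 1 else 0

theorem dmt_obs_eq (K : ClCon V Y) (y : Y) (a : Bool) : (K.obs y (dmtT a)).Eq = K.Eq := by cases a <;> rfl

theorem dmt_holds_obs (S : ClSys V Y) (K : ClCon V Y) (y : Y) (hy : S.sv y ⊆ K.Bp) (a : Bool) (ω : ClCfg V Y) :
    (K.Holds S ω ∧ decide (clTau S ω y = 1) = a) ↔ (K.obs y (dmtT a)).Holds S ω := by
  cases a
  · simp only [dmtT, Bool.false_eq_true, if_false]
    rw [dis_holds_obs_zero]
    simp only [decide_eq_false_iff_not]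
    refine and_congr_right fun h => ?_
    have hsub : S.sv y ⊆ ω.B := hy.trans h.1
    unfold clTau
    split_ifs <;> simp
  · simp only [dmtT, if_true]
    rw [dis_holds_obs_pos]; simp

theorem dmt_legal_obs (S : ClSys V Y) (K : ClCon V Y) (h : ClLegal S K) (y : Y) (hy : S.sv y ⊆ K.Bp) (a : Bool) :
    ClLegal S (K.obs y (dmtT a)) := by
  have key : ∀ z ∈ S.C, z = y ∨ z ∈ K.Op ∪ K.Om ∪ K.Cl → S.sv z ⊆ K.Bp ∪ K.Bm := by
    rintro z hz (rfl | h')
    · exact hy.trans Finset.subset_union_left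
    · exact h.full z hz h'
  cases a
  · refine ⟨h.wp, h.wm, fun z hz hz' => key z hz ?_, h.eq⟩
    simp only [dmtT, ClCon.obs, Bool.false_eq_true, if_false, zero_ne_one, Finset.mem_union, Finset.mem_insert,
      show ((0 : ℤ) = -1) = False by simp] at hz' ⊢
    tauto
  · refine ⟨h.wp, h.wm, fun z hz hz' => key z hz ?_, h.eq⟩
    simp only [dmtT, ClCon.obs, if_true, Finset.mem_union, Finset.mem_insert] at hz' ⊢
    tauto

theorem dmt_le_obs (K₁ K₂ : ClCon V Y) (h : ClLe K₁ K₂) (y : Y) (a b : Bool) (hab : a ≤ b) :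
    ClLe (K₁.obs y (dmtT a)) (K₂.obs y (dmtT b)) := by
  obtain ⟨bp, bm, op, om, cl1, cl2, eq⟩ := h
  have e0 : ∀ K : ClCon V Y, K.obs y (dmtT false) = { K with Cl := insert y K.Cl } := by
    intro K; simp [dmtT, ClCon.obs]
  have e1 : ∀ K : ClCon V Y, K.obs y (dmtT true) = { K with Op := insert y K.Op } := by
    intro K; simp [dmtT, ClCon.obs]
  cases a <;> cases b
  · rw [e0, e0]
    refine ⟨bp, bm, op, om, ?_, ?_, eq⟩
    · intro z hz
      rcases Finset.mem_insert.1 hz with rfl | hz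
      · simp
      · have := cl1 hz; simp only [Finset.mem_union, Finset.mem_insert] at this ⊢; tauto
    · intro z hz
      rcases Finset.mem_insert.1 hz with rfl | hz
      · simp
      · have := cl2 hz; simp only [Finset.mem_union, Finset.mem_insert] at this ⊢; tauto
  · rw [e0, e1]
    refine ⟨bp, bm, op.trans (Finset.subset_insert _ _), om, ?_, ?_, eq⟩
    · intro z hz
      rcases Finset.mem_insert.1 hz with rfl | hz
      · simp
      · have := cl1 hz; simp only [Finset.mem_union, Finset.mem_insert] at this ⊢; tauto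
    · intro z hz
      have := cl2 hz; simp only [Finset.mem_union, Finset.mem_insert] at this ⊢; tauto
  · exact absurd hab (by decide)
  · rw [e1, e1]
    refine ⟨bp, bm, Finset.insert_subset_insert _ op, om, ?_, cl2, eq⟩
    intro z hz
    have := cl1 hz; simp only [Finset.mem_union, Finset.mem_insert] at this ⊢; tauto

theorem dmt_agree_obs (S : ClSys V Y) (K₁ K₂ : ClCon V Y) (O : Finset V) (h : ClAgree S K₁ K₂ O) (y : Y)
    (a b : Bool) (O' : Finset V) (hO : O ⊆ O') (hv : a = b ∨ S.sv y ⊆ O') :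
    ClAgree S (K₁.obs y (dmtT a)) (K₂.obs y (dmtT b)) O' := by
  have hc : ∀ y, ¬ S.sv y ⊆ O' → ¬ S.sv y ⊆ O := fun y hy h' => hy (h'.trans hO)
  have hs : ∀ w, w ∉ O' → w ∉ O := fun w hw h' => hw (hO h')
  have e0 : ∀ K : ClCon V Y, K.obs y (dmtT false) = { K with Cl := insert y K.Cl } := by
    intro K; simp [dmtT, ClCon.obs]
  have e1 : ∀ K : ClCon V Y, K.obs y (dmtT true) = { K with Op := insert y K.Op } := by
    intro K; simp [dmtT, ClCon.obs]
  have key : ∀ z ∈ S.C, ¬ S.sv z ⊆ O' →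
      ((z ∈ (K₁.obs y (dmtT a)).Op ↔ z ∈ (K₂.obs y (dmtT b)).Op) ∧
       (z ∈ (K₁.obs y (dmtT a)).Om ↔ z ∈ (K₂.obs y (dmtT b)).Om) ∧
       (z ∈ (K₁.obs y (dmtT a)).Cl ↔ z ∈ (K₂.obs y (dmtT b)).Cl)) := by
    intro z hz hz'
    have h1 := h.op z hz (hc z hz')
    have h2 := h.om z hz (hc z hz')
    have h3 := h.cl z hz (hc z hz')
    rcases hv with rfl | hv
    · cases a
      · simp only [e0, Finset.mem_insert]; tauto
      · simp only [e1, Finset.mem_insert]; tauto
    · have hne : z ≠ y := fun e => hz' (e ▸ hv)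
      cases a <;> cases b <;> simp only [e0, e1, Finset.mem_insert, hne, false_or] <;> tauto
  refine ⟨?_, ?_, fun z hz hz' => (key z hz hz').1, fun z hz hz' => (key z hz hz').2.1,
    fun z hz hz' => (key z hz hz').2.2⟩
  · intro w hw; have := h.bp w (hs w hw); cases a <;> cases b <;> simpa only [e0, e1] using this
  · intro w hw; have := h.bm w (hs w hw); cases a <;> cases b <;> simpa only [e0, e1] using this

theorem dmt_M_obs_le (S : ClSys V Y) (K : ClCon V Y) (y : Y) (a : Bool) :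
    dmtM S (K.obs y (dmtT a)) ≤ dmtM S K := by
  have e0 : ∀ K : ClCon V Y, K.obs y (dmtT false) = { K with Cl := insert y K.Cl } := by
    intro K; simp [dmtT, ClCon.obs]
  have e1 : ∀ K : ClCon V Y, K.obs y (dmtT true) = { K with Op := insert y K.Op } := by
    intro K; simp [dmtT, ClCon.obs]
  unfold dmtM
  have h1 : S.C \ ((K.obs y (dmtT a)).Op ∪ (K.obs y (dmtT a)).Om ∪ (K.obs y (dmtT a)).Cl) ⊆
      S.C \ (K.Op ∪ K.Om ∪ K.Cl) := by
    refine Finset.sdiff_subset_sdiff subset_rfl ?_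
    intro w hw
    cases a
    · simp only [e0, Finset.mem_union, Finset.mem_insert] at hw ⊢; tauto
    · simp only [e1, Finset.mem_union, Finset.mem_insert] at hw ⊢; tauto
  have h2 : (K.obs y (dmtT a)).Bp ∪ (K.obs y (dmtT a)).Bm = K.Bp ∪ K.Bm := by
    cases a
    · rw [e0]
    · rw [e1]
  rw [h2]
  exact Nat.add_le_add_left (Finset.card_le_card h1) _

theorem dmt_M_obs_lt (S : ClSys V Y) (K : ClCon V Y) (y : Y) (a : Bool) (hy : y ∈ S.C)
    (hn : y ∉ K.Op ∪ K.Om ∪ K.Cl) : dmtM S (K.obs y (dmtT a)) < dmtM S K := by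
  have e0 : ∀ K : ClCon V Y, K.obs y (dmtT false) = { K with Cl := insert y K.Cl } := by
    intro K; simp [dmtT, ClCon.obs]
  have e1 : ∀ K : ClCon V Y, K.obs y (dmtT true) = { K with Op := insert y K.Op } := by
    intro K; simp [dmtT, ClCon.obs]
  unfold dmtM
  have h1 : S.C \ ((K.obs y (dmtT a)).Op ∪ (K.obs y (dmtT a)).Om ∪ (K.obs y (dmtT a)).Cl) ⊂
      S.C \ (K.Op ∪ K.Om ∪ K.Cl) := by
    refine Finset.ssubset_iff_of_subset ?_ |>.2 ⟨y, Finset.mem_sdiff.2 ⟨hy, hn⟩, ?_⟩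
    · refine Finset.sdiff_subset_sdiff subset_rfl ?_
      intro w hw
      cases a
      · simp only [e0, Finset.mem_union, Finset.mem_insert] at hw ⊢; tauto
      · simp only [e1, Finset.mem_union, Finset.mem_insert] at hw ⊢; tauto
    · cases a
      · simp only [e0, Finset.mem_sdiff, Finset.mem_union, Finset.mem_insert]; tauto
      · simp only [e1, Finset.mem_sdiff, Finset.mem_union, Finset.mem_insert]; tauto
  have h2 : (K.obs y (dmtT a)).Bp ∪ (K.obs y (dmtT a)).Bm = K.Bp ∪ K.Bm := by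
    cases a
    · rw [e0]
    · rw [e1]
  rw [h2]
  exact Nat.add_lt_add_left (Finset.card_lt_card h1) _


theorem dmt_Z_congr (S : ClSys V Y) {L L' : ClCfg V Y → Prop} (h : ∀ ω, L ω ↔ L' ω) : S.Z L = S.Z L' := by
  have : L = L' := funext fun ω => propext (h ω)
  rw [this]

theorem dmt_agree_mono (S : ClSys V Y) (K₁ K₂ : ClCon V Y) (O O' : Finset V) (h : ClAgree S K₁ K₂ O)
    (hO : O ⊆ O') : ClAgree S K₁ K₂ O' :=
  ⟨fun v hv => h.bp v fun h' => hv (hO h'), fun v hv => h.bm v fun h' => hv (hO h'),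
    fun y hy hy' => h.op y hy fun h' => hy' (h'.trans hO), fun y hy hy' => h.om y hy fun h' => hy' (h'.trans hO),
    fun y hy hy' => h.cl y hy fun h' => hy' (h'.trans hO)⟩

theorem dmt_card_le (A O O' : Finset V) (hO : O ⊆ O') : (A \ O').card ≤ (A \ O).card :=
  Finset.card_le_card (Finset.sdiff_subset_sdiff subset_rfl hO)

theorem dmt_card_lt (A O O' : Finset V) (hO : O ⊆ O') (v : V) (hv : v ∈ A) (h1 : v ∉ O) (h2 : v ∈ O') :
    (A \ O').card < (A \ O).card :=
  Finset.card_lt_card ((Finset.ssubset_iff_of_subset (Finset.sdiff_subset_sdiff subset_rfl hO)).2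
    ⟨v, Finset.mem_sdiff.2 ⟨hv, h1⟩, fun h => (Finset.mem_sdiff.1 h).2 h2⟩)

theorem dmt_tau_ne (S : ClSys V Y) (ω : ClCfg V Y) (y : Y) (v : V) (hv : v ∈ S.sv y) (hB : v ∉ ω.B) :
    clTau S ω y ≠ clSg true := by
  have h : ¬ S.sv y ⊆ ω.B := fun h => hB (h hv)
  unfold clTau
  simp only [clSg, if_true, h, if_false]
  split_ifs <;> simp

/-- THE INDUCTION -/
theorem dmt_main (S : ClSys V Y) (hS : ClDisk S) (A : Finset V) (hA : A ⊆ S.A) (F : ClCfg V Y → ℝ)
    (hF : ClLoc A (S.cin A) F) (hb : ∀ ω, |F ω| ≤ 1) :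
    ∀ (n : ℕ) (K₁ K₂ : ClCon V Y) (O : Finset V), dmtM S K₁ + dmtM S K₂ + (S.A \ O).card = n →
      DmtInv S K₁ K₂ O → DmtC S A F K₁ K₂ O := by
  classical
  have hok : ClOk S := hS.toClOk
  intro n
  induction n using Nat.strong_induction_on with
  | _ n ih =>
  intro K₁ K₂ O hn hI
  -- (a)
  by_cases h0 : ∃ u ∈ O, u ∈ A
  · obtain ⟨u, hu, hu'⟩ := h0
    exact dmt_hit S hok A F hb K₁ K₂ O u hu hu'
  -- (b) the general enlargement
  have enl : ∀ T : Finset V, T ⊆ S.A → (∃ v ∈ T, v ∉ O) →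
      (∀ ω, K₁.Holds S ω → ∀ v ∈ T, ∃ u ∈ O, clStep S true K₁.Eq ω u v) → DmtC S A F K₁ K₂ O := by
    rintro T hT ⟨v, hv, hvO⟩ hstep
    refine dmt_enl S A F K₁ K₂ O T hstep (ih _ ?_ K₁ K₂ (O ∪ T) rfl
      ⟨hI.l1, hI.l2, hI.le, Finset.union_subset hI.sub hT,
        dmt_agree_mono S K₁ K₂ O _ hI.ag Finset.subset_union_left⟩)
    have := dmt_card_lt S.A O (O ∪ T) Finset.subset_union_left v (hT hv) hvO (Finset.mem_union_right _ hv)
    omega
  by_cases h1 : ∃ e ∈ K₁.Eq, ¬ (e.1 ∈ O ↔ e.2 ∈ O)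
  · obtain ⟨e, he, hne⟩ := h1
    obtain ⟨y, hy, ha, hb'⟩ := hI.l1.eq e he
    have ha' := hok.sub y hy ha
    have hb'' := hok.sub y hy hb'
    by_cases h1O : e.1 ∈ O
    · have h2O : e.2 ∉ O := fun h => hne ⟨fun _ => h, fun _ => h1O⟩
      refine enl {e.2} (Finset.singleton_subset_iff.2 hb'') ⟨e.2, Finset.mem_singleton_self _, h2O⟩ ?_
      intro ω _ v hv
      rw [Finset.mem_singleton.1 hv]
      exact ⟨e.1, h1O, Or.inr (Or.inl he)⟩
    · have h2O : e.2 ∈ O := by
        by_contra h; exact hne ⟨fun h' => absurd h' h1O, fun h' => absurd h' h⟩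
      refine enl {e.1} (Finset.singleton_subset_iff.2 ha') ⟨e.1, Finset.mem_singleton_self _, h1O⟩ ?_
      intro ω _ v hv
      rw [Finset.mem_singleton.1 hv]
      exact ⟨e.2, h2O, Or.inr (Or.inr he)⟩
  by_cases h2 : ∃ y ∈ S.C, (∃ u ∈ S.sv y, u ∈ O) ∧ ¬ S.sv y ⊆ O ∧ y ∉ K₁.Op
  · obtain ⟨y, hy, ⟨u, hu, huO⟩, hnsub, hnop⟩ := h2
    have hsvA := hok.sub y hy
    have hex : ∃ v ∈ S.sv y, v ∉ O := by
      by_contra h; push Not at h; exact hnsub h
    -- known non plus
    by_cases h3 : y ∈ K₁.Om ∨ y ∈ K₁.Cl ∨ ∃ w ∈ S.sv y, w ∈ K₁.Bm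
    · refine enl (S.sv y) hsvA hex ?_
      intro ω hω v hv
      refine ⟨u, huO, Or.inl ⟨y, hy, hu, hv, ?_⟩⟩
      rcases h3 with h3 | h3 | ⟨w, hw, hw'⟩
      · rw [hω.2.2.2.2.1 y h3]; simp [clSg]
      · rw [(dis_tau_zero S ω y).2 (hω.2.2.2.2.2.1 y h3)]; simp [clSg]
      · exact dmt_tau_ne S ω y w hw (hω.2.1 w hw')
    push Not at h3
    obtain ⟨hnom, hncl, hnbm⟩ := h3
    by_cases h4 : ∃ v ∈ S.sv y, v ∉ K₁.Bp
    · -- query a site
      obtain ⟨v, hv, hvp⟩ := h4
      have hvm := hnbm v hv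
      unfold DmtC
      refine dmt_query S hok (K₁.Holds S) (K₂.Holds S) (fun ω => decide (v ∈ ω.B)) _ _ ?_ ?_
      · intro f hf
        refine dis_order S hS K₁ K₂ hI.l1 hI.l2 hI.le (fun ω => f (decide (v ∈ ω.B))) ?_
        intro ω ω' hB _
        refine hf ?_
        by_cases hvB : v ∈ ω.B
        · simp [hvB, hB hvB]
        · simp [hvB]
      · intro a b hab
        rw [dmt_N_congr S (dmt_holds_pin S K₁ v a), dmt_N_congr S (dmt_holds_pin S K₂ v b),
          dmt_Z_congr S (dmt_holds_pin S K₁ v a), dmt_Z_congr S (dmt_holds_pin S K₂ v b)]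
        have m1 := dmt_M_pin_lt S K₁ v a (hsvA hv) hvp hvm
        have m2 := dmt_M_pin_le S K₂ v b
        have goal : DmtC S A F (K₁.pin v a) (K₂.pin v b) O := by
          by_cases hab' : a = b
          · exact ih _ (by omega) _ _ O rfl ⟨dmt_legal_pin S K₁ hI.l1 v a, dmt_legal_pin S K₂ hI.l2 v b,
              dmt_le_pin K₁ K₂ hI.le v a b hab, hI.sub,
              dmt_agree_pin S K₁ K₂ O hI.ag v a b O subset_rfl (Or.inl hab')⟩
          · have ha : a = false := by
              cases a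
              · rfl
              · cases b
                · exact absurd hab (by decide)
                · exact absurd rfl hab'
            refine dmt_enl S A F _ _ O {v} ?_ (ih _ ?_ _ _ (O ∪ {v}) rfl
              ⟨dmt_legal_pin S K₁ hI.l1 v a, dmt_legal_pin S K₂ hI.l2 v b,
              dmt_le_pin K₁ K₂ hI.le v a b hab,
              Finset.union_subset hI.sub (Finset.singleton_subset_iff.2 (hsvA hv)),
              dmt_agree_pin S K₁ K₂ O hI.ag v a b _ Finset.subset_union_left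
                (Or.inr (Finset.mem_union_right _ (Finset.mem_singleton_self _)))⟩)
            · intro ω hω w hw
              rw [Finset.mem_singleton.1 hw]
              subst ha
              have hvB := ((dis_holds_pin_false S K₁ v ω).1 hω).2
              exact ⟨u, huO, Or.inl ⟨y, hy, hu, hv, dmt_tau_ne S ω y v hv hvB⟩⟩
            · have := dmt_card_le S.A O (O ∪ {v}) Finset.subset_union_left
              omega
        unfold DmtC at goal
        rw [dmt_pin_eq] at goal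
        exact goal
    · -- query the status
      push Not at h4
      have hy1 : S.sv y ⊆ K₁.Bp := h4
      have hy2 : S.sv y ⊆ K₂.Bp := hy1.trans hI.le.bp
      have hun : y ∉ K₁.Op ∪ K₁.Om ∪ K₁.Cl := by
        simp only [Finset.mem_union]; tauto
      unfold DmtC
      refine dmt_query S hok (K₁.Holds S) (K₂.Holds S) (fun ω => decide (clTau S ω y = 1)) _ _ ?_ ?_
      · intro f hf
        refine dis_order S hS K₁ K₂ hI.l1 hI.l2 hI.le (fun ω => f (decide (clTau S ω y = 1))) ?_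
        intro ω ω' _ ht
        refine hf ?_
        have h5 := ht y hy
        by_cases h6 : clTau S ω y = 1
        · have h7 : clTau S ω' y = 1 := by
            rcases dis_tau_cases S ω' y with h | h | h <;> omega
          simp [h6, h7]
        · simp [h6]
      · intro a b hab
        rw [dmt_N_congr S (dmt_holds_obs S K₁ y hy1 a), dmt_N_congr S (dmt_holds_obs S K₂ y hy2 b),
          dmt_Z_congr S (dmt_holds_obs S K₁ y hy1 a), dmt_Z_congr S (dmt_holds_obs S K₂ y hy2 b)]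
        have m1 := dmt_M_obs_lt S K₁ y a hy hun
        have m2 := dmt_M_obs_le S K₂ y b
        have goal : DmtC S A F (K₁.obs y (dmtT a)) (K₂.obs y (dmtT b)) O := by
          by_cases hab' : a = b
          · exact ih _ (by omega) _ _ O rfl ⟨dmt_legal_obs S K₁ hI.l1 y hy1 a, dmt_legal_obs S K₂ hI.l2 y hy2 b,
              dmt_le_obs K₁ K₂ hI.le y a b hab, hI.sub,
              dmt_agree_obs S K₁ K₂ O hI.ag y a b O subset_rfl (Or.inl hab')⟩
          · have ha : a = false := by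
              cases a
              · rfl
              · cases b
                · exact absurd hab (by decide)
                · exact absurd rfl hab'
            refine dmt_enl S A F _ _ O (S.sv y) ?_ (ih _ ?_ _ _ (O ∪ S.sv y) rfl
              ⟨dmt_legal_obs S K₁ hI.l1 y hy1 a, dmt_legal_obs S K₂ hI.l2 y hy2 b,
              dmt_le_obs K₁ K₂ hI.le y a b hab, Finset.union_subset hI.sub hsvA,
              dmt_agree_obs S K₁ K₂ O hI.ag y a b _ Finset.subset_union_left
                (Or.inr Finset.subset_union_right)⟩)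
            · intro ω hω w hw
              subst ha
              have ht : clTau S ω y = 0 := by
                have := (dis_holds_obs_zero S K₁ y ω).1 (by simpa [dmtT] using hω)
                exact this.2
              refine ⟨u, huO, Or.inl ⟨y, hy, hu, hw, ?_⟩⟩
              rw [ht]; simp [clSg]
            · have := dmt_card_le S.A O (O ∪ S.sv y) Finset.subset_union_left
              omega
        unfold DmtC at goal
        rw [dmt_obs_eq] at goal
        exact goal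
  · -- (d)
    push Not at h0 h1 h2
    exact dmt_term S hok A hA F hF K₁ K₂ O hI h0 h1 h2

/-- (M) MATCHING: replaces TEX[discrete:online], the exploration paragraphs and both halves of TEX[prop:local-mixing].  OWNER 146.
PLAN: induction on the number of unobserved coordinates; query one coordinate of a cell touching the known invaded set;
`dis_envelope` + `dis_order` + total probability; at the end `dis_cut_law`. -/
theorem dis_match (S : ClSys V Y) (hS : ClDisk S) (K₁ K₂ : ClCon V Y) (h₁ : ClLegal S K₁) (h₂ : ClLegal S K₂)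
    (hle : ClLe K₁ K₂) (f₁ : 0 < S.Z (K₁.Holds S)) (f₂ : 0 < S.Z (K₂.Holds S))
    (O A : Finset V) (hO : O ⊆ S.A) (hA : A ⊆ S.A) (hag : ClAgree S K₁ K₂ O)
    (F : ClCfg V Y → ℝ) (hF : ClLoc A (S.cin A) F) (hb : ∀ ω, |F ω| ≤ 1) :
    |S.E (K₁.Holds S) F - S.E (K₂.Holds S) F| ≤ 2 * S.P (K₁.Holds S) (fun ω => ¬ ClSep S true K₁.Eq ω O A) := by
  classical
  have hI : DmtInv S K₁ K₂ O := ⟨h₁, h₂, hle, hO, hag⟩
  have c1 := dmt_main S hS A hA F hF hb _ K₁ K₂ O rfl hI
  have c2 := dmt_main S hS A hA (fun ω => (-1) * F ω) (fun ω ω' a b c => by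
      show (-1) * F ω = (-1) * F ω'
      rw [hF ω ω' a b c])
    (fun ω => by rw [neg_one_mul, abs_neg]; exact hb ω) _ K₁ K₂ O rfl hI
  unfold DmtC dmtX at c1 c2
  rw [dmt_N_sub, dmt_N_smul] at c1 c2
  rw [dmt_N_smul, dmt_N_smul] at c2
  set n1 := S.N (K₁.Holds S) F
  set n2 := S.N (K₂.Holds S) F
  set z1 := S.Z (K₁.Holds S)
  set z2 := S.Z (K₂.Holds S)
  set p := S.N (K₁.Holds S) (fun ω => if ¬ ClSep S true K₁.Eq ω O A then (1 : ℝ) else 0)
  have fin : |n1 / z1 - n2 / z2| ≤ 2 * (p / z1) := by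
    have e : n1 / z1 - n2 / z2 = (n1 * z2 - z1 * n2) / (z1 * z2) := by field_simp
    have e2 : 2 * (p / z1) = (2 * p * z2) / (z1 * z2) := by field_simp
    rw [e, e2, abs_div, abs_of_pos (mul_pos f₁ f₂)]
    refine div_le_div_of_nonneg_right ?_ (mul_pos f₁ f₂).le
    rw [abs_le]
    constructor <;> nlinarith
  unfold ClSys.P
  rw [dis_E_eq, dis_E_eq, dis_E_eq]
  convert fin

/-! ### 4b. THE B-FLIP (kit `dfl_`, helper182): every mirror statement (minus cuts, `Sep_-`) follows from its plus version -/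

/-- flip of the first spin (`= ω.flipB S.A` of Defs/Cut, by `rfl`) -/
def ClSys.flipB (S : ClSys V Y) (ω : ClCfg V Y) : ClCfg V Y := ⟨S.A \ ω.B, ω.W, ω.O⟩

/-- flip of a constraint (minus pins off `S.A` are void and are dropped) -/
def ClCon.flipB (K : ClCon V Y) (S : ClSys V Y) : ClCon V Y :=
  { K with Bp := K.Bm ∩ S.A, Bm := K.Bp, Op := K.Om, Om := K.Op }

theorem dfl_mem (S : ClSys V Y) {ω : ClCfg V Y} (h : ω ∈ S.cfgs) : S.flipB ω ∈ S.cfgs := by
  rw [cl_mem_cfgs] at h ⊢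
  exact ⟨Finset.sdiff_subset, h.2.1, h.2.2⟩

theorem dfl_invol (S : ClSys V Y) {ω : ClCfg V Y} (h : ω ∈ S.cfgs) : S.flipB (S.flipB ω) = ω := by
  rw [cl_mem_cfgs] at h
  ext v
  · simp only [ClSys.flipB, Finset.mem_sdiff]
    constructor
    · rintro ⟨h1, h2⟩; by_contra h3; exact h2 ⟨h1, h3⟩
    · intro h1; exact ⟨h.1 h1, fun h2 => h2.2 h1⟩
  · rfl
  · rfl

theorem dfl_const (S : ClSys V Y) (hS : ClOk S) (B : Finset V) {y : Y} (hy : y ∈ S.C) :
    ClConst (S.A \ B) (S.sv y) ↔ ClConst B (S.sv y) := by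
  have hs := hS.sub y hy
  unfold ClConst
  constructor
  · rintro (h | h)
    · exact Or.inr fun v hv => (Finset.mem_sdiff.1 (h hv)).2
    · refine Or.inl fun v hv => ?_
      by_contra h1; exact h v hv (Finset.mem_sdiff.2 ⟨hs hv, h1⟩)
  · rintro (h | h)
    · exact Or.inr fun v hv h1 => (Finset.mem_sdiff.1 h1).2 (h hv)
    · exact Or.inl fun v hv => Finset.mem_sdiff.2 ⟨hs hv, h v hv⟩

theorem dfl_wt (S : ClSys V Y) (hS : ClOk S) (ω : ClCfg V Y) : S.wt (S.flipB ω) = S.wt ω := by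
  unfold ClSys.wt
  refine Finset.prod_congr rfl fun y hy => ?_
  have h := dfl_const S hS ω.B hy
  simp only [ClSys.flipB, clCellW, h]

/-- a configuration of nonzero weight: an open cell has constant first spin -/
theorem dfl_open_const (S : ClSys V Y) {ω : ClCfg V Y} (hw : S.wt ω ≠ 0) {y : Y} (hy : y ∈ S.C) (ho : y ∈ ω.O) :
    ClConst ω.B (S.sv y) := by
  by_contra h
  refine hw (Finset.prod_eq_zero hy ?_)
  simp only [clCellW, ho, if_true, h, if_false]

theorem dfl_tau (S : ClSys V Y) (hS : ClOk S) {ω : ClCfg V Y} (hm : ω ∈ S.cfgs) (hw : S.wt ω ≠ 0) (y : Y) :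
    clTau S (S.flipB ω) y = - clTau S ω y := by
  by_cases ho : y ∈ ω.O
  · have hy : y ∈ S.C := ((cl_mem_cfgs S ω).1 hm).2.2 ho
    obtain ⟨v, hv⟩ := hS.ne y hy
    have hs := hS.sub y hy
    rcases dfl_open_const S hw hy ho with h | h
    · have h1 : ¬ S.sv y ⊆ S.A \ ω.B := fun h2 => (Finset.mem_sdiff.1 (h2 hv)).2 (h hv)
      simp only [clTau, ClSys.flipB, ho, if_true, h, h1, if_false]
    · have h1 : S.sv y ⊆ S.A \ ω.B := fun u hu => Finset.mem_sdiff.2 ⟨hs hu, h u hu⟩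
      have h2 : ¬ S.sv y ⊆ ω.B := fun h2 => h v hv (h2 hv)
      simp only [clTau, ClSys.flipB, ho, if_true, h1, h2, if_false, neg_neg]
  · simp only [clTau, ClSys.flipB, ho, if_false, neg_zero]

theorem dfl_holds (S : ClSys V Y) (hS : ClOk S) (K : ClCon V Y) (hK : K.Bp ⊆ S.A) {ω : ClCfg V Y}
    (hm : ω ∈ S.cfgs) (hw : S.wt ω ≠ 0) : (K.flipB S).Holds S (S.flipB ω) ↔ K.Holds S ω := by
  have ht := dfl_tau S hS hm hw
  simp only [ClCon.Holds, ht]
  simp only [ClCon.flipB, ClSys.flipB]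
  have e1 : K.Bm ∩ S.A ⊆ S.A \ ω.B ↔ ∀ v ∈ K.Bm, v ∉ ω.B := by
    constructor
    · intro h v hv hv'
      have hA : v ∈ S.A := ((cl_mem_cfgs S ω).1 hm).1 hv'
      exact (Finset.mem_sdiff.1 (h (Finset.mem_inter.2 ⟨hv, hA⟩))).2 hv'
    · intro h v hv
      obtain ⟨h1, h2⟩ := Finset.mem_inter.1 hv
      exact Finset.mem_sdiff.2 ⟨h2, h v h1⟩
  have e2 : (∀ v ∈ K.Bp, v ∉ S.A \ ω.B) ↔ K.Bp ⊆ ω.B := by
    constructor
    · intro h v hv
      by_contra h1; exact h v hv (Finset.mem_sdiff.2 ⟨hK hv, h1⟩)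
    · intro h v hv h1
      exact (Finset.mem_sdiff.1 h1).2 (h hv)
  have e3 : (∀ y ∈ K.Om, - clTau S ω y = 1) ↔ ∀ y ∈ K.Om, clTau S ω y = -1 :=
    forall₂_congr fun y _ => by constructor <;> intro h <;> omega
  have e4 : (∀ y ∈ K.Op, - clTau S ω y = -1) ↔ ∀ y ∈ K.Op, clTau S ω y = 1 :=
    forall₂_congr fun y _ => by constructor <;> intro h <;> omega
  rw [e1, e2, e3, e4]
  tauto

/-- change of variables `ω ↦ flip ω` in an unnormalised expectation -/
theorem dfl_N (S : ClSys V Y) (hS : ClOk S) (L L' : ClCfg V Y → Prop) (G G' : ClCfg V Y → ℝ)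
    (hL : ∀ ω ∈ S.cfgs, S.wt ω ≠ 0 → (L' (S.flipB ω) ↔ L ω))
    (hG : ∀ ω ∈ S.cfgs, S.wt ω ≠ 0 → L ω → G' (S.flipB ω) = G ω) : S.N L' G' = S.N L G := by
  classical
  unfold ClSys.N
  refine Finset.sum_nbij' (fun ω => S.flipB ω) (fun ω => S.flipB ω) (fun ω h => dfl_mem S h)
    (fun ω h => dfl_mem S h) (fun ω h => dfl_invol S h) (fun ω h => dfl_invol S h) ?_
  intro ω hω
  have hm := dfl_mem S hω
  have hi := dfl_invol S hω
  have hwt := dfl_wt S hS ω
  by_cases hw : S.wt ω = 0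
  · simp [hwt, hw]
  · have hw' : S.wt (S.flipB ω) ≠ 0 := by rw [hwt]; exact hw
    have h1 := hL _ hm hw'
    rw [hi] at h1
    by_cases hl : L (S.flipB ω)
    · have h2 := hG _ hm hw' hl
      rw [hi] at h2
      rw [if_pos (h1.2 hl), if_pos hl, hwt, h2]
    · rw [if_neg (fun h => hl (h1.1 h)), if_neg hl]

theorem dfl_step (S : ClSys V Y) (hS : ClOk S) (s : Bool) (E : Finset (V × V)) {ω : ClCfg V Y}
    (hm : ω ∈ S.cfgs) (hw : S.wt ω ≠ 0) (u v : V) :
    clStep S (!s) E (S.flipB ω) u v ↔ clStep S s E ω u v := by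
  have ht := dfl_tau S hS hm hw
  unfold clStep
  simp only [ht]
  have e : ∀ y, (- clTau S ω y ≠ clSg (!s)) ↔ clTau S ω y ≠ clSg s := by
    intro y
    cases s <;> simp only [clSg, Bool.not_false, Bool.not_true, if_true, Bool.false_eq_true, if_false, ne_eq] <;>
      constructor <;> intro h h' <;> apply h <;> omega
  simp only [e]

theorem dfl_sep (S : ClSys V Y) (hS : ClOk S) (s : Bool) (E : Finset (V × V)) {ω : ClCfg V Y}
    (hm : ω ∈ S.cfgs) (hw : S.wt ω ≠ 0) (O A : Finset V) :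
    ClSep S (!s) E (S.flipB ω) O A ↔ ClSep S s E ω O A := by
  have h : clStep S (!s) E (S.flipB ω) = clStep S s E ω := by
    funext u v; exact propext (dfl_step S hS s E hm hw u v)
  unfold ClSep
  rw [h]

theorem dfl_legal (S : ClSys V Y) (hS : ClOk S) (K : ClCon V Y) (hK : ClLegal S K) : ClLegal S (K.flipB S) := by
  refine ⟨hK.wp, hK.wm, ?_, hK.eq⟩
  intro y hy hy' v hv
  have h1 : y ∈ K.Op ∪ K.Om ∪ K.Cl := by
    simp only [ClCon.flipB, Finset.mem_union] at hy' ⊢; tauto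
  have h2 := hK.full y hy h1 hv
  have h3 := hS.sub y hy hv
  simp only [ClCon.flipB, Finset.mem_union, Finset.mem_inter] at h2 ⊢
  tauto

theorem dfl_le (S : ClSys V Y) (K₁ K₂ : ClCon V Y) (h : ClLe K₁ K₂) : ClLe (K₂.flipB S) (K₁.flipB S) :=
  ⟨Finset.inter_subset_inter_right h.bm, h.bp, h.om, h.op, h.cl2, h.cl1, h.eq.symm⟩

theorem dfl_agree (S : ClSys V Y) (K₁ K₂ : ClCon V Y) (O : Finset V) (h : ClAgree S K₁ K₂ O) :
    ClAgree S (K₂.flipB S) (K₁.flipB S) O := by
  refine ⟨fun v hv => ?_, fun v hv => (h.bp v hv).symm, fun y hy hy' => (h.om y hy hy').symm,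
    fun y hy hy' => (h.op y hy hy').symm, fun y hy hy' => (h.cl y hy hy').symm⟩
  have := h.bm v hv
  simp only [ClCon.flipB, Finset.mem_inter]
  tauto

theorem dfl_loc (S : ClSys V Y) (T : Finset V) (T' : Finset Y) (F : ClCfg V Y → ℝ) (hF : ClLoc T T' F) :
    ClLoc T T' (fun ω => F (S.flipB ω)) := by
  intro ω ω' hB hW hO
  refine hF _ _ ?_ hW hO
  ext v
  have := Finset.ext_iff.1 hB v
  simp only [ClSys.flipB, Finset.mem_inter, Finset.mem_sdiff] at this ⊢
  tauto

/-- a feasible constraint has its plus pins in `S.A` -/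
theorem dfl_bp_sub (S : ClSys V Y) (K : ClCon V Y) (h : 0 < S.Z (K.Holds S)) : K.Bp ⊆ S.A := by
  classical
  by_contra hc
  refine absurd h (not_lt.2 (le_of_eq ?_))
  unfold ClSys.Z
  refine Finset.sum_eq_zero fun ω hω => if_neg fun hh => hc ?_
  exact hh.1.trans ((cl_mem_cfgs S ω).1 hω).1

theorem dfl_N_con (S : ClSys V Y) (hS : ClOk S) (K : ClCon V Y) (hK : K.Bp ⊆ S.A) (G G' : ClCfg V Y → ℝ)
    (hG : ∀ ω ∈ S.cfgs, S.wt ω ≠ 0 → G' (S.flipB ω) = G ω) :
    S.N ((K.flipB S).Holds S) G' = S.N (K.Holds S) G :=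
  dfl_N S hS _ _ _ _ (fun _ hm hw => dfl_holds S hS K hK hm hw) (fun ω hm hw _ => hG ω hm hw)

theorem dfl_E_con (S : ClSys V Y) (hS : ClOk S) (K : ClCon V Y) (hK : K.Bp ⊆ S.A) (G G' : ClCfg V Y → ℝ)
    (hG : ∀ ω ∈ S.cfgs, S.wt ω ≠ 0 → G' (S.flipB ω) = G ω) :
    S.E ((K.flipB S).Holds S) G' = S.E (K.Holds S) G := by
  rw [dis_E_eq, dis_E_eq, dis_Z_eq, dis_Z_eq, dfl_N_con S hS K hK G G' hG,
    dfl_N_con S hS K hK (fun _ => 1) (fun _ => 1) (fun _ _ _ => rfl)]

/-- (M), mirror image: search for a minus cut in the UPPER law.  OWNER 146. -/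
theorem dis_match' (S : ClSys V Y) (hS : ClDisk S) (K₁ K₂ : ClCon V Y) (h₁ : ClLegal S K₁) (h₂ : ClLegal S K₂)
    (hle : ClLe K₁ K₂) (f₁ : 0 < S.Z (K₁.Holds S)) (f₂ : 0 < S.Z (K₂.Holds S))
    (O A : Finset V) (hO : O ⊆ S.A) (hA : A ⊆ S.A) (hag : ClAgree S K₁ K₂ O)
    (F : ClCfg V Y → ℝ) (hF : ClLoc A (S.cin A) F) (hb : ∀ ω, |F ω| ≤ 1) :
    |S.E (K₁.Holds S) F - S.E (K₂.Holds S) F| ≤ 2 * S.P (K₂.Holds S) (fun ω => ¬ ClSep S false K₂.Eq ω O A) := by
  classical
  have hok : ClOk S := hS.toClOk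
  have b₁ := dfl_bp_sub S K₁ f₁
  have b₂ := dfl_bp_sub S K₂ f₂
  have z : ∀ K : ClCon V Y, K.Bp ⊆ S.A → S.Z ((K.flipB S).Holds S) = S.Z (K.Holds S) := fun K hK => by
    rw [dis_Z_eq, dis_Z_eq, dfl_N_con S hok K hK (fun _ => 1) (fun _ => 1) (fun _ _ _ => rfl)]
  have key := dis_match S hS (K₂.flipB S) (K₁.flipB S) (dfl_legal S hok K₂ h₂) (dfl_legal S hok K₁ h₁)
    (dfl_le S K₁ K₂ hle) (by rw [z K₂ b₂]; exact f₂) (by rw [z K₁ b₁]; exact f₁) O A hO hA
    (dfl_agree S K₁ K₂ O hag) (fun ω => F (S.flipB ω)) (dfl_loc S _ _ F hF) (fun ω => hb _)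
  have e : ∀ K : ClCon V Y, K.Bp ⊆ S.A → S.E ((K.flipB S).Holds S) (fun ω => F (S.flipB ω)) = S.E (K.Holds S) F :=
    fun K hK => dfl_E_con S hok K hK _ _ (fun ω hm _ => by rw [dfl_invol S hm])
  have p : S.P ((K₂.flipB S).Holds S) (fun ω => ¬ ClSep S true (K₂.flipB S).Eq ω O A) =
      S.P (K₂.Holds S) (fun ω => ¬ ClSep S false K₂.Eq ω O A) := by
    unfold ClSys.P
    refine dfl_E_con S hok K₂ b₂ _ _ (fun ω hm hw => ?_)
    have := dfl_sep S hok false K₂.Eq hm hw O A
    simp only [Bool.not_false] at this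
    by_cases hc : ClSep S false K₂.Eq ω O A
    · exact (if_neg (not_not.2 (this.2 hc))).trans (if_neg (not_not.2 hc)).symm
    · exact (if_pos (fun h => hc (this.1 h))).trans (if_pos hc).symm
  rw [e K₂ b₂, e K₁ b₁, p, abs_sub_comm] at key
  exact key

theorem dis_ext_refl (K : ClCon V Y) : ClExt K K ∅ ∅ := by
  constructor <;> simp

theorem dis_ext_pin {K K' : ClCon V Y} {v : V} {s : Bool} {P : Finset V} {Q : Finset Y}
    (h : ClExt (K.pin v s) K' P Q) : ClExt K K' (insert v P) Q := by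
  obtain ⟨⟨a1, a2⟩, ⟨b1, b2⟩, c, d, e, f, g, i, j, k⟩ := h
  cases s
  · simp only [ClCon.pin, Bool.false_eq_true, if_false] at a1 a2 b1 b2 c d e i j k
    refine ⟨⟨a1, a2.trans (Finset.union_subset_union_right (Finset.subset_insert _ _))⟩,
      ⟨(Finset.subset_insert _ _).trans b1, b2.trans ?_⟩, c, d, e, ?_, g, i, j, k⟩
    · intro x hx
      simp only [Finset.mem_union, Finset.mem_insert] at hx ⊢
      tauto
    · intro x hx
      rcases Finset.mem_insert.1 hx with rfl | hx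
      · exact Finset.mem_union_right _ (b1 (Finset.mem_insert_self _ _))
      · exact f hx
  · simp only [ClCon.pin, if_true] at a1 a2 b1 b2 c d e i j k
    refine ⟨⟨(Finset.subset_insert _ _).trans a1, a2.trans ?_⟩,
      ⟨b1, b2.trans (Finset.union_subset_union_right (Finset.subset_insert _ _))⟩, c, d, e, ?_, g, i, j, k⟩
    · intro x hx
      simp only [Finset.mem_union, Finset.mem_insert] at hx ⊢
      tauto
    · intro x hx
      rcases Finset.mem_insert.1 hx with rfl | hx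
      · exact Finset.mem_union_left _ (a1 (Finset.mem_insert_self _ _))
      · exact f hx

theorem dis_ext_obs {K K' : ClCon V Y} {y : Y} {t : ℤ} {P : Finset V} {Q : Finset Y}
    (h : ClExt (K.obs y t) K' P Q) : ClExt K K' P (insert y Q) := by
  obtain ⟨a, b, ⟨c1, c2⟩, ⟨d1, d2⟩, ⟨e1, e2⟩, f, g, i, j, k⟩ := h
  have hm : ∀ (X Z : Finset Y), Z ⊆ X ∪ Q → Z ⊆ X ∪ insert y Q := fun X Z h =>
    h.trans (Finset.union_subset_union_right (Finset.subset_insert _ _))
  have hi : ∀ (X Z : Finset Y), Z ⊆ insert y X ∪ Q → Z ⊆ X ∪ insert y Q := fun X Z h x hx => by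
    have := h hx
    simp only [Finset.mem_union, Finset.mem_insert] at this ⊢
    tauto
  unfold ClCon.obs at a b c1 c2 d1 d2 e1 e2 i j k
  split_ifs at a b c1 c2 d1 d2 e1 e2 i j k
  · refine ⟨a, b, ⟨(Finset.subset_insert _ _).trans c1, hi _ _ c2⟩, ⟨d1, hm _ _ d2⟩, ⟨e1, hm _ _ e2⟩, f, ?_, i, j, k⟩
    intro x hx
    rcases Finset.mem_insert.1 hx with rfl | hx
    · exact Finset.mem_union_left _ (Finset.mem_union_left _ (c1 (Finset.mem_insert_self _ _)))
    · exact g hx
  · refine ⟨a, b, ⟨c1, hm _ _ c2⟩, ⟨(Finset.subset_insert _ _).trans d1, hi _ _ d2⟩, ⟨e1, hm _ _ e2⟩, f, ?_, i, j, k⟩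
    intro x hx
    rcases Finset.mem_insert.1 hx with rfl | hx
    · exact Finset.mem_union_left _ (Finset.mem_union_right _ (d1 (Finset.mem_insert_self _ _)))
    · exact g hx
  · refine ⟨a, b, ⟨c1, hm _ _ c2⟩, ⟨d1, hm _ _ d2⟩, ⟨(Finset.subset_insert _ _).trans e1, hi _ _ e2⟩, f, ?_, i, j, k⟩
    intro x hx
    rcases Finset.mem_insert.1 hx with rfl | hx
    · exact Finset.mem_union_right _ (e1 (Finset.mem_insert_self _ _))
    · exact g hx

/-- (GCP) conditioning principle: a linear inequality which holds under every complete observation of `(P, Q)` holds.  OWNER 141.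
PLAN: induction on `P`, then on `Q`, with `dis_tot_pin`, `dis_tot_obs`. -/
theorem dis_cond (S : ClSys V Y) (K : ClCon V Y) (P : Finset V) (Q : Finset Y) (X X' : ClCfg V Y → ℝ)
    (h : ∀ K' : ClCon V Y, ClExt K K' P Q → S.N (K'.Holds S) X ≤ S.N (K'.Holds S) X') :
    S.N (K.Holds S) X ≤ S.N (K.Holds S) X' := by
  induction P using Finset.induction_on generalizing K with
  | empty =>
    induction Q using Finset.induction_on generalizing K with
    | empty => exact h K (dis_ext_refl K)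
    | insert y Q _ ih =>
      rw [dis_tot_obs S K y X, dis_tot_obs S K y X']
      have h1 := ih (K.obs y 1) fun K' hK' => h K' (dis_ext_obs hK')
      have h2 := ih (K.obs y (-1)) fun K' hK' => h K' (dis_ext_obs hK')
      have h3 := ih (K.obs y 0) fun K' hK' => h K' (dis_ext_obs hK')
      linarith
  | insert v P _ ih =>
    rw [dis_tot_pin S K v X, dis_tot_pin S K v X']
    have h1 := ih (K.pin v true) fun K' hK' => h K' (dis_ext_pin hK')
    have h2 := ih (K.pin v false) fun K' hK' => h K' (dis_ext_pin hK')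
    linarith

/-- (FEAS) local criterion of feasibility.  OWNER 62.
PLAN: `W = ∅`, `B = K.Bp`, unobserved cells open iff `B` is constant on them. -/
theorem dis_feas (S : ClSys V Y) (hS : ClOk S) (K : ClCon V Y) (hK : ClLegal S K) (hf : ClFeas S K) :
    0 < S.Z (K.Holds S) := by
  classical
  set O₀ : Finset Y := S.C.filter (fun y => y ∉ K.Cl ∧ ClConst K.Bp (S.sv y)) with hO₀
  set ω₀ : ClCfg V Y := ⟨K.Bp, ∅, O₀⟩ with hω₀
  have hmem : ω₀ ∈ S.cfgs := by
    rw [cl_mem_cfgs]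
    exact ⟨hf.bpA, Finset.empty_subset _, Finset.filter_subset _ _⟩
  have hholds : K.Holds S ω₀ := by
    refine ⟨subset_rfl, fun v hv hv' => Finset.disjoint_left.1 hf.dis hv' hv, fun e _ => by simp [hω₀], ?_, ?_, ?_,
      by simp [hK.wp], by simp [hK.wm]⟩
    · intro y hy
      have h1 : y ∈ O₀ := Finset.mem_filter.2 ⟨hf.opC hy, Finset.disjoint_left.1 hf.d2 hy, Or.inl (hf.op y hy)⟩
      simp only [clTau, hω₀, h1, if_true, hf.op y hy]
    · intro y hy
      have h2 : ∀ v ∈ S.sv y, v ∉ K.Bp := fun v hv hv' => Finset.disjoint_left.1 hf.dis hv' (hf.om y hy hv)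
      have h1 : y ∈ O₀ := Finset.mem_filter.2 ⟨hf.omC hy, Finset.disjoint_left.1 hf.d3 hy, Or.inr h2⟩
      have h3 : ¬ S.sv y ⊆ K.Bp := by
        obtain ⟨v, hv⟩ := hS.ne y (hf.omC hy)
        exact fun h => h2 v hv (h hv)
      simp only [clTau, hω₀, h1, if_true, h3, if_false]
    · intro y hy h
      exact (Finset.mem_filter.1 h).2.1 hy
  have hpos : 0 < S.wt ω₀ := by
    refine Finset.prod_pos fun y hy => ?_
    have hw : ClConst (∅ : Finset V) (S.sv y) := Or.inr (fun v _ => by simp)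
    have q0 := hS.q0 y hy
    by_cases hb : ClConst K.Bp (S.sv y)
    · by_cases hc : y ∈ K.Cl
      · have h1 : y ∉ O₀ := fun h => (Finset.mem_filter.1 h).2.1 hc
        have h2 : S.q y < 1 := by
          refine hf.cl y hc hy ?_
          rcases hb with hb | hb
          · exact Or.inl hb
          · refine Or.inr fun v hv => ?_
            have := hK.full y hy (by simp [hc]) hv
            rcases Finset.mem_union.1 this with h | h
            · exact absurd h (hb v hv)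
            · exact h
        simp only [clCellW, hω₀, h1, if_false, hw, if_true, hb]
        linarith
      · have h1 : y ∈ O₀ := Finset.mem_filter.2 ⟨hy, hc, hb⟩
        simp only [clCellW, hω₀, h1, if_true, hb]
        exact q0
    · have h1 : y ∉ O₀ := fun h => hb (Finset.mem_filter.1 h).2.2
      simp only [clCellW, hω₀, h1, if_false, hw, if_true, hb]
      exact q0
  unfold ClSys.Z
  refine Finset.sum_pos' (fun ω _ => ?_) ⟨ω₀, hmem, by rw [if_pos hholds]; exact hpos⟩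
  split_ifs
  · exact dis_wt_nonneg S hS ω
  · exact le_rfl

/-- one step of the `W`-component graph: through a closed cell, or along an equality edge -/
def clWStep (S : ClSys V Y) (E : Finset (V × V)) (O : Finset Y) (u v : V) : Prop :=
  (∃ y ∈ S.C, y ∉ O ∧ u ∈ S.sv y ∧ v ∈ S.sv y) ∨ (u, v) ∈ E ∨ (v, u) ∈ E

open Classical in
/-- the union of the `W`-components which meet `C` -/
noncomputable def clWSat (S : ClSys V Y) (E : Finset (V × V)) (O : Finset Y) (C : Finset V) : Finset V :=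
  S.A.filter (fun v => ∃ u ∈ C, Relation.ReflTransGen (clWStep S E O) u v)

theorem dis_rtg_iff {r : V → V → Prop} {W : Finset V} (hW : ∀ u v, r u v → (u ∈ W ↔ v ∈ W)) {u v : V}
    (h : Relation.ReflTransGen r u v) : u ∈ W ↔ v ∈ W := by
  induction h with
  | refl => exact Iff.rfl
  | tail _ h ih => exact ih.trans (hW _ _ h)

theorem dis_wstep_symm (S : ClSys V Y) (E : Finset (V × V)) (O : Finset Y) {u v : V} (h : clWStep S E O u v) :
    clWStep S E O v u := by
  rcases h with ⟨y, hy, hO, hu, hv⟩ | h | h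
  · exact Or.inl ⟨y, hy, hO, hv, hu⟩
  · exact Or.inr (Or.inr h)
  · exact Or.inr (Or.inl h)

/-- a step stays inside the site set -/
theorem dis_wstep_mem (S : ClSys V Y) (hS : ClOk S) (E : Finset (V × V)) (hE : ∀ e ∈ E, e.1 ∈ S.A ∧ e.2 ∈ S.A)
    (O : Finset Y) {u v : V} (h : clWStep S E O u v) : v ∈ S.A := by
  rcases h with ⟨y, hy, _, _, hv⟩ | h | h
  · exact hS.sub y hy hv
  · exact (hE _ h).2
  · exact (hE _ h).1

/-- the saturation is closed under steps -/
theorem dis_wsat_step (S : ClSys V Y) (hS : ClOk S) (E : Finset (V × V)) (hE : ∀ e ∈ E, e.1 ∈ S.A ∧ e.2 ∈ S.A)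
    (O : Finset Y) (C : Finset V) {u v : V} (h : clWStep S E O u v) : u ∈ clWSat S E O C ↔ v ∈ clWSat S E O C := by
  unfold clWSat
  simp only [Finset.mem_filter]
  constructor
  · rintro ⟨_, c, hc, hr⟩
    exact ⟨dis_wstep_mem S hS E hE O h, c, hc, hr.tail h⟩
  · rintro ⟨_, c, hc, hr⟩
    exact ⟨dis_wstep_mem S hS E hE O (dis_wstep_symm S E O h), c, hc, hr.tail (dis_wstep_symm S E O h)⟩

theorem dis_wsat_sup (S : ClSys V Y) (E : Finset (V × V)) (O : Finset Y) (C : Finset V) (hC : C ⊆ S.A) :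
    C ⊆ clWSat S E O C := by
  classical
  intro c hc
  unfold clWSat
  exact Finset.mem_filter.mpr ⟨hC hc, c, hc, Relation.ReflTransGen.refl⟩

/-- a set which is constant along the steps and misses `C` misses the saturation -/
theorem dis_wsat_disj (S : ClSys V Y) (E : Finset (V × V)) (O : Finset Y) (C W : Finset V)
    (hW : ∀ u v, clWStep S E O u v → (u ∈ W ↔ v ∈ W)) (hC : ∀ c ∈ C, c ∉ W) : ∀ v ∈ clWSat S E O C, v ∉ W := by
  classical
  intro v hv
  unfold clWSat at hv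
  obtain ⟨_, c, hc, hr⟩ := Finset.mem_filter.mp hv
  exact fun h => hC c hc ((dis_rtg_iff hW hr).mpr h)

/-- on the support of the weight the second spin is constant on the closed cells -/
theorem dis_lbl_closed (S : ClSys V Y) {ω : ClCfg V Y} (h : S.wt ω ≠ 0) {y : Y} (hy : y ∈ S.C) (hO : y ∉ ω.O) :
    ClConst ω.W (S.sv y) := by
  by_contra hn
  apply h
  unfold ClSys.wt
  refine Finset.prod_eq_zero hy ?_
  unfold clCellW
  rw [if_neg hO, if_neg hn]

theorem dis_const_iff {P s : Finset V} (h : ClConst P s) {u v : V} (hu : u ∈ s) (hv : v ∈ s) : u ∈ P ↔ v ∈ P := by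
  rcases h with h | h
  · exact ⟨fun _ => h hv, fun _ => h hu⟩
  · exact ⟨fun a => absurd a (h u hu), fun a => absurd a (h v hv)⟩

/-- (LBL), one set -/
theorem dis_lbl_one (S : ClSys V Y) (hS : ClOk S) (K : ClCon V Y) (hE : ∀ e ∈ K.Eq, e.1 ∈ S.A ∧ e.2 ∈ S.A)
    (C : Finset V) (hCA : C ⊆ S.A)
    (hC : ∀ u ∈ C, ∀ v ∈ C, Relation.ReflTransGen (fun a b => (a, b) ∈ K.Eq ∨ (b, a) ∈ K.Eq) u v)
    (hm : K.Wm = ∅)
    (F : ClCfg V Y → ℝ) (hF0 : ∀ ω, 0 ≤ F ω) (hFW : ∀ ω ω' : ClCfg V Y, ω.B = ω'.B → ω.O = ω'.O → F ω = F ω') :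
    S.N (K.Holds S) F ≤ 2 * S.N (({ K with Wp := K.Wp ∪ C } : ClCon V Y).Holds S) F := by
  classical
  set K' : ClCon V Y := { K with Wp := K.Wp ∪ C } with hK'
  have hol : ∀ ω, K'.Holds S ω ↔ K.Holds S ω ∧ C ⊆ ω.W := by
    intro ω
    simp only [hK', ClCon.Holds, Finset.union_subset_iff]
    tauto
  -- the terms
  set t : ClCfg V Y → ℝ := fun ω => S.wt ω * F ω with ht
  have ht0 : ∀ ω, 0 ≤ t ω := fun ω => mul_nonneg (dis_wt_nonneg S hS ω) (hF0 ω)
  set T' : Finset (ClCfg V Y) := S.cfgs.filter (fun ω => K'.Holds S ω) with hT'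
  have hN' : S.N (K'.Holds S) F = ∑ ω ∈ T', t ω := by
    unfold ClSys.N
    rw [hT', Finset.sum_filter]
  set T1 : Finset (ClCfg V Y) := S.cfgs.filter (fun ω => K.Holds S ω ∧ C ⊆ ω.W) with hT1
  set T2 : Finset (ClCfg V Y) := S.cfgs.filter (fun ω => (K.Holds S ω ∧ ¬ C ⊆ ω.W) ∧ S.wt ω ≠ 0) with hT2
  have hN : S.N (K.Holds S) F = ∑ ω ∈ T1, t ω + ∑ ω ∈ T2, t ω := by
    unfold ClSys.N
    rw [hT1, hT2, Finset.sum_filter, Finset.sum_filter, ← Finset.sum_add_distrib]
    refine Finset.sum_congr rfl fun ω _ => ?_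
    by_cases h1 : K.Holds S ω <;> by_cases h2 : C ⊆ ω.W <;> by_cases h3 : S.wt ω = 0 <;> simp [h1, h2, h3, ht]
  have h1 : ∑ ω ∈ T1, t ω = ∑ ω ∈ T', t ω := by
    refine Finset.sum_congr ?_ fun _ _ => rfl
    ext ω
    simp only [hT1, hT', Finset.mem_filter, hol]
  -- the map
  set φ : ClCfg V Y → ClCfg V Y := fun ω => ⟨ω.B, ω.W ∪ clWSat S K.Eq ω.O C, ω.O⟩ with hφ
  -- facts on `T2`
  have fact : ∀ ω ∈ T2, (∀ u v, clWStep S K.Eq ω.O u v → (u ∈ ω.W ↔ v ∈ ω.W)) ∧ ∀ v ∈ clWSat S K.Eq ω.O C, v ∉ ω.W := by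
    intro ω hω
    obtain ⟨_, ⟨hK, hnC⟩, hw⟩ := Finset.mem_filter.mp hω
    have hst : ∀ u v, clWStep S K.Eq ω.O u v → (u ∈ ω.W ↔ v ∈ ω.W) := by
      intro u v h
      rcases h with ⟨y, hy, hO, hu, hv⟩ | h | h
      · exact dis_const_iff (dis_lbl_closed S hw hy hO) hu hv
      · exact hK.2.2.1 _ h
      · exact (hK.2.2.1 _ h).symm
    refine ⟨hst, dis_wsat_disj S K.Eq ω.O C ω.W hst ?_⟩
    obtain ⟨c0, hc0, hc0W⟩ := Finset.not_subset.mp hnC
    intro c hc hcW
    have key : c ∈ ω.W ↔ c0 ∈ ω.W := dis_rtg_iff (fun u v h => hst u v (Or.inr h)) (hC c hc c0 hc0)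
    exact hc0W (key.mp hcW)
  have hmaps : ∀ ω ∈ T2, φ ω ∈ T' := by
    intro ω hω
    obtain ⟨hst, hdis⟩ := fact ω hω
    obtain ⟨hcf, ⟨hK, hnC⟩, hw⟩ := Finset.mem_filter.mp hω
    rw [cl_mem_cfgs] at hcf
    refine Finset.mem_filter.mpr ⟨(cl_mem_cfgs S _).mpr ⟨hcf.1, Finset.union_subset hcf.2.1 (Finset.filter_subset _ _), hcf.2.2⟩, ?_⟩
    rw [hol]
    refine ⟨?_, (dis_wsat_sup S K.Eq ω.O C hCA).trans Finset.subset_union_right⟩
    obtain ⟨k1, k2, k3, k4, k5, k6, k7, k8⟩ := hK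
    refine ⟨k1, k2, ?_, k4, k5, k6, k7.trans Finset.subset_union_left, ?_⟩
    · intro e he
      have h1 := k3 e he
      have h2 := dis_wsat_step S hS K.Eq hE ω.O C (u := e.1) (v := e.2) (Or.inr (Or.inl he))
      simp only [hφ, Finset.mem_union, h1, h2]
    · intro v hv
      rw [hm] at hv
      exact absurd hv (Finset.notMem_empty v)
  have hval : ∀ ω ∈ T2, t (φ ω) = t ω := by
    intro ω hω
    obtain ⟨hst, hdis⟩ := fact ω hω
    obtain ⟨hcf, ⟨hK, hnC⟩, hw⟩ := Finset.mem_filter.mp hω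
    simp only [ht]
    rw [hFW (φ ω) ω rfl rfl]
    congr 1
    unfold ClSys.wt
    refine Finset.prod_congr rfl fun y hy => ?_
    by_cases hO : y ∈ ω.O
    · simp only [hφ, clCellW, hO, if_true]
    · have c1 : ClConst ω.W (S.sv y) := dis_lbl_closed S hw hy hO
      have c2 : ClConst (ω.W ∪ clWSat S K.Eq ω.O C) (S.sv y) := by
        by_cases hmeet : ∃ u ∈ S.sv y, u ∈ clWSat S K.Eq ω.O C
        · obtain ⟨u, hu, huD⟩ := hmeet
          left
          intro v hv
          exact Finset.mem_union_right _ ((dis_wsat_step S hS K.Eq hE ω.O C (Or.inl ⟨y, hy, hO, hu, hv⟩)).mp huD)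
        · push Not at hmeet
          rcases c1 with c1 | c1
          · left; exact c1.trans Finset.subset_union_left
          · right
            intro v hv hvm
            rcases Finset.mem_union.mp hvm with h | h
            · exact c1 v hv h
            · exact hmeet v hv h
      simp only [hφ, clCellW, hO, if_false, c1, c2, if_true]
  have hinj : Set.InjOn φ (T2 : Set (ClCfg V Y)) := by
    intro ω hω ω' hω' he
    obtain ⟨_, hdis⟩ := fact ω hω
    obtain ⟨_, hdis'⟩ := fact ω' hω'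
    simp only [hφ, ClCfg.mk.injEq] at he
    obtain ⟨eB, eW, eO⟩ := he
    refine ClCfg.ext eB ?_ eO
    rw [eO] at eW hdis
    ext v
    have hv := Finset.ext_iff.mp eW v
    simp only [Finset.mem_union] at hv
    constructor
    · intro h
      rcases hv.mp (Or.inl h) with h' | h'
      · exact h'
      · exact absurd h (hdis v h')
    · intro h
      rcases hv.mpr (Or.inl h) with h' | h'
      · exact h'
      · exact absurd h (hdis' v h')
  have h2 : ∑ ω ∈ T2, t ω ≤ ∑ ω ∈ T', t ω := by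
    calc ∑ ω ∈ T2, t ω = ∑ ω ∈ T2, t (φ ω) := Finset.sum_congr rfl fun ω hω => (hval ω hω).symm
      _ = ∑ ω ∈ T2.image φ, t ω := (Finset.sum_image hinj).symm
      _ ≤ ∑ ω ∈ T', t ω := by
          refine Finset.sum_le_sum_of_subset_of_nonneg ?_ fun ω _ _ => ht0 ω
          intro ω hω
          obtain ⟨ω0, h0, rfl⟩ := Finset.mem_image.mp hω
          exact hmaps ω0 h0
  rw [hN, hN', h1]
  linarith

/-- (LBL) label cost (TEX l.97-104, l.672-680): `m` sets, each connected by equality edges, get the label plus.  OWNER 13 (PROVED).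
`F ≥ 0` does not see `W`.   `hE` (defect found by 24): an equality edge with an end off `S.A` acts as a minus label. -/
theorem dis_lbl (S : ClSys V Y) (hS : ClOk S) (K : ClCon V Y) (hE : ∀ e ∈ K.Eq, e.1 ∈ S.A ∧ e.2 ∈ S.A) (Cs : List (Finset V))
    (hC : ∀ C ∈ Cs, C ⊆ S.A ∧ ∀ u ∈ C, ∀ v ∈ C,
      Relation.ReflTransGen (fun a b => (a, b) ∈ K.Eq ∨ (b, a) ∈ K.Eq) u v)
    (hm : K.Wm = ∅)
    (F : ClCfg V Y → ℝ) (hF0 : ∀ ω, 0 ≤ F ω) (hFW : ∀ ω ω' : ClCfg V Y, ω.B = ω'.B → ω.O = ω'.O → F ω = F ω') :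
    S.N (K.Holds S) F ≤ 2 ^ Cs.length *
      S.N (({ K with Wp := K.Wp ∪ Cs.foldr (· ∪ ·) ∅ } : ClCon V Y).Holds S) F := by
  induction Cs with
  | nil => simp
  | cons C Cs ih =>
    have ih' := ih fun C' hC' => hC C' (List.mem_cons_of_mem _ hC')
    obtain ⟨hCA, hCc⟩ := hC C List.mem_cons_self
    have h1 := dis_lbl_one S hS ({ K with Wp := K.Wp ∪ Cs.foldr (· ∪ ·) ∅ } : ClCon V Y) hE C hCA hCc hm F hF0 hFW
    have e : ({ ({ K with Wp := K.Wp ∪ Cs.foldr (· ∪ ·) ∅ } : ClCon V Y) with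
        Wp := ({ K with Wp := K.Wp ∪ Cs.foldr (· ∪ ·) ∅ } : ClCon V Y).Wp ∪ C } : ClCon V Y)
        = { K with Wp := K.Wp ∪ (C :: Cs).foldr (· ∪ ·) ∅ } := by
      simp only [List.foldr_cons, ClCon.mk.injEq, true_and, and_true]
      rw [Finset.union_assoc, Finset.union_comm _ C]
    rw [e] at h1
    rw [List.length_cons, pow_succ, mul_assoc]
    exact ih'.trans (mul_le_mul_of_nonneg_left h1 (by positivity))

/-- the equation / congruence lemmas of the definitions of this file are generated HERE (RULES.md, rule 6) -/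
theorem dis_base_eqns_cite : True := by
  have := @clMix.eq_1
  have := @ClSgn.eq_1
  have := @ClOpenOn.eq_1
  have := @ClSys.fac.eq_1
  have := @ClLocOut.eq_1
  have := @ClSys.cx.eq_1
  have := @ClSys.ccr.eq_1
  have := @ddeRin.eq_1
  have := @ddeExt.eq_1
  have := @ClCon.inn.eq_1
  have := @ClCon.out.eq_1
  have := @DdeNoX.eq_1
  have := @ddeKin.eq_1
  have := @ddeKout.eq_1
  have := @dmtX.eq_1
  have := @DmtC.eq_1
  have := @dmtM.eq_1
  have := @dmtT.eq_1
  have := @ClSys.flipB.eq_1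
  have := @ClCon.flipB.eq_1
  have := @clWStep.eq_1
  have := @clWSat.eq_1
  have := @clMix.congr_simp
  have := @ClSgn.congr_simp
  have := @ClOpenOn.congr_simp
  have := @ClSys.fac.congr_simp
  have := @ClLocOut.congr_simp
  have := @ClSys.cx.congr_simp
  have := @ClSys.ccr.congr_simp
  have := @ddeRin.congr_simp
  have := @ddeExt.congr_simp
  have := @ClCon.inn.congr_simp
  have := @ClCon.out.congr_simp
  have := @DdeNoX.congr_simp
  have := @ddeKin.congr_simp
  have := @ddeKout.congr_simp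
  have := @dmtX.congr_simp
  have := @DmtC.congr_simp
  have := @dmtM.congr_simp
  have := @dmtT.congr_simp
  have := @ClSys.flipB.congr_simp
  have := @ClCon.flipB.congr_simp
  have := @clWStep.congr_simp
  have := @clWSat.congr_simp
  trivial

end abstract

end Claimed.Agent.R291
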