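import Claimed.Agent.R291.Dis.Base

/-!
# Row 291 (S0539), Dis/Buffer : BUFFERED CIRCUITS, ABSTRACT LAYER      (owner helper141, unit BUFFER of DIS; prefix `dis_`, defs `cl…`/`Cl…`)

TEX[lem:buffer-circuits] TEX[discrete:stack]      02-discrete.tex l.508-600.   Design: `origin/helper141:notes/R291/sec2b_141.md`, `origin/helper146:notes/R291/sec2_146.md` (PRIM, N, STACK).

Everything here is on an abstract `ClSys V Y`; the planar layer is `Dis/BufferPl.lean`.
* `clInd L` indicator;  linearity / positivity API of `S.N`  (`dis_N_*`)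
* `ClUp S s L` : the event `L` is favourable for the sign `s` (increasing for `s = true`, decreasing for `s = false`);  `ClLeS s K₁ K₂` : `K₁` is less favourable than `K₂`
* `dis_fkg`, `dis_fkg_fin` : association of favourable events ("requests with the same sign may be combined by association")
* `dis_order_up` : a less favourable history gives a smaller probability
* `dis_sep_up`, `dis_sep_sub`, `dis_sep_congr` : `Sep_s(O, A)` is favourable, monotone in `(O, A)`, and depends only on the statuses of the cells having a site off `O`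
* `dis_neck` : (N) NECKLACE, deterministic ("a closed chain gives a surrounding circuit", without Jordan curves)
* `dis_feas_conv` : a feasible legal history satisfies the local criterion `ClFeas`
* `ClClear S s K T` : the buffer `T` contains no adverse pin, meets no observed cell, touches no equality edge;  stability under `ClExt`
* `dis_stack_abs` : product bound `(1 - c)^k` for `k` separated slots ("conditional on all previously inspected slots, failure in the next slot has probability at most `1 - c`")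
-/

set_option autoImplicit false
set_option linter.unusedSectionVars false

namespace Claimed.Agent.R291

open Claims Claims.C0467

section abstract

variable {V Y : Type} [DecidableEq V] [DecidableEq Y]

/-! ### 1. indicators and the functional `S.N` -/

open Classical in
/-- indicator of an event -/
noncomputable def clInd (L : ClCfg V Y → Prop) (ω : ClCfg V Y) : ℝ := if L ω then 1 else 0

theorem dis_ind_pos {L : ClCfg V Y → Prop} {ω : ClCfg V Y} (h : L ω) : clInd L ω = 1 := by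
  unfold clInd; rw [if_pos h]

theorem dis_ind_neg {L : ClCfg V Y → Prop} {ω : ClCfg V Y} (h : ¬ L ω) : clInd L ω = 0 := by
  unfold clInd; rw [if_neg h]

theorem dis_ind_nonneg (L : ClCfg V Y → Prop) (ω : ClCfg V Y) : 0 ≤ clInd L ω := by
  unfold clInd; split_ifs <;> norm_num

theorem dis_ind_le_one (L : ClCfg V Y → Prop) (ω : ClCfg V Y) : clInd L ω ≤ 1 := by
  unfold clInd; split_ifs <;> norm_num

theorem dis_ind_and (L₁ L₂ : ClCfg V Y → Prop) (ω : ClCfg V Y) :
    clInd (fun ω => L₁ ω ∧ L₂ ω) ω = clInd L₁ ω * clInd L₂ ω := by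
  unfold clInd; by_cases h1 : L₁ ω <;> by_cases h2 : L₂ ω <;> simp [h1, h2]

theorem dis_ind_not (L : ClCfg V Y → Prop) (ω : ClCfg V Y) : clInd (fun ω => ¬ L ω) ω = 1 - clInd L ω := by
  unfold clInd; by_cases h1 : L ω <;> simp [h1]

theorem dis_ind_mono {L₁ L₂ : ClCfg V Y → Prop} {ω : ClCfg V Y} (h : L₁ ω → L₂ ω) : clInd L₁ ω ≤ clInd L₂ ω := by
  unfold clInd; by_cases h1 : L₁ ω
  · simp [h1, h h1]
  · rw [if_neg h1]; split_ifs <;> norm_num

theorem dis_ind_congr {L₁ L₂ : ClCfg V Y → Prop} {ω : ClCfg V Y} (h : L₁ ω ↔ L₂ ω) : clInd L₁ ω = clInd L₂ ω :=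
  le_antisymm (dis_ind_mono h.1) (dis_ind_mono h.2)

theorem dis_P_eq (S : ClSys V Y) (K L : ClCfg V Y → Prop) : S.P K L = S.N K (clInd L) / S.Z K := rfl

theorem dis_N_congr (S : ClSys V Y) (K : ClCfg V Y → Prop) {G G' : ClCfg V Y → ℝ}
    (h : ∀ ω ∈ S.cfgs, K ω → G ω = G' ω) : S.N K G = S.N K G' := by
  classical
  unfold ClSys.N
  refine Finset.sum_congr rfl fun ω hω => ?_
  by_cases hK : K ω
  · rw [if_pos hK, if_pos hK, h ω hω hK]
  · rw [if_neg hK, if_neg hK]

theorem dis_N_add (S : ClSys V Y) (K : ClCfg V Y → Prop) (G G' : ClCfg V Y → ℝ) :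
    S.N K (fun ω => G ω + G' ω) = S.N K G + S.N K G' := by
  classical
  unfold ClSys.N
  rw [← Finset.sum_add_distrib]
  refine Finset.sum_congr rfl fun ω _ => ?_
  by_cases hK : K ω <;> simp [hK, mul_add]

theorem dis_N_smul (S : ClSys V Y) (K : ClCfg V Y → Prop) (a : ℝ) (G : ClCfg V Y → ℝ) :
    S.N K (fun ω => a * G ω) = a * S.N K G := by
  classical
  unfold ClSys.N
  rw [Finset.mul_sum]
  refine Finset.sum_congr rfl fun ω _ => ?_
  by_cases hK : K ω <;> simp [hK]
  ring

theorem dis_N_neg (S : ClSys V Y) (K : ClCfg V Y → Prop) (G : ClCfg V Y → ℝ) :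
    S.N K (fun ω => - G ω) = - S.N K G := by
  have := dis_N_smul S K (-1) G
  simpa using this

theorem dis_N_sub (S : ClSys V Y) (K : ClCfg V Y → Prop) (G G' : ClCfg V Y → ℝ) :
    S.N K (fun ω => G ω - G' ω) = S.N K G - S.N K G' := by
  have := dis_N_add S K G (fun ω => - G' ω)
  rw [dis_N_neg] at this
  simpa [sub_eq_add_neg] using this

theorem dis_N_mono (S : ClSys V Y) (hS : ClOk S) (K : ClCfg V Y → Prop) {G G' : ClCfg V Y → ℝ}
    (h : ∀ ω ∈ S.cfgs, K ω → G ω ≤ G' ω) : S.N K G ≤ S.N K G' := by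
  classical
  unfold ClSys.N
  refine Finset.sum_le_sum fun ω hω => ?_
  by_cases hK : K ω
  · rw [if_pos hK, if_pos hK]; exact mul_le_mul_of_nonneg_left (h ω hω hK) (dis_wt_nonneg S hS ω)
  · rw [if_neg hK, if_neg hK]

theorem dis_N_nonneg (S : ClSys V Y) (hS : ClOk S) (K : ClCfg V Y → Prop) {G : ClCfg V Y → ℝ}
    (h : ∀ ω, 0 ≤ G ω) : 0 ≤ S.N K G := by
  classical
  unfold ClSys.N
  refine Finset.sum_nonneg fun ω _ => ?_
  split_ifs
  · exact mul_nonneg (dis_wt_nonneg S hS ω) (h ω)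
  · exact le_rfl

theorem dis_Z_nonneg (S : ClSys V Y) (hS : ClOk S) (K : ClCfg V Y → Prop) : 0 ≤ S.Z K := by
  rw [dis_Z_eq]; exact dis_N_nonneg S hS K fun _ => zero_le_one

/-- an infeasible constraint kills every sum -/
theorem dis_N_zero (S : ClSys V Y) (hS : ClOk S) (K : ClCfg V Y → Prop) (hZ : S.Z K = 0) (G : ClCfg V Y → ℝ) :
    S.N K G = 0 := by
  classical
  unfold ClSys.Z at hZ
  unfold ClSys.N
  have h0 := (Finset.sum_eq_zero_iff_of_nonneg (fun ω _ => by
    split_ifs
    · exact dis_wt_nonneg S hS ω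
    · exact le_rfl)).1 hZ
  refine Finset.sum_eq_zero fun ω hω => ?_
  have := h0 ω hω
  by_cases hK : K ω
  · rw [if_pos hK] at this ⊢; rw [this, zero_mul]
  · rw [if_neg hK]

/-- a feasible constraint has a witness of positive weight -/
theorem dis_Z_pos_wit (S : ClSys V Y) (K : ClCfg V Y → Prop) (hZ : 0 < S.Z K) :
    ∃ ω ∈ S.cfgs, K ω ∧ S.wt ω ≠ 0 := by
  classical
  by_contra hcon
  have : S.Z K = 0 := by
    unfold ClSys.Z
    refine Finset.sum_eq_zero fun ω hω => ?_
    by_cases hK : K ω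
    · rw [if_pos hK]
      by_contra h0
      exact hcon ⟨ω, hω, hK, h0⟩
    · rw [if_neg hK]
  linarith

/-! ### 2. favourable events, association, order -/

/-- `L` is favourable for the sign `s`: increasing if `s = true`, decreasing if `s = false` -/
def ClUp (S : ClSys V Y) (s : Bool) (L : ClCfg V Y → Prop) : Prop :=
  ∀ ω ω' : ClCfg V Y, ω.B ⊆ ω'.B → (∀ y ∈ S.C, clTau S ω y ≤ clTau S ω' y) →
    ((s = true → L ω → L ω') ∧ (s = false → L ω' → L ω))

/-- `K₁` is less favourable for the sign `s` than `K₂` -/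
def ClLeS (s : Bool) (K₁ K₂ : ClCon V Y) : Prop := (s = true → ClLe K₁ K₂) ∧ (s = false → ClLe K₂ K₁)

theorem dis_up_true {S : ClSys V Y} {L : ClCfg V Y → Prop} : ClUp S true L ↔ ClMonoP S L := by
  unfold ClUp ClMonoP
  simp

theorem dis_up_false {S : ClSys V Y} {L : ClCfg V Y → Prop} : ClUp S false L ↔ ClMonoP S (fun ω => ¬ L ω) := by
  unfold ClUp ClMonoP
  simp only [Bool.false_eq_true, false_imp_iff, true_and, true_imp_iff]
  refine forall_congr' fun ω => forall_congr' fun ω' => forall_congr' fun _ => forall_congr' fun _ => ?_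
  exact ⟨fun h h1 h2 => h1 (h h2), fun h h2 => by by_contra h1; exact h h1 h2⟩

theorem dis_up_and {S : ClSys V Y} {s : Bool} {L₁ L₂ : ClCfg V Y → Prop} (h₁ : ClUp S s L₁) (h₂ : ClUp S s L₂) :
    ClUp S s (fun ω => L₁ ω ∧ L₂ ω) := fun ω ω' hB hT =>
  ⟨fun hs h => ⟨(h₁ ω ω' hB hT).1 hs h.1, (h₂ ω ω' hB hT).1 hs h.2⟩,
   fun hs h => ⟨(h₁ ω ω' hB hT).2 hs h.1, (h₂ ω ω' hB hT).2 hs h.2⟩⟩

theorem dis_up_all {S : ClSys V Y} {s : Bool} {ι : Type*} (T : Finset ι) {L : ι → ClCfg V Y → Prop}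
    (h : ∀ i ∈ T, ClUp S s (L i)) : ClUp S s (fun ω => ∀ i ∈ T, L i ω) := fun ω ω' hB hT =>
  ⟨fun hs hl i hi => (h i hi ω ω' hB hT).1 hs (hl i hi), fun hs hl i hi => (h i hi ω ω' hB hT).2 hs (hl i hi)⟩

/-- the signed indicator of a favourable event is increasing -/
theorem dis_up_mono {S : ClSys V Y} {s : Bool} {L : ClCfg V Y → Prop} (h : ClUp S s L) :
    ClMono S (fun ω => (clSg s : ℝ) * clInd L ω) := by
  intro ω ω' hB hT
  cases s
  · have := (h ω ω' hB hT).2 rfl
    have h2 := dis_ind_mono (L₁ := L) (L₂ := fun _ => L ω) (ω := ω') this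
    have h3 : clInd (fun _ : ClCfg V Y => L ω) ω' = clInd L ω := by unfold clInd; rfl
    simp only [clSg, Bool.false_eq_true, if_false, Int.cast_neg, Int.cast_one]
    linarith
  · have := (h ω ω' hB hT).1 rfl
    have h2 := dis_ind_mono (L₁ := fun _ => L ω) (L₂ := L) (ω := ω') this
    have h3 : clInd (fun _ : ClCfg V Y => L ω) ω' = clInd L ω := by unfold clInd; rfl
    simp only [clSg, if_true, Int.cast_one]
    linarith

theorem dis_sg_sq (s : Bool) : ((clSg s : ℤ) : ℝ) * (clSg s : ℝ) = 1 := by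
  cases s <;> simp [clSg]

/-- **association of two favourable events**      TEX[lem:buffer-circuits] "requests with the same sign may be combined by association" -/
theorem dis_fkg (S : ClSys V Y) (hS : ClDisk S) (K : ClCon V Y) (hK : ClLegal S K) (s : Bool)
    {L₁ L₂ : ClCfg V Y → Prop} (h₁ : ClUp S s L₁) (h₂ : ClUp S s L₂) :
    S.N (K.Holds S) (clInd L₁) * S.N (K.Holds S) (clInd L₂)
      ≤ S.Z (K.Holds S) * S.N (K.Holds S) (clInd fun ω => L₁ ω ∧ L₂ ω) := by
  have h := dis_assoc S hS K hK _ _ (dis_up_mono h₁) (dis_up_mono h₂)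
  rw [dis_N_smul, dis_N_smul] at h
  have e : S.N (K.Holds S) (fun ω => (clSg s : ℝ) * clInd L₁ ω * ((clSg s : ℝ) * clInd L₂ ω))
      = S.N (K.Holds S) (clInd fun ω => L₁ ω ∧ L₂ ω) := by
    refine dis_N_congr S _ fun ω _ _ => ?_
    rw [dis_ind_and]
    calc (clSg s : ℝ) * clInd L₁ ω * ((clSg s : ℝ) * clInd L₂ ω)
        = ((clSg s : ℝ) * (clSg s : ℝ)) * (clInd L₁ ω * clInd L₂ ω) := by ring
      _ = _ := by rw [dis_sg_sq, one_mul]
  rw [e] at h
  calc S.N (K.Holds S) (clInd L₁) * S.N (K.Holds S) (clInd L₂)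
      = ((clSg s : ℝ) * (clSg s : ℝ)) * (S.N (K.Holds S) (clInd L₁) * S.N (K.Holds S) (clInd L₂)) := by
        rw [dis_sg_sq, one_mul]
    _ = (clSg s : ℝ) * S.N (K.Holds S) (clInd L₁) * ((clSg s : ℝ) * S.N (K.Holds S) (clInd L₂)) := by ring
    _ ≤ _ := h

/-- **association of finitely many favourable events** -/
theorem dis_fkg_fin (S : ClSys V Y) (hS : ClDisk S) (K : ClCon V Y) (hK : ClLegal S K) (hZ : 0 < S.Z (K.Holds S))
    (s : Bool) {ι : Type*} (T : Finset ι) {L : ι → ClCfg V Y → Prop} (hL : ∀ i ∈ T, ClUp S s (L i))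
    {c : ℝ} (hc : 0 ≤ c) (h : ∀ i ∈ T, c * S.Z (K.Holds S) ≤ S.N (K.Holds S) (clInd (L i))) :
    c ^ T.card * S.Z (K.Holds S) ≤ S.N (K.Holds S) (clInd fun ω => ∀ i ∈ T, L i ω) := by
  classical
  induction T using Finset.induction_on with
  | empty =>
    rw [Finset.card_empty, pow_zero, one_mul, dis_Z_eq]
    refine le_of_eq (dis_N_congr S _ fun ω _ _ => ?_)
    rw [dis_ind_pos]; simp
  | insert a T ha ih =>
    have ih' := ih (fun i hi => hL i (Finset.mem_insert_of_mem hi)) (fun i hi => h i (Finset.mem_insert_of_mem hi))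
    have h1 := dis_fkg S hS K hK s (hL a (Finset.mem_insert_self a T))
      (dis_up_all T fun i hi => hL i (Finset.mem_insert_of_mem hi))
    have h2 := h a (Finset.mem_insert_self a T)
    have e : S.N (K.Holds S) (clInd fun ω => ∀ i ∈ insert a T, L i ω)
        = S.N (K.Holds S) (clInd fun ω => L a ω ∧ ∀ i ∈ T, L i ω) := by
      refine dis_N_congr S _ fun ω _ _ => dis_ind_congr ?_
      exact Finset.forall_mem_insert _ _ _
    rw [e, Finset.card_insert_of_notMem ha, pow_succ]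
    have h3 : c * S.Z (K.Holds S) * (c ^ T.card * S.Z (K.Holds S))
        ≤ S.N (K.Holds S) (clInd (L a)) * S.N (K.Holds S) (clInd fun ω => ∀ i ∈ T, L i ω) :=
      mul_le_mul h2 ih' (mul_nonneg (pow_nonneg hc _) hZ.le) ((mul_nonneg hc hZ.le).trans h2)
    have h4 := h3.trans h1
    have h5 : S.Z (K.Holds S) * (c ^ T.card * c * S.Z (K.Holds S))
        ≤ S.Z (K.Holds S) * S.N (K.Holds S) (clInd fun ω => L a ω ∧ ∀ i ∈ T, L i ω) := by
      calc _ = c * S.Z (K.Holds S) * (c ^ T.card * S.Z (K.Holds S)) := by ring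
        _ ≤ _ := h4
    exact le_of_mul_le_mul_left h5 hZ

/-- **a less favourable history gives a smaller probability** -/
theorem dis_order_up (S : ClSys V Y) (hS : ClDisk S) (s : Bool) (K₁ K₂ : ClCon V Y) (h₁ : ClLegal S K₁)
    (h₂ : ClLegal S K₂) (hle : ClLeS s K₁ K₂) {L : ClCfg V Y → Prop} (hL : ClUp S s L) :
    S.N (K₁.Holds S) (clInd L) * S.Z (K₂.Holds S) ≤ S.Z (K₁.Holds S) * S.N (K₂.Holds S) (clInd L) := by
  cases s
  · have h := dis_order S hS K₂ K₁ h₂ h₁ (hle.2 rfl) _ (dis_up_mono hL)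
    rw [dis_N_smul, dis_N_smul] at h
    simp only [clSg, Bool.false_eq_true, if_false, Int.cast_neg, Int.cast_one] at h
    nlinarith
  · have h := dis_order S hS K₁ K₂ h₁ h₂ (hle.1 rfl) _ (dis_up_mono hL)
    rw [dis_N_smul, dis_N_smul] at h
    simp only [clSg, if_true, Int.cast_one, one_mul] at h
    exact h

/-! ### 3. the separation event -/

/-- `Sep_s` is favourable for `s` -/
theorem dis_sep_up (S : ClSys V Y) (s : Bool) (E : Finset (V × V)) (O A : Finset V) :
    ClUp S s (fun ω => ClSep S s E ω O A) := by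
  cases s
  · exact dis_up_false.2 (dis_sep_anti S E O A)
  · exact dis_up_true.2 (dis_sep_mono S E O A)

theorem dis_sep_sub {S : ClSys V Y} {s : Bool} {E : Finset (V × V)} {ω : ClCfg V Y} {O A O' A' : Finset V}
    (hO : O' ⊆ O) (hA : A' ⊆ A) (h : ClSep S s E ω O A) : ClSep S s E ω O' A' :=
  fun u hu v hv => h u (hO hu) v (hA hv)

/-- one direction of the locality of `Sep` -/
theorem dis_sep_congr_aux {S : ClSys V Y} {s : Bool} {E : Finset (V × V)} {ω ω' : ClCfg V Y} {O : Finset V}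
    (h : ∀ y ∈ S.C, (∃ v ∈ S.sv y, v ∉ O) → clTau S ω y = clTau S ω' y) {u v : V} (hu : u ∈ O)
    (huv : Relation.ReflTransGen (clStep S s E ω) u v) :
    ∃ u' ∈ O, Relation.ReflTransGen (clStep S s E ω') u' v := by
  induction huv with
  | refl => exact ⟨u, hu, Relation.ReflTransGen.refl⟩
  | @tail b c _ hst ih =>
    by_cases hc : c ∈ O
    · exact ⟨c, hc, Relation.ReflTransGen.refl⟩
    · obtain ⟨u', hu', hp⟩ := ih
      refine ⟨u', hu', hp.tail ?_⟩
      rcases hst with ⟨y, hy, hb, hcy, ht⟩ | he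
      · exact Or.inl ⟨y, hy, hb, hcy, by rw [← h y hy ⟨c, hcy, hc⟩]; exact ht⟩
      · exact Or.inr he

/-- **locality**: `Sep_s(O, A)` depends only on the statuses of the cells which have a site off `O` -/
theorem dis_sep_congr {S : ClSys V Y} {s : Bool} {E : Finset (V × V)} {ω ω' : ClCfg V Y} {O : Finset V} (A : Finset V)
    (h : ∀ y ∈ S.C, (∃ v ∈ S.sv y, v ∉ O) → clTau S ω y = clTau S ω' y) :
    ClSep S s E ω O A ↔ ClSep S s E ω' O A := by
  constructor
  · intro hs u hu v hv huv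
    obtain ⟨u', hu', hp⟩ := dis_sep_congr_aux (ω := ω') (ω' := ω) (fun y hy hv => (h y hy hv).symm) hu huv
    exact hs u' hu' v hv hp
  · intro hs u hu v hv huv
    obtain ⟨u', hu', hp⟩ := dis_sep_congr_aux h hu huv
    exact hs u' hu' v hv hp

/-- discrete intermediate value theorem along an invasion path -/
theorem dis_ivt {R : V → V → Prop} (g : V → ℤ) (t : ℤ) (hlip : ∀ u v, R u v → g u - 1 ≤ g v) {u v : V}
    (hu : t < g u) (huv : Relation.ReflTransGen R u v) :
    t < g v ∨ ∃ w, g w = t ∧ Relation.ReflTransGen R u w := by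
  induction huv with
  | refl => exact Or.inl hu
  | @tail b c hp hst ih =>
    rcases ih with h | h
    · have := hlip b c hst
      rcases (show t < g c ∨ g c = t by omega) with h1 | h1
      · exact Or.inl h1
      · exact Or.inr ⟨c, h1, hp.tail hst⟩
    · exact Or.inr h

/-- **(N) NECKLACE**, deterministic.   `g` is an integer function which is 1-Lipschitz along cells and equality edges, `g > t` on `O`, `g < t` on `A`, the level `{g = t}` is covered by the
inner sets `Ai i`, and `O` lies in all the outer sets `Oi i`.      TEX[lem:buffer-circuits] "a closed chain ... gives a surrounding circuit" -/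
theorem dis_neck (S : ClSys V Y) (s : Bool) (E : Finset (V × V)) (ω : ClCfg V Y) (O A : Finset V) {ι : Type*}
    (T : Finset ι) (Oi Ai : ι → Finset V) (g : V → ℤ) (t : ℤ)
    (hcell : ∀ y ∈ S.C, ∀ u ∈ S.sv y, ∀ v ∈ S.sv y, g u - 1 ≤ g v)
    (hE : ∀ e ∈ E, g e.1 - 1 ≤ g e.2 ∧ g e.2 - 1 ≤ g e.1)
    (hO : ∀ u ∈ O, t < g u) (hA : ∀ v ∈ A, g v < t) (hcov : ∀ v, g v = t → ∃ i ∈ T, v ∈ Ai i)
    (hOi : ∀ i ∈ T, O ⊆ Oi i) (hsep : ∀ i ∈ T, ClSep S s E ω (Oi i) (Ai i)) : ClSep S s E ω O A := by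
  intro u hu v hv huv
  have hlip : ∀ a b, clStep S s E ω a b → g a - 1 ≤ g b := by
    rintro a b (⟨y, hy, ha, hb, _⟩ | he | he)
    · exact hcell y hy a ha b hb
    · exact (hE _ he).1
    · exact (hE _ he).2
  rcases dis_ivt g t hlip (hO u hu) huv with h | ⟨w, hw, hp⟩
  · have := hA v hv; omega
  · obtain ⟨i, hi, hwi⟩ := hcov w hw
    exact hsep i hi u (hOi i hi hu) w hwi hp

/-! ### 4. feasibility, clear buffers, extensions -/

/-- a positive weight forces `B` to be constant on every open cell -/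
theorem dis_wt_open {S : ClSys V Y} {ω : ClCfg V Y} (hw : S.wt ω ≠ 0) {y : Y} (hy : y ∈ S.C) (ho : y ∈ ω.O) :
    ClConst ω.B (S.sv y) := by
  by_contra hc
  apply hw
  unfold ClSys.wt
  refine Finset.prod_eq_zero hy ?_
  unfold clCellW
  rw [if_pos ho, if_neg hc]

/-- a positive weight: a closed cell on which `B` is constant has `q < 1` -/
theorem dis_wt_closed {S : ClSys V Y} (hS : ClOk S) {ω : ClCfg V Y} (hw : S.wt ω ≠ 0) {y : Y} (hy : y ∈ S.C)
    (ho : y ∉ ω.O) (hc : ClConst ω.B (S.sv y)) : S.q y < 1 := by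
  by_contra hq
  have hq1 : S.q y = 1 := le_antisymm (hS.q1 y hy) (not_lt.1 hq)
  apply hw
  unfold ClSys.wt
  refine Finset.prod_eq_zero hy ?_
  unfold clCellW
  rw [if_neg ho, if_pos hc, hq1]
  simp

theorem dis_tau_one {S : ClSys V Y} {ω : ClCfg V Y} {y : Y} : clTau S ω y = 1 ↔ y ∈ ω.O ∧ S.sv y ⊆ ω.B := by
  unfold clTau; split_ifs <;> simp_all

theorem dis_tau_neg {S : ClSys V Y} {ω : ClCfg V Y} {y : Y} : clTau S ω y = -1 ↔ y ∈ ω.O ∧ ¬ S.sv y ⊆ ω.B := by
  unfold clTau; split_ifs <;> simp_all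

/-- **converse of (FEAS)**: a feasible legal history satisfies the local criterion -/
theorem dis_feas_conv (S : ClSys V Y) (hS : ClOk S) (K : ClCon V Y) (hK : ClLegal S K) (hZ : 0 < S.Z (K.Holds S)) :
    ClFeas S K := by
  obtain ⟨ω, hω, ⟨hbp, hbm, _, hop, hom, hcl, _, _⟩, hw⟩ := dis_Z_pos_wit S _ hZ
  obtain ⟨hBA, _, hOC⟩ := (cl_mem_cfgs S ω).1 hω
  have opC : K.Op ⊆ S.C := fun y hy => hOC (dis_tau_one.1 (hop y hy)).1
  have omC : K.Om ⊆ S.C := fun y hy => hOC (dis_tau_neg.1 (hom y hy)).1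
  refine ⟨hbp.trans hBA, Finset.disjoint_left.2 fun v h1 h2 => hbm v h2 (hbp h1), opC, omC, ?_, ?_, ?_, ?_, ?_, ?_⟩
  · intro y hy v hv
    have h1 := hK.full y (opC hy) (Finset.mem_union_left _ (Finset.mem_union_left _ hy)) hv
    rcases Finset.mem_union.1 h1 with h | h
    · exact h
    · exact absurd ((dis_tau_one.1 (hop y hy)).2 hv) (hbm v h)
  · intro y hy v hv
    have h1 := hK.full y (omC hy) (Finset.mem_union_left _ (Finset.mem_union_right _ hy)) hv
    obtain ⟨ho, hn⟩ := dis_tau_neg.1 (hom y hy)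
    rcases Finset.mem_union.1 h1 with h | h
    · rcases dis_wt_open hw (omC hy) ho with hc | hc
      · exact absurd hc hn
      · exact absurd (hbp h) (hc v hv)
    · exact h
  · intro y hy hyC hc
    refine dis_wt_closed hS hw hyC (hcl y hy) ?_
    rcases hc with hc | hc
    · exact Or.inl (hc.trans hbp)
    · exact Or.inr fun v hv => hbm v (hc hv)
  · refine Finset.disjoint_left.2 fun y h1 h2 => ?_
    have := hop y h1; rw [hom y h2] at this; omega
  · exact Finset.disjoint_left.2 fun y h1 h2 => hcl y h2 (dis_tau_one.1 (hop y h1)).1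
  · exact Finset.disjoint_left.2 fun y h1 h2 => hcl y h2 (dis_tau_neg.1 (hom y h1)).1

/-- the buffer `T` contains no pin adverse to `s`, meets no observed cell and touches no equality edge -/
structure ClClear (S : ClSys V Y) (s : Bool) (K : ClCon V Y) (T : Finset V) : Prop where
  pin : ∀ v ∈ T, (s = true → v ∉ K.Bm) ∧ (s = false → v ∉ K.Bp)
  obs : ∀ y ∈ S.C, y ∈ K.Op ∪ K.Om ∪ K.Cl → Disjoint (S.sv y) T
  eq : ∀ e ∈ K.Eq, e.1 ∉ T ∧ e.2 ∉ T

theorem dis_clear_mono {S : ClSys V Y} {s : Bool} {K : ClCon V Y} {T T' : Finset V} (h : ClClear S s K T)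
    (hT : T' ⊆ T) : ClClear S s K T' :=
  ⟨fun v hv => h.pin v (hT hv), fun y hy ho => Finset.disjoint_of_subset_right hT (h.obs y hy ho), fun e he =>
    ⟨fun h1 => (h.eq e he).1 (hT h1), fun h1 => (h.eq e he).2 (hT h1)⟩⟩

/-- a complete observation away from the buffer keeps it clear -/
theorem dis_clear_ext {S : ClSys V Y} {s : Bool} {K K' : ClCon V Y} {T P : Finset V} {Q : Finset Y}
    (h : ClClear S s K T) (hx : ClExt K K' P Q) (hP : Disjoint P T) (hQ : ∀ y ∈ Q, Disjoint (S.sv y) T) :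
    ClClear S s K' T := by
  refine ⟨fun v hv => ⟨fun hs hm => ?_, fun hs hm => ?_⟩, fun y hy ho => ?_, fun e he => h.eq e (hx.eq ▸ he)⟩
  · rcases Finset.mem_union.1 (hx.bm.2 hm) with h1 | h1
    · exact (h.pin v hv).1 hs h1
    · exact Finset.disjoint_left.1 hP h1 hv
  · rcases Finset.mem_union.1 (hx.bp.2 hm) with h1 | h1
    · exact (h.pin v hv).2 hs h1
    · exact Finset.disjoint_left.1 hP h1 hv
  · have : y ∈ K.Op ∪ K.Om ∪ K.Cl ∨ y ∈ Q := by
      simp only [Finset.mem_union] at ho ⊢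
      rcases ho with (h1 | h1) | h1
      · rcases Finset.mem_union.1 (hx.op.2 h1) with h2 | h2 <;> tauto
      · rcases Finset.mem_union.1 (hx.om.2 h1) with h2 | h2 <;> tauto
      · rcases Finset.mem_union.1 (hx.cl.2 h1) with h2 | h2 <;> tauto
    rcases this with h1 | h1
    · exact h.obs y hy h1
    · exact hQ y h1

/-- a complete observation of a site set and of cells inside it keeps a history legal -/
theorem dis_legal_ext {S : ClSys V Y} {K K' : ClCon V Y} {P : Finset V} {Q : Finset Y} (h : ClLegal S K)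
    (hx : ClExt K K' P Q) (hQ : ∀ y ∈ Q, S.sv y ⊆ P) : ClLegal S K' := by
  refine ⟨hx.wp.trans h.wp, hx.wm.trans h.wm, fun y hy ho => ?_, fun e he => h.eq e (hx.eq ▸ he)⟩
  have : y ∈ K.Op ∪ K.Om ∪ K.Cl ∨ y ∈ Q := by
    simp only [Finset.mem_union] at ho ⊢
    rcases ho with (h1 | h1) | h1
    · rcases Finset.mem_union.1 (hx.op.2 h1) with h2 | h2 <;> tauto
    · rcases Finset.mem_union.1 (hx.om.2 h1) with h2 | h2 <;> tauto
    · rcases Finset.mem_union.1 (hx.cl.2 h1) with h2 | h2 <;> tauto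
  rcases this with h1 | h1
  · exact (h.full y hy h1).trans (Finset.union_subset_union hx.bp.1 hx.bm.1)
  · exact (hQ y h1).trans hx.allP

/-- a complete observation determines the statuses -/
theorem dis_ext_tau {S : ClSys V Y} {K K' : ClCon V Y} {P : Finset V} {Q : Finset Y} (hx : ClExt K K' P Q)
    {ω ω' : ClCfg V Y} (h : K'.Holds S ω) (h' : K'.Holds S ω') {y : Y} (hy : y ∈ Q) :
    clTau S ω y = clTau S ω' y := by
  obtain ⟨_, _, _, hop, hom, hcl, _, _⟩ := h
  obtain ⟨_, _, _, hop', hom', hcl', _, _⟩ := h'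
  have := hx.allQ hy
  simp only [Finset.mem_union] at this
  rcases this with (h1 | h1) | h1
  · rw [hop y h1, hop' y h1]
  · rw [hom y h1, hom' y h1]
  · rw [(dis_tau_zero S ω y).2 (hcl y h1), (dis_tau_zero S ω' y).2 (hcl' y h1)]

/-! ### 5. the abstract stack -/

/-- union of the first `j` slots -/
def clSlots (R : ℕ → Finset V) (j : ℕ) : Finset V := (Finset.range j).biUnion R

/-- **one more slot** -/
theorem dis_stack_step (S : ClSys V Y) (hS : ClOk S) (K : ClCon V Y) (P : Finset V) (L G : ClCfg V Y → Prop) {c : ℝ}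
    (hloc : ∀ ω ω' : ClCfg V Y, (∀ y ∈ S.cin P, clTau S ω y = clTau S ω' y) → (L ω ↔ L ω'))
    (hprim : ∀ K' : ClCon V Y, ClExt K K' P (S.cin P) → 0 < S.Z (K'.Holds S) →
      c * S.Z (K'.Holds S) ≤ S.N (K'.Holds S) (clInd G)) :
    S.N (K.Holds S) (clInd fun ω => L ω ∧ ¬ G ω) ≤ (1 - c) * S.N (K.Holds S) (clInd L) := by
  rw [← dis_N_smul]
  refine dis_cond S K P (S.cin P) _ _ fun K' hx => ?_
  rcases (dis_Z_nonneg S hS (K'.Holds S)).eq_or_lt with hZ | hZ
  · rw [dis_N_zero S hS _ hZ.symm, dis_N_zero S hS _ hZ.symm]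
  · by_cases hex : ∃ ω₀, K'.Holds S ω₀ ∧ L ω₀
    · obtain ⟨ω₀, h₀, hL₀⟩ := hex
      have hall : ∀ ω, K'.Holds S ω → L ω := fun ω hω =>
        (hloc ω₀ ω fun y hy => dis_ext_tau hx h₀ hω hy).1 hL₀
      have e1 : S.N (K'.Holds S) (clInd fun ω => L ω ∧ ¬ G ω) = S.Z (K'.Holds S) - S.N (K'.Holds S) (clInd G) := by
        rw [dis_Z_eq, ← dis_N_sub]
        refine dis_N_congr S _ fun ω _ hω => ?_
        rw [dis_ind_and, dis_ind_pos (hall ω hω), dis_ind_not, one_mul]
      have e2 : S.N (K'.Holds S) (fun ω => (1 - c) * clInd L ω) = (1 - c) * S.Z (K'.Holds S) := by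
        rw [dis_N_smul, dis_Z_eq]
        congr 1
        exact dis_N_congr S _ fun ω _ hω => dis_ind_pos (hall ω hω)
      rw [e1, e2]
      have := hprim K' hx hZ
      linarith
    · have hnone : ∀ ω, K'.Holds S ω → ¬ L ω := fun ω hω hL => hex ⟨ω, hω, hL⟩
      refine le_of_eq (dis_N_congr S _ fun ω _ hω => ?_)
      rw [dis_ind_neg (hnone ω hω), mul_zero]
      exact dis_ind_neg fun h => hnone ω hω h.1

/-- **ABSTRACT STACK**: `k` separated slots `R j`, the success event `G j` of the slot `j` depends only on the statuses of the cells inside `R j`, and has conditional probability at least `c`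
given every complete observation of the previous slots.      TEX[discrete:stack] -/
theorem dis_stack_abs (S : ClSys V Y) (hS : ClOk S) (K : ClCon V Y) (R : ℕ → Finset V) (G : ℕ → ClCfg V Y → Prop)
    {c : ℝ} (hc1 : c ≤ 1) (k : ℕ)
    (hloc : ∀ j < k, ∀ ω ω' : ClCfg V Y, (∀ y ∈ S.cin (R j), clTau S ω y = clTau S ω' y) → (G j ω ↔ G j ω'))
    (hprim : ∀ j < k, ∀ K' : ClCon V Y, ClExt K K' (clSlots R j) (S.cin (clSlots R j)) → 0 < S.Z (K'.Holds S) →
      c * S.Z (K'.Holds S) ≤ S.N (K'.Holds S) (clInd (G j))) :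
    S.N (K.Holds S) (clInd fun ω => ∀ j < k, ¬ G j ω) ≤ (1 - c) ^ k * S.Z (K.Holds S) := by
  induction k with
  | zero =>
    rw [pow_zero, one_mul, dis_Z_eq]
    refine le_of_eq (dis_N_congr S _ fun ω _ _ => dis_ind_pos ?_)
    intro j hj; exact absurd hj (Nat.not_lt_zero j)
  | succ k ih =>
    have ih' := ih (fun j hj => hloc j (hj.trans (Nat.lt_succ_self k))) (fun j hj => hprim j (hj.trans (Nat.lt_succ_self k)))
    have e : S.N (K.Holds S) (clInd fun ω => ∀ j < k + 1, ¬ G j ω)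
        = S.N (K.Holds S) (clInd fun ω => (∀ j < k, ¬ G j ω) ∧ ¬ G k ω) := by
      refine dis_N_congr S _ fun ω _ _ => dis_ind_congr ?_
      exact Nat.forall_lt_succ_right
    rw [e]
    have h1 := dis_stack_step S hS K (clSlots R k) (fun ω => ∀ j < k, ¬ G j ω) (G k) (c := c) (fun ω ω' hτ => by
      refine forall_congr' fun j => forall_congr' fun hj => not_congr ?_
      refine hloc j (hj.trans (Nat.lt_succ_self k)) ω ω' fun y hy => hτ y ?_
      unfold ClSys.cin at hy ⊢
      rw [Finset.mem_filter] at hy ⊢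
      refine ⟨hy.1, hy.2.trans ?_⟩
      exact Finset.subset_biUnion_of_mem R (Finset.mem_range.2 hj)) (hprim k (Nat.lt_succ_self k))
    calc _ ≤ (1 - c) * S.N (K.Holds S) (clInd fun ω => ∀ j < k, ¬ G j ω) := h1
      _ ≤ (1 - c) * ((1 - c) ^ k * S.Z (K.Holds S)) := mul_le_mul_of_nonneg_left ih' (by linarith)
      _ = _ := by ring

theorem dis_buffer_eqns_cite : True := by
  have := @clInd.eq_1
  have := @ClUp.eq_1
  have := @ClLeS.eq_1
  have := @clSlots.eq_1
  trivial

end abstract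

end Claimed.Agent.R291
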