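import Claimed.Agent.R291.Ht.Basic

/-!
# Row 291 (S0539), Dis/HtOrd : HEIGHT ORDER, ASSOCIATION, SYMMETRIES, GIBBS PROPERTY of the laws of Defs/Ht      (owner helper139; prefix `hto_`)      no sorry

TEX[lem:height-order] (02-discrete.tex l.925-960, first half) on the vocabulary of `Defs/Ht.lean` (helper115); basics `ht_mem_cfg` .. from `Ht/Basic.lean` (helper168).

* `hto_ff`, `hto_two`, `hto_one`   four functions / Holley / FKG on two FINITE SUBSETS of any distributive lattice (nonnegative weights, signed increasing observables, unnormalised)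
* `hto_adm_inf_sup`, `hto_N_inf_sup`, `hto_wt_inf_sup`    sorting: admissibility and the lattice condition of the weights (`0 ≤ x ≤ 1`)
* `htS x A b G`     unnormalised expectation;   `hto_E_eq`, `hto_Z_eq`
* **`hto_order`** (`hto_order_S`)   `b₁ ≤ b₂`, `F` increasing: `htE x A b₁ F ≤ htE x A b₂ F`
* **`hto_fkg`** (`hto_fkg_S`)       association
* `hto_iso`, `hto_shift`, `hto_neg` (`_S`)     isometries of `ℤ`
* **`hto_dlr`**, `hto_dlr_S`, `hto_dlr_mul`    DLR: `A' ⊆ A`: `htE x A b (fun g => htE x A' g F) = htE x A b F`, also with a factor which does not read `A'`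
* `hto_cfg_congr`, `hto_cfg_sub`, `hto_N_split`, `hto_R_congr`   bookkeeping
-/

set_option autoImplicit false
set_option linter.unusedVariables false

namespace Claimed.Agent.R291

open Claims Claims.C0467 Finset
open scoped FinsetFamily

/-! ## 2. Four functions on two finite subsets of a distributive lattice -/

section FF
variable {α : Type*} [DistribLattice α]

theorem hto_ff (S₁ S₂ : Finset α) (f₁ f₂ f₃ f₄ : α → ℝ) (h₁ : ∀ a ∈ S₁, 0 ≤ f₁ a) (h₂ : ∀ a ∈ S₂, 0 ≤ f₂ a)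
    (h₃ : ∀ a ∈ S₁, 0 ≤ f₃ a) (h₄ : ∀ a ∈ S₂, 0 ≤ f₄ a)
    (h : ∀ a ∈ S₁, ∀ c ∈ S₂, a ⊓ c ∈ S₁ ∧ a ⊔ c ∈ S₂ ∧ f₁ a * f₂ c ≤ f₃ (a ⊓ c) * f₄ (a ⊔ c)) :
    (∑ a ∈ S₁, f₁ a) * ∑ c ∈ S₂, f₂ c ≤ (∑ a ∈ S₁, f₃ a) * ∑ c ∈ S₂, f₄ c := by
  classical
  have nn : ∀ (S : Finset α) (f : α → ℝ), (∀ a ∈ S, 0 ≤ f a) → (0 : α → ℝ) ≤ fun a => if a ∈ S then f a else 0 := by
    intro S f hf a
    show (0 : ℝ) ≤ if a ∈ S then f a else 0
    split_ifs with ha
    · exact hf a ha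
    · exact le_rfl
  have key := four_functions_theorem (fun a => if a ∈ S₁ then f₁ a else 0) (fun a => if a ∈ S₂ then f₂ a else 0)
    (fun a => if a ∈ S₁ then f₃ a else 0) (fun a => if a ∈ S₂ then f₄ a else 0) (nn _ _ h₁) (nn _ _ h₂) (nn _ _ h₃) (nn _ _ h₄)
    (by
      intro a c
      by_cases ha : a ∈ S₁
      · by_cases hc : c ∈ S₂
        · obtain ⟨i1, i2, i3⟩ := h a ha c hc
          simp only [ha, hc, i1, i2, if_true]
          exact i3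
        · simp only [hc, if_false, mul_zero]
          exact mul_nonneg (nn _ _ h₃ _) (nn _ _ h₄ _)
      · simp only [ha, if_false, zero_mul]
        exact mul_nonneg (nn _ _ h₃ _) (nn _ _ h₄ _)) S₁ S₂
  have e : ∀ (S : Finset α) (f : α → ℝ), ∑ a ∈ S, (if a ∈ S then f a else 0) = ∑ a ∈ S, f a :=
    fun S f => Finset.sum_congr rfl fun a ha => if_pos ha
  rw [e, e] at key
  have s1 : S₁ ⊼ S₂ ⊆ S₁ := by
    intro x hx
    obtain ⟨a, ha, c, hc, rfl⟩ := Finset.mem_infs.1 hx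
    exact (h a ha c hc).1
  have s2 : S₁ ⊻ S₂ ⊆ S₂ := by
    intro x hx
    obtain ⟨a, ha, c, hc, rfl⟩ := Finset.mem_sups.1 hx
    exact (h a ha c hc).2.1
  have b1 : ∑ a ∈ S₁ ⊼ S₂, (if a ∈ S₁ then f₃ a else 0) ≤ ∑ a ∈ S₁, f₃ a := by
    rw [← e S₁ f₃]
    exact Finset.sum_le_sum_of_subset_of_nonneg s1 fun a _ _ => nn _ _ h₃ a
  have b2 : ∑ a ∈ S₁ ⊻ S₂, (if a ∈ S₂ then f₄ a else 0) ≤ ∑ a ∈ S₂, f₄ a := by
    rw [← e S₂ f₄]
    exact Finset.sum_le_sum_of_subset_of_nonneg s2 fun a _ _ => nn _ _ h₄ a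
  refine key.trans (mul_le_mul b1 b2 (Finset.sum_nonneg fun a _ => nn _ _ h₄ a) (Finset.sum_nonneg h₃))

omit [DistribLattice α] in
theorem hto_shift_exists (S : Finset α) (F : α → ℝ) : ∃ K : ℝ, ∀ a ∈ S, 0 ≤ F a + K := by
  refine ⟨∑ a ∈ S, |F a|, fun a ha => ?_⟩
  have h1 : |F a| ≤ ∑ a ∈ S, |F a| := Finset.single_le_sum (f := fun a => |F a|) (fun _ _ => abs_nonneg _) ha
  have h2 := neg_abs_le (F a)
  linarith

/-- **two laws** (Holley), unnormalised -/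
theorem hto_two (S₁ S₂ : Finset α) (w F : α → ℝ) (hw : ∀ a, 0 ≤ w a)
    (h : ∀ a ∈ S₁, ∀ c ∈ S₂, a ⊓ c ∈ S₁ ∧ a ⊔ c ∈ S₂ ∧ w a * w c ≤ w (a ⊓ c) * w (a ⊔ c))
    (hF : ∀ a c, a ≤ c → F a ≤ F c) :
    (∑ a ∈ S₁, w a * F a) * ∑ c ∈ S₂, w c ≤ (∑ a ∈ S₁, w a) * ∑ c ∈ S₂, w c * F c := by
  classical
  obtain ⟨K, hK⟩ := hto_shift_exists (S₁ ∪ S₂) F
  have key := hto_ff S₁ S₂ (fun a => w a * (F a + K)) w w (fun a => w a * (F a + K))
    (fun a ha => mul_nonneg (hw a) (hK a (Finset.mem_union_left _ ha))) (fun a _ => hw a) (fun a _ => hw a)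
    (fun a ha => mul_nonneg (hw a) (hK a (Finset.mem_union_right _ ha)))
    (fun a ha c hc => by
      obtain ⟨i1, i2, i3⟩ := h a ha c hc
      refine ⟨i1, i2, ?_⟩
      have h3 : F a + K ≤ F (a ⊔ c) + K := by have := hF a (a ⊔ c) le_sup_left; linarith
      calc w a * (F a + K) * w c = (w a * w c) * (F a + K) := by ring
        _ ≤ (w (a ⊓ c) * w (a ⊔ c)) * (F (a ⊔ c) + K) :=
            mul_le_mul i3 h3 (hK a (Finset.mem_union_left _ ha)) (mul_nonneg (hw _) (hw _))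
        _ = w (a ⊓ c) * (w (a ⊔ c) * (F (a ⊔ c) + K)) := by ring)
  simp only [mul_add, Finset.sum_add_distrib, ← Finset.sum_mul] at key
  nlinarith [key]

/-- **association** (FKG), unnormalised -/
theorem hto_one (S : Finset α) (w F G : α → ℝ) (hw : ∀ a, 0 ≤ w a)
    (h : ∀ a ∈ S, ∀ c ∈ S, a ⊓ c ∈ S ∧ a ⊔ c ∈ S ∧ w a * w c ≤ w (a ⊓ c) * w (a ⊔ c))
    (hF : ∀ a c, a ≤ c → F a ≤ F c) (hG : ∀ a c, a ≤ c → G a ≤ G c) :
    (∑ a ∈ S, w a * F a) * ∑ c ∈ S, w c * G c ≤ (∑ a ∈ S, w a) * ∑ c ∈ S, w c * (F c * G c) := by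
  classical
  obtain ⟨K, hK⟩ := hto_shift_exists S F
  obtain ⟨L, hL⟩ := hto_shift_exists S G
  have key := hto_ff S S (fun a => w a * (F a + K)) (fun a => w a * (G a + L)) w (fun a => w a * ((F a + K) * (G a + L)))
    (fun a ha => mul_nonneg (hw a) (hK a ha)) (fun a ha => mul_nonneg (hw a) (hL a ha)) (fun a _ => hw a)
    (fun a ha => mul_nonneg (hw a) (mul_nonneg (hK a ha) (hL a ha)))
    (fun a ha c hc => by
      obtain ⟨i1, i2, i3⟩ := h a ha c hc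
      refine ⟨i1, i2, ?_⟩
      have h3 : F a + K ≤ F (a ⊔ c) + K := by have := hF a (a ⊔ c) le_sup_left; linarith
      have h4 : G c + L ≤ G (a ⊔ c) + L := by have := hG c (a ⊔ c) le_sup_right; linarith
      calc w a * (F a + K) * (w c * (G c + L)) = (w a * w c) * ((F a + K) * (G c + L)) := by ring
        _ ≤ (w (a ⊓ c) * w (a ⊔ c)) * ((F (a ⊔ c) + K) * (G (a ⊔ c) + L)) :=
            mul_le_mul i3 (mul_le_mul h3 h4 (hL c hc) (hK _ i2)) (mul_nonneg (hK a ha) (hL c hc)) (mul_nonneg (hw _) (hw _))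
        _ = w (a ⊓ c) * (w (a ⊔ c) * ((F (a ⊔ c) + K) * (G (a ⊔ c) + L))) := by ring)
  have e1 : ∑ a ∈ S, w a * (F a + K) = (∑ a ∈ S, w a * F a) + (∑ a ∈ S, w a) * K := by
    simp only [mul_add, Finset.sum_add_distrib, ← Finset.sum_mul]
  have e2 : ∑ a ∈ S, w a * (G a + L) = (∑ a ∈ S, w a * G a) + (∑ a ∈ S, w a) * L := by
    simp only [mul_add, Finset.sum_add_distrib, ← Finset.sum_mul]
  have e3 : ∑ a ∈ S, w a * ((F a + K) * (G a + L)) = (∑ a ∈ S, w a * (F a * G a))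
      + (∑ a ∈ S, w a * F a) * L + (∑ a ∈ S, w a * G a) * K + (∑ a ∈ S, w a) * (K * L) := by
    simp only [Finset.sum_mul, ← Finset.sum_add_distrib]
    refine Finset.sum_congr rfl fun a _ => ?_
    ring
  rw [e1, e2, e3] at key
  nlinarith [key]

end FF

/-! ## 3. The lattice condition of the height weights -/

theorem hto_edge_lip (a1 a2 c1 c2 : ℤ) (ha : |a2 - a1| ≤ 1) (hc : |c2 - c1| ≤ 1) :
    |min a2 c2 - min a1 c1| ≤ 1 ∧ |max a2 c2 - max a1 c1| ≤ 1 := by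
  rw [abs_le] at ha hc
  rw [abs_le, abs_le]
  refine ⟨⟨?_, ?_⟩, ⟨?_, ?_⟩⟩ <;> omega

theorem hto_edge_cnt (a1 a2 c1 c2 : ℤ) (ha : |a2 - a1| ≤ 1) (hc : |c2 - c1| ≤ 1) :
    (if min a1 c1 ≠ min a2 c2 then 1 else 0) + (if max a1 c1 ≠ max a2 c2 then 1 else 0)
      ≤ (if a1 ≠ a2 then 1 else 0) + (if c1 ≠ c2 then (1 : ℕ) else 0) := by
  rw [abs_le] at *
  split_ifs <;> omega

theorem hto_adm_edge {A : Finset TV} {b h : TV → ℤ} (hh : HtAdm A b h) {p : TV × TV} (hp : p ∈ latE A) :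
    |h (p.1 + p.2) - h p.1| ≤ 1 := by
  obtain ⟨h1, h2⟩ := lat_mem_E.1 hp
  rcases h2 with h2 | h2
  · exact hh.2 _ h2 _ (lat_pos_sub h1)
  · have := hh.2 _ h2 _ (lat_dirs_neg (lat_pos_sub h1))
    rw [add_neg_cancel_right] at this
    rwa [abs_sub_comm]

theorem hto_adm_inf_sup {A : Finset TV} {b₁ b₂ a c : TV → ℤ} (hb : ∀ u, b₁ u ≤ b₂ u) (ha : HtAdm A b₁ a) (hc : HtAdm A b₂ c) :
    HtAdm A b₁ (a ⊓ c) ∧ HtAdm A b₂ (a ⊔ c) := by
  refine ⟨⟨fun u hu => ?_, fun u hu d hd => ?_⟩, ⟨fun u hu => ?_, fun u hu d hd => ?_⟩⟩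
  · rw [Pi.inf_apply, ha.1 u hu, hc.1 u hu]; exact inf_eq_left.2 (hb u)
  · exact (hto_edge_lip _ _ _ _ (ha.2 u hu d hd) (hc.2 u hu d hd)).1
  · rw [Pi.sup_apply, ha.1 u hu, hc.1 u hu]; exact sup_eq_right.2 (hb u)
  · exact (hto_edge_lip _ _ _ _ (ha.2 u hu d hd) (hc.2 u hu d hd)).2

theorem hto_N_inf_sup {A : Finset TV} {b₁ b₂ a c : TV → ℤ} (ha : HtAdm A b₁ a) (hc : HtAdm A b₂ c) :
    htN A (a ⊓ c) + htN A (a ⊔ c) ≤ htN A a + htN A c := by
  unfold htN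
  rw [← Finset.sum_add_distrib, ← Finset.sum_add_distrib]
  exact Finset.sum_le_sum fun p hp => hto_edge_cnt _ _ _ _ (hto_adm_edge ha hp) (hto_adm_edge hc hp)

theorem hto_wt_nonneg {x : ℝ} (hx0 : 0 ≤ x) (A : Finset TV) (h : TV → ℤ) : 0 ≤ htWt x A h := pow_nonneg hx0 _

theorem hto_wt_pos {x : ℝ} (hx0 : 0 < x) (A : Finset TV) (h : TV → ℤ) : 0 < htWt x A h := pow_pos hx0 _

theorem hto_wt_inf_sup {x : ℝ} (hx0 : 0 ≤ x) (hx1 : x ≤ 1) {A : Finset TV} {b₁ b₂ a c : TV → ℤ} (ha : HtAdm A b₁ a) (hc : HtAdm A b₂ c) :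
    htWt x A a * htWt x A c ≤ htWt x A (a ⊓ c) * htWt x A (a ⊔ c) := by
  unfold htWt
  rw [← pow_add, ← pow_add]
  exact pow_le_pow_of_le_one hx0 hx1 (hto_N_inf_sup ha hc)

/-- unnormalised expectation -/
noncomputable def htS (x : ℝ) (A : Finset TV) (b : TV → ℤ) (G : (TV → ℤ) → ℝ) : ℝ := ∑ h ∈ htCfg A b, htWt x A h * G h

theorem hto_E_eq (x : ℝ) (A : Finset TV) (b : TV → ℤ) (G : (TV → ℤ) → ℝ) : htE x A b G = htS x A b G / htZ x A b := rfl

theorem hto_Z_eq (x : ℝ) (A : Finset TV) (b : TV → ℤ) : htZ x A b = htS x A b fun _ => 1 := by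
  unfold htZ htS; simp

/-- **TEX[lem:height-order], order in the trace**, unnormalised -/
theorem hto_order_S {x : ℝ} (hx0 : 0 ≤ x) (hx1 : x ≤ 1) (A : Finset TV) {b₁ b₂ : TV → ℤ} (hb : ∀ u, b₁ u ≤ b₂ u)
    {F : (TV → ℤ) → ℝ} (hF : HtMono F) : htS x A b₁ F * htZ x A b₂ ≤ htZ x A b₁ * htS x A b₂ F := by
  refine hto_two (htCfg A b₁) (htCfg A b₂) (htWt x A) F (hto_wt_nonneg hx0 A) (fun a ha c hc => ?_) (fun a c hac => hF a c hac)
  rw [ht_mem_cfg] at ha hc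
  obtain ⟨h1, h2⟩ := hto_adm_inf_sup hb ha hc
  exact ⟨ht_mem_cfg.2 h1, ht_mem_cfg.2 h2, hto_wt_inf_sup hx0 hx1 ha hc⟩

/-- **TEX[lem:height-order], association**, unnormalised -/
theorem hto_fkg_S {x : ℝ} (hx0 : 0 ≤ x) (hx1 : x ≤ 1) (A : Finset TV) (b : TV → ℤ)
    {F G : (TV → ℤ) → ℝ} (hF : HtMono F) (hG : HtMono G) :
    htS x A b F * htS x A b G ≤ htZ x A b * htS x A b (fun h => F h * G h) := by
  refine hto_one (htCfg A b) (htWt x A) F G (hto_wt_nonneg hx0 A) (fun a ha c hc => ?_) (fun a c hac => hF a c hac)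
    (fun a c hac => hG a c hac)
  rw [ht_mem_cfg] at ha hc
  obtain ⟨h1, h2⟩ := hto_adm_inf_sup (fun _ => le_rfl) ha hc
  exact ⟨ht_mem_cfg.2 h1, ht_mem_cfg.2 h2, hto_wt_inf_sup hx0 hx1 ha hc⟩

theorem hto_Z_pos {x : ℝ} (hx0 : 0 < x) {A : Finset TV} {b : TV → ℤ} (hne : ∃ h, HtAdm A b h) : 0 < htZ x A b := by
  obtain ⟨h, hh⟩ := hne
  exact Finset.sum_pos (fun a _ => hto_wt_pos hx0 A a) ⟨h, ht_mem_cfg.2 hh⟩

/-- **order in the trace**, normalised -/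
theorem hto_order {x : ℝ} (hx0 : 0 < x) (hx1 : x ≤ 1) (A : Finset TV) {b₁ b₂ : TV → ℤ} (hb : ∀ u, b₁ u ≤ b₂ u)
    (h₁ : ∃ h, HtAdm A b₁ h) (h₂ : ∃ h, HtAdm A b₂ h) {F : (TV → ℤ) → ℝ} (hF : HtMono F) :
    htE x A b₁ F ≤ htE x A b₂ F := by
  rw [hto_E_eq, hto_E_eq, div_le_div_iff₀ (hto_Z_pos hx0 h₁) (hto_Z_pos hx0 h₂)]
  have := hto_order_S hx0.le hx1 A hb hF
  linarith

/-- **association**, normalised -/
theorem hto_fkg {x : ℝ} (hx0 : 0 < x) (hx1 : x ≤ 1) (A : Finset TV) (b : TV → ℤ) (hne : ∃ h, HtAdm A b h)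
    {F G : (TV → ℤ) → ℝ} (hF : HtMono F) (hG : HtMono G) :
    htE x A b F * htE x A b G ≤ htE x A b (fun h => F h * G h) := by
  have hZ := hto_Z_pos hx0 hne
  rw [hto_E_eq, hto_E_eq, hto_E_eq, div_mul_div_comm, div_le_div_iff₀ (mul_pos hZ hZ) hZ]
  have := hto_fkg_S hx0.le hx1 A b hF hG
  nlinarith

/-! ## 4. Symmetries -/

/-- transport of the unnormalised expectation by an isometry of `ℤ` -/
theorem hto_iso (x : ℝ) (A : Finset TV) (b : TV → ℤ) (G : (TV → ℤ) → ℝ) (φ : ℤ ≃ ℤ) (hφ : ∀ a c, |φ a - φ c| = |a - c|) :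
    htS x A (fun u => φ (b u)) G = htS x A b (fun h => G (fun u => φ (h u))) := by
  have hadm : ∀ h, HtAdm A b h ↔ HtAdm A (fun u => φ (b u)) (fun u => φ (h u)) := by
    intro h
    constructor
    · rintro ⟨h1, h2⟩
      exact ⟨fun u hu => by simp only [h1 u hu], fun u hu d hd => by rw [hφ]; exact h2 u hu d hd⟩
    · rintro ⟨h1, h2⟩
      exact ⟨fun u hu => φ.injective (h1 u hu), fun u hu d hd => by rw [← hφ]; exact h2 u hu d hd⟩
  have hN : ∀ h, htN A (fun u => φ (h u)) = htN A h := by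
    intro h
    unfold htN
    refine Finset.sum_congr rfl fun p _ => ?_
    simp only [ne_eq, φ.injective.eq_iff]
  unfold htS
  symm
  refine Finset.sum_bij' (fun h _ => fun u => φ (h u)) (fun h _ => fun u => φ.symm (h u)) ?_ ?_ ?_ ?_ ?_
  · intro h hh
    exact ht_mem_cfg.2 ((hadm h).1 (ht_mem_cfg.1 hh))
  · intro h hh
    refine ht_mem_cfg.2 ((hadm _).2 ?_)
    simpa using ht_mem_cfg.1 hh
  · intro h _; funext u; simp
  · intro h _; funext u; simp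
  · intro h _
    unfold htWt
    rw [hN]

theorem hto_shift_S (x : ℝ) (A : Finset TV) (b : TV → ℤ) (c : ℤ) (G : (TV → ℤ) → ℝ) :
    htS x A (fun u => b u + c) G = htS x A b (fun h => G (fun u => h u + c)) :=
  hto_iso x A b G (Equiv.addRight c) (fun a d => by simp)

theorem hto_neg_S (x : ℝ) (A : Finset TV) (b : TV → ℤ) (G : (TV → ℤ) → ℝ) :
    htS x A (fun u => - b u) G = htS x A b (fun h => G (fun u => - h u)) :=
  hto_iso x A b G (Equiv.neg ℤ) (fun a d => by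
    simp only [Equiv.neg_apply]
    rw [← abs_neg]; congr 1; ring)

theorem hto_shift (x : ℝ) (A : Finset TV) (b : TV → ℤ) (c : ℤ) (G : (TV → ℤ) → ℝ) :
    htE x A (fun u => b u + c) G = htE x A b (fun h => G (fun u => h u + c)) := by
  rw [hto_E_eq, hto_E_eq, hto_Z_eq, hto_Z_eq, hto_shift_S, hto_shift_S]

theorem hto_neg (x : ℝ) (A : Finset TV) (b : TV → ℤ) (G : (TV → ℤ) → ℝ) :
    htE x A (fun u => - b u) G = htE x A b (fun h => G (fun u => - h u)) := by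
  rw [hto_E_eq, hto_E_eq, hto_Z_eq, hto_Z_eq, hto_neg_S, hto_neg_S]

/-! ## 5. The Gibbs property (DLR) -/

theorem hto_E_sub {A' A : Finset TV} (hA : A' ⊆ A) : latE A' ⊆ latE A := by
  intro p hp
  obtain ⟨h1, h2⟩ := lat_mem_E.1 hp
  exact lat_mem_E.2 ⟨h1, h2.imp (fun h => hA h) (fun h => hA h)⟩

/-- unequal edges meeting `A` but not `A'` -/
def htoR (A A' : Finset TV) (h : TV → ℤ) : ℕ := ∑ p ∈ latE A \ latE A', if h p.1 ≠ h (p.1 + p.2) then 1 else 0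

theorem hto_N_split {A' A : Finset TV} (hA : A' ⊆ A) (h : TV → ℤ) : htN A h = htN A' h + htoR A A' h := by
  unfold htN htoR
  rw [add_comm]
  exact (Finset.sum_sdiff (hto_E_sub hA)).symm

theorem hto_R_congr {A' A : Finset TV} {g h : TV → ℤ} (hgh : ∀ u, u ∉ A' → h u = g u) : htoR A A' h = htoR A A' g := by
  unfold htoR
  refine Finset.sum_congr rfl fun p hp => ?_
  obtain ⟨h1, h2⟩ := Finset.mem_sdiff.1 hp
  have h3 := (lat_mem_E.1 h1).1
  have h4 : p.1 ∉ A' := fun hc => h2 (lat_mem_E.2 ⟨h3, Or.inl hc⟩)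
  have h5 : p.1 + p.2 ∉ A' := fun hc => h2 (lat_mem_E.2 ⟨h3, Or.inr hc⟩)
  rw [hgh _ h4, hgh _ h5]

theorem hto_cfg_congr {A : Finset TV} {b b' : TV → ℤ} (h : ∀ u, u ∉ A → b u = b' u) : htCfg A b = htCfg A b' := by
  ext g
  rw [ht_mem_cfg, ht_mem_cfg]
  unfold HtAdm
  constructor
  · rintro ⟨h1, h2⟩; exact ⟨fun u hu => (h1 u hu).trans (h u hu), h2⟩
  · rintro ⟨h1, h2⟩; exact ⟨fun u hu => (h1 u hu).trans (h u hu).symm, h2⟩

open Classical in
theorem hto_cfg_sub {A' A : Finset TV} (hA : A' ⊆ A) {b g : TV → ℤ} (hg : g ∈ htCfg A b) :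
    htCfg A' g = (htCfg A b).filter (fun h => ∀ u, u ∉ A' → h u = g u) := by
  rw [ht_mem_cfg] at hg
  ext h
  rw [Finset.mem_filter, ht_mem_cfg, ht_mem_cfg]
  constructor
  · rintro ⟨h1, h2⟩
    refine ⟨⟨fun u hu => (h1 u (fun hc => hu (hA hc))).trans (hg.1 u hu), fun u hu d hd => ?_⟩, h1⟩
    by_cases hu' : u ∈ A'
    · exact h2 u hu' d hd
    · by_cases hv' : u + d ∈ A'
      · have := h2 _ hv' _ (lat_dirs_neg hd)
        rw [add_neg_cancel_right] at this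
        rwa [abs_sub_comm]
      · rw [h1 _ hu', h1 _ hv']; exact hg.2 u hu d hd
  · rintro ⟨⟨h1, h2⟩, h3⟩
    exact ⟨h3, fun u hu d hd => h2 u (hA hu) d hd⟩

/-- **DLR**: the law in `A` is a mixture of the laws in `A' ⊆ A` with the boundary function read on the configuration -/
theorem hto_dlr_S {x : ℝ} (hx0 : 0 < x) {A' A : Finset TV} (hA : A' ⊆ A) (b : TV → ℤ) (F : (TV → ℤ) → ℝ) :
    htS x A b (fun g => htE x A' g F) = htS x A b F := by
  classical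
  set C := htCfg A b with hC
  have hself : ∀ g ∈ C, HtAdm A' g g := by
    intro g hg
    have := ht_mem_cfg.1 hg
    exact ⟨fun _ _ => rfl, fun u hu d hd => this.2 u (hA hu) d hd⟩
  have hwt : ∀ h, htWt x A h = htWt x A' h * x ^ htoR A A' h := by
    intro h; unfold htWt; rw [hto_N_split hA, pow_add]
  have e1 : htS x A b (fun g => htE x A' g F)
      = ∑ g ∈ C, ∑ h ∈ C, if (∀ u, u ∉ A' → h u = g u) then htWt x A g * (htWt x A' h * F h) / htZ x A' g else 0 := by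
    unfold htS
    refine Finset.sum_congr rfl fun g hg => ?_
    show htWt x A g * ((∑ h ∈ htCfg A' g, htWt x A' h * F h) / htZ x A' g) = _
    rw [hto_cfg_sub hA hg, Finset.sum_filter, mul_div_assoc', Finset.mul_sum, Finset.sum_div]
    refine Finset.sum_congr rfl fun h _ => ?_
    split_ifs <;> simp
  rw [e1, Finset.sum_comm]
  unfold htS
  refine Finset.sum_congr rfl fun h hh => ?_
  have e2 : ∀ g ∈ C, (if (∀ u, u ∉ A' → h u = g u) then htWt x A g * (htWt x A' h * F h) / htZ x A' g else 0)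
      = (if (∀ u, u ∉ A' → g u = h u) then htWt x A' g else 0) * (htWt x A h * F h / htZ x A' h) := by
    intro g _
    by_cases hgh : ∀ u, u ∉ A' → h u = g u
    · have hgh' : ∀ u, u ∉ A' → g u = h u := fun u hu => (hgh u hu).symm
      rw [if_pos hgh, if_pos hgh']
      have z : htZ x A' g = htZ x A' h := by unfold htZ; rw [hto_cfg_congr hgh']
      rw [z, hwt g, hwt h, hto_R_congr hgh]
      ring
    · have hgh' : ¬ ∀ u, u ∉ A' → g u = h u := fun hc => hgh fun u hu => (hc u hu).symm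
      rw [if_neg hgh, if_neg hgh', zero_mul]
  rw [Finset.sum_congr rfl e2, ← Finset.sum_mul, ← Finset.sum_filter, ← hto_cfg_sub hA hh]
  have hZ : 0 < htZ x A' h := hto_Z_pos hx0 ⟨h, hself h hh⟩
  show htZ x A' h * _ = _
  field_simp

theorem hto_dlr {x : ℝ} (hx0 : 0 < x) {A' A : Finset TV} (hA : A' ⊆ A) (b : TV → ℤ) (F : (TV → ℤ) → ℝ) :
    htE x A b (fun g => htE x A' g F) = htE x A b F := by
  rw [hto_E_eq, hto_E_eq, hto_dlr_S hx0 hA]

/-- DLR with an outside factor -/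
theorem hto_dlr_mul {x : ℝ} (hx0 : 0 < x) {A' A : Finset TV} (hA : A' ⊆ A) (b : TV → ℤ) (F G : (TV → ℤ) → ℝ)
    (hG : ∀ g h : TV → ℤ, (∀ u, u ∉ A' → h u = g u) → G h = G g) :
    htE x A b (fun g => G g * htE x A' g F) = htE x A b (fun h => G h * F h) := by
  rw [← hto_dlr hx0 hA b (fun h => G h * F h)]
  congr 1
  funext g
  unfold htE
  rw [mul_div_assoc', Finset.mul_sum]
  congr 1
  refine Finset.sum_congr rfl fun h hh => ?_
  show G g * (htWt x A' h * F h) = htWt x A' h * (G h * F h)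
  rw [hG g h (ht_mem_cfg.1 hh).1]
  ring

end Claimed.Agent.R291
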