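import Claimed.Agent.R291.Dis.Buffer
import Claimed.Agent.R291.Dis.Amb
import Claimed.Agent.R291.Pl.Neck
import Claimed.Agent.R291.Pl.CellPath
import Claimed.Agent.R291.Tool.Online

/-!
# Row 291 (S0539), Dis/BufferPl : BUFFERED CIRCUITS, PLANAR LAYER: PRIM, MANY, SLOT, STACK      (owner helper141, unit BUFFER of DIS; prefix `dis_`)

TEX[lem:buffer-circuits] TEX[discrete:stack]      02-discrete.tex l.508-600.   Abstract layer: `Dis/Buffer.lean`.   THIS FILE IS BELOW `Dis/Planar.lean`, which closes its exits `dis_prim`, `dis_stack` by citing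
`dis_prim_core`, `dis_stack_core`.   Hence: `ClDisk (clAmb x V)` instead of `DisAmb V`, `DamPin L s` (62) instead of `DisPin s L` (definitionally equal), Theorem 2.3 with explicit constants.
Inputs: `dam_amb_pl` (AMB, 62), `dis_order`, `dis_assoc`, `dis_feas`, flip kit `dfl_` (182), necklace geometry `pnk_` (217).
CHAIN     T23 at 0  --`dis_t23_at`-->  T23 at `z`  --`dis_prim_plus` (lowered history `clLow`: delete the plus pins of the disk, prescribe the crossing cells open-minus)-->  `DisPrim x true`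
          --`dis_prim_flip`-->  `DisPrim x false`  --`dis_many` (FKG)-->  any finite family of small annuli  --`dis_slot_*` (necklace around one annulus)-->  `dis_stack_core` (abstract stack + `ol_geom_pow`).
-/

set_option autoImplicit false
set_option linter.unusedSectionVars false

namespace Claimed.Agent.R291

open Claims Claims.C0467

/-! ### 1. the lowered history (abstract) -/

section abstract

variable {V Y : Type} [DecidableEq V] [DecidableEq Y]

/-- the cells crossing `D` -/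
def clX (S : ClSys V Y) (D : Finset V) : Finset Y := S.C.filter (fun y => clCross S D y)

/-- `K` without its plus pins in `T` -/
def clDel (K : ClCon V Y) (T : Finset V) : ClCon V Y := { K with Bp := K.Bp \ T }

/-- THE LOWERED HISTORY: the plus pins in `T` are deleted, the cells crossing `D` are prescribed open-minus (with their first spins) -/
def clLow (S : ClSys V Y) (K : ClCon V Y) (D T : Finset V) : ClCon V Y :=
  { K with Bp := K.Bp \ T, Bm := K.Bm ∪ (clX S D).biUnion S.sv, Om := K.Om ∪ clX S D }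

theorem dis_low_le (S : ClSys V Y) (K : ClCon V Y) (D T : Finset V) : ClLe (clLow S K D T) K :=
  ⟨Finset.sdiff_subset, Finset.subset_union_left, subset_rfl, Finset.subset_union_left, Finset.subset_union_left,
    Finset.subset_union_left, rfl⟩

/-- LEAF.  the lowered history is legal -/
theorem dis_low_legal (S : ClSys V Y) (K : ClCon V Y) (hK : ClLegal S K) (D T : Finset V)
    (hc : ClClear S true K T) : ClLegal S (clLow S K D T) := by
  refine ⟨hK.wp, hK.wm, fun y hy ho v hv => ?_, hK.eq⟩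
  have h : y ∈ K.Op ∪ K.Om ∪ K.Cl ∨ y ∈ clX S D := by
    simp only [clLow, Finset.mem_union] at ho ⊢; tauto
  simp only [clLow, Finset.mem_union, Finset.mem_sdiff, Finset.mem_biUnion]
  rcases h with h | h
  · have h1 := hK.full y hy h hv
    have h2 : v ∉ T := Finset.disjoint_left.1 (hc.obs y hy h) hv
    rcases Finset.mem_union.1 h1 with h1 | h1
    · exact Or.inl ⟨h1, h2⟩
    · exact Or.inr (Or.inl h1)
  · exact Or.inr (Or.inr ⟨y, h, hv⟩)

/-- LEAF.  the lowered history is feasible.   PLAN: `dis_feas` at `ClFeas S (clLow ..)`, whose ten fields follow from `dis_feas_conv S hS K hK hZ` and `hc` (observed cells miss `T`, the crossing cells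
lie in `T` and meet `D ⊆ T`). -/
theorem dis_low_feas (S : ClSys V Y) (hS : ClOk S) (K : ClCon V Y) (hK : ClLegal S K) (hZ : 0 < S.Z (K.Holds S))
    (D T : Finset V) (hDT : D ⊆ T) (hX : ∀ y ∈ clX S D, S.sv y ⊆ T) (hc : ClClear S true K T) :
    0 < S.Z ((clLow S K D T).Holds S) := by
  have hf := dis_feas_conv S hS K hK hZ
  have hXC : clX S D ⊆ S.C := Finset.filter_subset _ _
  have hU : (clX S D).biUnion S.sv ⊆ T := fun v hv => by
    obtain ⟨y, hy, hvy⟩ := Finset.mem_biUnion.1 hv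
    exact hX y hy hvy
  have hno : ∀ y ∈ clX S D, y ∉ K.Op ∪ K.Om ∪ K.Cl := fun y hy ho => by
    obtain ⟨hyC, ⟨u, hu, huD⟩, _⟩ := Finset.mem_filter.1 hy
    exact Finset.disjoint_left.1 (hc.obs y hyC ho) hu (hDT huD)
  have hno' : ∀ y ∈ clX S D, y ∉ K.Op ∧ y ∉ K.Om ∧ y ∉ K.Cl := fun y hy => by
    have := hno y hy
    simp only [Finset.mem_union, not_or] at this
    exact ⟨this.1.1, this.1.2, this.2⟩
  refine dis_feas S hS _ (dis_low_legal S K hK D T hc) ?_
  exact
    { bpA := Finset.sdiff_subset.trans hf.bpA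
      dis := Finset.disjoint_union_right.2 ⟨Finset.disjoint_of_subset_left Finset.sdiff_subset hf.dis,
        Finset.disjoint_of_subset_right hU Finset.sdiff_disjoint⟩
      opC := hf.opC
      omC := Finset.union_subset hf.omC hXC
      op := fun y hy v hv => Finset.mem_sdiff.2 ⟨hf.op y hy hv, Finset.disjoint_left.1
        (hc.obs y (hf.opC hy) (Finset.mem_union_left _ (Finset.mem_union_left _ hy))) hv⟩
      om := fun y hy => by
        rcases Finset.mem_union.1 hy with h | h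
        · exact (hf.om y h).trans Finset.subset_union_left
        · exact fun v hv => Finset.mem_union_right _ (Finset.mem_biUnion.2 ⟨y, h, hv⟩)
      cl := fun y hy hyC h => by
        rcases h with h | h
        · exact hf.cl y hy hyC (Or.inl (h.trans Finset.sdiff_subset))
        · refine hf.cl y hy hyC (Or.inr fun v hv => ?_)
          rcases Finset.mem_union.1 (h hv) with h1 | h1
          · exact h1
          · exact absurd (hU h1) (Finset.disjoint_left.1 (hc.obs y hyC (Finset.mem_union_right _ hy)) hv)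
      d1 := Finset.disjoint_union_right.2 ⟨hf.d1, Finset.disjoint_right.2 fun y hy => (hno' y hy).1⟩
      d2 := hf.d2
      d3 := Finset.disjoint_union_left.2 ⟨hf.d3, Finset.disjoint_left.2 fun y hy => (hno' y hy).2.2⟩ }

/-- LEAF.  on the configurations of nonzero weight the lowered history = minus cut at `D` + `K` without its plus pins in `T` -/
theorem dis_low_holds (S : ClSys V Y) (K : ClCon V Y) (D T : Finset V) {ω : ClCfg V Y} (hw : S.wt ω ≠ 0) :
    (clLow S K D T).Holds S ω ↔ (ClCut S false D ω ∧ True ∧ (clDel K T).Holds S ω) := by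
  have hm : ∀ y, y ∈ clX S D ↔ y ∈ S.C ∧ clCross S D y := fun y => by unfold clX; rw [Finset.mem_filter]
  have hsg : clSg false = -1 := rfl
  simp only [clLow, clDel, ClCon.Holds]
  constructor
  · rintro ⟨a1, a2, a3, a4, a5, a6, a7, a8⟩
    exact ⟨fun y hy hc => by rw [hsg]; exact a5 y (Finset.mem_union_right _ ((hm y).2 ⟨hy, hc⟩)), trivial, a1,
      fun v hv => a2 v (Finset.mem_union_left _ hv), a3, a4, fun y hy => a5 y (Finset.mem_union_left _ hy), a6, a7, a8⟩
  · rintro ⟨b, -, a1, a2, a3, a4, a5, a6, a7, a8⟩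
    refine ⟨a1, fun v hv => ?_, a3, a4, fun y hy => ?_, a6, a7, a8⟩
    · rcases Finset.mem_union.1 hv with h | h
      · exact a2 v h
      · obtain ⟨y, hy, hvy⟩ := Finset.mem_biUnion.1 h
        obtain ⟨hyC, hcr⟩ := (hm y).1 hy
        have ht := b y hyC hcr
        rw [hsg] at ht
        obtain ⟨ho, hn⟩ := dis_tau_neg.1 ht
        rcases dfl_open_const S hw hyC ho with h1 | h1
        · exact absurd h1 hn
        · exact h1 v hvy
    · rcases Finset.mem_union.1 hy with h | h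
      · exact a5 y h
      · have := b y ((hm y).1 h).1 ((hm y).1 h).2
        rwa [hsg] at this

/-- LEAF.  `K` without its plus pins in `T` does not see the sites of `D` and the cells of `Q` -/
theorem dis_del_out (S : ClSys V Y) (hS : ClOk S) (K : ClCon V Y) (hK : ClLegal S K) (hZ : 0 < S.Z (K.Holds S))
    (D T : Finset V) (hDT : D ⊆ T) (hc : ClClear S true K T) (Q : Finset Y) (hQC : Q ⊆ S.C)
    (hQ : ∀ y ∈ Q, ¬ Disjoint (S.sv y) T) : DamOut D Q ((clDel K T).Holds S) := by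
  have hf := dis_feas_conv S hS K hK hZ
  intro ω ω' hB hW hO
  have mB : ∀ v, v ∉ T → (v ∈ ω.B ↔ v ∈ ω'.B) := fun v hv => dcu_mem_of_sdiff hB fun h => hv (hDT h)
  have mW : ∀ v, v ∉ T → (v ∈ ω.W ↔ v ∈ ω'.W) := fun v hv => dcu_mem_of_sdiff hW fun h => hv (hDT h)
  have mO : ∀ y, y ∉ Q → (y ∈ ω.O ↔ y ∈ ω'.O) := fun y hy => dcu_mem_of_sdiff hO hy
  have hnQ : ∀ y, y ∈ K.Op ∪ K.Om ∪ K.Cl → y ∉ Q := fun y hy h => hQ y h (hc.obs y (hQC h) hy)
  have hT : ∀ y ∈ S.C, y ∈ K.Op ∪ K.Om ∪ K.Cl → clTau S ω y = clTau S ω' y := fun y hyC hy => by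
    have hd := hc.obs y hyC hy
    have h1 : y ∈ ω.O ↔ y ∈ ω'.O := mO y (hnQ y hy)
    have h2 : S.sv y ⊆ ω.B ↔ S.sv y ⊆ ω'.B :=
      ⟨fun h v hv => (mB v (Finset.disjoint_left.1 hd hv)).1 (h hv),
        fun h v hv => (mB v (Finset.disjoint_left.1 hd hv)).2 (h hv)⟩
    simp only [clTau, h1, h2]
  simp only [ClCon.Holds, clDel, hK.wp, hK.wm]
  refine and_congr ?_ (and_congr ?_ (and_congr ?_ (and_congr ?_ (and_congr ?_ (and_congr ?_ (by simp))))))
  · exact ⟨fun h v hv => (mB v (Finset.mem_sdiff.1 hv).2).1 (h hv), fun h v hv => (mB v (Finset.mem_sdiff.1 hv).2).2 (h hv)⟩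
  · exact forall₂_congr fun v hv => not_congr (mB v fun h => (hc.pin v h).1 rfl hv)
  · exact forall₂_congr fun e he => by rw [mW _ (hc.eq e he).1, mW _ (hc.eq e he).2]
  · exact forall₂_congr fun y hy => by
      rw [hT y (hf.opC hy) (Finset.mem_union_left _ (Finset.mem_union_left _ hy))]
  · exact forall₂_congr fun y hy => by
      rw [hT y (hf.omC hy) (Finset.mem_union_left _ (Finset.mem_union_right _ hy))]
  · exact forall₂_congr fun y hy => not_congr (mO y (hnQ y (Finset.mem_union_right _ hy)))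

end abstract

/-! ### 2. PRIM -/

/-- Theorem 2.3 as consumed, at the centre `z`, radii `n < R`: the probability -/
noncomputable def disT23P (x : ℝ) (s : Bool) (z : TV) (R n : ℕ) : ℝ :=
  (clInn x (latBall z R)).P (DamPin (latBd (latBall z R)) (!s))
    (fun ω => ClSep (clInn x (latBall z R)) s ∅ ω (latBd (latBall z R)) (latBall z n))

/-- (PRIM) with explicit constants -/
def DisPrim (x : ℝ) (s : Bool) (κ n₀ : ℕ) (c : ℝ) : Prop :=
  ∀ (V : Finset TV), ClDisk (clAmb x V) → ∀ K : ClCon TV TV, ClLegal (clAmb x V) K →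
    0 < (clAmb x V).Z (K.Holds (clAmb x V)) → ∀ (z : TV) (n : ℕ), n₀ ≤ n → latBall z (κ * n + 2) ⊆ V →
    ClClear (clAmb x V) s K (latBall z (κ * n + 2)) →
    c ≤ (clAmb x V).P (K.Holds (clAmb x V))
      (fun ω => ClSep (clAmb x V) s K.Eq ω (V \ latBall z (κ * n)) (latBall z n))

section iso

variable {V Y V' Y' : Type} [DecidableEq V] [DecidableEq Y] [DecidableEq V'] [DecidableEq Y']

theorem dis_iso_tau {e : V ≃ V'} {e' : Y ≃ Y'} {S : ClSys V Y} {S' : ClSys V' Y'} (h : DamIso e e' S S') (ω : ClCfg V Y)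
    {y : Y} (hy : y ∈ S.C) : clTau S' (damMap e e' ω) (e' y) = clTau S ω y := by
  have e2 : (e' y ∈ (damMap e e' ω).O) ↔ y ∈ ω.O := by
    unfold damMap
    exact Finset.mem_map' e'.toEmbedding
  have e3 : S'.sv (e' y) ⊆ (damMap e e' ω).B ↔ S.sv y ⊆ ω.B := by
    rw [h.sv y hy]
    unfold damMap
    exact Finset.map_subset_map
  simp only [clTau, e2, e3]

theorem dis_iso_step {e : V ≃ V'} {e' : Y ≃ Y'} {S : ClSys V Y} {S' : ClSys V' Y'} (h : DamIso e e' S S') (s : Bool)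
    (ω : ClCfg V Y) (u v : V) : clStep S' s ∅ (damMap e e' ω) (e u) (e v) ↔ clStep S s ∅ ω u v := by
  have m : ∀ (y : Y), y ∈ S.C → ∀ w : V, e w ∈ S'.sv (e' y) ↔ w ∈ S.sv y := fun y hy w => by
    rw [h.sv y hy]
    exact Finset.mem_map' e.toEmbedding
  simp only [clStep, Finset.notMem_empty, or_false]
  constructor
  · rintro ⟨y', hy', h1, h2, h3⟩
    rw [h.hC] at hy'
    obtain ⟨y, hy, rfl⟩ := Finset.mem_map.1 hy'
    have e1 : e'.toEmbedding y = e' y := rfl
    rw [e1] at h1 h2 h3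
    exact ⟨y, hy, (m y hy u).1 h1, (m y hy v).1 h2, by rwa [dis_iso_tau h ω hy] at h3⟩
  · rintro ⟨y, hy, h1, h2, h3⟩
    exact ⟨e' y, by rw [h.hC]; exact Finset.mem_map_of_mem _ hy, (m y hy u).2 h1, (m y hy v).2 h2,
      by rwa [dis_iso_tau h ω hy]⟩

theorem dis_iso_reach {e : V ≃ V'} {e' : Y ≃ Y'} {S : ClSys V Y} {S' : ClSys V' Y'} (h : DamIso e e' S S') (s : Bool)
    (ω : ClCfg V Y) (u v : V) :
    Relation.ReflTransGen (clStep S' s ∅ (damMap e e' ω)) (e u) (e v) ↔ Relation.ReflTransGen (clStep S s ∅ ω) u v := by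
  constructor
  · intro hr
    have := Relation.ReflTransGen.lift (r := clStep S' s ∅ (damMap e e' ω)) (p := clStep S s ∅ ω) e.symm
      (fun a b hab => by
        show clStep S s ∅ ω (e.symm a) (e.symm b)
        rw [← dis_iso_step h s ω, Equiv.apply_symm_apply, Equiv.apply_symm_apply]
        exact hab) _ _ hr
    simpa [Function.onFun] using this
  · intro hr
    exact Relation.ReflTransGen.lift (p := clStep S' s ∅ (damMap e e' ω)) e
      (fun a b hab => (dis_iso_step h s ω a b).2 hab) _ _ hr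

/-- transport of a separation by an isomorphism of systems -/
theorem dis_iso_sep {e : V ≃ V'} {e' : Y ≃ Y'} {S : ClSys V Y} {S' : ClSys V' Y'} (h : DamIso e e' S S') (s : Bool)
    (ω : ClCfg V Y) (O A : Finset V) :
    ClSep S' s ∅ (damMap e e' ω) (O.map e.toEmbedding) (A.map e.toEmbedding) ↔ ClSep S s ∅ ω O A := by
  unfold ClSep
  constructor
  · intro hs u hu v hv hr
    exact hs (e u) (Finset.mem_map_of_mem _ hu) (e v) (Finset.mem_map_of_mem _ hv) ((dis_iso_reach h s ω u v).2 hr)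
  · intro hs u' hu' v' hv' hr
    obtain ⟨u, hu, rfl⟩ := Finset.mem_map.1 hu'
    obtain ⟨v, hv, rfl⟩ := Finset.mem_map.1 hv'
    exact hs u hu v hv ((dis_iso_reach h s ω u v).1 hr)

end iso

theorem dis_ball_sh (a : TV) (N : ℕ) : damSh a (latBall 0 N) = latBall a N := by
  ext u
  rw [dam_mem_sh, lat_mem_ball, lat_mem_ball, sub_zero]

/-- (translation).   `latBall z r = damSh z (latBall 0 r)`, `dam_inn_sh`, `dam_bd_sh`; `ClSep` is transported by `damShC z` (statuses: `dam_pl_iso`). -/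
theorem dis_t23_at (x : ℝ) (s : Bool) (z : TV) (R n : ℕ) : disT23P x s z R n = disT23P x s 0 R n := by
  classical
  unfold disT23P ClSys.P
  rw [← dis_ball_sh z R, ← dis_ball_sh z n, dam_bd_sh, dam_inn_sh]
  have hiso : DamIso (Equiv.addRight z) (Equiv.addRight z) (clInn x (latBall 0 R)) (clInn x (damSh z (latBall 0 R))) := by
    unfold clInn
    rw [dam_cellsIn_sh]
    exact dam_pl_iso x z _ _
  have h1 : ∀ ω : ClCfg TV TV, DamPin (damSh z (latBd (latBall 0 R))) (!s) (damShC z ω) ↔ DamPin (latBd (latBall 0 R)) (!s) ω := by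
    intro ω
    unfold DamPin DamSg
    constructor
    · intro h v hv
      have := h (v + z) (dam_mem_sh.2 (by simpa using hv))
      rw [← this]
      show v ∈ ω.B ↔ v + z ∈ damSh z ω.B
      rw [dam_mem_sh, add_sub_cancel_right]
    · intro h v hv
      have := h (v - z) (dam_mem_sh.1 hv)
      rw [← this]
      show v ∈ damSh z ω.B ↔ v - z ∈ ω.B
      rw [dam_mem_sh]
  have h2 : ∀ ω : ClCfg TV TV, ClSep (clInn x (damSh z (latBall 0 R))) s ∅ (damShC z ω) (damSh z (latBd (latBall 0 R)))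
      (damSh z (latBall 0 n)) ↔ ClSep (clInn x (latBall 0 R)) s ∅ ω (latBd (latBall 0 R)) (latBall 0 n) :=
    fun ω => dis_iso_sep hiso s ω _ _
  simp only [h1, h2]

/-- LEAF (B-flip in the inner system; copy of the proof of `dis_t23_flip` of 182) -/
theorem dis_t23_eq (x : ℝ) (hx0 : 0 < x) (hx1 : x ≤ 1) (z : TV) (R n : ℕ) : disT23P x false z R n = disT23P x true z R n := by
  classical
  unfold disT23P
  set I := latBall z R with hI
  set S := clInn x I with hSdef
  have hS : ClOk S := pcp_inn_ok x hx0 hx1 I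
  have hbd : latBd I ⊆ S.A := Finset.filter_subset _ _
  have hL : ∀ ω ∈ S.cfgs, S.wt ω ≠ 0 → (DamPin (latBd I) (!false) (S.flipB ω) ↔ DamPin (latBd I) (!true) ω) := by
    intro ω _ _
    unfold DamPin DamSg
    refine forall₂_congr fun v hv => ?_
    have := hbd hv
    simp only [ClSys.flipB, Finset.mem_sdiff, Bool.not_false, Bool.not_true, Bool.false_eq_true, iff_false, iff_true]
    tauto
  unfold ClSys.P
  rw [dis_E_eq, dis_E_eq, dis_Z_eq, dis_Z_eq]
  rw [dfl_N S hS _ _ (fun _ => 1) (fun _ => 1) hL (fun _ _ _ _ => rfl)]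
  congr 1
  refine (dfl_N S hS _ _ _ _ hL (fun ω hm hw _ => ?_))
  have := dfl_sep S hS true ∅ hm hw (latBd I) (latBall z n)
  simp only [Bool.not_true] at this
  by_cases hc : ClSep S true ∅ ω (latBd I) (latBall z n)
  · exact (if_pos (this.2 hc)).trans (if_pos hc).symm
  · exact (if_neg (fun h => hc (this.1 h))).trans (if_neg hc).symm

/-- a cell with a site in `latInt D` lies in `D` -/
theorem dis_cell_int {D : Finset TV} {y w : TV} (hw : w ∈ cellV y) (hwD : w ∈ latInt D) : cellV y ⊆ D := by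
  intro u hu
  by_cases h : u = w
  · rw [h]; exact lat_int_sub D hwD
  · exact (lat_mem_int.1 hwD).2 u (dam_cell_adj hw hu (Ne.symm h))

theorem dis_sep_inn_aux (x : ℝ) {V D : Finset TV} (hD : D ⊆ V) (s : Bool) (E : Finset (TV × TV))
    (hE : ∀ e ∈ E, e.1 ∉ latInt D ∧ e.2 ∉ latInt D) (ω : ClCfg TV TV) {u w : TV} (hu : u ∉ latInt D)
    (h : Relation.ReflTransGen (clStep (clAmb x V) s E ω) u w) :
    w ∉ latInt D ∨ ∃ u' ∈ latBd D, Relation.ReflTransGen (clStep (clInn x D) s ∅ ω) u' w := by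
  induction h with
  | refl => exact Or.inl hu
  | @tail b c _ hst ih =>
    by_cases hc : c ∈ latInt D
    · right
      rcases hst with ⟨y, _, hb, hcy, ht⟩ | he | he
      · have hsub : cellV y ⊆ D := dis_cell_int (Finset.mem_inter.1 hcy).1 hc
        have hst' : clStep (clInn x D) s ∅ ω b c := by
          refine Or.inl ⟨y, lat_mem_cellsIn.2 hsub, ?_, ?_, ?_⟩
          · exact Finset.mem_inter.2 ⟨(Finset.mem_inter.1 hb).1, hsub (Finset.mem_inter.1 hb).1⟩
          · exact Finset.mem_inter.2 ⟨(Finset.mem_inter.1 hcy).1, hsub (Finset.mem_inter.1 hcy).1⟩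
          · have e : (clInn x D).sv y = (clAmb x V).sv y := by
              show cellV y ∩ D = cellV y ∩ V
              rw [Finset.inter_eq_left.2 hsub, Finset.inter_eq_left.2 (hsub.trans hD)]
            have e2 : clTau (clInn x D) ω y = clTau (clAmb x V) ω y := by
              unfold clTau; rw [e]
            rw [e2]; exact ht
        rcases ih with hb' | ⟨u', hu', hp⟩
        · refine ⟨b, ?_, Relation.ReflTransGen.single hst'⟩
          have hbD : b ∈ D := hsub (Finset.mem_inter.1 hb).1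
          by_contra hn
          apply hb'
          rw [lat_int_eq]
          exact Finset.mem_sdiff.2 ⟨hbD, hn⟩
        · exact ⟨u', hu', hp.tail hst'⟩
      · exact absurd hc (hE _ he).2
      · exact absurd hc (hE _ he).1
    · exact Or.inl hc

/-- (deterministic).   A separation inside `D` (cells inside `D` only) from the layer is a separation in the ambient system from everything off `latInt D`.
PLAN: induction along the path: every reached site is off `latInt D` or is reached from `latBd D` inside; a cell with a site in `latInt D` lies in `D` (`dam_cell_adj`, `lat_mem_int`). -/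
theorem dis_sep_inn (x : ℝ) {V D : Finset TV} (hD : D ⊆ V) (s : Bool) (E : Finset (TV × TV))
    (hE : ∀ e ∈ E, e.1 ∉ latInt D ∧ e.2 ∉ latInt D) (ω : ClCfg TV TV) (A : Finset TV) (hA : A ⊆ D)
    (h : ClSep (clInn x D) s ∅ ω (latBd D) A) : ClSep (clAmb x V) s E ω (V \ latInt D) A := by
  intro u hu v hv huv
  rcases dis_sep_inn_aux x hD s E hE ω (Finset.mem_sdiff.1 hu).2 huv with h1 | ⟨u', hu', hp⟩
  · refine h v ?_ v hv Relation.ReflTransGen.refl
    by_contra hn
    apply h1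
    rw [lat_int_eq]
    exact Finset.mem_sdiff.2 ⟨hA hv, hn⟩
  · exact h u' hu' v hv hp

/-- the separation event of the inner system is local -/
theorem dis_sep_inn_loc (x : ℝ) (D : Finset TV) (s : Bool) (O A : Finset TV) :
    ClLoc D (latCellsIn D) (clInd fun ω => ClSep (clInn x D) s ∅ ω O A) := by
  intro ω ω' hB _ hO
  have hiff : ClSep (clInn x D) s ∅ ω O A ↔ ClSep (clInn x D) s ∅ ω' O A := by
    refine dis_sep_congr A fun y hy _ => ?_
    have hy' : y ∈ latCellsIn D := hy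
    have h1 : y ∈ ω.O ↔ y ∈ ω'.O := by
      have := Finset.ext_iff.1 hO y
      simp only [Finset.mem_inter, hy', and_true] at this
      exact this
    have h2 : (clInn x D).sv y ⊆ ω.B ↔ (clInn x D).sv y ⊆ ω'.B := by
      have hs : (clInn x D).sv y ⊆ D := Finset.inter_subset_right
      constructor
      · intro h v hv
        exact (Finset.mem_inter.1 ((Finset.ext_iff.1 hB v).1 (Finset.mem_inter.2 ⟨h hv, hs hv⟩))).1
      · intro h v hv
        exact (Finset.mem_inter.1 ((Finset.ext_iff.1 hB v).2 (Finset.mem_inter.2 ⟨h hv, hs hv⟩))).1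
    unfold clTau
    simp only [h1, h2]
  by_cases h : ClSep (clInn x D) s ∅ ω O A
  · rw [dis_ind_pos (L := fun ω => ClSep (clInn x D) s ∅ ω O A) h, dis_ind_pos (L := fun ω => ClSep (clInn x D) s ∅ ω O A) (hiff.1 h)]
  · rw [dis_ind_neg (L := fun ω => ClSep (clInn x D) s ∅ ω O A) h,
      dis_ind_neg (L := fun ω => ClSep (clInn x D) s ∅ ω O A) (fun h' => h (hiff.2 h'))]

theorem dis_cl_ball (z : TV) (M : ℕ) : latCl (latBall z M) ⊆ latBall z (M + 1) := by
  intro u hu
  rcases lat_mem_cl.1 hu with h | ⟨v, hv, hvu⟩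
  · exact pnk_ball_mono z (Nat.le_succ M) h
  · rw [lat_mem_ball] at hv ⊢
    have := pnk_N_lip z hvu
    omega

/-- **primitive comparison, general domain**: `D` any finite set with `latCl D ⊆ T ⊆ V`, `K` clear on `T`: the ambient probability of a plus separation around `A ⊆ D` is at least the one of the
inner system on `D` with minus boundary layer.      TEX[lem:buffer-circuits], first paragraph of the proof -/
theorem dis_prim_gen (x : ℝ) (hx0 : 0 < x) (hx1 : x ≤ 1) (V : Finset TV) (hV : ClDisk (clAmb x V)) (K : ClCon TV TV)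
    (hK : ClLegal (clAmb x V) K) (hZ : 0 < (clAmb x V).Z (K.Holds (clAmb x V))) (D T A : Finset TV) (hclD : latCl D ⊆ T)
    (hb : T ⊆ V) (hA : A ⊆ D) (hcl : ClClear (clAmb x V) true K T) :
    (clInn x D).P (DamPin (latBd D) false) (fun ω => ClSep (clInn x D) true ∅ ω (latBd D) A)
      ≤ (clAmb x V).P (K.Holds (clAmb x V)) (fun ω => ClSep (clAmb x V) true K.Eq ω (V \ D) A) := by
  have hS : ClOk (clAmb x V) := hV.toClOk
  have hDT : D ⊆ T := (dam_sub_cl D).trans hclD
  have hclV : latCl D ⊆ V := hclD.trans hb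
  have hX : ∀ y ∈ clX (clAmb x V) D, (clAmb x V).sv y ⊆ T := by
    intro y hy
    obtain ⟨_, ⟨u, hu, huD⟩, _⟩ := Finset.mem_filter.1 hy
    exact (Finset.inter_subset_left).trans ((dam_cell_cl (Finset.mem_inter.1 hu).1 huD).trans hclD)
  have hK' : ClLegal (clAmb x V) (clLow (clAmb x V) K D T) := dis_low_legal _ K hK D T hcl
  have hZ' : 0 < (clAmb x V).Z ((clLow (clAmb x V) K D T).Holds (clAmb x V)) :=
    dis_low_feas _ hS K hK hZ D T hDT hX hcl
  have hE : ∀ e ∈ K.Eq, e.1 ∉ latInt D ∧ e.2 ∉ latInt D := fun e he =>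
    ⟨fun h => (hcl.eq e he).1 (hDT (lat_int_sub D h)), fun h => (hcl.eq e he).2 (hDT (lat_int_sub D h))⟩
  -- (1) order
  have h1 := dis_order_up _ hV true (clLow (clAmb x V) K D T) K hK' hK
    ⟨fun _ => dis_low_le _ K D T, fun h => by cases h⟩ (dis_sep_up (clAmb x V) true K.Eq (V \ D) A)
  -- (2) inclusion of events
  have h2 : (clAmb x V).N ((clLow (clAmb x V) K D T).Holds (clAmb x V)) (clInd fun ω => ClSep (clInn x D) true ∅ ω (latBd D) A)
      ≤ (clAmb x V).N ((clLow (clAmb x V) K D T).Holds (clAmb x V)) (clInd fun ω => ClSep (clAmb x V) true K.Eq ω (V \ D) A) := by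
    refine dis_N_mono _ hS _ fun ω _ _ => dis_ind_mono fun h => ?_
    exact dis_sep_sub (Finset.sdiff_subset_sdiff subset_rfl (lat_int_sub D)) subset_rfl
      (dis_sep_inn x (hDT.trans hb) true K.Eq hE ω _ hA h)
  -- (3) AMB
  have hQC : latCellsIn D ⊆ (clAmb x V).C := by
    intro y hy
    exact lat_mem_cells.2 ⟨y, by simp [cellV], hb (hDT (lat_mem_cellsIn.1 hy (by simp [cellV])))⟩
  have hQ : ∀ y ∈ latCellsIn D, ¬ Disjoint ((clAmb x V).sv y) T := by
    intro y hy hdis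
    have hyD : y ∈ D := lat_mem_cellsIn.1 hy (by simp [cellV])
    refine Finset.disjoint_left.1 hdis ?_ (hDT hyD)
    exact Finset.mem_inter.2 ⟨by simp [cellV], hb (hDT hyD)⟩
  have hout : DamOut D (latCellsIn D) ((clDel K T).Holds (clAmb x V)) := dis_del_out _ hS K hK hZ D T hDT hcl _ hQC hQ
  have hcg : ∀ ω ∈ (clAmb x V).cfgs, (clAmb x V).wt ω ≠ 0 → ((clLow (clAmb x V) K D T).Holds (clAmb x V) ω ↔
      (ClCut (clAmb x V) false D ω ∧ True ∧ (clDel K T).Holds (clAmb x V) ω)) :=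
    fun ω _ hw => dis_low_holds _ K D T hw
  have hfe : (clAmb x V).Z (fun ω => ClCut (clAmb x V) false D ω ∧ True ∧ (clDel K T).Holds (clAmb x V) ω) ≠ 0 := by
    rw [← dam_Z_congr _ hcg]; exact hZ'.ne'
  have h3 : (clAmb x V).E ((clLow (clAmb x V) K D T).Holds (clAmb x V)) (clInd fun ω => ClSep (clInn x D) true ∅ ω (latBd D) A)
      = (clInn x D).E (fun η => DamPin (latBd D) false η ∧ True) (clInd fun ω => ClSep (clInn x D) true ∅ ω (latBd D) A) := by
    rw [dam_E_congr _ hcg]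
    exact dam_amb_pl hx0 hx1 hclV false (Kin := fun _ => True) (fun _ _ _ _ _ => Iff.rfl) hout
      (dis_sep_inn_loc x D true _ _) hfe
  simp only [and_true] at h3
  obtain ⟨c, hc⟩ : ∃ c, c = (clInn x D).P (DamPin (latBd D) false) (fun ω => ClSep (clInn x D) true ∅ ω (latBd D) A) := ⟨_, rfl⟩
  have h4 : c = (clAmb x V).E ((clLow (clAmb x V) K D T).Holds (clAmb x V)) (clInd fun ω => ClSep (clInn x D) true ∅ ω (latBd D) A) := by
    rw [h3, hc]; rfl
  rw [← hc]
  rw [dis_E_eq, eq_div_iff hZ'.ne'] at h4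
  rw [dis_P_eq, le_div_iff₀ hZ]
  refine le_of_mul_le_mul_left ?_ hZ'
  calc _ = c * (clAmb x V).Z ((clLow (clAmb x V) K D T).Holds (clAmb x V)) * (clAmb x V).Z (K.Holds (clAmb x V)) := by ring
    _ ≤ _ := (mul_le_mul_of_nonneg_right (h4.le.trans h2) hZ.le).trans h1

/-- (PRIM), plus sign -/
theorem dis_prim_plus (x : ℝ) (hx0 : 0 < x) (hx1 : x ≤ 1) (κ n₀ : ℕ) (hκ : 1 ≤ κ) (c : ℝ)
    (hT : ∀ n : ℕ, n₀ ≤ n → c ≤ disT23P x true 0 (κ * n) n) : DisPrim x true κ n₀ c := by
  intro V hV K hK hZ z n hn hb hcl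
  have h := hT n hn
  rw [← dis_t23_at x true z] at h
  refine h.trans (dis_prim_gen x hx0 hx1 V hV K hK hZ (latBall z (κ * n)) (latBall z (κ * n + 2)) (latBall z n) ?_ hb ?_ hcl)
  · exact (dis_cl_ball z _).trans (pnk_ball_mono z (by omega))
  · exact pnk_ball_mono z (Nat.le_mul_of_pos_left _ hκ)

/-- LEAF (mirror image, flip kit `dfl_`) -/
theorem dis_prim_flip (x : ℝ) (hx0 : 0 < x) (hx1 : x ≤ 1) (κ n₀ : ℕ) (c : ℝ) (h : DisPrim x true κ n₀ c) :
    DisPrim x false κ n₀ c := by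
  classical
  intro V hV K hK hZ z n hn hsub hcl
  set S := clAmb x V with hSdef
  have hok : ClOk S := hV.toClOk
  have hb := dfl_bp_sub S K hZ
  have hz : S.Z ((K.flipB S).Holds S) = S.Z (K.Holds S) := by
    rw [dis_Z_eq, dis_Z_eq, dfl_N_con S hok K hb (fun _ => 1) (fun _ => 1) (fun _ _ _ => rfl)]
  have hcl' : ClClear S true (K.flipB S) (latBall z (κ * n + 2)) := by
    refine ⟨fun v hv => ⟨fun _ => ?_, fun h => by simp at h⟩, fun y hy ho => hcl.obs y hy ?_, hcl.eq⟩
    · exact (hcl.pin v hv).2 rfl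
    · simp only [ClCon.flipB, Finset.mem_union] at ho ⊢; tauto
  have key := h V hV (K.flipB S) (dfl_legal S hok K hK) (by rw [hz]; exact hZ) z n hn hsub hcl'
  refine key.trans (le_of_eq ?_)
  unfold ClSys.P
  refine dfl_E_con S hok K hb _ _ fun ω hm hw => ?_
  have := dfl_sep S hok false K.Eq hm hw (V \ latBall z (κ * n)) (latBall z n)
  simp only [Bool.not_false] at this
  show (if ClSep S true K.Eq (S.flipB ω) _ _ then (1:ℝ) else 0) = if ClSep S false K.Eq ω _ _ then (1:ℝ) else 0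
  by_cases hc : ClSep S false K.Eq ω (V \ latBall z (κ * n)) (latBall z n)
  · exact (if_pos (this.2 hc)).trans (if_pos hc).symm
  · exact (if_neg (fun h => hc (this.1 h))).trans (if_neg hc).symm

/-- **(PRIM)** with explicit constants, any sign -/
theorem dis_prim_core (x : ℝ) (hx0 : 0 < x) (hx1 : x ≤ 1) (s : Bool) (κ n₀ : ℕ) (hκ : 1 ≤ κ) (c : ℝ)
    (hT : ∀ n : ℕ, n₀ ≤ n → c ≤ disT23P x s 0 (κ * n) n) : ∀ s', DisPrim x s' κ n₀ c := by
  have h1 : DisPrim x true κ n₀ c := by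
    refine dis_prim_plus x hx0 hx1 κ n₀ hκ c fun n hn => ?_
    cases s
    · rw [← dis_t23_eq x hx0 hx1]; exact hT n hn
    · exact hT n hn
  intro s'
  cases s'
  · exact dis_prim_flip x hx0 hx1 κ n₀ c h1
  · exact h1

/-! ### 3. MANY: any finite family of small annuli -/

/-- **(MANY)** general necklace: finitely many requests of the same sign, each in its own clear disk.      TEX[lem:buffer-circuits] "association multiplies their fixed positive probabilities".
Index set `T` of pairs (centre, inner radius). -/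
theorem dis_many (x : ℝ) (s : Bool) (κ n₀ : ℕ) (c : ℝ) (hc : 0 ≤ c) (hP : DisPrim x s κ n₀ c)
    (V : Finset TV) (hV : ClDisk (clAmb x V)) (K : ClCon TV TV) (hK : ClLegal (clAmb x V) K)
    (hZ : 0 < (clAmb x V).Z (K.Holds (clAmb x V))) (T : Finset (TV × ℕ))
    (hT : ∀ p ∈ T, n₀ ≤ p.2 ∧ latBall p.1 (κ * p.2 + 2) ⊆ V ∧ ClClear (clAmb x V) s K (latBall p.1 (κ * p.2 + 2))) :
    c ^ T.card * (clAmb x V).Z (K.Holds (clAmb x V)) ≤ (clAmb x V).N (K.Holds (clAmb x V))
      (clInd fun ω => ∀ p ∈ T, ClSep (clAmb x V) s K.Eq ω (V \ latBall p.1 (κ * p.2)) (latBall p.1 p.2)) := by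
  refine dis_fkg_fin (clAmb x V) hV K hK hZ s T (fun p _ => dis_sep_up _ s _ _ _) hc fun p hp => ?_
  obtain ⟨h1, h2, h3⟩ := hT p hp
  have := hP V hV K hK hZ p.1 p.2 h1 h2 h3
  rw [dis_P_eq, le_div_iff₀ hZ] at this
  exact this

/-! ### 4. one slot -/

/-- two sites of a cell are at distance at most one -/
theorem dis_lat_cell {y u v : TV} (hu : u ∈ cellV y) (hv : v ∈ cellV y) (z : TV) : latN (u - z) ≤ latN (v - z) + 1 := by
  have h1 := pnk_N_le.1 (le_refl (latN (v - z)))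
  rw [pnk_N_le]
  simp only [cellV, Finset.mem_insert, Finset.mem_singleton] at hu hv
  rcases hu with rfl | rfl | rfl <;> rcases hv with rfl | rfl | rfl <;>
    simp only [Prod.fst_sub, Prod.snd_sub, Prod.fst_add, Prod.snd_add] at h1 ⊢ <;> push_cast <;> omega

/-- the level covered by the necklace of the slot of inner radius `ρ` -/
def disLev (κ ρ : ℕ) : ℕ := (κ + 1) * ρ + 3

/-- the necklace of the slot of inner radius `ρ` around `z`: pairs (centre, inner radius `ρ`) -/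
def disNeck (κ : ℕ) (z : TV) (ρ : ℕ) : Finset (TV × ℕ) := (pnkCen z (disLev κ ρ) ρ).image fun w => (w, ρ)

/-- the region of the slot -/
noncomputable def disReg (κ : ℕ) (z : TV) (ρ : ℕ) : Finset TV := latBall z ((2 * κ + 6) * ρ) \ latBall z ρ

/-- the success event of the slot -/
def DisSlot (x : ℝ) (s : Bool) (κ : ℕ) (V : Finset TV) (E : Finset (TV × TV)) (z : TV) (ρ : ℕ) (ω : ClCfg TV TV) : Prop :=
  ∀ p ∈ disNeck κ z ρ, ClSep (clAmb x V) s E ω (V \ latBall p.1 (κ * p.2)) (latBall p.1 p.2)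

theorem dis_neck_card (κ : ℕ) (z : TV) (ρ : ℕ) (hρ : 1 ≤ ρ) : (disNeck κ z ρ).card ≤ 6 * (κ + 5) := by
  refine Finset.card_image_le.trans (pnk_cen_card_ratio z (q := κ + 4) ?_)
  unfold disLev
  nlinarith

/-- the comparison disks of the necklace lie in the region of the slot -/
theorem dis_neck_reg (κ : ℕ) (z : TV) (ρ : ℕ) (hρ : 1 ≤ ρ) {p : TV × ℕ} (hp : p ∈ disNeck κ z ρ) :
    p.2 = ρ ∧ latBall p.1 (κ * p.2 + 2) ⊆ disReg κ z ρ := by
  obtain ⟨w, hw, rfl⟩ := Finset.mem_image.1 hp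
  refine ⟨rfl, fun u hu => ?_⟩
  unfold disReg
  rw [Finset.mem_sdiff]
  constructor
  · refine pnk_ball_mono z ?_ (pnk_bead_sub hw hu)
    unfold disLev
    nlinarith
  · exact Finset.disjoint_left.1 (pnk_bead_far hw (by unfold disLev; nlinarith)) hu

/-- the inner balls of the necklace cover the level -/
theorem dis_neck_cov (κ : ℕ) (z : TV) (ρ : ℕ) (hρ : 1 ≤ ρ) {v : TV} (hv : latN (v - z) = disLev κ ρ) :
    ∃ p ∈ disNeck κ z ρ, v ∈ latBall p.1 p.2 := by
  obtain ⟨w, hw, h⟩ := pnk_cen_cover hρ hv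
  exact ⟨(w, ρ), Finset.mem_image.2 ⟨w, hw, rfl⟩, lat_mem_ball.2 h.le⟩

/-- (N): success in the slot gives the separation across the slot.   PLAN: `dis_neck` with `g u = latN (u - z)`, `t = disLev κ ρ`. -/
theorem dis_slot_sep (x : ℝ) (s : Bool) (κ : ℕ) (V : Finset TV) (E : Finset (TV × TV))
    (hE : ∀ e ∈ E, ∃ y, e.1 ∈ cellV y ∧ e.2 ∈ cellV y) (z : TV) (ρ : ℕ) (hρ : 1 ≤ ρ) (ω : ClCfg TV TV)
    (h : DisSlot x s κ V E z ρ ω) : ClSep (clAmb x V) s E ω (V \ latBall z ((2 * κ + 6) * ρ)) (latBall z ρ) := by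
  refine dis_neck (clAmb x V) s E ω _ _ (disNeck κ z ρ) (fun p => V \ latBall p.1 (κ * p.2)) (fun p => latBall p.1 p.2)
    (fun u => (latN (u - z) : ℤ)) (disLev κ ρ : ℕ) ?_ ?_ ?_ ?_ ?_ ?_ h
  · intro y _ u hu v hv
    have := dis_lat_cell (Finset.mem_inter.1 hu).1 (Finset.mem_inter.1 hv).1 z
    show (latN (u - z) : ℤ) - 1 ≤ latN (v - z)
    omega
  · intro e he
    obtain ⟨y, h1, h2⟩ := hE e he
    have a := dis_lat_cell h1 h2 z
    have b := dis_lat_cell h2 h1 z
    constructor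
    · show (latN (e.1 - z) : ℤ) - 1 ≤ latN (e.2 - z); omega
    · show (latN (e.2 - z) : ℤ) - 1 ≤ latN (e.1 - z); omega
  · intro u hu
    have h1 := (Finset.mem_sdiff.1 hu).2
    rw [lat_mem_ball, not_le] at h1
    have h2 : disLev κ ρ ≤ (2 * κ + 6) * ρ := by unfold disLev; nlinarith
    show ((disLev κ ρ : ℕ) : ℤ) < (latN (u - z) : ℤ)
    omega
  · intro v hv
    rw [lat_mem_ball] at hv
    have h2 : ρ < disLev κ ρ := by unfold disLev; nlinarith
    show (latN (v - z) : ℤ) < ((disLev κ ρ : ℕ) : ℤ)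
    omega
  · intro v hv
    exact dis_neck_cov κ z ρ hρ (by exact_mod_cast hv)
  · intro p hp
    refine Finset.sdiff_subset_sdiff subset_rfl ?_
    refine (pnk_ball_mono p.1 (Nat.le_add_right _ 2)).trans (((dis_neck_reg κ z ρ hρ hp).2).trans ?_)
    exact Finset.sdiff_subset

/-- the success event depends only on the statuses of the cells inside the region.   PLAN: `dis_sep_congr`; a cell with a site in `latBall p.1 (κ ρ)` lies in `latBall p.1 (κ ρ + 1)`. -/
theorem dis_slot_loc (x : ℝ) (s : Bool) (κ : ℕ) (V : Finset TV) (E : Finset (TV × TV)) (z : TV) (ρ : ℕ) (hρ : 1 ≤ ρ)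
    (ω ω' : ClCfg TV TV) (h : ∀ y ∈ (clAmb x V).cin (disReg κ z ρ), clTau (clAmb x V) ω y = clTau (clAmb x V) ω' y) :
    DisSlot x s κ V E z ρ ω ↔ DisSlot x s κ V E z ρ ω' := by
  refine forall₂_congr fun p hp => dis_sep_congr _ fun y hy hv => h y ?_
  obtain ⟨v, hv, hvO⟩ := hv
  unfold ClSys.cin
  rw [Finset.mem_filter]
  refine ⟨hy, fun u hu => (dis_neck_reg κ z ρ hρ hp).2 ?_⟩
  have hvV : v ∈ V := (Finset.mem_inter.1 hv).2
  have hvb : v ∈ latBall p.1 (κ * p.2) := by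
    by_contra hn
    exact hvO (Finset.mem_sdiff.2 ⟨hvV, hn⟩)
  rw [lat_mem_ball] at hvb ⊢
  have := dis_lat_cell (Finset.mem_inter.1 hu).1 (Finset.mem_inter.1 hv).1 p.1
  omega

/-- probability of success in one slot -/
theorem dis_slot_prob (x : ℝ) (s : Bool) (κ n₀ : ℕ) (c : ℝ) (hc : 0 ≤ c) (hc1 : c ≤ 1)
    (hP : DisPrim x s κ n₀ c) (V : Finset TV) (hV : ClDisk (clAmb x V)) (K : ClCon TV TV) (hK : ClLegal (clAmb x V) K)
    (hZ : 0 < (clAmb x V).Z (K.Holds (clAmb x V))) (z : TV) (ρ : ℕ) (hρ : 1 ≤ ρ) (hn : n₀ ≤ ρ)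
    (hV' : disReg κ z ρ ⊆ V) (hcl : ClClear (clAmb x V) s K (disReg κ z ρ)) :
    c ^ (6 * (κ + 5)) * (clAmb x V).Z (K.Holds (clAmb x V)) ≤
      (clAmb x V).N (K.Holds (clAmb x V)) (clInd (DisSlot x s κ V K.Eq z ρ)) := by
  have h := dis_many x s κ n₀ c hc hP V hV K hK hZ (disNeck κ z ρ) fun p hp => by
    obtain ⟨h1, h2⟩ := dis_neck_reg κ z ρ hρ hp
    exact ⟨h1 ▸ hn, h2.trans hV', dis_clear_mono hcl h2⟩
  refine le_trans (mul_le_mul_of_nonneg_right ?_ hZ.le) h
  exact pow_le_pow_of_le_one hc hc1 (dis_neck_card κ z ρ hρ)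

/-! ### 5. STACK -/

theorem dis_prim_mono {x : ℝ} {s : Bool} {κ n₀ : ℕ} {c c' : ℝ} (h : DisPrim x s κ n₀ c) (hc : c' ≤ c) : DisPrim x s κ n₀ c' :=
  fun V hV K hK hZ z n hn hb hcl => hc.trans (h V hV K hK hZ z n hn hb hcl)

/-- the number of slots -/
theorem dis_slots_ex (b ρ₀ L : ℕ) (hb : 2 ≤ b) (hρ : 1 ≤ ρ₀) :
    ∃ k : ℕ, (∀ j < k, b ^ (j + 1) * ρ₀ ≤ L) ∧ L < b ^ (k + 1) * ρ₀ := by
  classical
  have hex : ∃ k : ℕ, L < b ^ (k + 1) * ρ₀ := by
    refine ⟨L, ?_⟩
    have h1 : L + 1 < b ^ (L + 1) := Nat.lt_pow_self hb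
    nlinarith
  refine ⟨Nat.find hex, fun j hj => not_lt.1 (Nat.find_min hex hj), Nat.find_spec hex⟩

/-- the slots of the stack are pairwise disjoint -/
theorem dis_slots_disj (κ : ℕ) (z : TV) (ρ₀ : ℕ) (j : ℕ) :
    Disjoint (clSlots (fun i => disReg κ z ((2 * κ + 6) ^ i * ρ₀)) j) (disReg κ z ((2 * κ + 6) ^ j * ρ₀)) := by
  unfold clSlots
  rw [Finset.disjoint_biUnion_left]
  intro i hi
  have hij : i < j := Finset.mem_range.1 hi
  refine Finset.disjoint_left.2 fun u hu hu' => ?_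
  unfold disReg at hu hu'
  have h1 := (Finset.mem_sdiff.1 hu).1
  have h2 := (Finset.mem_sdiff.1 hu').2
  refine h2 (pnk_ball_mono z ?_ h1)
  have : (2 * κ + 6) ^ (i + 1) ≤ (2 * κ + 6) ^ j := Nat.pow_le_pow_right (by omega) hij
  calc (2 * κ + 6) * ((2 * κ + 6) ^ i * ρ₀) = (2 * κ + 6) ^ (i + 1) * ρ₀ := by ring
    _ ≤ _ := Nat.mul_le_mul_right _ this

theorem dis_stack_fin (x : ℝ) (s : Bool) (κ n₀ : ℕ) (c : ℝ) (hc : 0 ≤ c) (hc1 : c ≤ 1) (hP : DisPrim x s κ n₀ c)
    (V : Finset TV) (hV : ClDisk (clAmb x V)) (K : ClCon TV TV) (hK : ClLegal (clAmb x V) K) (z : TV) (r L ρ₀ k : ℕ)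
    (hρ1 : 1 ≤ ρ₀) (hρn : n₀ ≤ ρ₀) (hρr : r ≤ ρ₀) (hk : ∀ j < k, (2 * κ + 6) ^ (j + 1) * ρ₀ ≤ L) (hL : latBall z L ⊆ V)
    (hcl : ClClear (clAmb x V) s K (latBall z L \ latBall z r)) :
    (clAmb x V).N (K.Holds (clAmb x V)) (clInd fun ω => ¬ ClSep (clAmb x V) s K.Eq ω (V \ latBall z L) (latBall z r))
      ≤ (1 - c ^ (6 * (κ + 5))) ^ k * (clAmb x V).Z (K.Holds (clAmb x V)) := by
  set S := clAmb x V with hS
  set b := 2 * κ + 6 with hb
  have hpos : ∀ j, 1 ≤ b ^ j * ρ₀ := fun j => Nat.one_le_iff_ne_zero.2 (Nat.mul_ne_zero (pow_ne_zero _ (by omega)) (by omega))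
  have hge : ∀ j, ρ₀ ≤ b ^ j * ρ₀ := fun j => Nat.le_mul_of_pos_left _ (pow_pos (by omega) _)
  have hreg : ∀ j < k, disReg κ z (b ^ j * ρ₀) ⊆ latBall z L \ latBall z r := by
    intro j hj u hu
    unfold disReg at hu
    obtain ⟨h1, h2⟩ := Finset.mem_sdiff.1 hu
    refine Finset.mem_sdiff.2 ⟨pnk_ball_mono z ?_ h1, fun h3 => h2 (pnk_ball_mono z (hρr.trans (hge j)) h3)⟩
    calc (2 * κ + 6) * (b ^ j * ρ₀) = b ^ (j + 1) * ρ₀ := by rw [hb]; ring
      _ ≤ L := hk j hj
  have key := dis_stack_abs S hV.toClOk K (fun j => disReg κ z (b ^ j * ρ₀)) (fun j => DisSlot x s κ V K.Eq z (b ^ j * ρ₀))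
    (c := c ^ (6 * (κ + 5))) (pow_le_one₀ hc hc1) k
    (fun j _ ω ω' h => dis_slot_loc x s κ V K.Eq z _ (hpos j) ω ω' h)
    (fun j hj K' hx hZ' => by
      have hK' : ClLegal S K' := dis_legal_ext hK hx fun y hy => (Finset.mem_filter.1 hy).2
      have hcl' : ClClear S s K' (disReg κ z (b ^ j * ρ₀)) :=
        dis_clear_ext (dis_clear_mono hcl (hreg j hj)) hx (dis_slots_disj κ z ρ₀ j)
          fun y hy => Finset.disjoint_of_subset_left (Finset.mem_filter.1 hy).2 (dis_slots_disj κ z ρ₀ j)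
      have := dis_slot_prob x s κ n₀ c hc hc1 hP V hV K' hK' hZ' z (b ^ j * ρ₀) (hpos j) (hρn.trans (hge j))
        ((hreg j hj).trans (Finset.sdiff_subset.trans hL)) hcl'
      rw [hx.eq] at this
      exact this)
  refine le_trans (dis_N_mono S hV.toClOk _ fun ω _ _ => dis_ind_mono fun hns j hj hG => hns ?_) key
  have hE : ∀ e ∈ K.Eq, ∃ y, e.1 ∈ cellV y ∧ e.2 ∈ cellV y := fun e he => by
    obtain ⟨y, _, h1, h2⟩ := hK.eq e he
    exact ⟨y, (Finset.mem_inter.1 h1).1, (Finset.mem_inter.1 h2).1⟩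
  refine dis_sep_sub ?_ ?_ (dis_slot_sep x s κ V K.Eq hE z _ (hpos j) ω hG)
  · refine Finset.sdiff_subset_sdiff subset_rfl (pnk_ball_mono z ?_)
    calc (2 * κ + 6) * (b ^ j * ρ₀) = b ^ (j + 1) * ρ₀ := by rw [hb]; ring
      _ ≤ L := hk j hj
  · exact pnk_ball_mono z (hρr.trans (hge j))

/-- **(STACK)** from (PRIM) with explicit constants      TEX (discrete:stack) -/
theorem dis_stack_core (x : ℝ) (s : Bool) (κ n₀ : ℕ) (c : ℝ) (hc : 0 < c) (hP : DisPrim x s κ n₀ c) :
    ∃ (C α : ℝ), 0 < C ∧ 0 < α ∧ ∀ (V : Finset TV), ClDisk (clAmb x V) → ∀ K : ClCon TV TV, ClLegal (clAmb x V) K →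
      0 < (clAmb x V).Z (K.Holds (clAmb x V)) → ∀ (z : TV) (r L : ℕ), 1 ≤ r → r ≤ L → latBall z L ⊆ V →
      ClClear (clAmb x V) s K (latBall z L \ latBall z r) →
      (clAmb x V).P (K.Holds (clAmb x V))
        (fun ω => ¬ ClSep (clAmb x V) s K.Eq ω (V \ latBall z L) (latBall z r)) ≤ C * ((r : ℝ) / L) ^ α := by
  obtain ⟨c', hc', hc0, hch⟩ : ∃ c' : ℝ, c' ≤ c ∧ 0 < c' ∧ c' ≤ 1 / 2 :=
    ⟨min c (1 / 2), min_le_left _ _, lt_min hc (by norm_num), min_le_right _ _⟩
  have hP' := dis_prim_mono hP hc'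
  obtain ⟨q, hq⟩ : ∃ q : ℝ, q = 1 - c' ^ (6 * (κ + 5)) := ⟨_, rfl⟩
  have hpw0 : 0 < c' ^ (6 * (κ + 5)) := pow_pos hc0 _
  have hpw1 : c' ^ (6 * (κ + 5)) ≤ 1 / 2 :=
    (pow_le_of_le_one hc0.le (by linarith) (by omega)).trans hch
  have hq0 : 0 < q := by rw [hq]; linarith
  have hq1 : q < 1 := by rw [hq]; linarith
  have hb : (1 : ℝ) < ((2 * κ + 6 : ℕ) : ℝ) := by
    have : 1 < 2 * κ + 6 := by omega
    exact_mod_cast this
  obtain ⟨α, hα, hgeo⟩ := ol_geom_pow hq0 hq1 hb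
  have hn1 : (0 : ℝ) < ((max n₀ 1 : ℕ) : ℝ) := by
    have : 0 < max n₀ 1 := by omega
    exact_mod_cast this
  refine ⟨q⁻¹ * ((max n₀ 1 : ℕ) : ℝ) ^ α, α, mul_pos (inv_pos.2 hq0) (Real.rpow_pos_of_pos hn1 _), hα, ?_⟩
  intro V hV K hK hZ z r L hr hrL hL hcl
  obtain ⟨ρ₀, hρ₀⟩ : ∃ ρ₀ : ℕ, ρ₀ = max r (max n₀ 1) := ⟨_, rfl⟩
  have hρ1 : 1 ≤ ρ₀ := by omega
  have hρn : n₀ ≤ ρ₀ := by omega
  have hρr : r ≤ ρ₀ := by omega
  have hρle : ρ₀ ≤ max n₀ 1 * r := by
    rw [hρ₀]
    refine max_le ?_ ?_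
    · exact Nat.le_mul_of_pos_left _ (by omega)
    · exact Nat.le_mul_of_pos_right _ (by omega)
  obtain ⟨k, hk1, hk2⟩ := dis_slots_ex (2 * κ + 6) ρ₀ L (by omega) hρ1
  have h1 := dis_stack_fin x s κ n₀ c' hc0.le (by linarith) hP' V hV K hK z r L ρ₀ k hρ1 hρn hρr hk1 hL hcl
  rw [← hq] at h1
  rw [dis_P_eq, div_le_iff₀ hZ]
  refine h1.trans (mul_le_mul_of_nonneg_right ?_ hZ.le)
  have hLpos : (0 : ℝ) < (L : ℝ) := by
    have : 0 < L := by omega
    exact_mod_cast this
  have hρpos : (0 : ℝ) < (ρ₀ : ℝ) := by exact_mod_cast hρ1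
  have hrpos : (0 : ℝ) < (r : ℝ) := by exact_mod_cast hr
  have h2 := hgeo (ρ₀ : ℝ) (L : ℝ) k hρpos hLpos (by
    have : (L : ℝ) < (((2 * κ + 6) ^ (k + 1) * ρ₀ : ℕ) : ℝ) := by exact_mod_cast hk2
    rw [Nat.cast_mul, Nat.cast_pow] at this
    linarith)
  refine h2.trans ?_
  rw [mul_assoc]
  refine mul_le_mul_of_nonneg_left ?_ (inv_pos.2 hq0).le
  rw [← Real.mul_rpow hn1.le (by positivity)]
  refine Real.rpow_le_rpow (by positivity) ?_ hα.le
  rw [← mul_div_assoc]
  refine div_le_div_of_nonneg_right ?_ hLpos.le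
  exact_mod_cast hρle

theorem dis_bufferpl_eqns_cite : True := by
  have := @clX.eq_1
  have := @clDel.eq_1
  have := @clLow.eq_1
  have := @disT23P.eq_1
  have := @DisPrim.eq_1
  have := @disLev.eq_1
  have := @disNeck.eq_1
  have := @disReg.eq_1
  have := @DisSlot.eq_1
  trivial

end Claimed.Agent.R291
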