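import Claimed.Agent.R291.Defs.Cell
import Claimed.Agent.R291.Ht.Basic
import Claimed.Agent.R291.Tool.TriSCLat

/-!
# Row 291 (S0539), Dis/Lift : THE SPIN LIFT (TEX[lem:spin-lift], 02-discrete.tex l.18-66)      (owner helper63; prefix `dlf_`, `Dlf`)      no sorry

Heights <-> coherent pairs of spins.   Vocabulary: `Defs/Ht` (`htE x A b`), `Defs/Cell` (`clPl x V C`, `clAmb`, `clInn`, `htB`, `htW`, `clInc`), `Tool/TriSC` (`TriSCOn`, `TscConn`).

* Gray code on `ℤ`: `dlfB n`, `dlfW n` (the two bits), `dlfI bu wu bv wv` (increment (discrete:increment); `dlf_inc_eq : clInc ω u v = dlfI ..`),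
  `dlf_I_gray`, `dlf_coh_gray`, `dlf_eq_gray`, `dlf_gray_step`, `dlf_I_abs/anti/tri/self/eq_zero/congr`
* statuses summed out (ANY `ClSys`): `dlf_sum_O : ∑ O, S.wt ⟨B, W, O⟩ = S.wtP B W`, `dlf_sum_pair`
* `dlfEd V C` = interacting edges of `clPl x V C`;  `dlf_wtP_eq : (clPl x V C).wtP B W = ∏ p ∈ dlfEd V C, dlfEf x B W p.1 (p.1 + p.2)` (edge factors `1 / x / 0`),
  `dlf_Ed_amb`, `dlf_wtP_gray`, `dlf_wtP_gray_amb : (clAmb x V).wtP (htB V h) (htW V h) = x ^ htNF V h`, `dlf_coh_of_wtP`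
* cochain form of the lift: `dlf_pot` (potential of a coherent pair on a `TriSCOn ℤ` set), `dlf_lift_conn` (connected set, one value prescribed)
* `DlfGeo A V U b` = geometry of a pinned lift (`latCl A ⊆ V ⊆ U`, `U` TriSC over `ℤ`, `U \ A` connected, `b` 1-Lipschitz on `U \ A`)
  instances  `dlf_geo_fin` (`U = V`, connected skeleton `V \ A`),   **`dlf_geo_plane`** (`U = univ`: `A` HOLE-FREE = `MomCo A`, ANY finite `V ⊇ latCl A`, skeleton need not be connected)
* `DlfPin A V b ω` = both spins are the Gray code of `b` on `V \ A`;   `dlf_pin_zero`, `dlf_pin_gray`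
* bijection: `dlf_inj` (uniqueness), `dlf_exists` (existence)
* **EXITS**  `dlf_push_pl` (any `clPl x V C` in which the edges meeting `A` interact), `dlf_push` (`clAmb`), `dlf_push_inn` (`clInn`):
      `htE x A b (fun h => G ⟨htB V h, htW V h, ∅⟩) = (clAmb x V).E (DlfPin A V b) G`      for every pair observable `G`, every `b`;
  `dlf_Z`, `dlf_num` (the same for the unnormalised sums, factor `x ^ dlfC A V C b`);   `dlf_lift_zero` (= `dis_lift` of `Dis/Planar`)
* sec. 8: `dlfH A V b ω` (height function of a pinned pair), `dlf_H_gray/pair/spec`, **`dlf_lift`** `htE x A b G = (clAmb x V).E (DlfPin A V b) (fun ω => G (dlfH A V b ω))`,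
  `dlf_surj`, `dlf_wt_sum`, `dlf_wt_sum_flat`, `dlf_wtP_ne_of_wt`, `dlf_inc_gray`, `dlfCon`, `dlf_con_holds`
* sec. 9: linear lattice symmetries (60 degrees included): `dlf_prod_aut` (symmetric edge products), `dlf_wtP_aut`, `dlf_N_aut`
-/

set_option autoImplicit false
set_option linter.unusedSectionVars false
set_option linter.unusedVariables false
set_option linter.unusedSimpArgs false

namespace Claimed.Agent.R291

open Claims Claims.C0467

/-! ### 1. the Gray code on `ℤ` -/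

/-- first Gray bit of a height -/
def dlfB (n : ℤ) : Prop := n % 4 = 0 ∨ n % 4 = 1

/-- second Gray bit of a height -/
def dlfW (n : ℤ) : Prop := n % 4 = 0 ∨ n % 4 = 3

instance dlfBDec : DecidablePred dlfB := fun n => by unfold dlfB; infer_instance

instance dlfWDec : DecidablePred dlfW := fun n => by unfold dlfW; infer_instance

/-- the increment (discrete:increment) as a function of the four bits -/
def dlfI (bu wu bv wv : Prop) [Decidable bu] [Decidable wu] [Decidable bv] [Decidable wv] : ℤ :=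
  ((if wu then 1 else -1) * (if bv then 1 else -1) - (if bu then 1 else -1) * (if wv then 1 else -1)) / 2

theorem dlf_eqns_cite : True := by
  have := @dlfB.eq_1
  have := @dlfW.eq_1
  have := @dlfI.eq_1
  trivial

section bits
variable (bu wu bv wv bw ww : Prop) [Decidable bu] [Decidable wu] [Decidable bv] [Decidable wv] [Decidable bw] [Decidable ww]

theorem dlf_I_abs : |dlfI bu wu bv wv| ≤ 1 := by
  unfold dlfI
  split_ifs <;> decide

theorem dlf_I_anti : dlfI bv wv bu wu = - dlfI bu wu bv wv := by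
  unfold dlfI
  split_ifs <;> decide

theorem dlf_I_tri (h1 : (bu ↔ bv) ∨ (wu ↔ wv)) (h2 : (bv ↔ bw) ∨ (wv ↔ ww)) (h3 : (bu ↔ bw) ∨ (wu ↔ ww)) :
    dlfI bu wu bv wv + dlfI bv wv bw ww = dlfI bu wu bw ww := by
  unfold dlfI
  by_cases a1 : bu <;> by_cases a2 : wu <;> by_cases a3 : bv <;> by_cases a4 : wv <;> by_cases a5 : bw <;> by_cases a6 : ww <;>
    simp only [a1, a2, a3, a4, a5, a6, if_true, if_false, iff_true, iff_false, true_iff, false_iff, not_true, not_false_iff, or_self, or_true, true_or] at h1 h2 h3 ⊢ <;>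
    decide

theorem dlf_I_self : dlfI bu wu bu wu = 0 := by
  unfold dlfI
  split_ifs <;> decide

theorem dlf_I_eq_zero (h1 : (bu ↔ bv) ∨ (wu ↔ wv)) : dlfI bu wu bv wv = 0 ↔ (bu ↔ bv) ∧ (wu ↔ wv) := by
  unfold dlfI
  by_cases a1 : bu <;> by_cases a2 : wu <;> by_cases a3 : bv <;> by_cases a4 : wv <;>
    simp [a1, a2, a3, a4] at h1 ⊢

end bits

theorem dlf_I_gray {n m : ℤ} (h : |m - n| ≤ 1) : dlfI (dlfB n) (dlfW n) (dlfB m) (dlfW m) = m - n := by
  rw [abs_le] at h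
  unfold dlfI
  by_cases a1 : dlfB n <;> by_cases a2 : dlfW n <;> by_cases a3 : dlfB m <;> by_cases a4 : dlfW m <;>
    simp only [a1, a2, a3, a4, if_true, if_false] <;> unfold dlfB dlfW at * <;> omega

theorem dlf_coh_gray {n m : ℤ} (h : |m - n| ≤ 1) : (dlfB n ↔ dlfB m) ∨ (dlfW n ↔ dlfW m) := by
  rw [abs_le] at h
  unfold dlfB dlfW
  omega

theorem dlf_eq_gray {n m : ℤ} (h : |m - n| ≤ 1) : n = m ↔ (dlfB n ↔ dlfB m) ∧ (dlfW n ↔ dlfW m) := by
  rw [abs_le] at h
  unfold dlfB dlfW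
  omega

/-- residue propagation along a coherent edge -/
theorem dlf_gray_step {n : ℤ} (bu wu bv wv : Prop) [Decidable bu] [Decidable wu] [Decidable bv] [Decidable wv]
    (hb : dlfB n ↔ bu) (hw : dlfW n ↔ wu) (hc : (bu ↔ bv) ∨ (wu ↔ wv)) :
    (dlfB (n + dlfI bu wu bv wv) ↔ bv) ∧ (dlfW (n + dlfI bu wu bv wv) ↔ wv) := by
  unfold dlfI dlfB dlfW at *
  by_cases a1 : bu <;> by_cases a2 : wu <;> by_cases a3 : bv <;> by_cases a4 : wv <;>
    simp only [a1, a2, a3, a4, if_true, if_false, iff_true, iff_false, true_iff, false_iff, not_true, not_false_iff, or_self, or_true, true_or] at hb hw hc ⊢ <;>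
    omega


/-! ### 2. summing the statuses (abstract) -/

section abstract
variable {V Y : Type} [DecidableEq V] [DecidableEq Y]

theorem dlf_inc_eq (ω : ClCfg V Y) (u v : V) : clInc ω u v = dlfI (u ∈ ω.B) (u ∈ ω.W) (v ∈ ω.B) (v ∈ ω.W) := rfl

/-- (discrete:cell-table) summed over the statuses is the pair weight -/
theorem dlf_sum_O (S : ClSys V Y) (B W : Finset V) : ∑ O ∈ S.C.powerset, S.wt ⟨B, W, O⟩ = S.wtP B W := by
  unfold ClSys.wt ClSys.wtP
  have h1 : ∀ y ∈ S.C, (if ClConst B (S.sv y) then (if ClConst W (S.sv y) then 1 else S.q y)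
      else (if ClConst W (S.sv y) then S.q y else 0)) =
      (if ClConst B (S.sv y) then S.q y else 0) +
        (if ClConst W (S.sv y) then (if ClConst B (S.sv y) then 1 - S.q y else S.q y) else 0) := by
    intro y _
    split_ifs <;> ring
  rw [Finset.prod_congr rfl h1, Finset.prod_add]
  refine Finset.sum_congr rfl fun O hO => ?_
  rw [Finset.mem_powerset] at hO
  simp only [clCellW]
  rw [Finset.prod_ite]
  congr 1
  · refine Finset.prod_congr ?_ fun _ _ => rfl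
    ext y
    simp only [Finset.mem_filter]
    exact ⟨fun h => h.2, fun h => ⟨hO h, h⟩⟩
  · refine Finset.prod_congr ?_ fun _ _ => rfl
    ext y
    simp only [Finset.mem_filter, Finset.mem_sdiff]

open Classical in
/-- a constrained sum of a pair observable: the statuses are summed out -/
theorem dlf_sum_pair (S : ClSys V Y) (K : ClCfg V Y → Prop) (G : ClCfg V Y → ℝ)
    (hK : ∀ ω ω' : ClCfg V Y, ω.B = ω'.B → ω.W = ω'.W → (K ω ↔ K ω'))
    (hG : ∀ ω ω' : ClCfg V Y, ω.B = ω'.B → ω.W = ω'.W → G ω = G ω') :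
    (∑ ω ∈ S.cfgs, if K ω then S.wt ω * G ω else 0) =
      ∑ p ∈ S.A.powerset ×ˢ S.A.powerset, if K ⟨p.1, p.2, ∅⟩ then S.wtP p.1 p.2 * G ⟨p.1, p.2, ∅⟩ else 0 := by
  rw [cl_sum_cfgs, Finset.sum_product]
  refine Finset.sum_congr rfl fun B _ => Finset.sum_congr rfl fun W _ => ?_
  rw [← dlf_sum_O]
  by_cases h : K ⟨B, W, ∅⟩
  · rw [if_pos h, Finset.sum_mul]
    refine Finset.sum_congr rfl fun O _ => ?_
    rw [if_pos ((hK ⟨B, W, O⟩ ⟨B, W, ∅⟩ rfl rfl).2 h), hG ⟨B, W, O⟩ ⟨B, W, ∅⟩ rfl rfl]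
  · rw [if_neg h]
    refine Finset.sum_eq_zero fun O _ => ?_
    rw [if_neg (fun h' => h ((hK ⟨B, W, O⟩ ⟨B, W, ∅⟩ rfl rfl).1 h'))]

theorem dlf_const_iff (P s : Finset V) : ClConst P s ↔ ∀ u ∈ s, ∀ v ∈ s, (u ∈ P ↔ v ∈ P) := by
  unfold ClConst
  constructor
  · rintro (h | h) u hu v hv
    · exact ⟨fun _ => h hv, fun _ => h hu⟩
    · exact ⟨fun h' => absurd h' (h u hu), fun h' => absurd h' (h v hv)⟩
  · intro H
    by_cases h : ∃ u ∈ s, u ∈ P
    · obtain ⟨u, hu, hP⟩ := h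
      exact Or.inl fun v hv => (H u hu v hv).1 hP
    · exact Or.inr fun v hv hP => h ⟨v, hv, hP⟩

end abstract


/-! ### 3. the planar pair weight is a product over the edges -/

/-- edge factor of the pair weight: `1` (no spin changes), `x` (exactly one changes), `0` (both change) -/
def dlfEf (x : ℝ) (B W : Finset TV) (u v : TV) : ℝ :=
  if (u ∈ B ↔ v ∈ B) then (if (u ∈ W ↔ v ∈ W) then 1 else x) else (if (u ∈ W ↔ v ∈ W) then x else 0)

theorem dlf_cell_aux (x : ℝ) (va vb vc ba bb bc wa wb wc cB cW c3 : Prop)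
    [Decidable va] [Decidable vb] [Decidable vc] [Decidable ba] [Decidable bb] [Decidable bc]
    [Decidable wa] [Decidable wb] [Decidable wc] [Decidable cB] [Decidable cW] [Decidable c3]
    (hB : cB ↔ (va → vb → (ba ↔ bb)) ∧ (va → vc → (ba ↔ bc)) ∧ (vb → vc → (bb ↔ bc)))
    (hW : cW ↔ (va → vb → (wa ↔ wb)) ∧ (va → vc → (wa ↔ wc)) ∧ (vb → vc → (wb ↔ wc)))
    (h3 : c3 ↔ va ∧ vb ∧ vc) :
    (if cB then (if cW then 1 else (if c3 then x ^ 2 else x)) else (if cW then (if c3 then x ^ 2 else x) else 0)) =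
      (if va ∧ vb then (if (ba ↔ bb) then (if (wa ↔ wb) then 1 else x) else (if (wa ↔ wb) then x else 0)) else 1) *
      (if va ∧ vc then (if (ba ↔ bc) then (if (wa ↔ wc) then 1 else x) else (if (wa ↔ wc) then x else 0)) else 1) *
      (if vb ∧ vc then (if (bb ↔ bc) then (if (wb ↔ wc) then 1 else x) else (if (wb ↔ wc) then x else 0)) else 1) := by
  by_cases a1 : va <;> by_cases a2 : vb <;> by_cases a3 : vc <;>
  by_cases b1 : ba <;> by_cases b2 : bb <;> by_cases b3 : bc <;>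
  by_cases c1 : wa <;> by_cases c2 : wb <;> by_cases c3 : wc <;>
    simp [a1, a2, a3, b1, b2, b3, c1, c2, c3] at hB hW h3 <;>
    simp [a1, a2, a3, b1, b2, b3, c1, c2, c3, hB, hW, h3, sq]

theorem dlf_const_cell (P V : Finset TV) (y : TV) : ClConst P (cellV y ∩ V) ↔
    (y ∈ V → y + (1, 0) ∈ V → (y ∈ P ↔ y + (1, 0) ∈ P)) ∧ (y ∈ V → y + (0, 1) ∈ V → (y ∈ P ↔ y + (0, 1) ∈ P)) ∧
      (y + (1, 0) ∈ V → y + (0, 1) ∈ V → (y + (1, 0) ∈ P ↔ y + (0, 1) ∈ P)) := by
  rw [dlf_const_iff]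
  simp only [cellV, Finset.mem_inter, Finset.mem_insert, Finset.mem_singleton]
  constructor
  · intro H
    exact ⟨fun h1 h2 => H _ ⟨Or.inl rfl, h1⟩ _ ⟨Or.inr (Or.inl rfl), h2⟩,
      fun h1 h2 => H _ ⟨Or.inl rfl, h1⟩ _ ⟨Or.inr (Or.inr rfl), h2⟩,
      fun h1 h2 => H _ ⟨Or.inr (Or.inl rfl), h1⟩ _ ⟨Or.inr (Or.inr rfl), h2⟩⟩
  · rintro ⟨H1, H2, H3⟩ u ⟨hu | hu | hu, hu'⟩ v ⟨hv | hv | hv, hv'⟩ <;> subst hu <;> subst hv
    · exact Iff.rfl
    · exact H1 hu' hv'
    · exact H2 hu' hv'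
    · exact (H1 hv' hu').symm
    · exact Iff.rfl
    · exact H3 hu' hv'
    · exact (H2 hv' hu').symm
    · exact (H3 hv' hu').symm
    · exact Iff.rfl

theorem dlf_cell_card (y : TV) : (cellV y).card = 3 := by
  unfold cellV
  rw [Finset.card_insert_of_notMem, Finset.card_insert_of_notMem, Finset.card_singleton]
  · simp [Prod.ext_iff]
  · simp [Prod.ext_iff]

theorem dlf_card_cell (V : Finset TV) (y : TV) : (cellV y ∩ V).card = 3 ↔ y ∈ V ∧ y + (1, 0) ∈ V ∧ y + (0, 1) ∈ V := by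
  constructor
  · intro h
    have h1 : cellV y ∩ V = cellV y :=
      Finset.eq_of_subset_of_card_le Finset.inter_subset_left (by rw [h, dlf_cell_card])
    have h2 : cellV y ⊆ V := Finset.inter_eq_left.1 h1
    exact ⟨h2 (by simp [cellV]), h2 (by simp [cellV]), h2 (by simp [cellV])⟩
  · rintro ⟨h1, h2, h3⟩
    have h4 : cellV y ⊆ V := by
      intro u hu
      simp only [cellV, Finset.mem_insert, Finset.mem_singleton] at hu
      rcases hu with rfl | rfl | rfl <;> assumption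
    rw [Finset.inter_eq_left.2 h4, dlf_cell_card]

/-- the positive edges inside `V` of the up-cell `y` -/
theorem dlf_fiber (V : Finset TV) (y : TV) : (latEin V).filter (fun p => latCellOf p = y) =
    ({(y, (1, 0)), (y, (0, 1)), (y + (1, 0), (-1, 1))} : Finset (TV × TV)).filter (fun p => p.1 ∈ V ∧ p.1 + p.2 ∈ V) := by
  ext ⟨u, d⟩
  rw [Finset.mem_filter, Finset.mem_filter]
  simp only [lat_mem_Ein, latPos, Finset.mem_insert, Finset.mem_singleton, latCellOf, Prod.mk.injEq]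
  constructor
  · rintro ⟨⟨hd | hd | hd, h1, h2⟩, h3⟩ <;> subst hd
    · rw [if_neg (by decide)] at h3
      exact ⟨Or.inl ⟨h3, rfl⟩, h1, h2⟩
    · rw [if_neg (by decide)] at h3
      exact ⟨Or.inr (Or.inl ⟨h3, rfl⟩), h1, h2⟩
    · rw [if_pos rfl] at h3
      exact ⟨Or.inr (Or.inr ⟨by rw [← h3]; simp, rfl⟩), h1, h2⟩
  · rintro ⟨⟨hu, hd⟩ | ⟨hu, hd⟩ | ⟨hu, hd⟩, h1, h2⟩ <;> subst hu <;> subst hd
    · exact ⟨⟨Or.inl rfl, h1, h2⟩, by rw [if_neg (by decide)]⟩
    · exact ⟨⟨Or.inr (Or.inl rfl), h1, h2⟩, by rw [if_neg (by decide)]⟩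
    · exact ⟨⟨Or.inr (Or.inr rfl), h1, h2⟩, by rw [if_pos rfl]; simp⟩

/-- the product of a function of the edges over the edges of one up-cell -/
theorem dlf_fiber_prod (V : Finset TV) (y : TV) (f : TV × TV → ℝ) :
    ∏ p ∈ (latEin V).filter (fun p => latCellOf p = y), f p =
      (if y ∈ V ∧ y + (1, 0) ∈ V then f (y, (1, 0)) else 1) * (if y ∈ V ∧ y + (0, 1) ∈ V then f (y, (0, 1)) else 1) *
        (if y + (1, 0) ∈ V ∧ y + (0, 1) ∈ V then f (y + (1, 0), (-1, 1)) else 1) := by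
  rw [dlf_fiber, Finset.prod_filter, Finset.prod_insert, Finset.prod_insert, Finset.prod_singleton]
  · have e : y + (1, 0) + (-1, 1) = y + (0, 1) := by
      ext <;> simp [add_assoc]
    simp only [e, mul_assoc]
  · simp [Prod.ext_iff]
  · simp [Prod.ext_iff]

/-- the INTERACTING edges of the planar system `clPl x V C`: positive edges inside `V` whose up-cell belongs to `C` -/
def dlfEd (V C : Finset TV) : Finset (TV × TV) := (latEin V).filter (fun p => latCellOf p ∈ C)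

theorem dlf_mem_Ed {V C : Finset TV} {p : TV × TV} : p ∈ dlfEd V C ↔ p ∈ latEin V ∧ latCellOf p ∈ C := by
  unfold dlfEd
  rw [Finset.mem_filter]

/-- THE PAIR WEIGHT OF A PLANAR SYSTEM IS THE PRODUCT OF THE EDGE FACTORS (TEX l.27-35) -/
theorem dlf_wtP_eq (x : ℝ) (V C B W : Finset TV) :
    (clPl x V C).wtP B W = ∏ p ∈ dlfEd V C, dlfEf x B W p.1 (p.1 + p.2) := by
  have hmaps : ∀ p ∈ dlfEd V C, latCellOf p ∈ C := fun p hp => (dlf_mem_Ed.1 hp).2
  rw [← Finset.prod_fiberwise_of_maps_to hmaps]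
  unfold ClSys.wtP
  refine Finset.prod_congr rfl fun y hy => ?_
  have hfil : (dlfEd V C).filter (fun p => latCellOf p = y) = (latEin V).filter (fun p => latCellOf p = y) := by
    ext p
    rw [Finset.mem_filter, Finset.mem_filter, dlf_mem_Ed]
    exact ⟨fun h => ⟨h.1.1, h.2⟩, fun h => ⟨⟨h.1, by rw [h.2]; exact hy⟩, h.2⟩⟩
  rw [hfil, dlf_fiber_prod]
  have e : y + (1, 0) + (-1, 1) = y + (0, 1) := by
    ext <;> simp [add_assoc]
  simp only [e]
  exact dlf_cell_aux x _ _ _ _ _ _ _ _ _ _ _ _ (dlf_const_cell B V y) (dlf_const_cell W V y) (dlf_card_cell V y)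

/-- ambient system: every edge inside `V` interacts -/
theorem dlf_Ed_amb (V : Finset TV) : dlfEd V (latCells V) = latEin V := by
  ext p
  rw [dlf_mem_Ed, and_iff_left_iff_imp]
  intro hp
  rw [lat_mem_Ein] at hp
  exact lat_mem_cells.2 ⟨p.1, (lat_cellOf_mem hp.1).1, hp.2.1⟩

/-- the third site of the up-cell of a positive edge is adjacent to both ends -/
theorem dlf_cellOf_sub {p : TV × TV} (hp : p.2 ∈ latPos) {t : TV} (ht : t ∈ cellV (latCellOf p)) :
    (t = p.1 ∨ triAdj p.1 t) ∧ (t = p.1 + p.2 ∨ triAdj (p.1 + p.2) t) := by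
  obtain ⟨u, d⟩ := p
  simp only [latPos, Finset.mem_insert, Finset.mem_singleton] at hp
  simp only [cellV, latCellOf, Finset.mem_insert, Finset.mem_singleton] at ht
  simp only [tsc_adj_iff, Prod.ext_iff]
  rcases hp with rfl | rfl | rfl
  · rw [if_neg (by decide)] at ht
    rcases ht with rfl | rfl | rfl <;> simp
  · rw [if_neg (by decide)] at ht
    rcases ht with rfl | rfl | rfl <;> simp
  · rw [if_pos rfl] at ht
    rcases ht with rfl | rfl | rfl <;> simp [sub_eq_add_neg]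

/-! ### 4. potentials of coherent spin pairs -/

theorem dlf_I_congr {bu wu bv wv bu' wu' bv' wv' : Prop} [Decidable bu] [Decidable wu] [Decidable bv] [Decidable wv]
    [Decidable bu'] [Decidable wu'] [Decidable bv'] [Decidable wv'] (h1 : bu ↔ bu') (h2 : wu ↔ wu') (h3 : bv ↔ bv') (h4 : wv ↔ wv') :
    dlfI bu wu bv wv = dlfI bu' wu' bv' wv' := by
  unfold dlfI
  rw [if_congr h1 rfl rfl, if_congr h2 rfl rfl, if_congr h3 rfl rfl, if_congr h4 rfl rfl]

/-- walk to the right until the finite set `A` is left -/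
theorem dlf_walk (A : Finset TV) (P : TV → Prop) (h0 : ∀ u, u ∉ A → P u) (h1 : ∀ u ∈ A, P (u + (1, 0)) → P u) : ∀ u, P u := by
  obtain ⟨M, hM⟩ := (A.image Prod.fst).bddAbove
  have hM' : ∀ a ∈ A, a.1 ≤ M := fun a ha => hM (by simpa using ⟨a.2, ha⟩)
  have key : ∀ n : ℕ, ∀ u : TV, M - u.1 < n → P u := by
    intro n
    induction n with
    | zero =>
      intro u hu
      refine h0 u fun hA => ?_
      have := hM' u hA
      simp at hu
      omega
    | succ n ih =>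
      intro u hu
      by_cases hA : u ∈ A
      · refine h1 u hA (ih _ ?_)
        simp only [Prod.fst_add]
        push_cast at hu
        omega
      · exact h0 u hA
  intro u
  exact key (M - u.1).toNat.succ u (by push_cast; omega)

theorem dlf_adj_cases {u v : TV} (h : triAdj u v) : (∃ d ∈ latPos, v = u + d) ∨ (∃ d ∈ latPos, u = v + d) := by
  rw [lat_adj_iff, lat_dirs_eq, Finset.mem_union, Finset.mem_image] at h
  rcases h with h | ⟨d, hd, h⟩
  · exact Or.inl ⟨v - u, h, by simp⟩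
  · refine Or.inr ⟨d, hd, ?_⟩
    have : d = u - v := by rw [← neg_sub, ← h, neg_neg]
    rw [this]; simp

/-- THE SPIN LIFT, cochain form (TEX l.44-52): a coherent pair of spins on a set whose cycles are generated by triangles has a potential -/
theorem dlf_pot {U : Set TV} (hU : TriSCOn ℤ tscG U) (β w : TV → Prop) [DecidablePred β] [DecidablePred w]
    (hc : ∀ u ∈ U, ∀ v ∈ U, triAdj u v → ((β u ↔ β v) ∨ (w u ↔ w v))) :
    ∃ f : TV → ℤ, ∀ u ∈ U, ∀ v ∈ U, triAdj u v → f v - f u = dlfI (β u) (w u) (β v) (w v) := by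
  obtain ⟨f, hf⟩ := hU (fun u v => dlfI (β u) (w u) (β v) (w v))
    ⟨fun u _ v _ _ => dlf_I_anti _ _ _ _,
      fun u hu v hv t ht h1 h2 h3 => dlf_I_tri _ _ _ _ _ _ (hc u hu v hv h1) (hc v hv t ht h2) (hc u hu t ht h3)⟩
  exact ⟨f, fun u hu v hv h => (hf u hu v hv h).symm⟩

/-- THE SPIN LIFT on a connected set: heights with prescribed Gray code, one value prescribed -/
theorem dlf_lift_conn {U : Set TV} (hU : TriSCOn ℤ tscG U) (hconn : TscConn tscG U) (β w : TV → Prop) [DecidablePred β] [DecidablePred w]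
    (hc : ∀ u ∈ U, ∀ v ∈ U, triAdj u v → ((β u ↔ β v) ∨ (w u ↔ w v))) {o : TV} (ho : o ∈ U) {n : ℤ}
    (hb : dlfB n ↔ β o) (hw : dlfW n ↔ w o) :
    ∃ h : TV → ℤ, h o = n ∧ (∀ u ∈ U, (dlfB (h u) ↔ β u) ∧ (dlfW (h u) ↔ w u)) ∧
      ∀ u ∈ U, ∀ v ∈ U, triAdj u v → h v - h u = dlfI (β u) (w u) (β v) (w v) := by
  obtain ⟨f, hf⟩ := dlf_pot hU β w hc
  refine ⟨fun u => f u - f o + n, by simp, ?_, fun u hu v hv h => by rw [← hf u hu v hv h]; ring⟩
  intro u hu
  have hr := hconn o ho u hu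
  induction hr with
  | refl => simpa using ⟨hb, hw⟩
  | tail hab hbc ih =>
    rename_i a c
    have h1 := ih hbc.2.1
    have h2 := dlf_gray_step (β a) (w a) (β c) (w c) h1.1 h1.2 (hc a hbc.2.1 c hbc.2.2 hbc.1)
    rw [← hf a hbc.2.1 c hbc.2.2 hbc.1] at h2
    have e : f a - f o + n + (f c - f a) = f c - f o + n := by ring
    rw [e] at h2
    exact h2


/-! ### 5. the pinned lift: bijection heights <-> coherent spin pairs -/

/-- GEOMETRY OF A LIFT: free set `A`, ambient set `V ⊇ latCl A`, a set `U ⊇ V` whose cycles are generated by triangles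
(`U = V`, or `U = univ`), connected skeleton `U \ A`, boundary function `b` 1-Lipschitz on the skeleton -/
structure DlfGeo (A V : Finset TV) (U : Set TV) (b : TV → ℤ) : Prop where
  cl : latCl A ⊆ V
  sub : (↑V : Set TV) ⊆ U
  sc : TriSCOn ℤ tscG U
  conn : TscConn tscG (U \ ↑A)
  ne : (U \ ↑A).Nonempty
  lip : ∀ u ∈ U \ ↑A, ∀ v ∈ U \ ↑A, triAdj u v → |b v - b u| ≤ 1

/-- the two spins are the Gray code of `b` on the skeleton `V \ A` -/
def DlfPin (A V : Finset TV) (b : TV → ℤ) (ω : ClCfg TV TV) : Prop :=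
  ∀ v ∈ V \ A, (v ∈ ω.B ↔ dlfB (b v)) ∧ (v ∈ ω.W ↔ dlfW (b v))

/-- number of unequal interacting edges of the skeleton -/
def dlfC (A V C : Finset TV) (b : TV → ℤ) : ℕ :=
  ∑ p ∈ dlfEd V C \ latE A, if b p.1 ≠ b (p.1 + p.2) then 1 else 0

theorem dlf_mem_htB {V : Finset TV} {h : TV → ℤ} {u : TV} : u ∈ htB V h ↔ u ∈ V ∧ dlfB (h u) := by
  unfold htB dlfB
  rw [Finset.mem_filter]

theorem dlf_mem_htW {V : Finset TV} {h : TV → ℤ} {u : TV} : u ∈ htW V h ↔ u ∈ V ∧ dlfW (h u) := by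
  unfold htW dlfW
  rw [Finset.mem_filter]

theorem dlf_adm_edge {A : Finset TV} {b h : TV → ℤ} (hh : HtAdm A b h) {u v : TV} (hadj : triAdj u v) (hu : u ∈ A ∨ v ∈ A) :
    |h v - h u| ≤ 1 := by
  rcases hu with hu | hv
  · have := hh.2 u hu (v - u) ((lat_adj_iff u v).1 hadj)
    simpa using this
  · have := hh.2 v hv (u - v) ((lat_adj_iff v u).1 (lat_adj_symm hadj))
    rw [abs_sub_comm]
    simpa using this

theorem dlf_cl_of_adj {A : Finset TV} {u v : TV} (hadj : triAdj u v) (hu : u ∈ A ∨ v ∈ A) : u ∈ latCl A ∧ v ∈ latCl A := by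
  rcases hu with hu | hv
  · exact ⟨lat_mem_cl.2 (Or.inl hu), lat_mem_cl.2 (Or.inr ⟨u, hu, hadj⟩)⟩
  · exact ⟨lat_mem_cl.2 (Or.inr ⟨v, hv, lat_adj_symm hadj⟩), lat_mem_cl.2 (Or.inl hv)⟩

theorem dlf_E_sub {A V : Finset TV} (hcl : latCl A ⊆ V) : latE A ⊆ latEin V := by
  intro p hp
  rw [lat_mem_E] at hp
  have := dlf_cl_of_adj (lat_adj_add p.1 (lat_pos_sub hp.1)) hp.2
  exact lat_mem_Ein.2 ⟨hp.1, hcl this.1, hcl this.2⟩

/-- the Gray code of an admissible height satisfies the pins -/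
theorem dlf_pin_gray {A : Finset TV} (V : Finset TV) {b h : TV → ℤ} (hh : HtAdm A b h) (O : Finset TV) :
    DlfPin A V b ⟨htB V h, htW V h, O⟩ := by
  intro v hv
  rw [Finset.mem_sdiff] at hv
  show (v ∈ htB V h ↔ _) ∧ (v ∈ htW V h ↔ _)
  rw [dlf_mem_htB, dlf_mem_htW, hh.1 v hv.2]
  exact ⟨⟨fun h => h.2, fun h => ⟨hv.1, h⟩⟩, ⟨fun h => h.2, fun h => ⟨hv.1, h⟩⟩⟩

/-- UNIQUENESS of the lift -/
theorem dlf_inj {A V : Finset TV} {b : TV → ℤ} (hcl : latCl A ⊆ V) {h h' : TV → ℤ} (hh : HtAdm A b h) (hh' : HtAdm A b h')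
    (hB : htB V h = htB V h') (hW : htW V h = htW V h') : h = h' := by
  funext u
  refine dlf_walk A (fun u => h u = h' u) (fun u hu => by rw [hh.1 u hu, hh'.1 u hu]) (fun u hu hv => ?_) u
  have huV : u ∈ V := hcl (lat_mem_cl.2 (Or.inl hu))
  have h1 := hh.2 u hu (1, 0) (by decide)
  have h2 := hh'.2 u hu (1, 0) (by decide)
  have h3 : dlfB (h u) ↔ dlfB (h' u) := by
    have : u ∈ htB V h ↔ u ∈ htB V h' := by rw [hB]
    rw [dlf_mem_htB, dlf_mem_htB] at this
    exact ⟨fun a => (this.1 ⟨huV, a⟩).2, fun a => (this.2 ⟨huV, a⟩).2⟩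
  have h4 : dlfW (h u) ↔ dlfW (h' u) := by
    have : u ∈ htW V h ↔ u ∈ htW V h' := by rw [hW]
    rw [dlf_mem_htW, dlf_mem_htW] at this
    exact ⟨fun a => (this.1 ⟨huV, a⟩).2, fun a => (this.2 ⟨huV, a⟩).2⟩
  rw [abs_le] at h1 h2
  unfold dlfB at h3
  unfold dlfW at h4
  show h u = h' u
  omega

/-- EXISTENCE of the lift (TEX l.44-60) -/
theorem dlf_exists {A V : Finset TV} {U : Set TV} {b : TV → ℤ} (hg : DlfGeo A V U b) {B W : Finset TV} (hB : B ⊆ V) (hW : W ⊆ V)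
    (hpin : DlfPin A V b ⟨B, W, ∅⟩)
    (hcoh : ∀ p ∈ latE A, ((p.1 ∈ B ↔ p.1 + p.2 ∈ B) ∨ (p.1 ∈ W ↔ p.1 + p.2 ∈ W))) :
    ∃ h, HtAdm A b h ∧ htB V h = B ∧ htW V h = W := by
  classical
  set β : TV → Prop := fun u => (u ∈ A ∧ u ∈ B) ∨ (u ∉ A ∧ dlfB (b u)) with hβdef
  set w : TV → Prop := fun u => (u ∈ A ∧ u ∈ W) ∨ (u ∉ A ∧ dlfW (b u)) with hwdef
  have hβA : ∀ u, u ∉ A → (β u ↔ dlfB (b u)) := fun u hu =>
    ⟨fun h => h.elim (fun h => absurd h.1 hu) (fun h => h.2), fun h => Or.inr ⟨hu, h⟩⟩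
  have hwA : ∀ u, u ∉ A → (w u ↔ dlfW (b u)) := fun u hu =>
    ⟨fun h => h.elim (fun h => absurd h.1 hu) (fun h => h.2), fun h => Or.inr ⟨hu, h⟩⟩
  have hβV : ∀ u ∈ V, (β u ↔ u ∈ B) := by
    intro u hu
    by_cases hA : u ∈ A
    · exact ⟨fun h => h.elim (fun h => h.2) (fun h => absurd hA h.1), fun h => Or.inl ⟨hA, h⟩⟩
    · rw [hβA u hA]; exact (hpin u (Finset.mem_sdiff.2 ⟨hu, hA⟩)).1.symm
  have hwV : ∀ u ∈ V, (w u ↔ u ∈ W) := by
    intro u hu
    by_cases hA : u ∈ A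
    · exact ⟨fun h => h.elim (fun h => h.2) (fun h => absurd hA h.1), fun h => Or.inl ⟨hA, h⟩⟩
    · rw [hwA u hA]; exact (hpin u (Finset.mem_sdiff.2 ⟨hu, hA⟩)).2.symm
  have hAU : ∀ u ∈ latCl A, u ∈ U := fun u hu => hg.sub (hg.cl hu)
  have hc : ∀ u ∈ U, ∀ v ∈ U, triAdj u v → ((β u ↔ β v) ∨ (w u ↔ w v)) := by
    intro u hu v hv hadj
    by_cases hA : u ∈ A ∨ v ∈ A
    · have hcl := dlf_cl_of_adj hadj hA
      rw [hβV u (hg.cl hcl.1), hβV v (hg.cl hcl.2), hwV u (hg.cl hcl.1), hwV v (hg.cl hcl.2)]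
      rcases dlf_adj_cases hadj with ⟨d, hd, rfl⟩ | ⟨d, hd, rfl⟩
      · exact hcoh (u, d) (lat_mem_E.2 ⟨hd, hA⟩)
      · have := hcoh (v, d) (lat_mem_E.2 ⟨hd, hA.symm⟩)
        exact this.imp Iff.symm Iff.symm
    · rw [not_or] at hA
      rw [hβA u hA.1, hβA v hA.2, hwA u hA.1, hwA v hA.2]
      exact dlf_coh_gray (hg.lip u ⟨hu, hA.1⟩ v ⟨hv, hA.2⟩ hadj)
  obtain ⟨f, hf⟩ := dlf_pot hg.sc β w hc
  obtain ⟨o, ho⟩ := hg.ne
  have hH : ∀ u ∈ U \ (↑A : Set TV), f u - f o + b o = b u := by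
    intro u hu
    have := tsc_R_const (fun u => f u - b u) (fun p q hpq => ?_) (hg.conn o ho u hu)
    · omega
    · have h1 := hf p hpq.2.1.1 q hpq.2.2.1 hpq.1
      rw [dlf_I_congr (hβA p hpq.2.1.2) (hwA p hpq.2.1.2) (hβA q hpq.2.2.2) (hwA q hpq.2.2.2),
        dlf_I_gray (hg.lip p hpq.2.1 q hpq.2.2 hpq.1)] at h1
      show f p - b p = f q - b q
      omega
  set h : TV → ℤ := fun u => if u ∈ A then f u - f o + b o else b u with hhdef
  have hhU : ∀ u ∈ U, h u = f u - f o + b o := by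
    intro u hu
    by_cases hA : u ∈ A
    · simp only [hhdef, if_pos hA]
    · simp only [hhdef, if_neg hA]
      exact (hH u ⟨hu, hA⟩).symm
  have hinc : ∀ u ∈ U, ∀ v ∈ U, triAdj u v → h v - h u = dlfI (β u) (w u) (β v) (w v) := by
    intro u hu v hv hadj
    rw [hhU u hu, hhU v hv, ← hf u hu v hv hadj]
    ring
  have hadm : HtAdm A b h := by
    refine ⟨fun u hu => by simp only [hhdef, if_neg hu], fun u hu d hd => ?_⟩
    have hadj := lat_adj_add u hd
    have hcl := dlf_cl_of_adj hadj (Or.inl hu)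
    rw [hinc u (hAU _ hcl.1) _ (hAU _ hcl.2) hadj]
    exact dlf_I_abs _ _ _ _
  have hgray : ∀ u, (dlfB (h u) ↔ β u) ∧ (dlfW (h u) ↔ w u) := by
    refine dlf_walk A _ (fun u hu => ?_) (fun u hu hv => ?_)
    · rw [hadm.1 u hu]
      exact ⟨(hβA u hu).symm, (hwA u hu).symm⟩
    · have hadj := lat_adj_add u (show ((1, 0) : TV) ∈ latDirs by decide)
      have hcl := dlf_cl_of_adj hadj (Or.inl hu)
      have h1 := hinc _ (hAU _ hcl.2) _ (hAU _ hcl.1) (lat_adj_symm hadj)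
      have h2 := dlf_gray_step _ _ (β u) (w u) hv.1 hv.2 (hc _ (hAU _ hcl.2) _ (hAU _ hcl.1) (lat_adj_symm hadj))
      rw [← h1] at h2
      have e : h (u + (1, 0)) + (h u - h (u + (1, 0))) = h u := by ring
      rw [e] at h2
      exact h2
  refine ⟨h, hadm, ?_, ?_⟩
  · ext u
    rw [dlf_mem_htB]
    constructor
    · rintro ⟨h1, h2⟩
      exact (hβV u h1).1 ((hgray u).1.1 h2)
    · intro h1
      exact ⟨hB h1, (hgray u).1.2 ((hβV u (hB h1)).2 h1)⟩
  · ext u
    rw [dlf_mem_htW]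
    constructor
    · rintro ⟨h1, h2⟩
      exact (hwV u h1).1 ((hgray u).2.1 h2)
    · intro h1
      exact ⟨hW h1, (hgray u).2.2 ((hwV u (hW h1)).2 h1)⟩


/-! ### 6. weights, and the lift of the laws -/

/-- edge factor of a Gray code -/
theorem dlf_Ef_gray (x : ℝ) {V : Finset TV} {h : TV → ℤ} {u v : TV} (hu : u ∈ V) (hv : v ∈ V) (hl : |h v - h u| ≤ 1) :
    dlfEf x (htB V h) (htW V h) u v = x ^ (if h u ≠ h v then 1 else 0) := by
  have e1 : (u ∈ htB V h ↔ v ∈ htB V h) ↔ (dlfB (h u) ↔ dlfB (h v)) := by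
    rw [dlf_mem_htB, dlf_mem_htB]; simp [hu, hv]
  have e2 : (u ∈ htW V h ↔ v ∈ htW V h) ↔ (dlfW (h u) ↔ dlfW (h v)) := by
    rw [dlf_mem_htW, dlf_mem_htW]; simp [hu, hv]
  have h1 := dlf_coh_gray hl
  have h2 := dlf_eq_gray hl
  unfold dlfEf
  by_cases a1 : (dlfB (h u) ↔ dlfB (h v)) <;> by_cases a2 : (dlfW (h u) ↔ dlfW (h v))
  · rw [if_pos (e1.2 a1), if_pos (e2.2 a2), if_neg (not_not.2 (h2.2 ⟨a1, a2⟩)), pow_zero]
  · rw [if_pos (e1.2 a1), if_neg (fun h => a2 (e2.1 h)), if_pos (fun h => a2 (h2.1 h).2), pow_one]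
  · rw [if_neg (fun h => a1 (e1.1 h)), if_pos (e2.2 a2), if_pos (fun h => a1 (h2.1 h).1), pow_one]
  · exact (h1.elim a1 a2).elim

/-- the pair weight of the Gray code of a height which is 1-Lipschitz on the interacting edges -/
theorem dlf_wtP_gray (x : ℝ) {V C : Finset TV} {h : TV → ℤ} (hl : ∀ p ∈ dlfEd V C, |h (p.1 + p.2) - h p.1| ≤ 1) :
    (clPl x V C).wtP (htB V h) (htW V h) = x ^ (∑ p ∈ dlfEd V C, if h p.1 ≠ h (p.1 + p.2) then 1 else 0) := by
  rw [dlf_wtP_eq, ← Finset.prod_pow_eq_pow_sum]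
  refine Finset.prod_congr rfl fun p hp => ?_
  have hp' := lat_mem_Ein.1 (dlf_mem_Ed.1 hp).1
  exact dlf_Ef_gray x hp'.2.1 hp'.2.2 (hl p hp)

/-- ambient system: the pair weight of a Gray code is the weight of the free height law -/
theorem dlf_wtP_gray_amb (x : ℝ) {V : Finset TV} {h : TV → ℤ} (hl : ∀ p ∈ latEin V, |h (p.1 + p.2) - h p.1| ≤ 1) :
    (clAmb x V).wtP (htB V h) (htW V h) = x ^ htNF V h := by
  unfold clAmb htNF
  rw [dlf_wtP_gray x (by rw [dlf_Ed_amb]; exact hl), dlf_Ed_amb]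

/-- a nonzero pair weight forces coherence on every interacting edge -/
theorem dlf_coh_of_wtP {x : ℝ} {V C B W : Finset TV} (h : (clPl x V C).wtP B W ≠ 0) :
    ∀ p ∈ dlfEd V C, ((p.1 ∈ B ↔ p.1 + p.2 ∈ B) ∨ (p.1 ∈ W ↔ p.1 + p.2 ∈ W)) := by
  intro p hp
  rw [dlf_wtP_eq, Finset.prod_ne_zero_iff] at h
  have := h p hp
  unfold dlfEf at this
  by_contra hcon
  rw [not_or] at hcon
  rw [if_neg hcon.1, if_neg hcon.2] at this
  exact this rfl

theorem dlf_geo_lip {A V : Finset TV} {U : Set TV} {b h : TV → ℤ} (hg : DlfGeo A V U b) (hh : HtAdm A b h) :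
    ∀ p ∈ latEin V, |h (p.1 + p.2) - h p.1| ≤ 1 := by
  intro p hp
  rw [lat_mem_Ein] at hp
  have hadj := lat_adj_add p.1 (lat_pos_sub hp.1)
  by_cases hA : p.1 ∈ A ∨ p.1 + p.2 ∈ A
  · exact dlf_adm_edge hh hadj hA
  · rw [not_or] at hA
    rw [hh.1 _ hA.1, hh.1 _ hA.2]
    exact hg.lip _ ⟨hg.sub hp.2.1, hA.1⟩ _ ⟨hg.sub hp.2.2, hA.2⟩ hadj

theorem dlf_NF_split {A V C : Finset TV} {b h : TV → ℤ} (hC : latE A ⊆ dlfEd V C) (hh : HtAdm A b h) :
    (∑ p ∈ dlfEd V C, if h p.1 ≠ h (p.1 + p.2) then 1 else 0) = htN A h + dlfC A V C b := by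
  unfold htN dlfC
  rw [add_comm, ← Finset.sum_sdiff hC]
  congr 1
  refine Finset.sum_congr rfl fun p hp => ?_
  rw [Finset.mem_sdiff, dlf_mem_Ed, lat_mem_Ein, lat_mem_E] at hp
  have hA : ¬ (p.1 ∈ A ∨ p.1 + p.2 ∈ A) := fun h => hp.2 ⟨hp.1.1.1, h⟩
  rw [not_or] at hA
  rw [hh.1 _ hA.1, hh.1 _ hA.2]

open Classical in
/-- the constrained sums of the two models -/
theorem dlf_num (x : ℝ) {A V C : Finset TV} {U : Set TV} {b : TV → ℤ} (hg : DlfGeo A V U b) (hC : latE A ⊆ dlfEd V C)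
    (G : ClCfg TV TV → ℝ) (hG : ∀ ω ω' : ClCfg TV TV, ω.B = ω'.B → ω.W = ω'.W → G ω = G ω') :
    (∑ ω ∈ (clPl x V C).cfgs, if DlfPin A V b ω then (clPl x V C).wt ω * G ω else 0) =
      x ^ dlfC A V C b * ∑ h ∈ htCfg A b, htWt x A h * G ⟨htB V h, htW V h, ∅⟩ := by
  rw [dlf_sum_pair _ _ _ (fun ω ω' h1 h2 => by unfold DlfPin; rw [h1, h2]) hG]
  show (∑ p ∈ V.powerset ×ˢ V.powerset, _) = _
  set F : Finset TV × Finset TV → ℝ := fun p =>
    if DlfPin A V b ⟨p.1, p.2, ∅⟩ then (clPl x V C).wtP p.1 p.2 * G ⟨p.1, p.2, ∅⟩ else 0 with hF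
  set φ : (TV → ℤ) → Finset TV × Finset TV := fun h => (htB V h, htW V h) with hφ
  have h1 : ∑ p ∈ (htCfg A b).image φ, F p = ∑ h ∈ htCfg A b, F (φ h) := by
    refine Finset.sum_image fun h hh h' hh' e => ?_
    rw [Finset.mem_coe, ht_mem_cfg] at hh hh'
    exact dlf_inj hg.cl hh hh' (congrArg Prod.fst e) (congrArg Prod.snd e)
  have h2 : ∑ p ∈ (htCfg A b).image φ, F p = ∑ p ∈ V.powerset ×ˢ V.powerset, F p := by
    refine Finset.sum_subset ?_ ?_
    · intro p hp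
      obtain ⟨h, _, rfl⟩ := Finset.mem_image.1 hp
      rw [Finset.mem_product, Finset.mem_powerset, Finset.mem_powerset]
      exact ⟨Finset.filter_subset _ _, Finset.filter_subset _ _⟩
    · intro p hp hnot
      rw [Finset.mem_product, Finset.mem_powerset, Finset.mem_powerset] at hp
      by_contra hne
      simp only [hF] at hne
      by_cases hpin : DlfPin A V b ⟨p.1, p.2, ∅⟩
      · rw [if_pos hpin] at hne
        have hw : (clPl x V C).wtP p.1 p.2 ≠ 0 := left_ne_zero_of_mul hne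
        obtain ⟨h, hh, e1, e2⟩ := dlf_exists hg hp.1 hp.2 hpin
          (fun q hq => dlf_coh_of_wtP hw q (hC hq))
        exact hnot (Finset.mem_image.2 ⟨h, ht_mem_cfg.2 hh, Prod.ext e1 e2⟩)
      · rw [if_neg hpin] at hne
        exact hne rfl
  rw [← h2, h1, Finset.mul_sum]
  refine Finset.sum_congr rfl fun h hh => ?_
  rw [ht_mem_cfg] at hh
  simp only [hF, hφ]
  rw [if_pos (dlf_pin_gray V hh ∅), dlf_wtP_gray x (fun p hp => dlf_geo_lip hg hh p (dlf_mem_Ed.1 hp).1),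
    dlf_NF_split hC hh, htWt, pow_add]
  ring

/-- partition functions -/
theorem dlf_Z (x : ℝ) {A V C : Finset TV} {U : Set TV} {b : TV → ℤ} (hg : DlfGeo A V U b) (hC : latE A ⊆ dlfEd V C) :
    (clPl x V C).Z (DlfPin A V b) = x ^ dlfC A V C b * htZ x A b := by
  have := dlf_num x hg hC (fun _ => 1) (fun _ _ _ _ => rfl)
  simp only [mul_one] at this
  exact this

/-- **(LIFT)** TEX[lem:spin-lift], pushed forward; any boundary function, any planar system in which the edges meeting `A` interact: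
the Gray code of the height law on `A` with boundary values `b` is the pair law with the two spins pinned to the Gray code of `b` on the skeleton `V \ A`. -/
theorem dlf_push_pl {x : ℝ} (hx : 0 < x) {A V C : Finset TV} {U : Set TV} {b : TV → ℤ} (hg : DlfGeo A V U b) (hC : latE A ⊆ dlfEd V C)
    (G : ClCfg TV TV → ℝ) (hG : ∀ ω ω' : ClCfg TV TV, ω.B = ω'.B → ω.W = ω'.W → G ω = G ω') :
    htE x A b (fun h => G ⟨htB V h, htW V h, ∅⟩) = (clPl x V C).E (DlfPin A V b) G := by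
  unfold ClSys.E htE
  rw [dlf_Z x hg hC, dlf_num x hg hC G hG, mul_div_mul_left _ _ (pow_ne_zero _ hx.ne')]

/-- the edges meeting `A` interact in the ambient system on `V ⊇ latCl A` -/
theorem dlf_E_sub_amb {A V : Finset TV} (hcl : latCl A ⊆ V) : latE A ⊆ dlfEd V (latCells V) := by
  rw [dlf_Ed_amb]; exact dlf_E_sub hcl

/-- the edges meeting `A` interact in the system on `V ⊇ latCl A` with the boundary cells excluded -/
theorem dlf_E_sub_inn {A V : Finset TV} (hcl : latCl A ⊆ V) : latE A ⊆ dlfEd V (latCellsIn V) := by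
  intro p hp
  refine dlf_mem_Ed.2 ⟨dlf_E_sub hcl hp, lat_mem_cellsIn.2 fun t ht => ?_⟩
  rw [lat_mem_E] at hp
  have h1 := dlf_cellOf_sub hp.1 ht
  have h2 := dlf_cl_of_adj (lat_adj_add p.1 (lat_pos_sub hp.1)) hp.2
  rcases hp.2 with hA | hA
  · rcases h1.1 with rfl | h
    · exact hcl h2.1
    · exact hcl (lat_mem_cl.2 (Or.inr ⟨_, hA, h⟩))
  · rcases h1.2 with rfl | h
    · exact hcl h2.2
    · exact hcl (lat_mem_cl.2 (Or.inr ⟨_, hA, h⟩))

/-- (LIFT) for the free ambient system -/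
theorem dlf_push {x : ℝ} (hx : 0 < x) {A V : Finset TV} {U : Set TV} {b : TV → ℤ} (hg : DlfGeo A V U b)
    (G : ClCfg TV TV → ℝ) (hG : ∀ ω ω' : ClCfg TV TV, ω.B = ω'.B → ω.W = ω'.W → G ω = G ω') :
    htE x A b (fun h => G ⟨htB V h, htW V h, ∅⟩) = (clAmb x V).E (DlfPin A V b) G :=
  dlf_push_pl hx hg (dlf_E_sub_amb hg.cl) G hG

/-- (LIFT) for the system with the boundary cells excluded -/
theorem dlf_push_inn {x : ℝ} (hx : 0 < x) {A V : Finset TV} {U : Set TV} {b : TV → ℤ} (hg : DlfGeo A V U b)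
    (G : ClCfg TV TV → ℝ) (hG : ∀ ω ω' : ClCfg TV TV, ω.B = ω'.B → ω.W = ω'.W → G ω = G ω') :
    htE x A b (fun h => G ⟨htB V h, htW V h, ∅⟩) = (clInn x V).E (DlfPin A V b) G :=
  dlf_push_pl hx hg (dlf_E_sub_inn hg.cl) G hG

/-! ### 7. instances of the geometry, forms of the pins -/

/-- `U = V`: ambient set whose cycles are generated by triangles, connected skeleton -/
theorem dlf_geo_fin {A V : Finset TV} {b : TV → ℤ} (hcl : latCl A ⊆ V) (hsc : TriSCOn ℤ tscG (↑V : Set TV))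
    (hsk : TscConn tscG (↑(V \ A) : Set TV)) (hne : (V \ A).Nonempty)
    (hb : ∀ u ∈ V \ A, ∀ v ∈ V \ A, triAdj u v → |b v - b u| ≤ 1) : DlfGeo A V (↑V) b where
  cl := hcl
  sub := subset_rfl
  sc := hsc
  conn := by rw [← Finset.coe_sdiff]; exact hsk
  ne := by rw [← Finset.coe_sdiff]; exact hne
  lip := by
    rw [← Finset.coe_sdiff]
    exact fun u hu v hv => hb u hu v hv

/-- `U = univ`: HOLE-FREE free set `A` (`MomCo A`), ANY finite `V ⊇ latCl A` -/
theorem dlf_geo_plane {A V : Finset TV} {b : TV → ℤ} (hcl : latCl A ⊆ V) (hco : TscConn tscG ((A : Set TV)ᶜ))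
    (hb : ∀ u, u ∉ A → ∀ v, v ∉ A → triAdj u v → |b v - b u| ≤ 1) : DlfGeo A V Set.univ b where
  cl := hcl
  sub := Set.subset_univ _
  sc := tsc_plane ℤ
  conn := by rw [← Set.compl_eq_univ_sdiff]; exact hco
  ne := by
    obtain ⟨u, hu⟩ := Infinite.exists_notMem_finset A
    exact ⟨u, Set.mem_univ _, hu⟩
  lip := fun u hu v hv => hb u hu.2 v hv.2

theorem dlf_pin_zero (A V : Finset TV) (ω : ClCfg TV TV) : DlfPin A V 0 ω ↔ V \ A ⊆ ω.B ∧ V \ A ⊆ ω.W := by
  have h1 : dlfB ((0 : TV → ℤ) 0) := Or.inl rfl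
  have h2 : dlfW ((0 : TV → ℤ) 0) := Or.inl rfl
  constructor
  · intro h
    exact ⟨fun v hv => (h v hv).1.2 h1, fun v hv => (h v hv).2.2 h2⟩
  · rintro ⟨h3, h4⟩ v hv
    exact ⟨⟨fun _ => h1, fun _ => h3 hv⟩, ⟨fun _ => h2, fun _ => h4 hv⟩⟩

/-- (LIFT) in the form of `Dis/Planar` -/
theorem dlf_lift_zero {x : ℝ} (hx : 0 < x) {V A : Finset TV} (hsc : TriSCOn ℤ tscG (↑V : Set TV)) (hA : latCl A ⊆ V)
    (hsk : TscConn tscG (↑(V \ A) : Set TV)) (hne : (V \ A).Nonempty)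
    (G : ClCfg TV TV → ℝ) (hG : ∀ ω ω' : ClCfg TV TV, ω.B = ω'.B → ω.W = ω'.W → G ω = G ω') :
    htE x A 0 (fun h => G ⟨htB V h, htW V h, ∅⟩) = (clAmb x V).E (fun ω => V \ A ⊆ ω.B ∧ V \ A ⊆ ω.W) G := by
  have e : (fun ω : ClCfg TV TV => V \ A ⊆ ω.B ∧ V \ A ⊆ ω.W) = DlfPin A V 0 := by
    funext ω; exact propext (dlf_pin_zero A V ω).symm
  rw [e]
  exact dlf_push hx (dlf_geo_fin hA hsc hsk hne (fun _ _ _ _ _ => by simp)) G hG

/-! ### 8. the bijection in pointwise form, the height function of a pinned pair -/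

/-- a nonzero weight forces a nonzero pair weight (any system) -/
theorem dlf_wtP_ne_of_wt {V Y : Type} [DecidableEq V] [DecidableEq Y] (S : ClSys V Y) (ω : ClCfg V Y) (h : S.wt ω ≠ 0) :
    S.wtP ω.B ω.W ≠ 0 := by
  unfold ClSys.wt at h
  unfold ClSys.wtP
  rw [Finset.prod_ne_zero_iff] at h ⊢
  intro y hy
  have := h y hy
  unfold clCellW at this
  split_ifs at this ⊢ <;> simp_all

/-- the statuses summed out over the Gray code of an admissible height -/
theorem dlf_wt_sum (x : ℝ) {A V C : Finset TV} {U : Set TV} {b h : TV → ℤ} (hg : DlfGeo A V U b) (hC : latE A ⊆ dlfEd V C)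
    (hh : HtAdm A b h) :
    ∑ O ∈ C.powerset, (clPl x V C).wt ⟨htB V h, htW V h, O⟩ = x ^ dlfC A V C b * htWt x A h := by
  have := dlf_sum_O (clPl x V C) (htB V h) (htW V h)
  rw [dlf_wtP_gray x (fun p hp => dlf_geo_lip hg hh p (dlf_mem_Ed.1 hp).1), dlf_NF_split hC hh, pow_add, mul_comm] at this
  exact this

theorem dlf_C_const (A V C : Finset TV) (t : ℤ) : dlfC A V C (fun _ => t) = 0 := by
  unfold dlfC
  exact Finset.sum_eq_zero fun p _ => if_neg (not_not.2 rfl)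

/-- flat boundary values: no geometry is needed for the weight identity -/
theorem dlf_wt_sum_flat (x : ℝ) {A V C : Finset TV} (t : ℤ) {h : TV → ℤ} (hC : latE A ⊆ dlfEd V C) (hh : HtAdm A (fun _ => t) h) :
    ∑ O ∈ C.powerset, (clPl x V C).wt ⟨htB V h, htW V h, O⟩ = htWt x A h := by
  have hl : ∀ p ∈ dlfEd V C, |h (p.1 + p.2) - h p.1| ≤ 1 := by
    intro p hp
    have hp' := lat_mem_Ein.1 (dlf_mem_Ed.1 hp).1
    have hadj := lat_adj_add p.1 (lat_pos_sub hp'.1)
    by_cases hA : p.1 ∈ A ∨ p.1 + p.2 ∈ A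
    · exact dlf_adm_edge hh hadj hA
    · rw [not_or] at hA
      rw [hh.1 _ hA.1, hh.1 _ hA.2]
      simp
  have := dlf_sum_O (clPl x V C) (htB V h) (htW V h)
  rw [dlf_wtP_gray x hl, dlf_NF_split hC hh, dlf_C_const, add_zero] at this
  exact this

/-- SURJECTIVITY in pointwise form: a pinned configuration of nonzero weight is the Gray code of an admissible height -/
theorem dlf_surj {x : ℝ} {A V C : Finset TV} {U : Set TV} {b : TV → ℤ} (hg : DlfGeo A V U b) (hC : latE A ⊆ dlfEd V C)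
    {ω : ClCfg TV TV} (hω : ω ∈ (clPl x V C).cfgs) (hwt : (clPl x V C).wt ω ≠ 0) (hpin : DlfPin A V b ω) :
    ∃ h, HtAdm A b h ∧ htB V h = ω.B ∧ htW V h = ω.W := by
  rw [cl_mem_cfgs] at hω
  exact dlf_exists hg hω.1 hω.2.1 hpin (fun q hq => dlf_coh_of_wtP (dlf_wtP_ne_of_wt _ ω hwt) q (hC hq))

open Classical in
/-- THE HEIGHT FUNCTION of a pinned pair of spins (junk value `b` if the pair is not a Gray code) -/
noncomputable def dlfH (A V : Finset TV) (b : TV → ℤ) (ω : ClCfg TV TV) : TV → ℤ :=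
  if h : ∃ f, HtAdm A b f ∧ htB V f = ω.B ∧ htW V f = ω.W then h.choose else b

theorem dlf_H_of_ex {A V : Finset TV} {b : TV → ℤ} {ω : ClCfg TV TV} (h : ∃ f, HtAdm A b f ∧ htB V f = ω.B ∧ htW V f = ω.W) :
    HtAdm A b (dlfH A V b ω) ∧ htB V (dlfH A V b ω) = ω.B ∧ htW V (dlfH A V b ω) = ω.W := by
  unfold dlfH
  rw [dif_pos h]
  exact h.choose_spec

/-- `dlfH` inverts the Gray code -/
theorem dlf_H_gray {A V : Finset TV} {b h : TV → ℤ} (hcl : latCl A ⊆ V) (hh : HtAdm A b h) (O : Finset TV) :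
    dlfH A V b ⟨htB V h, htW V h, O⟩ = h := by
  have := dlf_H_of_ex (A := A) (V := V) (b := b) (ω := ⟨htB V h, htW V h, O⟩) ⟨h, hh, rfl, rfl⟩
  exact dlf_inj hcl this.1 hh this.2.1 this.2.2

/-- `dlfH` reads the pair of spins only -/
theorem dlf_H_pair (A V : Finset TV) (b : TV → ℤ) {ω ω' : ClCfg TV TV} (hB : ω.B = ω'.B) (hW : ω.W = ω'.W) :
    dlfH A V b ω = dlfH A V b ω' := by
  unfold dlfH
  rw [hB, hW]

/-- on the support of the pinned law `dlfH` is admissible and its Gray code is the configuration -/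
theorem dlf_H_spec {x : ℝ} {A V C : Finset TV} {U : Set TV} {b : TV → ℤ} (hg : DlfGeo A V U b) (hC : latE A ⊆ dlfEd V C)
    {ω : ClCfg TV TV} (hω : ω ∈ (clPl x V C).cfgs) (hwt : (clPl x V C).wt ω ≠ 0) (hpin : DlfPin A V b ω) :
    HtAdm A b (dlfH A V b ω) ∧ htB V (dlfH A V b ω) = ω.B ∧ htW V (dlfH A V b ω) = ω.W :=
  dlf_H_of_ex (dlf_surj hg hC hω hwt hpin)

/-- the increments of a height are given by (discrete:increment) applied to its Gray code -/
theorem dlf_inc_gray {V : Finset TV} {h : TV → ℤ} {u v : TV} (hu : u ∈ V) (hv : v ∈ V) (hl : |h v - h u| ≤ 1) (O : Finset TV) :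
    clInc (⟨htB V h, htW V h, O⟩ : ClCfg TV TV) u v = h v - h u := by
  rw [dlf_inc_eq, ← dlf_I_gray hl]
  refine dlf_I_congr ?_ ?_ ?_ ?_
  · show u ∈ htB V h ↔ _
    rw [dlf_mem_htB]; exact and_iff_right hu
  · show u ∈ htW V h ↔ _
    rw [dlf_mem_htW]; exact and_iff_right hu
  · show v ∈ htB V h ↔ _
    rw [dlf_mem_htB]; exact and_iff_right hv
  · show v ∈ htW V h ↔ _
    rw [dlf_mem_htW]; exact and_iff_right hv

/-- **(LIFT)**, lifted form: the height law is the image of the pinned pair law under `dlfH` -/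
theorem dlf_lift_pl {x : ℝ} (hx : 0 < x) {A V C : Finset TV} {U : Set TV} {b : TV → ℤ} (hg : DlfGeo A V U b) (hC : latE A ⊆ dlfEd V C)
    (G : (TV → ℤ) → ℝ) : htE x A b G = (clPl x V C).E (DlfPin A V b) (fun ω => G (dlfH A V b ω)) := by
  rw [← dlf_push_pl hx hg hC (fun ω => G (dlfH A V b ω)) (fun ω ω' h1 h2 => by rw [dlf_H_pair A V b h1 h2])]
  exact ht_E_congr x A b fun h hh => by rw [dlf_H_gray hg.cl hh]

theorem dlf_lift {x : ℝ} (hx : 0 < x) {A V : Finset TV} {U : Set TV} {b : TV → ℤ} (hg : DlfGeo A V U b)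
    (G : (TV → ℤ) → ℝ) : htE x A b G = (clAmb x V).E (DlfPin A V b) (fun ω => G (dlfH A V b ω)) :=
  dlf_lift_pl hx hg (dlf_E_sub_amb hg.cl) G

/-- the pins as a `ClCon` -/
def dlfCon (A V : Finset TV) (b : TV → ℤ) : ClCon TV TV where
  Bp := (V \ A).filter (fun v => dlfB (b v))
  Bm := (V \ A).filter (fun v => ¬ dlfB (b v))
  Eq := ∅
  Op := ∅
  Om := ∅
  Cl := ∅
  Wp := (V \ A).filter (fun v => dlfW (b v))
  Wm := (V \ A).filter (fun v => ¬ dlfW (b v))

theorem dlf_con_holds (A V : Finset TV) (b : TV → ℤ) (S : ClSys TV TV) (ω : ClCfg TV TV) :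
    (dlfCon A V b).Holds S ω ↔ DlfPin A V b ω := by
  unfold ClCon.Holds dlfCon DlfPin
  simp only [Finset.notMem_empty, false_imp_iff, implies_true, true_and, Finset.mem_filter, and_imp]
  constructor
  · rintro ⟨h1, h2, h3, h4⟩ v hv
    refine ⟨⟨fun h => ?_, fun h => h1 (Finset.mem_filter.2 ⟨hv, h⟩)⟩, ⟨fun h => ?_, fun h => h3 (Finset.mem_filter.2 ⟨hv, h⟩)⟩⟩
    · by_contra hn; exact h2 v hv hn h
    · by_contra hn; exact h4 v hv hn h
  · intro H
    refine ⟨fun v hv => ?_, fun v hv hn h => hn ((H v hv).1.1 h), fun v hv => ?_, fun v hv hn h => hn ((H v hv).2.1 h)⟩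
    · rw [Finset.mem_filter] at hv; exact (H v hv.1).1.2 hv.2
    · rw [Finset.mem_filter] at hv; exact (H v hv.1).2.2 hv.2

/-! ### 9. lattice symmetries of the pair weight (the edge product does not see the classes of cells) -/

theorem dlf_pos_or {d : TV} (hd : d ∈ latDirs) : d ∈ latPos ∨ -d ∈ latPos := by
  revert d; decide

theorem dlf_pos_neg {d : TV} (hd : d ∈ latPos) : -d ∉ latPos := by
  revert d; decide

/-- image of a positive edge under a linear lattice symmetry, reoriented -/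
def dlfSg (T : TV → TV) (p : TV × TV) : TV × TV :=
  if T p.2 ∈ latPos then (T p.1, T p.2) else (T p.1 + T p.2, -T p.2)

theorem dlf_add_neg {T : TV → TV} (hadd : ∀ u v, T (u + v) = T u + T v) (d : TV) : T (-d) = -T d := by
  have h0 : T 0 = 0 := by
    have := hadd 0 0
    rw [add_zero] at this
    exact left_eq_add.1 this
  have := hadd (-d) d
  rw [neg_add_cancel, h0] at this
  exact eq_neg_of_add_eq_zero_left this.symm

theorem dlf_Sg_mem {T : TV → TV} (hadd : ∀ u v, T (u + v) = T u + T v) (hd : ∀ d ∈ latDirs, T d ∈ latDirs) {V : Finset TV}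
    {p : TV × TV} (hp : p ∈ latEin V) : dlfSg T p ∈ latEin (V.image T) := by
  rw [lat_mem_Ein] at hp
  unfold dlfSg
  by_cases h : T p.2 ∈ latPos
  · rw [if_pos h, lat_mem_Ein]
    exact ⟨h, Finset.mem_image_of_mem T hp.2.1, by rw [← hadd]; exact Finset.mem_image_of_mem T hp.2.2⟩
  · rw [if_neg h, lat_mem_Ein]
    refine ⟨(dlf_pos_or (hd _ (lat_pos_sub hp.1))).resolve_left h, by rw [← hadd]; exact Finset.mem_image_of_mem T hp.2.2, ?_⟩
    simp only [add_neg_cancel_right]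
    exact Finset.mem_image_of_mem T hp.2.1

theorem dlf_Sg_inv {T T' : TV → TV} (hadd : ∀ u v, T (u + v) = T u + T v) (hadd' : ∀ u v, T' (u + v) = T' u + T' v)
    (h1 : ∀ u, T' (T u) = u) {p : TV × TV} (hp : p.2 ∈ latPos) : dlfSg T' (dlfSg T p) = p := by
  unfold dlfSg
  by_cases h : T p.2 ∈ latPos
  · simp only [if_pos h, h1, if_pos hp]
  · simp only [if_neg h, dlf_add_neg hadd', h1, if_neg (dlf_pos_neg hp), hadd', neg_neg, add_neg_cancel_right]

/-- a product over the edges inside `V` of a SYMMETRIC function of the two ends is invariant under the linear lattice symmetries -/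
theorem dlf_prod_aut {T T' : TV → TV} (hadd : ∀ u v, T (u + v) = T u + T v) (hadd' : ∀ u v, T' (u + v) = T' u + T' v)
    (h1 : ∀ u, T' (T u) = u) (h2 : ∀ u, T (T' u) = u) (hd : ∀ d ∈ latDirs, T d ∈ latDirs) (hd' : ∀ d ∈ latDirs, T' d ∈ latDirs)
    (V : Finset TV) (f : TV → TV → ℝ) (hf : ∀ u v, f u v = f v u) :
    ∏ p ∈ latEin V, f (T p.1) (T (p.1 + p.2)) = ∏ p ∈ latEin (V.image T), f p.1 (p.1 + p.2) := by
  have hVV : (V.image T).image T' = V := by
    rw [Finset.image_image]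
    have : T' ∘ T = id := funext h1
    rw [this, Finset.image_id]
  refine Finset.prod_nbij' (dlfSg T) (dlfSg T') (fun p hp => dlf_Sg_mem hadd hd hp) (fun p hp => ?_)
    (fun p hp => dlf_Sg_inv hadd hadd' h1 (lat_mem_Ein.1 hp).1) (fun p hp => dlf_Sg_inv hadd' hadd h2 (lat_mem_Ein.1 hp).1)
    (fun p hp => ?_)
  · have := dlf_Sg_mem hadd' hd' hp
    rwa [hVV] at this
  · unfold dlfSg
    by_cases h : T p.2 ∈ latPos
    · simp only [if_pos h, hadd]
    · simp only [if_neg h, hadd, add_neg_cancel_right]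
      exact hf _ _

theorem dlf_Ef_symm (x : ℝ) (B W : Finset TV) (u v : TV) : dlfEf x B W u v = dlfEf x B W v u := by
  unfold dlfEf
  rw [if_congr (iff_comm (a := u ∈ B)) rfl rfl, if_congr (iff_comm (a := u ∈ W)) rfl rfl,
    if_congr (iff_comm (a := u ∈ W)) rfl rfl]

theorem dlf_Ef_image (x : ℝ) {T : TV → TV} (hT : Function.Injective T) (B W : Finset TV) (u v : TV) :
    dlfEf x (B.image T) (W.image T) (T u) (T v) = dlfEf x B W u v := by
  unfold dlfEf
  simp only [hT.mem_finset_image]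

/-- the ambient pair weight is invariant under the linear lattice symmetries (rotation by 60 degrees and reflections included) -/
theorem dlf_wtP_aut (x : ℝ) {T T' : TV → TV} (hadd : ∀ u v, T (u + v) = T u + T v) (hadd' : ∀ u v, T' (u + v) = T' u + T' v)
    (h1 : ∀ u, T' (T u) = u) (h2 : ∀ u, T (T' u) = u) (hd : ∀ d ∈ latDirs, T d ∈ latDirs) (hd' : ∀ d ∈ latDirs, T' d ∈ latDirs)
    (V B W : Finset TV) : (clAmb x (V.image T)).wtP (B.image T) (W.image T) = (clAmb x V).wtP B W := by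
  have hT : Function.Injective T := Function.LeftInverse.injective h1
  unfold clAmb
  rw [dlf_wtP_eq, dlf_wtP_eq, dlf_Ed_amb, dlf_Ed_amb,
    ← dlf_prod_aut hadd hadd' h1 h2 hd hd' V _ (dlf_Ef_symm x (B.image T) (W.image T))]
  exact Finset.prod_congr rfl fun p _ => dlf_Ef_image x hT B W _ _

open Classical in
/-- the free ambient pair law on a symmetric set is invariant -/
theorem dlf_N_aut (x : ℝ) {T T' : TV → TV} (hadd : ∀ u v, T (u + v) = T u + T v) (hadd' : ∀ u v, T' (u + v) = T' u + T' v)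
    (h1 : ∀ u, T' (T u) = u) (h2 : ∀ u, T (T' u) = u) (hd : ∀ d ∈ latDirs, T d ∈ latDirs) (hd' : ∀ d ∈ latDirs, T' d ∈ latDirs)
    {V : Finset TV} (hV : V.image T = V) (F : ClCfg TV TV → ℝ) (hF : ∀ ω ω' : ClCfg TV TV, ω.B = ω'.B → ω.W = ω'.W → F ω = F ω') :
    (∑ ω ∈ (clAmb x V).cfgs, (clAmb x V).wt ω * F ⟨ω.B.image T, ω.W.image T, ∅⟩) =
      ∑ ω ∈ (clAmb x V).cfgs, (clAmb x V).wt ω * F ω := by
  have hV' : V.image T' = V := by
    conv_lhs => rw [← hV]
    rw [Finset.image_image]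
    have : T' ∘ T = id := funext h1
    rw [this, Finset.image_id]
  have hTT : ∀ B : Finset TV, (B.image T).image T' = B := fun B => by
    rw [Finset.image_image]
    have : T' ∘ T = id := funext h1
    rw [this, Finset.image_id]
  have hTT' : ∀ B : Finset TV, (B.image T').image T = B := fun B => by
    rw [Finset.image_image]
    have : T ∘ T' = id := funext h2
    rw [this, Finset.image_id]
  have e1 := dlf_sum_pair (clAmb x V) (fun _ => True) (fun ω => F ⟨ω.B.image T, ω.W.image T, ∅⟩) (fun _ _ _ _ => Iff.rfl)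
    (fun ω ω' e1 e2 => by rw [e1, e2])
  have e2 := dlf_sum_pair (clAmb x V) (fun _ => True) F (fun _ _ _ _ => Iff.rfl) hF
  simp only [if_true] at e1 e2
  rw [e1, e2]
  show (∑ p ∈ V.powerset ×ˢ V.powerset, _) = ∑ p ∈ V.powerset ×ˢ V.powerset, _
  refine Finset.sum_nbij' (fun p => (p.1.image T, p.2.image T)) (fun p => (p.1.image T', p.2.image T')) ?_ ?_ ?_ ?_ ?_
  · intro p hp
    rw [Finset.mem_product, Finset.mem_powerset, Finset.mem_powerset] at hp ⊢
    exact ⟨by rw [← hV]; exact Finset.image_subset_image hp.1, by rw [← hV]; exact Finset.image_subset_image hp.2⟩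
  · intro p hp
    rw [Finset.mem_product, Finset.mem_powerset, Finset.mem_powerset] at hp ⊢
    exact ⟨by rw [← hV']; exact Finset.image_subset_image hp.1, by rw [← hV']; exact Finset.image_subset_image hp.2⟩
  · intro p _
    simp only [hTT]
  · intro p _
    simp only [hTT']
  · intro p _
    have := dlf_wtP_aut x hadd hadd' h1 h2 hd hd' V p.1 p.2
    rw [hV] at this
    rw [this]

theorem dlf_eqns_cite2 : True := by
  have := @dlfEf.eq_1
  have := @dlfEd.eq_1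
  have := @DlfPin.eq_1
  have := @dlfC.eq_1
  have := @dlfH.eq_1
  have := @dlfCon.eq_1
  have := @dlfSg.eq_1
  trivial

end Claimed.Agent.R291
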