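import Claimed.Agent.R291.Dis.Buffer
import Claimed.Agent.R291.Pl.CellPath
import Claimed.Agent.R291.Pl.Neck

/-!
# Row 291 (S0539), Dis/Ring : RING, LOCALITY OF `Sep`, STACK      (owner helper217; prefix `drg_`)

TEX 02-discrete.tex [lem:buffer-circuits], (discrete:stack).   RULING 6 (5) of 146, cautions B1 / B3 / C1 of 208 (`origin/helper208:notes/R291/adv_dis_208.md`).

`dis_prim` needs a buffer which is clear on a FULL ball; the history of `dis_stack` may have pins, observed cells and equalities IN THE HOLE.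
This file is imported BY `Dis/Planar.lean` (so that `dis_stack` is closed in place): the primitive comparison enters as the HYPOTHESIS `DrgPrim`, the class of ambient sets as a
predicate `Amb` with `∀ V, Amb V → ClDisk (clAmb x V)` (in `Dis/Planar`: `Amb = DisAmb`, `dis_amb_disk`, `dis_prim`).
* `DrgPrim x s Amb κ n₀ c`  the conclusion of `dis_prim` for fixed constants.
* `DrgRing x s Amb Λ n₀ a`  (B1) RING: under every legal feasible history which is clear on the RING `latBall z (Λ n) \ latBall z n` only, a circuit of sign `s` in the ring has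
                            probability `≥ a`:  `Sep_s(V \ latBall z (Λ n - 2), latBall z (n + 2))`.
* `drg_ring`      `DrgPrim → DrgRing` with `Λ = 2 κ + 4`, `a = min(c,1)^(6 (κ + 3))`: necklace of filled beads on the sphere of radius `(κ + 2) n` (`pnkCen`, `dis_neck`) + association (`dis_fkg_fin`).
* `drg_bead`      the same necklace with FREE parameters `(R, m)` and hole radius `ρ` (for `dch_ring`).
* `drg_loc`       (B3) LOCALITY: `Sep_s(V \ latBall z L, latBall z (r + 1))` reads only the statuses of the cells inside `latBall z (L + 1) \ latBall z r`.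
* `drg_stack_seq` (C1, STACK-T) product form `(1 - a)^k` along any `Λ`-separated sequence of radii;  `drg_stack_fin` the same for a finite set of radii.
* `drg_pow_law`   geometric decay in the number of scales = power law.
* `drg_stack`     = the statement of `dis_stack`, from `DrgPrim`.
-/

set_option autoImplicit false
set_option linter.unusedSectionVars false
set_option linter.unusedVariables false

namespace Claimed.Agent.R291

open Claims Claims.C0467 Relation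

/-! ### 1. geometry of the cells -/

/-- the norm is 1-Lipschitz inside a cell -/
theorem drg_cell_lip (z : TV) {y u v : TV} (hu : u ∈ cellV y) (hv : v ∈ cellV y) :
    (latN (u - z) : ℤ) - 1 ≤ latN (v - z) := by
  by_cases huv : u = v
  · subst huv; omega
  · have := pnk_N_lip' z (pcp_cell_adj hu hv huv)
    omega

theorem drg_amb_lip (x : ℝ) (V : Finset TV) (z : TV) : ∀ y ∈ (clAmb x V).C, ∀ u ∈ (clAmb x V).sv y, ∀ v ∈ (clAmb x V).sv y,
    (latN (u - z) : ℤ) - 1 ≤ latN (v - z) := by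
  intro y _ u hu v hv
  exact drg_cell_lip z (Finset.mem_inter.1 hu).1 (Finset.mem_inter.1 hv).1

theorem drg_eq_lip (x : ℝ) (V : Finset TV) (K : ClCon TV TV) (hK : ClLegal (clAmb x V) K) (z : TV) : ∀ e ∈ K.Eq,
    (latN (e.1 - z) : ℤ) - 1 ≤ latN (e.2 - z) ∧ (latN (e.2 - z) : ℤ) - 1 ≤ latN (e.1 - z) := by
  intro e he
  obtain ⟨y, hy, h1, h2⟩ := hK.eq e he
  exact ⟨drg_amb_lip x V z y hy _ h1 _ h2, drg_amb_lip x V z y hy _ h2 _ h1⟩

/-! ### 2. the ring -/

/-- the conclusion of `dis_prim` for fixed constants -/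
def DrgPrim (x : ℝ) (s : Bool) (Amb : Finset TV → Prop) (κ n₀ : ℕ) (c : ℝ) : Prop :=
  ∀ (V : Finset TV), Amb V → ∀ K : ClCon TV TV, ClLegal (clAmb x V) K →
    0 < (clAmb x V).Z (K.Holds (clAmb x V)) → ∀ (z : TV) (n : ℕ), n₀ ≤ n → latBall z (κ * n + 2) ⊆ V →
    ClClear (clAmb x V) s K (latBall z (κ * n + 2)) →
    c ≤ (clAmb x V).P (K.Holds (clAmb x V))
      (fun ω => ClSep (clAmb x V) s K.Eq ω (V \ latBall z (κ * n)) (latBall z n))

/-- (RING) for fixed constants, unnormalised form -/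
def DrgRing (x : ℝ) (s : Bool) (Amb : Finset TV → Prop) (Λ n₀ : ℕ) (a : ℝ) : Prop :=
  ∀ (V : Finset TV), Amb V → ∀ K : ClCon TV TV, ClLegal (clAmb x V) K →
    0 < (clAmb x V).Z (K.Holds (clAmb x V)) → ∀ (z : TV) (n : ℕ), n₀ ≤ n → latBall z (Λ * n) ⊆ V →
    ClClear (clAmb x V) s K (latBall z (Λ * n) \ latBall z n) →
    a * (clAmb x V).Z (K.Holds (clAmb x V)) ≤ (clAmb x V).N (K.Holds (clAmb x V))
      (clInd fun ω => ClSep (clAmb x V) s K.Eq ω (V \ latBall z (Λ * n - 2)) (latBall z (n + 2)))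

/-- deterministic part: the beads give the ring -/
theorem drg_ring_det (x : ℝ) (V : Finset TV) (K : ClCon TV TV) (hK : ClLegal (clAmb x V) K) (s : Bool) (z : TV) (M n : ℕ)
    (hn : 3 ≤ n) (hM : 2 * n ≤ M) (ω : ClCfg TV TV)
    (h : ∀ w ∈ pnkCen z (M + 2 * n) n, ClSep (clAmb x V) s K.Eq ω (V \ latBall w M) (latBall w n)) :
    ClSep (clAmb x V) s K.Eq ω (V \ latBall z (2 * M + 4 * n - 2)) (latBall z (n + 2)) := by
  refine dis_neck (clAmb x V) s K.Eq ω _ _ (pnkCen z (M + 2 * n) n) (fun w => V \ latBall w M) (fun w => latBall w n)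
    (fun v => (latN (v - z) : ℤ)) ((M + 2 * n : ℕ) : ℤ) (drg_amb_lip x V z) (drg_eq_lip x V K hK z) ?_ ?_ ?_ ?_ h
  · intro u hu
    rw [Finset.mem_sdiff, lat_mem_ball] at hu
    omega
  · intro v hv
    rw [lat_mem_ball] at hv
    omega
  · intro v hv
    obtain ⟨w, hw, hlt⟩ := pnk_cen_cover (c := z) (u := v) (R := M + 2 * n) (m := n) (by omega) (by exact_mod_cast hv)
    exact ⟨w, hw, by rw [lat_mem_ball]; omega⟩
  · intro w hw
    refine Finset.sdiff_subset_sdiff (Finset.Subset.refl V) ?_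
    exact (pnk_bead_sub hw).trans (pnk_ball_mono z (by omega))

/-- **(RING)**      TEX[lem:buffer-circuits]; B1 of 208 -/
theorem drg_ring (x : ℝ) (s : Bool) (Amb : Finset TV → Prop) (hAmb : ∀ V, Amb V → ClDisk (clAmb x V)) {κ n₀ : ℕ} {c : ℝ}
    (hκ : 2 ≤ κ) (hc : 0 < c) (H : DrgPrim x s Amb κ n₀ c) :
    DrgRing x s Amb (2 * κ + 4) (max n₀ 5) ((min c 1) ^ (6 * (κ + 3))) := by
  have hc' : 0 < min c 1 := lt_min hc one_pos
  intro V hV K hK hZ z n hn hsub hclear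
  have hn0 : n₀ ≤ n := (le_max_left _ _).trans hn
  have hn3 : 3 ≤ n := le_trans (by norm_num) ((le_max_right _ _).trans hn)
  set S := clAmb x V with hSdef
  have hS : ClDisk S := hAmb V hV
  obtain ⟨M, hMdef⟩ : ∃ M, M = κ * n := ⟨_, rfl⟩
  have hM : 2 * n ≤ M := by rw [hMdef]; exact Nat.mul_le_mul_right n hκ
  have hΛ : (2 * κ + 4) * n = 2 * M + 4 * n := by rw [hMdef]; ring
  have hR : M + 2 * n ≤ (κ + 2) * n := by rw [hMdef]; exact le_of_eq (by ring)
  rw [hΛ] at hsub hclear ⊢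
  set T := pnkCen z (M + 2 * n) n with hTdef
  -- one bead
  have hbead : ∀ w ∈ T, min c 1 * S.Z (K.Holds S) ≤ S.N (K.Holds S) (clInd fun ω => ClSep S s K.Eq ω (V \ latBall w M) (latBall w n)) := by
    intro w hw
    have h1 : latBall w (M + 2) ⊆ latBall z (2 * M + 4 * n) := (pnk_bead_sub hw).trans (pnk_ball_mono z (by omega))
    have h2 : Disjoint (latBall w (M + 2)) (latBall z n) := pnk_bead_far hw (by omega)
    have h3 : latBall w (M + 2) ⊆ latBall z (2 * M + 4 * n) \ latBall z n := fun v hv =>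
      Finset.mem_sdiff.2 ⟨h1 hv, Finset.disjoint_left.1 h2 hv⟩
    have h4 := H V hV K hK hZ w n hn0 (by rw [← hMdef]; exact h1.trans hsub) (by rw [← hMdef]; exact dis_clear_mono hclear h3)
    rw [← hMdef, dis_P_eq, le_div_iff₀ hZ] at h4
    exact (mul_le_mul_of_nonneg_right (min_le_left _ _) hZ.le).trans h4
  have hfkg := dis_fkg_fin S hS K hK hZ s T (L := fun w ω => ClSep S s K.Eq ω (V \ latBall w M) (latBall w n))
    (fun w _ => dis_sep_up S s K.Eq _ _) hc'.le hbead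
  have hcard : T.card ≤ 6 * (κ + 3) := pnk_cen_card_ratio z hR
  calc (min c 1) ^ (6 * (κ + 3)) * S.Z (K.Holds S) ≤ (min c 1) ^ T.card * S.Z (K.Holds S) :=
        mul_le_mul_of_nonneg_right (pow_le_pow_of_le_one hc'.le (min_le_right _ _) hcard) hZ.le
    _ ≤ _ := hfkg
    _ ≤ _ := dis_N_mono S hS.toClOk _ fun ω _ _ => dis_ind_mono (drg_ring_det x V K hK s z M n hn3 hM ω)

/-- **(BEADS)**, free parameters `(R, m)` (asked by 208 for `dch_ring`): necklace of beads of radius `m` on the sphere of radius `R`; the history is clear on `latBall z (R + κ m + 2) \ latBall z ρ` only. -/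
theorem drg_bead (x : ℝ) (s : Bool) (Amb : Finset TV → Prop) (hAmb : ∀ V, Amb V → ClDisk (clAmb x V)) {κ n₀ : ℕ} {c : ℝ}
    (hc : 0 < c) (H : DrgPrim x s Amb κ n₀ c) (V : Finset TV) (hV : Amb V) (K : ClCon TV TV) (hK : ClLegal (clAmb x V) K)
    (hZ : 0 < (clAmb x V).Z (K.Holds (clAmb x V))) (z : TV) (R m ρ : ℕ) (hm0 : n₀ ≤ m) (hm1 : 1 ≤ m) (hρ : ρ + κ * m + 2 < R)
    (hsub : latBall z (R + κ * m + 2) ⊆ V) (hclear : ClClear (clAmb x V) s K (latBall z (R + κ * m + 2) \ latBall z ρ)) :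
    (min c 1) ^ (6 * (R / m + 1)) * (clAmb x V).Z (K.Holds (clAmb x V)) ≤ (clAmb x V).N (K.Holds (clAmb x V))
      (clInd fun ω => ClSep (clAmb x V) s K.Eq ω (V \ latBall z (R + κ * m)) (latBall z (R - 1))) := by
  have hc' : 0 < min c 1 := lt_min hc one_pos
  set S := clAmb x V with hSdef
  have hS : ClDisk S := hAmb V hV
  set T := pnkCen z R m with hTdef
  have hbead : ∀ w ∈ T, min c 1 * S.Z (K.Holds S) ≤ S.N (K.Holds S) (clInd fun ω => ClSep S s K.Eq ω (V \ latBall w (κ * m)) (latBall w m)) := by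
    intro w hw
    have h1 : latBall w (κ * m + 2) ⊆ latBall z (R + κ * m + 2) := (pnk_bead_sub hw).trans (pnk_ball_mono z (by omega))
    have h2 : Disjoint (latBall w (κ * m + 2)) (latBall z ρ) := pnk_bead_far hw (by omega)
    have h3 : latBall w (κ * m + 2) ⊆ latBall z (R + κ * m + 2) \ latBall z ρ := fun v hv =>
      Finset.mem_sdiff.2 ⟨h1 hv, Finset.disjoint_left.1 h2 hv⟩
    have h4 := H V hV K hK hZ w m hm0 (h1.trans hsub) (dis_clear_mono hclear h3)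
    rw [dis_P_eq, le_div_iff₀ hZ] at h4
    exact (mul_le_mul_of_nonneg_right (min_le_left _ _) hZ.le).trans h4
  have hfkg := dis_fkg_fin S hS K hK hZ s T (L := fun w ω => ClSep S s K.Eq ω (V \ latBall w (κ * m)) (latBall w m))
    (fun w _ => dis_sep_up S s K.Eq _ _) hc'.le hbead
  have hdet : ∀ ω : ClCfg TV TV, (∀ w ∈ T, ClSep S s K.Eq ω (V \ latBall w (κ * m)) (latBall w m)) →
      ClSep S s K.Eq ω (V \ latBall z (R + κ * m)) (latBall z (R - 1)) := by
    intro ω h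
    refine dis_neck S s K.Eq ω _ _ T (fun w => V \ latBall w (κ * m)) (fun w => latBall w m)
      (fun v => (latN (v - z) : ℤ)) (R : ℤ) (drg_amb_lip x V z) (drg_eq_lip x V K hK z) ?_ ?_ ?_ ?_ h
    · intro u hu
      rw [Finset.mem_sdiff, lat_mem_ball] at hu
      omega
    · intro v hv
      rw [lat_mem_ball] at hv
      omega
    · intro v hv
      obtain ⟨w, hw, hlt⟩ := pnk_cen_cover (c := z) (u := v) (R := R) (m := m) hm1 (by exact_mod_cast hv)
      exact ⟨w, hw, by rw [lat_mem_ball]; omega⟩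
    · intro w hw
      exact Finset.sdiff_subset_sdiff (Finset.Subset.refl V) (pnk_bead_sub hw)
  calc (min c 1) ^ (6 * (R / m + 1)) * S.Z (K.Holds S) ≤ (min c 1) ^ T.card * S.Z (K.Holds S) :=
        mul_le_mul_of_nonneg_right (pow_le_pow_of_le_one hc'.le (min_le_right _ _) (pnk_cen_card z R m)) hZ.le
    _ ≤ _ := hfkg
    _ ≤ _ := dis_N_mono S hS.toClOk _ fun ω _ _ => dis_ind_mono (hdet ω)

/-! ### 3. locality of the separation event -/

section abstract

variable {V Y : Type} [DecidableEq V] [DecidableEq Y]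

/-- one direction of the two-sided locality -/
theorem drg_loc_aux (S : ClSys V Y) (s : Bool) (E : Finset (V × V)) (ω ω' : ClCfg V Y) (O A : Finset V)
    (hOA : ∀ y ∈ S.C, ∀ a ∈ S.sv y, ∀ b ∈ S.sv y, a ∈ O → b ∉ A)
    (h : ∀ y ∈ S.C, (∃ v ∈ S.sv y, v ∉ O ∧ v ∉ A) → clTau S ω y = clTau S ω' y)
    (hs : ClSep S s E ω' O A) : ClSep S s E ω O A := by
  intro u hu v hv huv
  obtain ⟨u', v', hu', hv', _, hmid, _⟩ := pnk_between (In := (↑O : Set V)) (Out := (↑A : Set V)) huv hu hv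
  refine hs u' hu' v' hv' (hmid.lift id fun a b hab => ?_)
  obtain ⟨hst, haA, hbO⟩ := hab
  rcases hst with ⟨y, hy, ha, hb, ht⟩ | he
  · refine Or.inl ⟨y, hy, ha, hb, ?_⟩
    have hw : ∃ v ∈ S.sv y, v ∉ O ∧ v ∉ A := by
      by_cases haO : a ∈ O
      · exact ⟨b, hb, hbO, hOA y hy a ha b hb haO⟩
      · exact ⟨a, ha, haO, haA⟩
    rw [← h y hy hw]
    exact ht
  · exact Or.inr he

/-- **two-sided locality**: if no cell joins `O` to `A`, `Sep_s(O, A)` depends only on the statuses of the cells which have a site off `O ∪ A` -/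
theorem drg_loc_abs (S : ClSys V Y) (s : Bool) (E : Finset (V × V)) (ω ω' : ClCfg V Y) (O A : Finset V)
    (hOA : ∀ y ∈ S.C, ∀ a ∈ S.sv y, ∀ b ∈ S.sv y, a ∈ O → b ∉ A)
    (h : ∀ y ∈ S.C, (∃ v ∈ S.sv y, v ∉ O ∧ v ∉ A) → clTau S ω y = clTau S ω' y) :
    ClSep S s E ω O A ↔ ClSep S s E ω' O A :=
  ⟨drg_loc_aux S s E ω' ω O A hOA fun y hy hv => (h y hy hv).symm, drg_loc_aux S s E ω ω' O A hOA h⟩

end abstract

/-- **(LOC)**  B3 of 208: `Sep_s(V \ latBall z L, latBall z (r + 1))` reads only the cells inside `latBall z (L + 1) \ latBall z r` -/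
theorem drg_loc (x : ℝ) (V : Finset TV) (s : Bool) (E : Finset (TV × TV)) (z : TV) (r L : ℕ) (hrL : r + 2 ≤ L) (ω ω' : ClCfg TV TV)
    (h : ∀ y ∈ (clAmb x V).cin (latBall z (L + 1) \ latBall z r), clTau (clAmb x V) ω y = clTau (clAmb x V) ω' y) :
    ClSep (clAmb x V) s E ω (V \ latBall z L) (latBall z (r + 1)) ↔ ClSep (clAmb x V) s E ω' (V \ latBall z L) (latBall z (r + 1)) := by
  refine drg_loc_abs (clAmb x V) s E ω ω' _ _ ?_ ?_
  · intro y hy a ha b hb haO hbA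
    have h1 := drg_amb_lip x V z y hy a ha b hb
    rw [Finset.mem_sdiff, lat_mem_ball] at haO
    rw [lat_mem_ball] at hbA
    omega
  · rintro y hy ⟨v, hv, hvO, hvA⟩
    refine h y (Finset.mem_filter.2 ⟨hy, fun w hw => ?_⟩)
    have hvV : v ∈ V := (Finset.mem_inter.1 hv).2
    have h1 := drg_amb_lip x V z y hy w hw v hv
    have h2 := drg_amb_lip x V z y hy v hv w hw
    rw [Finset.mem_sdiff, lat_mem_ball] at hvO
    rw [lat_mem_ball] at hvA
    rw [Finset.mem_sdiff, lat_mem_ball, lat_mem_ball]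
    have h3 : latN (v - z) ≤ L := by
      by_contra hcon
      exact hvO ⟨hvV, hcon⟩
    omega

/-! ### 4. the stack -/

/-- the slot read by the ring of inner radius `n` -/
noncomputable def drgSlot (z : TV) (Λ n : ℕ) : Finset TV := latBall z (Λ * n - 1) \ latBall z (n + 1)

/-- **(STACK-T)**, C1 of 208, sequence form: product bound along a `Λ`-separated sequence of radii.      TEX (discrete:stack) -/
theorem drg_stack_seq (x : ℝ) (s : Bool) (Amb : Finset TV → Prop) (hAmb : ∀ V, Amb V → ClDisk (clAmb x V)) {Λ n₀ : ℕ} {a : ℝ}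
    (hΛ : 2 ≤ Λ) (hn₀ : 5 ≤ n₀) (ha1 : a ≤ 1) (H : DrgRing x s Amb Λ n₀ a)
    (V : Finset TV) (hV : Amb V) (K : ClCon TV TV) (hK : ClLegal (clAmb x V) K) (z : TV) (ρ : ℕ → ℕ) (k : ℕ)
    (hρ : ∀ j < k, n₀ ≤ ρ j ∧ latBall z (Λ * ρ j) ⊆ V ∧ ClClear (clAmb x V) s K (latBall z (Λ * ρ j) \ latBall z (ρ j)))
    (hsep : ∀ i j, i < j → j < k → Λ * ρ i ≤ ρ j) :
    (clAmb x V).N (K.Holds (clAmb x V))
        (clInd fun ω => ∀ j < k, ¬ ClSep (clAmb x V) s K.Eq ω (V \ latBall z (Λ * ρ j - 2)) (latBall z (ρ j + 2)))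
      ≤ (1 - a) ^ k * (clAmb x V).Z (K.Holds (clAmb x V)) := by
  set S := clAmb x V with hSdef
  have hS : ClDisk S := hAmb V hV
  refine dis_stack_abs S hS.toClOk K (fun j => drgSlot z Λ (ρ j))
    (fun j ω => ClSep S s K.Eq ω (V \ latBall z (Λ * ρ j - 2)) (latBall z (ρ j + 2))) ha1 k ?_ ?_
  · intro j hj ω ω' hτ
    have h1 : n₀ ≤ ρ j := (hρ j hj).1
    have h2 : 2 * ρ j ≤ Λ * ρ j := Nat.mul_le_mul_right _ hΛ
    refine drg_loc x V s K.Eq z (ρ j + 1) (Λ * ρ j - 2) (by omega) ω ω' ?_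
    have e : Λ * ρ j - 2 + 1 = Λ * ρ j - 1 := by omega
    rw [e]
    exact hτ
  · intro j hj K' hx hZ'
    obtain ⟨h1, h2, h3⟩ := hρ j hj
    have hP : Disjoint (clSlots (fun j => drgSlot z Λ (ρ j)) j) (latBall z (Λ * ρ j) \ latBall z (ρ j)) := by
      rw [Finset.disjoint_left]
      intro v hv hv'
      obtain ⟨i, hi, hvi⟩ := Finset.mem_biUnion.1 hv
      have hij := hsep i j (Finset.mem_range.1 hi) hj
      unfold drgSlot at hvi
      rw [Finset.mem_sdiff, lat_mem_ball] at hvi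
      rw [Finset.mem_sdiff, lat_mem_ball, lat_mem_ball] at hv'
      omega
    have hQ : ∀ y ∈ S.cin (clSlots (fun j => drgSlot z Λ (ρ j)) j), S.sv y ⊆ clSlots (fun j => drgSlot z Λ (ρ j)) j :=
      fun y hy => (Finset.mem_filter.1 hy).2
    have h4 := H V hV K' (dis_legal_ext hK hx hQ) hZ' z (ρ j) h1 h2
      (dis_clear_ext h3 hx hP fun y hy => Finset.disjoint_of_subset_left (hQ y hy) hP)
    rw [hx.eq] at h4
    exact h4

/-- **(STACK-T)**, finite set of radii (the form asked by `exit_bdy_strip`) -/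
theorem drg_stack_fin (x : ℝ) (s : Bool) (Amb : Finset TV → Prop) (hAmb : ∀ V, Amb V → ClDisk (clAmb x V)) {Λ n₀ : ℕ} {a : ℝ}
    (hΛ : 2 ≤ Λ) (hn₀ : 5 ≤ n₀) (ha1 : a ≤ 1) (H : DrgRing x s Amb Λ n₀ a)
    (V : Finset TV) (hV : Amb V) (K : ClCon TV TV) (hK : ClLegal (clAmb x V) K) (z : TV) (T : Finset ℕ)
    (hT : ∀ r ∈ T, n₀ ≤ r ∧ latBall z (Λ * r) ⊆ V ∧ ClClear (clAmb x V) s K (latBall z (Λ * r) \ latBall z r))
    (hsep : ∀ r ∈ T, ∀ r' ∈ T, r < r' → Λ * r ≤ r') :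
    (clAmb x V).N (K.Holds (clAmb x V))
        (clInd fun ω => ∀ r ∈ T, ¬ ClSep (clAmb x V) s K.Eq ω (V \ latBall z (Λ * r - 2)) (latBall z (r + 2)))
      ≤ (1 - a) ^ T.card * (clAmb x V).Z (K.Holds (clAmb x V)) := by
  set ρ : ℕ → ℕ := fun j => if h : j < T.card then T.orderEmbOfFin rfl ⟨j, h⟩ else 0 with hρdef
  have hmem : ∀ j < T.card, ρ j ∈ T := by
    intro j hj
    simp only [hρdef, dif_pos hj]
    exact Finset.orderEmbOfFin_mem T rfl _
  have hlt : ∀ i j, i < j → j < T.card → ρ i < ρ j := by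
    intro i j hij hj
    simp only [hρdef, dif_pos hj, dif_pos (hij.trans hj)]
    exact (T.orderEmbOfFin rfl).strictMono (by exact hij)
  refine le_trans ?_ (drg_stack_seq x s Amb hAmb hΛ hn₀ ha1 H V hV K hK z ρ T.card (fun j hj => hT _ (hmem j hj))
    (fun i j hij hj => hsep _ (hmem i (hij.trans hj)) _ (hmem j hj) (hlt i j hij hj)))
  exact dis_N_mono _ (hAmb V hV).toClOk _ fun ω _ _ => dis_ind_mono fun h j hj => h _ (hmem j hj)

/-- geometric decay in the number of scales is a power law -/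
theorem drg_pow_law (Λ n₀ : ℕ) (θ : ℝ) (hΛ : 2 ≤ Λ) (hn : 1 ≤ n₀) (h0 : 0 < θ) (h1 : θ < 1) :
    ∃ C α : ℝ, 0 < C ∧ 0 < α ∧ ∀ r L k : ℕ, 1 ≤ r → 1 ≤ L → L ≤ Λ ^ (k + 1) * (n₀ * r) → θ ^ k ≤ C * ((r : ℝ) / L) ^ α := by
  have hΛ0 : (0 : ℝ) < Λ := by exact_mod_cast (by omega : 0 < Λ)
  have hΛ1 : (1 : ℝ) < Λ := by exact_mod_cast (by omega : 1 < Λ)
  have hn0 : (0 : ℝ) < n₀ := by exact_mod_cast (by omega : 0 < n₀)
  have hlΛ : 0 < Real.log Λ := Real.log_pos hΛ1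
  have hlθ : Real.log θ < 0 := Real.log_neg h0 h1
  set α : ℝ := -Real.log θ / Real.log Λ with hα
  have hα0 : 0 < α := div_pos (by linarith) hlΛ
  have hΛα : (Λ : ℝ) ^ α = θ⁻¹ := by
    rw [Real.rpow_def_of_pos hΛ0, hα, mul_div_cancel₀ _ hlΛ.ne', Real.exp_neg, Real.exp_log h0]
  refine ⟨θ⁻¹ * (n₀ : ℝ) ^ α, α, mul_pos (inv_pos.2 h0) (Real.rpow_pos_of_pos hn0 _), hα0, ?_⟩
  intro r L k hr hL hle
  have hr0 : (0 : ℝ) < r := by exact_mod_cast (by omega : 0 < r)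
  have hL0 : (0 : ℝ) < L := by exact_mod_cast (by omega : 0 < L)
  have hq0 : 0 < (r : ℝ) / L := div_pos hr0 hL0
  have hle' : (L : ℝ) ≤ (Λ : ℝ) ^ (k + 1) * (n₀ * r) := by exact_mod_cast hle
  have h2 : 1 ≤ (r : ℝ) / L * (n₀ * (Λ : ℝ) ^ (k + 1)) := by
    rw [div_mul_eq_mul_div, le_div_iff₀ hL0]
    linarith
  have h3 : (1 : ℝ) ≤ ((r : ℝ) / L * (n₀ * (Λ : ℝ) ^ (k + 1))) ^ α := Real.one_le_rpow h2 hα0.le
  have hpk : (0 : ℝ) < (Λ : ℝ) ^ (k + 1) := pow_pos hΛ0 _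
  rw [Real.mul_rpow hq0.le (mul_pos hn0 hpk).le, Real.mul_rpow hn0.le hpk.le, ← Real.rpow_natCast (Λ : ℝ) (k + 1), ← Real.rpow_mul hΛ0.le,
    mul_comm ((k + 1 : ℕ) : ℝ) α, Real.rpow_mul hΛ0.le, hΛα, Real.rpow_natCast, inv_pow] at h3
  have hθk : 0 < θ ^ (k + 1) := pow_pos h0 _
  have h4 : θ ^ (k + 1) ≤ ((r : ℝ) / L) ^ α * (n₀ : ℝ) ^ α := by
    have := mul_le_mul_of_nonneg_right h3 hθk.le
    rw [one_mul, mul_assoc, mul_assoc, inv_mul_cancel₀ hθk.ne', mul_one] at this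
    exact this
  calc θ ^ k = θ⁻¹ * θ ^ (k + 1) := by rw [pow_succ]; field_simp
    _ ≤ θ⁻¹ * (((r : ℝ) / L) ^ α * (n₀ : ℝ) ^ α) := mul_le_mul_of_nonneg_left h4 (inv_pos.2 h0).le
    _ = _ := by ring

/-- **(STACK)** from (RING): the statement of `dis_stack`.      TEX (discrete:stack) -/
theorem drg_stack_of_ring (x : ℝ) (s : Bool) (Amb : Finset TV → Prop) (hAmb : ∀ V, Amb V → ClDisk (clAmb x V)) {Λ n₀ : ℕ} {a : ℝ}
    (hΛ : 2 ≤ Λ) (hn₀ : 5 ≤ n₀) (ha0 : 0 < a) (ha1 : a ≤ 1) (H : DrgRing x s Amb Λ n₀ a) :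
    ∃ (C α : ℝ), 0 < C ∧ 0 < α ∧ ∀ (V : Finset TV), Amb V → ∀ K : ClCon TV TV, ClLegal (clAmb x V) K →
      0 < (clAmb x V).Z (K.Holds (clAmb x V)) → ∀ (z : TV) (r L : ℕ), 1 ≤ r → r ≤ L → latBall z (L + 2) ⊆ V →
      ClClear (clAmb x V) s K (latBall z (L + 2) \ latBall z r) →
      (clAmb x V).P (K.Holds (clAmb x V))
        (fun ω => ¬ ClSep (clAmb x V) s K.Eq ω (V \ latBall z L) (latBall z r)) ≤ C * ((r : ℝ) / L) ^ α := by
  obtain ⟨C, α, hC, hα, hlaw⟩ := drg_pow_law Λ n₀ (1 - a / 2) hΛ (by omega) (by linarith) (by linarith)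
  refine ⟨C, α, hC, hα, ?_⟩
  intro V hV K hK hZ z r L hr hrL hsub hclear
  set S := clAmb x V with hSdef
  have hS : ClDisk S := hAmb V hV
  have hρ0 : 0 < n₀ * r := Nat.mul_pos (by omega) (by omega)
  set k := Nat.log Λ (L / (n₀ * r)) with hk
  have hup : L ≤ Λ ^ (k + 1) * (n₀ * r) :=
    ((Nat.div_lt_iff_lt_mul hρ0).1 (Nat.lt_pow_succ_log_self (by omega : 1 < Λ) (L / (n₀ * r)))).le
  have hlow : ∀ j < k, Λ * (Λ ^ j * (n₀ * r)) ≤ L := by
    intro j hj
    have hne : L / (n₀ * r) ≠ 0 := by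
      intro h0
      rw [hk, h0, Nat.log_zero_right] at hj
      exact absurd hj (Nat.not_lt_zero j)
    calc Λ * (Λ ^ j * (n₀ * r)) = Λ ^ (j + 1) * (n₀ * r) := by ring
      _ ≤ Λ ^ k * (n₀ * r) := Nat.mul_le_mul_right _ (Nat.pow_le_pow_right (by omega) hj)
      _ ≤ L / (n₀ * r) * (n₀ * r) := Nat.mul_le_mul_right _ (Nat.pow_log_le_self Λ hne)
      _ ≤ L := Nat.div_mul_le_self _ _
  have hge : ∀ j, n₀ * r ≤ Λ ^ j * (n₀ * r) := fun j => Nat.le_mul_of_pos_left _ (Nat.pow_pos (by omega))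
  have hn₀r : n₀ ≤ n₀ * r := Nat.le_mul_of_pos_right _ (by omega)
  have hrn₀ : r ≤ n₀ * r := Nat.le_mul_of_pos_left _ (by omega)
  have hseq := drg_stack_seq x s Amb hAmb hΛ hn₀ ha1 H V hV K hK z (fun j => Λ ^ j * (n₀ * r)) k
    (fun j hj => ⟨hn₀r.trans (hge j), (pnk_ball_mono z ((hlow j hj).trans (by omega))).trans hsub,
      dis_clear_mono hclear (Finset.sdiff_subset_sdiff (pnk_ball_mono z ((hlow j hj).trans (by omega)))
        (pnk_ball_mono z (hrn₀.trans (hge j))))⟩)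
    (fun i j hij _ => by
      calc Λ * (Λ ^ i * (n₀ * r)) = Λ ^ (i + 1) * (n₀ * r) := by ring
        _ ≤ Λ ^ j * (n₀ * r) := Nat.mul_le_mul_right _ (Nat.pow_le_pow_right (by omega) hij))
  have hmono : S.N (K.Holds S) (clInd fun ω => ¬ ClSep S s K.Eq ω (V \ latBall z L) (latBall z r))
      ≤ S.N (K.Holds S) (clInd fun ω => ∀ j < k, ¬ ClSep S s K.Eq ω (V \ latBall z (Λ * (Λ ^ j * (n₀ * r)) - 2))
          (latBall z (Λ ^ j * (n₀ * r) + 2))) := by
    refine dis_N_mono S hS.toClOk _ fun ω _ _ => dis_ind_mono fun hns j hj hsepj => hns ?_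
    refine dis_sep_sub (Finset.sdiff_subset_sdiff (Finset.Subset.refl V) (pnk_ball_mono z ?_)) (pnk_ball_mono z ?_) hsepj
    · have := hlow j hj; omega
    · have := hge j; omega
  rw [dis_P_eq, div_le_iff₀ hZ]
  have hpow : (1 - a) ^ k ≤ (1 - a / 2) ^ k := pow_le_pow_left₀ (by linarith) (by linarith) k
  calc _ ≤ _ := hmono
    _ ≤ (1 - a) ^ k * S.Z (K.Holds S) := hseq
    _ ≤ (1 - a / 2) ^ k * S.Z (K.Holds S) := mul_le_mul_of_nonneg_right hpow hZ.le
    _ ≤ C * ((r : ℝ) / L) ^ α * S.Z (K.Holds S) := mul_le_mul_of_nonneg_right (hlaw r L k hr (hr.trans hrL) hup) hZ.le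

/-- **(STACK)** from (PRIM) -/
theorem drg_stack (x : ℝ) (s : Bool) (Amb : Finset TV → Prop) (hAmb : ∀ V, Amb V → ClDisk (clAmb x V)) {κ n₀ : ℕ} {c : ℝ}
    (hκ : 2 ≤ κ) (hc : 0 < c) (H : DrgPrim x s Amb κ n₀ c) :
    ∃ (C α : ℝ), 0 < C ∧ 0 < α ∧ ∀ (V : Finset TV), Amb V → ∀ K : ClCon TV TV, ClLegal (clAmb x V) K →
      0 < (clAmb x V).Z (K.Holds (clAmb x V)) → ∀ (z : TV) (r L : ℕ), 1 ≤ r → r ≤ L → latBall z (L + 2) ⊆ V →
      ClClear (clAmb x V) s K (latBall z (L + 2) \ latBall z r) →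
      (clAmb x V).P (K.Holds (clAmb x V))
        (fun ω => ¬ ClSep (clAmb x V) s K.Eq ω (V \ latBall z L) (latBall z r)) ≤ C * ((r : ℝ) / L) ^ α :=
  drg_stack_of_ring x s Amb hAmb (by omega) (le_max_right _ _) (pow_pos (lt_min hc one_pos) _)
    (pow_le_one₀ (lt_min hc one_pos).le (min_le_right _ _)) (drg_ring x s Amb hAmb hκ hc H)

/-- the equation lemmas of the definitions of this file are generated HERE (RULES.md, rule 6) -/
theorem drg_defs_eqns_cite : True := by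
  have := @DrgPrim.eq_1
  have := @DrgRing.eq_1
  have := @drgSlot.eq_1
  trivial

end Claimed.Agent.R291
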