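import Claimed.Agent.R291.Dis.Base
import Claimed.Agent.R291.Dis.Buffer
import Claimed.Agent.R291.Dis.BufferPl
import Claimed.Agent.R291.Dis.Amb
import Claimed.Agent.R291.Tool.TriSCLat
import Claimed.Agent.R291.Dis.Lift
import Claimed.Agent.R291.Pl.CellPath
import Claimed.Agent.R291.Pl.Neck
import Claimed.Agent.R291.Dis.Ring

/-!
# Row 291 (S0539), Dis/Planar : SEC. 2, PLANAR LAYER: BUFFERS, STACKS, PLANE LAW      (owner helper146, HEAD DIS; prefix `dis_`)

TEX 02-discrete.tex l.150-185 (Thm 2.3 as consumed), l.511-690.  Vocabulary: `Dis/Base.lean` (abstract), `Defs/Cell` (`clAmb x V` free ambient system, `clInn x I` boundary cells excluded).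
Design note `origin/helper146:notes/R291/sec2_146.md`.   ALL statements are non-asymptotic; constants come BEFORE the geometry.

DEFS  (`ClClear S s K T`, `dis_sep_sub`, `dis_neck` = (N): in `Dis/Buffer.lean`, 141)  `ClFree`, `ClFreeL`, `DisAmb A` (ambient set), `DisPin s T ω`, `DisT23 x s` (Thm 2.3 AS CONSUMED), `clPlane x F` (free plane law), `ClPair`.
EXITS (owner)   dis_amb_disk, dis_amb_ball (22/147) | dis_inn, dis_inn_shift (62) | dis_lift (63) | dis_t23_flip, dis_prim, dis_stack (141)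
                dis_plane_lim, dis_plane_tv, dis_plane_shift/rot/refl/flipB/flipW/swap, dis_plane_dlr, dis_pm (146 + 141)
`exit_t23` itself (unit ANN) is in `Exit/Circuit.lean`.
A statement that is false or awkward: FIX IT and send one line to 146.
-/

set_option autoImplicit false
set_option linter.unusedSectionVars false

namespace Claimed.Agent.R291

open Claims Claims.C0467 Filter Topology

section abstract

variable {V Y : Type} [DecidableEq V] [DecidableEq Y]

/-- no pin, no observed cell, no equality edge in `D` -/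
structure ClFree (S : ClSys V Y) (K : ClCon V Y) (D : Finset V) : Prop where
  bp : Disjoint K.Bp D
  bm : Disjoint K.Bm D
  obs : ∀ y ∈ S.C, y ∈ K.Op ∪ K.Om ∪ K.Cl → Disjoint (S.sv y) D
  eq : ∀ e ∈ K.Eq, e.1 ∉ D ∧ e.2 ∉ D

/-- no constraint of any kind (labels included) in `D` -/
structure ClFreeL (S : ClSys V Y) (K : ClCon V Y) (D : Finset V) : Prop extends ClFree S K D where
  wp : Disjoint K.Wp D
  wm : Disjoint K.Wm D

/-- the first spin equals `s` on `T` -/
def DisPin (s : Bool) (T : Finset V) (ω : ClCfg V Y) : Prop := ∀ v ∈ T, (v ∈ ω.B ↔ s = true)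

/-- observable of the pair `(B, W)` only -/
def ClPair (G : ClCfg V Y → ℝ) : Prop := ∀ ω ω' : ClCfg V Y, ω.B = ω'.B → ω.W = ω'.W → G ω = G ω'

/-! ### symmetries of the free law (kit `dsy_`, helper182) -/

/-- flip of the second spin -/
def ClSys.flipW (S : ClSys V Y) (ω : ClCfg V Y) : ClCfg V Y := ⟨ω.B, S.A \ ω.W, ω.O⟩

theorem dsy_flipW_mem (S : ClSys V Y) {ω : ClCfg V Y} (h : ω ∈ S.cfgs) : S.flipW ω ∈ S.cfgs := by
  rw [cl_mem_cfgs] at h ⊢
  exact ⟨h.1, Finset.sdiff_subset, h.2.2⟩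

theorem dsy_flipW_invol (S : ClSys V Y) {ω : ClCfg V Y} (h : ω ∈ S.cfgs) : S.flipW (S.flipW ω) = ω := by
  rw [cl_mem_cfgs] at h
  ext v
  · rfl
  · simp only [ClSys.flipW, Finset.mem_sdiff]
    constructor
    · rintro ⟨h1, h2⟩; by_contra h3; exact h2 ⟨h1, h3⟩
    · intro h1; exact ⟨h.2.1 h1, fun h2 => h2.2 h1⟩
  · rfl

theorem dsy_flipW_wt (S : ClSys V Y) (hS : ClOk S) (ω : ClCfg V Y) : S.wt (S.flipW ω) = S.wt ω := by
  unfold ClSys.wt
  refine Finset.prod_congr rfl fun y hy => ?_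
  have h := dfl_const S hS ω.W hy
  by_cases hw : ClConst ω.W (S.sv y)
  · simp only [ClSys.flipW, clCellW, hw, h.2 hw, if_true]
    rfl
  · have hw' : ¬ ClConst (S.A \ ω.W) (S.sv y) := fun h' => hw (h.1 h')
    simp only [ClSys.flipW, clCellW, hw, hw', if_false]
    rfl

/-- the free law is invariant under the flip of the second spin -/
theorem dsy_flipW_N (S : ClSys V Y) (hS : ClOk S) (G : ClCfg V Y → ℝ) :
    S.N (fun _ => True) (fun ω => G (S.flipW ω)) = S.N (fun _ => True) G := by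
  classical
  unfold ClSys.N
  refine Finset.sum_nbij' (fun ω => S.flipW ω) (fun ω => S.flipW ω) (fun ω h => dsy_flipW_mem S h)
    (fun ω h => dsy_flipW_mem S h) (fun ω h => dsy_flipW_invol S h) (fun ω h => dsy_flipW_invol S h) ?_
  intro ω _
  simp only [if_true, dsy_flipW_wt S hS ω]

/-- the free law is invariant under the flip of the first spin -/
theorem dsy_flipB_N (S : ClSys V Y) (hS : ClOk S) (G : ClCfg V Y → ℝ) :
    S.N (fun _ => True) (fun ω => G (S.flipB ω)) = S.N (fun _ => True) G :=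
  (dfl_N S hS (fun _ => True) (fun _ => True) (fun ω => G (S.flipB ω)) G (fun _ _ _ => Iff.rfl)
    (fun _ _ _ _ => rfl)).symm

/-- sum over the statuses -/
theorem dsy_sum_O (S : ClSys V Y) (B W : Finset V) : ∑ O ∈ S.C.powerset, S.wt ⟨B, W, O⟩ = S.wtP B W := by
  classical
  unfold ClSys.wtP
  have h : ∀ y ∈ S.C, (if ClConst B (S.sv y) then (if ClConst W (S.sv y) then 1 else S.q y)
      else (if ClConst W (S.sv y) then S.q y else 0)) =
      (if ClConst B (S.sv y) then S.q y else 0) +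
        (if ClConst W (S.sv y) then (if ClConst B (S.sv y) then 1 - S.q y else S.q y) else 0) := by
    intro y _
    split_ifs <;> ring
  rw [Finset.prod_congr rfl h, Finset.prod_add]
  refine Finset.sum_congr rfl fun O hO => ?_
  have hO' := Finset.mem_powerset.1 hO
  unfold ClSys.wt clCellW
  rw [Finset.prod_ite, Finset.filter_mem_eq_inter, Finset.inter_eq_right.2 hO', Finset.filter_notMem_eq_sdiff]

theorem dsy_wtP_comm (S : ClSys V Y) (B W : Finset V) : S.wtP B W = S.wtP W B := by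
  unfold ClSys.wtP
  refine Finset.prod_congr rfl fun y _ => ?_
  split_ifs <;> rfl

/-- the free PAIR law is invariant under the exchange of the colours -/
theorem dsy_swap_N (S : ClSys V Y) (G : ClCfg V Y → ℝ) (hG : ∀ ω : ClCfg V Y, G ω = G ⟨ω.B, ω.W, ∅⟩) :
    S.N (fun _ => True) (fun ω => G ⟨ω.W, ω.B, ∅⟩) = S.N (fun _ => True) G := by
  classical
  unfold ClSys.N
  simp only [if_true]
  rw [cl_sum_cfgs, cl_sum_cfgs, Finset.sum_comm]
  refine Finset.sum_congr rfl fun W _ => Finset.sum_congr rfl fun B _ => ?_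
  show ∑ O ∈ S.C.powerset, S.wt ⟨B, W, O⟩ * G ⟨W, B, ∅⟩ = ∑ O ∈ S.C.powerset, S.wt ⟨W, B, O⟩ * G ⟨W, B, O⟩
  have e1 : ∀ O ∈ S.C.powerset, S.wt ⟨W, B, O⟩ * G ⟨W, B, O⟩ = S.wt ⟨W, B, O⟩ * G ⟨W, B, ∅⟩ := by
    intro O _; rw [hG ⟨W, B, O⟩]
  rw [Finset.sum_congr rfl e1, ← Finset.sum_mul, ← Finset.sum_mul, dsy_sum_O, dsy_sum_O, dsy_wtP_comm]

theorem dsy_E_of_N (S : ClSys V Y) (K : ClCfg V Y → Prop) (G G' : ClCfg V Y → ℝ) (h : S.N K G = S.N K G') :
    S.E K G = S.E K G' := by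
  rw [dis_E_eq, dis_E_eq, h]

end abstract

/-! ### ambient sets -/

/-- an AMBIENT set of sites (TEX l.3-9): finite, connected, triangles generate the cycles (coefficients `ZMod 2` for walls, `ℤ` for lifts) -/
structure DisAmb (A : Finset TV) : Prop where
  ne : A.Nonempty
  conn : TscConn tscG (↑A : Set TV)
  sc2 : TriSCOn (ZMod 2) tscG (↑A : Set TV)
  scZ : TriSCOn ℤ tscG (↑A : Set TV)

/-- the free ambient system on an ambient set is a disk.  OWNER 22 (A0) / 147.
PLAN (split): `om u v = [u ∈ W xor v ∈ W] * [the clipped cell of uv is inside B]` is closed on every 3-clique (up and down triangles), see sec2_146.md. -/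
theorem dis_amb_disk (x : ℝ) (hx0 : 0 < x) (hx1 : x ≤ 1) (A : Finset TV) (hA : DisAmb A) : ClDisk (clAmb x A) :=
  pcp_amb_disk x hx0 hx1 hA.sc2 hA.conn

/-- hexagons are ambient sets.  OWNER 147 (`tsc_hex_sc`). -/
theorem dis_amb_ball (c : TV) (r : ℕ) : DisAmb (latBall c r) :=
  ⟨⟨c, lat_mem_ball.2 (by simp [latN])⟩, plh_ball_conn c r, pcp_ball_sc (ZMod 2) c r, pcp_ball_sc ℤ c r⟩

/-! ### exact cuts, planar form -/

/-- (AMB) the law inside a cut of the ambient system is the intrinsic law `clInn x I` with first spin `s` on the layer `latBd I`, `W` free.  OWNER 62. -/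
theorem dis_inn (x : ℝ) (hx0 : 0 < x) (hx1 : x ≤ 1) (V I : Finset TV) (hI : latCl I ⊆ V) (s : Bool)
    (Kin Kout : ClCfg TV TV → Prop) (hin : ClLocP I (latCellsIn I) Kin)
    (hout : ClLocP (V \ I) ((clAmb x V).cout I) Kout)
    (hfeas : 0 < (clAmb x V).Z (fun ω => ClCut (clAmb x V) s I ω ∧ Kin ω ∧ Kout ω))
    (F : ClCfg TV TV → ℝ) (hF : ClLoc I (latCellsIn I) F) :
    (clAmb x V).E (fun ω => ClCut (clAmb x V) s I ω ∧ Kin ω ∧ Kout ω) F =
      (clInn x I).E (fun ω => DisPin s (latBd I) ω ∧ Kin ω) F := by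
  have hC : latCellsIn I = (clAmb x V).cin I := dam_pl_cin x hI
  have hout' : DamOut I (latCellsIn I) Kout := by
    rw [hC]
    exact dam_out_of_loc (clAmb x V) I hout
  exact dam_amb_pl hx0 hx1 hI s hin hout' hF hfeas.ne'

/-- translation of a configuration -/
def clShift (a : TV) (ω : ClCfg TV TV) : ClCfg TV TV :=
  ⟨ω.B.image (· + a), ω.W.image (· + a), ω.O.image (· + a)⟩

/-- translation covariance of the planar systems.  OWNER 62. -/
theorem dis_inn_shift (x : ℝ) (a : TV) (A C : Finset TV) (K : ClCfg TV TV → Prop) (F : ClCfg TV TV → ℝ) :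
    (clPl x (A.image (· + a)) (C.image (· + a))).E K F =
      (clPl x A C).E (fun ω => K (clShift a ω)) (fun ω => F (clShift a ω)) := by
  have e1 : ∀ T : Finset TV, T.image (· + a) = damSh a T := fun T => by
    unfold damSh
    rw [Finset.map_eq_image]
    rfl
  have e2 : ∀ ω : ClCfg TV TV, clShift a ω = damShC a ω := fun ω => by
    unfold clShift damShC damMap
    rw [e1, e1, e1]
    rfl
  simp only [e1, e2]
  exact dam_iso_E (dam_pl_iso x a A C) K F

/-- (LIFT) TEX[lem:spin-lift], pushed forward: the Gray spins of the zero-boundary height law on `A` = the ambient pair law with `(+,+)` on the skeleton `V \ A`.  OWNER 63. -/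
theorem dis_lift (x : ℝ) (hx0 : 0 < x) (hx1 : x ≤ 1) (V A : Finset TV) (hV : DisAmb V) (hA : latCl A ⊆ V)
    (hsk : TscConn tscG (↑(V \ A) : Set TV)) (hne : (V \ A).Nonempty)
    (G : ClCfg TV TV → ℝ) (hG : ClPair G) :
    htE x A 0 (fun h => G ⟨htB V h, htW V h, ∅⟩) =
      (clAmb x V).E (fun ω => V \ A ⊆ ω.B ∧ V \ A ⊆ ω.W) G :=
  dlf_lift_zero hx0 hV.scZ hA hsk hne G hG

/-- (LIFT) as a weight preserving bijection, three pointwise statements (asked by 139; general forms `dlf_wt_sum`, `dlf_inj`, `dlf_surj`, `dlfH` in `Dis/Lift`) -/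
theorem dis_lift_wt (x : ℝ) (V A : Finset TV) (hA : latCl A ⊆ V) (h : TV → ℤ) (hh : h ∈ htCfg A 0) :
    ∑ O ∈ (clAmb x V).C.powerset, (clAmb x V).wt ⟨htB V h, htW V h, O⟩ = htWt x A h :=
  dlf_wt_sum_flat x 0 (dlf_E_sub_amb hA) (ht_mem_cfg.1 hh)

theorem dis_lift_inj (V A : Finset TV) (hV : DisAmb V) (hA : latCl A ⊆ V) (hne : (V \ A).Nonempty) {h h' : TV → ℤ}
    (hh : h ∈ htCfg A 0) (hh' : h' ∈ htCfg A 0) (hB : htB V h = htB V h') (hW : htW V h = htW V h') : h = h' :=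
  dlf_inj hA (ht_mem_cfg.1 hh) (ht_mem_cfg.1 hh') hB hW

theorem dis_lift_surj (x : ℝ) (V A : Finset TV) (hV : DisAmb V) (hA : latCl A ⊆ V)
    (hsk : TscConn tscG (↑(V \ A) : Set TV)) (hne : (V \ A).Nonempty) (ω : ClCfg TV TV) (hω : ω ∈ (clAmb x V).cfgs)
    (hwt : (clAmb x V).wt ω ≠ 0) (hB : V \ A ⊆ ω.B) (hW : V \ A ⊆ ω.W) :
    ∃ h ∈ htCfg A 0, htB V h = ω.B ∧ htW V h = ω.W := by
  obtain ⟨h, h1, h2⟩ := dlf_surj (dlf_geo_fin hA hV.scZ hsk hne (fun _ _ _ _ _ => by simp)) (dlf_E_sub_amb hA) hω hwt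
    ((dlf_pin_zero A V ω).2 ⟨hB, hW⟩)
  exact ⟨h, ht_mem_cfg.2 h1, h2⟩

/-! ### Theorem 2.3 as consumed, buffers, stacks -/

/-- THE FORM IN WHICH THEOREM 2.3 IS CONSUMED (TEX[thm:circuit-input]): ONE ratio `κ`, large `n`, set form.
Law: `clInn` on the hexagon (boundary cells excluded), first spin `!s` on the boundary layer, `W` free. -/
def DisT23 (x : ℝ) (s : Bool) : Prop :=
  ∃ (κ n₀ : ℕ) (c : ℝ), 2 ≤ κ ∧ 0 < c ∧ ∀ n : ℕ, n₀ ≤ n →
    c ≤ (clInn x (latBall 0 (κ * n))).P (DisPin (!s) (latBd (latBall 0 (κ * n))))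
      (fun ω => ClSep (clInn x (latBall 0 (κ * n))) s ∅ ω (latBd (latBall 0 (κ * n))) (latBall 0 n))

/-- B-flip: the two signs are equivalent.  OWNER 141. -/
theorem dis_t23_flip (x : ℝ) (hx0 : 0 < x) (hx1 : x ≤ 1) (h : DisT23 x true) : DisT23 x false := by
  classical
  obtain ⟨κ, n₀, c, hκ, hc, h⟩ := h
  refine ⟨κ, n₀, c, hκ, hc, fun n hn => (h n hn).trans (le_of_eq ?_)⟩
  set I := latBall 0 (κ * n) with hI
  set S := clInn x I with hSdef
  have hS : ClOk S := pcp_inn_ok x hx0 hx1 I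
  have hbd : latBd I ⊆ S.A := Finset.filter_subset _ _
  have hL : ∀ ω ∈ S.cfgs, S.wt ω ≠ 0 → (DisPin (!false) (latBd I) (S.flipB ω) ↔ DisPin (!true) (latBd I) ω) := by
    intro ω _ _
    unfold DisPin
    refine forall₂_congr fun v hv => ?_
    have := hbd hv
    simp only [ClSys.flipB, Finset.mem_sdiff, Bool.not_false, Bool.not_true, Bool.false_eq_true, iff_false, iff_true]
    tauto
  unfold ClSys.P
  rw [dis_E_eq, dis_E_eq, dis_Z_eq, dis_Z_eq]
  rw [dfl_N S hS _ _ (fun _ => 1) (fun _ => 1) hL (fun _ _ _ _ => rfl)]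
  congr 1
  refine (dfl_N S hS _ _ _ _ hL (fun ω hm hw _ => ?_)).symm
  have := dfl_sep S hS true ∅ hm hw (latBd I) (latBall 0 n)
  simp only [Bool.not_true] at this
  by_cases hc : ClSep S true ∅ ω (latBd I) (latBall 0 n)
  · exact (if_pos (this.2 hc)).trans (if_pos hc).symm
  · exact (if_neg (fun h => hc (this.1 h))).trans (if_neg hc).symm

/-! (PRIM) `dis_prim` and (STACK) `dis_stack` are stated and proved BELOW the kit `dpl_` (just above `DplCore`), which their proofs use. -/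

/-! ### the free plane law -/

/-- THE FREE PLANE LAW (TEX[prop:local-mixing]): limit of the free ambient laws in large hexagons, on local observables -/
noncomputable def clPlane (x : ℝ) (F : ClCfg TV TV → ℝ) : ℝ :=
  limUnder atTop (fun N : ℕ => (clAmb x (latBall 0 N)).E (fun _ => True) F)

/-! ### the history "`K` and all cells crossing `I` are open of sign `s`" (146; prefix `dpl_`) -/

section abstractCut

variable {V Y : Type} [DecidableEq V] [DecidableEq Y]

/-- `K` together with "all cells crossing `I` are open of sign `s`" -/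
def ClCon.cut (K : ClCon V Y) (S : ClSys V Y) (s : Bool) (I : Finset V) : ClCon V Y :=
  if s then { K with Bp := K.Bp ∪ (S.cx I).biUnion S.sv, Op := K.Op ∪ S.cx I }
  else { K with Bm := K.Bm ∪ (S.cx I).biUnion S.sv, Om := K.Om ∪ S.cx I }

theorem dpl_mem_cx (S : ClSys V Y) (I : Finset V) (y : Y) : y ∈ S.cx I ↔ y ∈ S.C ∧ clCross S I y := by
  unfold ClSys.cx; rw [Finset.mem_filter]

theorem dpl_cut_holds (S : ClSys V Y) (K : ClCon V Y) (s : Bool) (I : Finset V) {ω : ClCfg V Y}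
    (hw : S.wt ω ≠ 0) : (K.cut S s I).Holds S ω ↔ K.Holds S ω ∧ ClCut S s I ω := by
  cases s
  · simp only [ClCon.cut, Bool.false_eq_true, if_false, ClCon.Holds, ClCut, clSg]
    constructor
    · rintro ⟨h1, h2, h3, h4, h5, h6, h7, h8⟩
      exact ⟨⟨h1, fun v hv => h2 v (Finset.mem_union_left _ hv), h3, h4, fun y hy => h5 y (Finset.mem_union_left _ hy),
        h6, h7, h8⟩, fun y hy hc => h5 y (Finset.mem_union_right _ ((dpl_mem_cx S I y).2 ⟨hy, hc⟩))⟩
    · rintro ⟨⟨h1, h2, h3, h4, h5, h6, h7, h8⟩, hc⟩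
      refine ⟨h1, fun v hv => ?_, h3, h4, fun y hy => ?_, h6, h7, h8⟩
      · rcases Finset.mem_union.1 hv with hv | hv
        · exact h2 v hv
        · obtain ⟨y, hy, hvy⟩ := Finset.mem_biUnion.1 hv
          obtain ⟨hyC, hyc⟩ := (dpl_mem_cx S I y).1 hy
          obtain ⟨ho, hn⟩ := dis_tau_neg.1 (hc y hyC hyc)
          rcases dis_wt_open hw hyC ho with h | h
          · exact absurd h hn
          · exact h v hvy
      · rcases Finset.mem_union.1 hy with hy | hy
        · exact h5 y hy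
        · obtain ⟨hyC, hyc⟩ := (dpl_mem_cx S I y).1 hy
          exact hc y hyC hyc
  · simp only [ClCon.cut, if_true, ClCon.Holds, ClCut, clSg]
    constructor
    · rintro ⟨h1, h2, h3, h4, h5, h6, h7, h8⟩
      exact ⟨⟨Finset.union_subset_left h1, h2, h3, fun y hy => h4 y (Finset.mem_union_left _ hy), h5,
        h6, h7, h8⟩, fun y hy hc => h4 y (Finset.mem_union_right _ ((dpl_mem_cx S I y).2 ⟨hy, hc⟩))⟩
    · rintro ⟨⟨h1, h2, h3, h4, h5, h6, h7, h8⟩, hc⟩
      refine ⟨Finset.union_subset h1 fun v hv => ?_, h2, h3, fun y hy => ?_, h5, h6, h7, h8⟩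
      · obtain ⟨y, hy, hvy⟩ := Finset.mem_biUnion.1 hv
        obtain ⟨hyC, hyc⟩ := (dpl_mem_cx S I y).1 hy
        exact (dis_tau_one.1 (hc y hyC hyc)).2 hvy
      · rcases Finset.mem_union.1 hy with hy | hy
        · exact h4 y hy
        · obtain ⟨hyC, hyc⟩ := (dpl_mem_cx S I y).1 hy
          exact hc y hyC hyc

theorem dpl_cut_eq (S : ClSys V Y) (K : ClCon V Y) (s : Bool) (I : Finset V) : (K.cut S s I).Eq = K.Eq := by
  cases s <;> rfl

theorem dpl_cut_legal (S : ClSys V Y) (K : ClCon V Y) (s : Bool) (I : Finset V) (hK : ClLegal S K) :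
    ClLegal S (K.cut S s I) := by
  cases s
  · refine ⟨hK.wp, hK.wm, fun y hy ho => ?_, hK.eq⟩
    simp only [ClCon.cut, Bool.false_eq_true, if_false, Finset.mem_union] at ho ⊢
    have key : y ∈ K.Op ∪ K.Om ∪ K.Cl ∨ y ∈ S.cx I := by
      simp only [Finset.mem_union]; tauto
    rcases key with h | h
    · intro v hv
      have := hK.full y hy h hv
      simp only [Finset.mem_union] at this ⊢
      tauto
    · intro v hv
      simp only [Finset.mem_union]
      exact Or.inr (Or.inr (Finset.mem_biUnion.2 ⟨y, h, hv⟩))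
  · refine ⟨hK.wp, hK.wm, fun y hy ho => ?_, hK.eq⟩
    simp only [ClCon.cut, if_true, Finset.mem_union] at ho ⊢
    have key : y ∈ K.Op ∪ K.Om ∪ K.Cl ∨ y ∈ S.cx I := by
      simp only [Finset.mem_union]; tauto
    rcases key with h | h
    · intro v hv
      have := hK.full y hy h hv
      simp only [Finset.mem_union] at this ⊢
      tauto
    · intro v hv
      simp only [Finset.mem_union]
      exact Or.inl (Or.inr (Finset.mem_biUnion.2 ⟨y, h, hv⟩))

theorem dpl_cut_le_false (S : ClSys V Y) (K : ClCon V Y) (I : Finset V) : ClLe (K.cut S false I) K :=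
  ⟨subset_rfl, Finset.subset_union_left, subset_rfl, Finset.subset_union_left, Finset.subset_union_left,
    Finset.subset_union_left, rfl⟩

theorem dpl_cut_le_true (S : ClSys V Y) (K : ClCon V Y) (I : Finset V) : ClLe K (K.cut S true I) :=
  ⟨Finset.subset_union_left, subset_rfl, Finset.subset_union_left, subset_rfl, Finset.subset_union_left,
    Finset.subset_union_left, rfl⟩

theorem dpl_cut_agree (S : ClSys V Y) (K : ClCon V Y) (s : Bool) (I O : Finset V)
    (hO : ∀ y ∈ S.cx I, S.sv y ⊆ O) : ClAgree S (K.cut S s I) K O := by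
  have hsite : ∀ v, v ∉ O → v ∉ (S.cx I).biUnion S.sv := by
    intro v hv h
    obtain ⟨y, hy, hvy⟩ := Finset.mem_biUnion.1 h
    exact hv (hO y hy hvy)
  have hcell : ∀ y, ¬ S.sv y ⊆ O → y ∉ S.cx I := fun y hy h => hy (hO y h)
  cases s
  · refine ⟨fun v _ => Iff.rfl, fun v hv => ?_, fun y _ _ => Iff.rfl, fun y _ hy => ?_, fun y _ _ => Iff.rfl⟩
    · simp only [ClCon.cut, Bool.false_eq_true, if_false, Finset.mem_union]
      have := hsite v hv; tauto
    · simp only [ClCon.cut, Bool.false_eq_true, if_false, Finset.mem_union]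
      have := hcell y hy; tauto
  · refine ⟨fun v hv => ?_, fun v _ => Iff.rfl, fun y _ hy => ?_, fun y _ _ => Iff.rfl, fun y _ _ => Iff.rfl⟩
    · simp only [ClCon.cut, if_true, Finset.mem_union]
      have := hsite v hv; tauto
    · simp only [ClCon.cut, if_true, Finset.mem_union]
      have := hcell y hy; tauto

/-- the cut history is free where `K` is free and no crossing cell comes -/
theorem dpl_cut_free (S : ClSys V Y) (K : ClCon V Y) (s : Bool) (I T : Finset V) (hK : ClFree S K T)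
    (hT : ∀ y ∈ S.cx I, Disjoint (S.sv y) T) : ClFree S (K.cut S s I) T := by
  have hX : Disjoint ((S.cx I).biUnion S.sv) T := by
    rw [Finset.disjoint_biUnion_left]; exact hT
  cases s
  · refine ⟨hK.bp, ?_, fun y hy ho => ?_, hK.eq⟩
    · simp only [ClCon.cut, Bool.false_eq_true, if_false]
      exact Finset.disjoint_union_left.2 ⟨hK.bm, hX⟩
    · simp only [ClCon.cut, Bool.false_eq_true, if_false, Finset.mem_union] at ho
      have key : y ∈ K.Op ∪ K.Om ∪ K.Cl ∨ y ∈ S.cx I := by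
        simp only [Finset.mem_union]; tauto
      rcases key with h | h
      · exact hK.obs y hy h
      · exact hT y h
  · refine ⟨?_, hK.bm, fun y hy ho => ?_, hK.eq⟩
    · simp only [ClCon.cut, if_true]
      exact Finset.disjoint_union_left.2 ⟨hK.bp, hX⟩
    · simp only [ClCon.cut, if_true, Finset.mem_union] at ho
      have key : y ∈ K.Op ∪ K.Om ∪ K.Cl ∨ y ∈ S.cx I := by
        simp only [Finset.mem_union]; tauto
      rcases key with h | h
      · exact hK.obs y hy h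
      · exact hT y h

theorem dpl_free_clear {S : ClSys V Y} {K : ClCon V Y} {T : Finset V} (h : ClFree S K T) (s : Bool) :
    ClClear S s K T :=
  ⟨fun v hv => ⟨fun _ hm => Finset.disjoint_left.1 h.bm hm hv, fun _ hm => Finset.disjoint_left.1 h.bp hm hv⟩,
    h.obs, h.eq⟩

theorem dpl_free_mono {S : ClSys V Y} {K : ClCon V Y} {T T' : Finset V} (h : ClFree S K T) (hT : T' ⊆ T) :
    ClFree S K T' :=
  ⟨Finset.disjoint_of_subset_right hT h.bp, Finset.disjoint_of_subset_right hT h.bm,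
    fun y hy ho => Finset.disjoint_of_subset_right hT (h.obs y hy ho),
    fun e he => ⟨fun h1 => (h.eq e he).1 (hT h1), fun h1 => (h.eq e he).2 (hT h1)⟩⟩

/-- feasibility of the cut history: `K` is free on a set `D` containing the crossing cells -/
theorem dpl_cut_feas (S : ClSys V Y) (hS : ClOk S) (K : ClCon V Y) (hK : ClLegal S K) (hZ : 0 < S.Z (K.Holds S))
    (s : Bool) (I D : Finset V) (hD : ∀ y ∈ S.cx I, S.sv y ⊆ D) (hfree : ClFree S K D) :
    0 < S.Z ((K.cut S s I).Holds S) := by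
  have hf := dis_feas_conv S hS K hK hZ
  refine dis_feas S hS _ (dpl_cut_legal S K s I hK) ?_
  have hXD : (S.cx I).biUnion S.sv ⊆ D := Finset.biUnion_subset.2 hD
  have hXA : (S.cx I).biUnion S.sv ⊆ S.A :=
    Finset.biUnion_subset.2 fun y hy => hS.sub y ((dpl_mem_cx S I y).1 hy).1
  have hcxC : S.cx I ⊆ S.C := fun y hy => ((dpl_mem_cx S I y).1 hy).1
  -- a crossing cell is not observed
  have hno : ∀ y ∈ S.cx I, y ∉ K.Op ∪ K.Om ∪ K.Cl := by
    intro y hy ho
    obtain ⟨v, hv⟩ := hS.ne y (hcxC hy)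
    exact Finset.disjoint_left.1 (hfree.obs y (hcxC hy) ho) hv (hD y hy hv)
  -- an observed cell does not meet the new pins
  have hobs : ∀ y ∈ S.C, y ∈ K.Op ∪ K.Om ∪ K.Cl → ∀ P : Finset V, S.sv y ⊆ P ∪ (S.cx I).biUnion S.sv → S.sv y ⊆ P := by
    intro y hy ho P hsub v hv
    rcases Finset.mem_union.1 (hsub hv) with h | h
    · exact h
    · exact absurd (hXD h) (Finset.disjoint_left.1 (hfree.obs y hy ho) hv)
  cases s
  · simp only [ClCon.cut, Bool.false_eq_true, if_false]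
    refine ⟨hf.bpA, ?_, hf.opC, Finset.union_subset hf.omC hcxC, hf.op, ?_, ?_, ?_, hf.d2, ?_⟩
    · exact Finset.disjoint_union_right.2 ⟨hf.dis, Finset.disjoint_of_subset_right hXD hfree.bp⟩
    · intro y hy
      rcases Finset.mem_union.1 hy with h | h
      · exact (hf.om y h).trans Finset.subset_union_left
      · exact fun v hv => Finset.mem_union_right _ (Finset.mem_biUnion.2 ⟨y, h, hv⟩)
    · intro y hy hyC hc
      refine hf.cl y hy hyC ?_
      rcases hc with hc | hc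
      · exact Or.inl hc
      · exact Or.inr (hobs y hyC (Finset.mem_union_right _ hy) _ hc)
    · refine Finset.disjoint_union_right.2 ⟨hf.d1, Finset.disjoint_left.2 fun y h1 h2 => ?_⟩
      exact hno y h2 (Finset.mem_union_left _ (Finset.mem_union_left _ h1))
    · refine Finset.disjoint_union_left.2 ⟨hf.d3, Finset.disjoint_left.2 fun y h1 h2 => ?_⟩
      exact hno y h1 (Finset.mem_union_right _ h2)
  · simp only [ClCon.cut, if_true]
    refine ⟨Finset.union_subset hf.bpA hXA, ?_, Finset.union_subset hf.opC hcxC, hf.omC, ?_, hf.om, ?_, ?_, ?_, hf.d3⟩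
    · exact Finset.disjoint_union_left.2 ⟨hf.dis, (Finset.disjoint_of_subset_right hXD hfree.bm).symm⟩
    · intro y hy
      rcases Finset.mem_union.1 hy with h | h
      · exact (hf.op y h).trans Finset.subset_union_left
      · exact fun v hv => Finset.mem_union_right _ (Finset.mem_biUnion.2 ⟨y, h, hv⟩)
    · intro y hy hyC hc
      refine hf.cl y hy hyC ?_
      rcases hc with hc | hc
      · exact Or.inl (hobs y hyC (Finset.mem_union_right _ hy) _ hc)
      · exact Or.inr hc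
    · refine Finset.disjoint_union_left.2 ⟨hf.d1, Finset.disjoint_left.2 fun y h1 h2 => ?_⟩
      exact hno y h1 (Finset.mem_union_left _ (Finset.mem_union_right _ h2))
    · refine Finset.disjoint_union_left.2 ⟨hf.d2, Finset.disjoint_left.2 fun y h1 h2 => ?_⟩
      exact hno y h1 (Finset.mem_union_right _ h2)

end abstractCut

section abstractCut2

variable {V Y : Type} [DecidableEq V] [DecidableEq Y]

theorem dpl_Z_pos (S : ClSys V Y) (hS : ClOk S) (K : ClCfg V Y → Prop) {ω : ClCfg V Y} (hω : ω ∈ S.cfgs) (hK : K ω)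
    (hw : S.wt ω ≠ 0) : 0 < S.Z K := by
  classical
  unfold ClSys.Z
  refine Finset.sum_pos' (fun ω _ => ?_) ⟨ω, hω, ?_⟩
  · split_ifs
    · exact dis_wt_nonneg S hS ω
    · exact le_rfl
  · rw [if_pos hK]; exact lt_of_le_of_ne (dis_wt_nonneg S hS ω) (Ne.symm hw)

theorem dpl_E_abs (S : ClSys V Y) (hS : ClOk S) (K : ClCfg V Y → Prop) (F : ClCfg V Y → ℝ) (hb : ∀ ω, |F ω| ≤ 1) :
    |S.E K F| ≤ 1 := by
  rw [dis_E_eq]
  rcases (dis_Z_nonneg S hS K).eq_or_lt with hZ | hZ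
  · rw [← hZ]; simp
  · rw [abs_div, abs_of_pos hZ, div_le_one hZ, abs_le, dis_Z_eq]
    constructor
    · rw [← dis_N_neg]
      exact dis_N_mono S hS K fun ω _ _ => (abs_le.1 (hb ω)).1
    · exact dis_N_mono S hS K fun ω _ _ => (abs_le.1 (hb ω)).2

theorem dpl_nil_holds (S : ClSys V Y) (ω : ClCfg V Y) : (clFree : ClCon V Y).Holds S ω := by
  simp [clFree, ClCon.Holds]

theorem dpl_nil_legal (S : ClSys V Y) : ClLegal S (clFree : ClCon V Y) :=
  ⟨rfl, rfl, fun y _ h => by simp [clFree] at h, fun e h => by simp [clFree] at h⟩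

theorem dpl_nil_feas (S : ClSys V Y) (hS : ClOk S) : 0 < S.Z ((clFree : ClCon V Y).Holds S) := by
  refine dis_feas S hS _ (dpl_nil_legal S) ?_
  constructor <;> simp [clFree]

theorem dpl_nil_free (S : ClSys V Y) (T : Finset V) : ClFree S (clFree : ClCon V Y) T := by
  constructor <;> simp [clFree]

theorem dpl_nil_E (S : ClSys V Y) (F : ClCfg V Y → ℝ) : S.E ((clFree : ClCon V Y).Holds S) F = S.E (fun _ => True) F :=
  dam_E_congr S (fun ω _ _ => iff_of_true (dpl_nil_holds S ω) trivial) F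

/-- the law inside a cut when `K` has no constraint at all on `D ⊇ I` -/
theorem dpl_cut_law (S : ClSys V Y) (hS : ClOk S) (K : ClCon V Y) (s : Bool) (I D : Finset V) (hI : I ⊆ D)
    (hfree : ClFreeL S K D) (hf : 0 < S.Z (fun ω => K.Holds S ω ∧ ClCut S s I ω))
    (F : ClCfg V Y → ℝ) (hF : ClLoc I (S.cin I) F) :
    S.E (fun ω => K.Holds S ω ∧ ClCut S s I ω) F = S.E (ClCut S s I) F := by
  obtain ⟨ω, hω, ⟨_, hc⟩, hw⟩ := dis_Z_pos_wit S _ hf
  have hf' : 0 < S.Z (fun ω => (clFree : ClCon V Y).Holds S ω ∧ ClCut S s I ω) :=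
    dpl_Z_pos S hS _ hω ⟨dpl_nil_holds S ω, hc⟩ hw
  have hcell : ∀ y ∈ S.cin I, y ∉ K.Op ∪ K.Om ∪ K.Cl := by
    intro y hy ho
    obtain ⟨hyC, hsub⟩ := Finset.mem_filter.1 hy
    obtain ⟨v, hv⟩ := hS.ne y hyC
    exact Finset.disjoint_left.1 (hfree.obs y hyC ho) hv (hI (hsub hv))
  have hag : ClAgreeIn S K (clFree : ClCon V Y) I := by
    refine ⟨fun v hv => ?_, fun v hv => ?_, fun v hv => ?_, fun v hv => ?_, fun y hy => ?_, fun y hy => ?_,
      fun y hy => ?_, fun e h1 _ => ?_⟩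
    · exact iff_of_false (fun h => Finset.disjoint_left.1 hfree.bp h (hI hv)) (by simp [clFree])
    · exact iff_of_false (fun h => Finset.disjoint_left.1 hfree.bm h (hI hv)) (by simp [clFree])
    · exact iff_of_false (fun h => Finset.disjoint_left.1 hfree.wp h (hI hv)) (by simp [clFree])
    · exact iff_of_false (fun h => Finset.disjoint_left.1 hfree.wm h (hI hv)) (by simp [clFree])
    · exact iff_of_false (fun h => hcell y hy (by simp [h])) (by simp [clFree])
    · exact iff_of_false (fun h => hcell y hy (by simp [h])) (by simp [clFree])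
    · exact iff_of_false (fun h => hcell y hy (by simp [h])) (by simp [clFree])
    · exact iff_of_false (fun h => (hfree.eq e h).1 (hI h1)) (by simp [clFree])
  rw [dis_cut_law S hS s I K clFree
    (fun e he => iff_of_false (fun h => (hfree.eq e he).1 (hI h)) (fun h => (hfree.eq e he).2 (hI h)))
    (fun e he => by simp [clFree] at he) hag hf hf' F hF]
  exact dam_E_congr S (fun ω _ _ => ⟨fun h => h.2, fun h => ⟨dpl_nil_holds S ω, h⟩⟩) F

end abstractCut2

/-! ### the reference law of a planar cut, geometry of crossing cells -/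

/-- the law inside a cut `I` of sign `s` -/
noncomputable def dplRef (x : ℝ) (s : Bool) (I : Finset TV) (F : ClCfg TV TV → ℝ) : ℝ :=
  (clInn x I).E (DisPin s (latBd I)) F

theorem dpl_ref (x : ℝ) (hx0 : 0 < x) (hx1 : x ≤ 1) (V I : Finset TV) (hI : latCl I ⊆ V) (s : Bool) (K : ClCon TV TV)
    (hfree : ClFreeL (clAmb x V) K I)
    (hf : 0 < (clAmb x V).Z (fun ω => K.Holds (clAmb x V) ω ∧ ClCut (clAmb x V) s I ω))
    (F : ClCfg TV TV → ℝ) (hF : ClLoc I (latCellsIn I) F) :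
    (clAmb x V).E (fun ω => K.Holds (clAmb x V) ω ∧ ClCut (clAmb x V) s I ω) F = dplRef x s I F := by
  have hS := dam_pl_ok hx0 hx1 V
  have hC : latCellsIn I = (clAmb x V).cin I := dam_pl_cin x hI
  rw [dpl_cut_law (clAmb x V) hS K s I I subset_rfl hfree hf F (hC ▸ hF)]
  obtain ⟨ω, hω, ⟨_, hc⟩, hw⟩ := dis_Z_pos_wit _ _ hf
  have h1 := dis_inn x hx0 hx1 V I hI s (fun _ => True) (fun _ => True) (fun _ _ _ _ _ => Iff.rfl)
    (fun _ _ _ _ _ => Iff.rfl) (dpl_Z_pos _ hS _ hω ⟨hc, trivial, trivial⟩ hw) F hF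
  simp only [and_true] at h1
  exact h1

theorem dpl_cl_ball (z : TV) (M : ℕ) : latCl (latBall z M) ⊆ latBall z (M + 1) := by
  intro u hu
  rcases lat_mem_cl.1 hu with h | ⟨v, hv, hvu⟩
  · exact pnk_ball_mono z (Nat.le_succ M) h
  · rw [lat_mem_ball] at hv ⊢
    have := pnk_N_lip z hvu
    omega

/-- the sites of a cell crossing `I`, `latBall z m ⊆ I ⊆ latBall z M` -/
theorem dpl_cx_geo (x : ℝ) (V I : Finset TV) (z : TV) (m M : ℕ) (h1 : latBall z m ⊆ I) (h2 : I ⊆ latBall z M)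
    {y : TV} (hy : y ∈ (clAmb x V).cx I) {u : TV} (hu : u ∈ (clAmb x V).sv y) :
    m ≤ latN (u - z) ∧ latN (u - z) ≤ M + 1 := by
  obtain ⟨_, ⟨a, ha, haI⟩, b, hb, hbI⟩ := (dpl_mem_cx _ I y).1 hy
  have hu' : u ∈ cellV y := (Finset.mem_inter.1 hu).1
  have ha' : a ∈ cellV y := (Finset.mem_inter.1 ha).1
  have hb' : b ∈ cellV y := (Finset.mem_inter.1 hb).1
  have hbN : m < latN (b - z) := by
    by_contra h
    exact hbI (h1 (lat_mem_ball.2 (not_lt.1 h)))
  have haN : latN (a - z) ≤ M := lat_mem_ball.1 (h2 haI)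
  constructor
  · by_cases hub : u = b
    · subst hub; omega
    · have := pnk_N_lip z (pcp_cell_adj hu' hb' hub)
      omega
  · by_cases hua : u = a
    · subst hua; omega
    · have := pnk_N_lip' z (pcp_cell_adj hu' ha' hua)
      omega

/-! ### (PRIM): kit `dpr_` (helper81) -/

section abstractPrim

variable {V Y : Type} [DecidableEq V] [DecidableEq Y]

/-- delete the pins of sign `s` (the favourable ones) in `D` -/
def ClCon.unpin (K : ClCon V Y) (s : Bool) (D : Finset V) : ClCon V Y :=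
  if s then { K with Bp := K.Bp \ D } else { K with Bm := K.Bm \ D }

theorem dpr_eqns_cite : True := by
  have := @ClCon.unpin.eq_1
  trivial

theorem dpr_unpin_le (K : ClCon V Y) (s : Bool) (D : Finset V) : ClLeS s (K.unpin s D) K := by
  cases s
  · refine ⟨fun h => by simp at h, fun _ => ?_⟩
    exact ⟨subset_rfl, Finset.sdiff_subset, subset_rfl, subset_rfl, Finset.subset_union_left, Finset.subset_union_left, rfl⟩
  · refine ⟨fun _ => ?_, fun h => by simp at h⟩
    exact ⟨Finset.sdiff_subset, subset_rfl, subset_rfl, subset_rfl, Finset.subset_union_left, Finset.subset_union_left, rfl⟩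

theorem dpr_unpin_holds (S : ClSys V Y) (K : ClCon V Y) (s : Bool) (D : Finset V) {ω : ClCfg V Y} (h : K.Holds S ω) :
    (K.unpin s D).Holds S ω := by
  obtain ⟨h1, h2, h3, h4, h5, h6, h7, h8⟩ := h
  cases s
  · exact ⟨h1, fun v hv => h2 v (Finset.mem_sdiff.1 hv).1, h3, h4, h5, h6, h7, h8⟩
  · exact ⟨Finset.sdiff_subset.trans h1, h2, h3, h4, h5, h6, h7, h8⟩

theorem dpr_unpin_legal (S : ClSys V Y) (K : ClCon V Y) (s : Bool) (D : Finset V) (hK : ClLegal S K) (hc : ClClear S s K D) :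
    ClLegal S (K.unpin s D) := by
  cases s
  · refine ⟨hK.wp, hK.wm, fun y hy ho v hv => ?_, hK.eq⟩
    have h1 := hK.full y hy ho hv
    have h2 : v ∉ D := Finset.disjoint_left.1 (hc.obs y hy ho) hv
    simp only [ClCon.unpin, Bool.false_eq_true, if_false, Finset.mem_union, Finset.mem_sdiff] at h1 ⊢
    tauto
  · refine ⟨hK.wp, hK.wm, fun y hy ho v hv => ?_, hK.eq⟩
    have h1 := hK.full y hy ho hv
    have h2 : v ∉ D := Finset.disjoint_left.1 (hc.obs y hy ho) hv
    simp only [ClCon.unpin, if_true, Finset.mem_union, Finset.mem_sdiff] at h1 ⊢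
    tauto

theorem dpr_unpin_free (S : ClSys V Y) (K : ClCon V Y) (s : Bool) (D : Finset V) (hK : ClLegal S K) (hc : ClClear S s K D) :
    ClFreeL S (K.unpin s D) D := by
  cases s
  · refine ⟨⟨?_, ?_, hc.obs, hc.eq⟩, ?_, ?_⟩
    · exact Finset.disjoint_left.2 fun v hv hD => (hc.pin v hD).2 rfl hv
    · exact Finset.sdiff_disjoint
    · show Disjoint K.Wp D
      rw [hK.wp]; exact Finset.disjoint_empty_left _
    · show Disjoint K.Wm D
      rw [hK.wm]; exact Finset.disjoint_empty_left _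
  · refine ⟨⟨?_, ?_, hc.obs, hc.eq⟩, ?_, ?_⟩
    · exact Finset.sdiff_disjoint
    · exact Finset.disjoint_left.2 fun v hv hD => (hc.pin v hD).1 rfl hv
    · show Disjoint K.Wp D
      rw [hK.wp]; exact Finset.disjoint_empty_left _
    · show Disjoint K.Wm D
      rw [hK.wm]; exact Finset.disjoint_empty_left _

theorem dpr_unpin_eq (K : ClCon V Y) (s : Bool) (D : Finset V) : (K.unpin s D).Eq = K.Eq := by
  cases s <;> rfl

theorem dpr_cut_le (S : ClSys V Y) (K : ClCon V Y) (s : Bool) (I : Finset V) : ClLeS s (K.cut S (!s) I) K := by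
  cases s
  · exact ⟨fun h => by simp at h, fun _ => dpl_cut_le_true S K I⟩
  · exact ⟨fun _ => dpl_cut_le_false S K I, fun h => by simp at h⟩

theorem dpr_ind_mono {L L' : ClCfg V Y → Prop} {ω ω' : ClCfg V Y} (h : L ω → L' ω') : clInd L ω ≤ clInd L' ω' := by
  by_cases h1 : L ω
  · rw [dis_ind_pos h1, dis_ind_pos (h h1)]
  · rw [dis_ind_neg h1]; exact dis_ind_nonneg _ _

theorem dpr_freeL_mono {S : ClSys V Y} {K : ClCon V Y} {T T' : Finset V} (h : ClFreeL S K T) (hT : T' ⊆ T) : ClFreeL S K T' :=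
  ⟨dpl_free_mono h.toClFree hT, Finset.disjoint_of_subset_right hT h.wp, Finset.disjoint_of_subset_right hT h.wm⟩

end abstractPrim

/-- a circuit of the intrinsic system of `I` is a circuit of the ambient system (last visit of the complement of `latInt I`) -/
theorem dpr_sep_in (x : ℝ) {V I : Finset TV} (hI : I ⊆ V) (s : Bool) (E : Finset (TV × TV)) (hE : ∀ e ∈ E, e.1 ∉ I ∧ e.2 ∉ I)
    (ω : ClCfg TV TV) (A₀ : Finset TV) (hA : A₀ ⊆ I) (h : ClSep (clInn x I) s ∅ ω (latBd I) A₀) :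
    ClSep (clAmb x V) s E ω (V \ I) A₀ := by
  have key : ∀ u, u ∉ I → ∀ v, Relation.ReflTransGen (clStep (clAmb x V) s E ω) u v → v ∈ I →
      ∃ w ∈ latBd I, Relation.ReflTransGen (clStep (clInn x I) s ∅ ω) w v := by
    intro u hu v huv
    induction huv with
    | refl => intro hv; exact absurd hv hu
    | @tail b c _ hst ih =>
      intro hc
      by_cases hcb : c ∈ latBd I
      · exact ⟨c, hcb, Relation.ReflTransGen.refl⟩
      · have hci : c ∈ latInt I := by rw [lat_int_eq]; exact Finset.mem_sdiff.2 ⟨hc, hcb⟩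
        rcases hst with ⟨y, _, hb, hcy, ht⟩ | he | he
        · have hb' : b ∈ cellV y := (Finset.mem_inter.1 hb).1
          have hc' : c ∈ cellV y := (Finset.mem_inter.1 hcy).1
          have hyI : cellV y ⊆ I := by
            intro w hw
            by_cases hwc : c = w
            · exact hwc ▸ hc
            · exact (lat_mem_int.1 hci).2 w (dam_cell_adj hc' hw hwc)
          obtain ⟨w, hw, hp⟩ := ih (hyI hb')
          refine ⟨w, hw, hp.tail (Or.inl ⟨y, lat_mem_cellsIn.2 hyI, Finset.mem_inter.2 ⟨hb', hyI hb'⟩,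
            Finset.mem_inter.2 ⟨hc', hc⟩, ?_⟩)⟩
          have e : clTau (clInn x I) ω y = clTau (clAmb x V) ω y := by
            unfold clTau
            show (if y ∈ ω.O then (if cellV y ∩ I ⊆ ω.B then (1 : ℤ) else -1) else 0)
              = (if y ∈ ω.O then (if cellV y ∩ V ⊆ ω.B then (1 : ℤ) else -1) else 0)
            rw [Finset.inter_eq_left.2 hyI, Finset.inter_eq_left.2 (hyI.trans hI)]
          rw [e]; exact ht
        · exact absurd hc (hE _ he).2
        · exact absurd hc (hE _ he).1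
  intro u hu v hv huv
  obtain ⟨w, hw, hp⟩ := key u (Finset.mem_sdiff.1 hu).2 v huv (hA hv)
  exact h w hw v hv hp

/-- locality of the circuits of the intrinsic system -/
theorem dpr_sep_loc (x : ℝ) (I O A : Finset TV) (s : Bool) :
    ClLocP I (latCellsIn I) (fun ω => ClSep (clInn x I) s ∅ ω O A) := by
  intro ω ω' hB _ hO
  refine dis_sep_congr A fun y hy _ => ?_
  have hy' : y ∈ latCellsIn I := hy
  have e1 : y ∈ ω.O ↔ y ∈ ω'.O := by
    have h1 : y ∈ ω.O ∩ latCellsIn I ↔ y ∈ ω'.O ∩ latCellsIn I := by rw [hO]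
    simpa only [Finset.mem_inter, hy', and_true] using h1
  have e2 : cellV y ∩ I ⊆ ω.B ↔ cellV y ∩ I ⊆ ω'.B := by
    have h1 : ∀ v ∈ cellV y ∩ I, (v ∈ ω.B ↔ v ∈ ω'.B) := by
      intro v hv
      have h2 : v ∈ ω.B ∩ I ↔ v ∈ ω'.B ∩ I := by rw [hB]
      simpa only [Finset.mem_inter, (Finset.mem_inter.1 hv).2, and_true] using h2
    exact ⟨fun h v hv => (h1 v hv).1 (h hv), fun h v hv => (h1 v hv).2 (h hv)⟩
  unfold clTau
  show (if y ∈ ω.O then (if cellV y ∩ I ⊆ ω.B then (1 : ℤ) else -1) else 0)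
    = (if y ∈ ω'.O then (if cellV y ∩ I ⊆ ω'.B then (1 : ℤ) else -1) else 0)
  simp only [e1, e2]

theorem dpr_ball_sh (z : TV) (r : ℕ) : damSh z (latBall 0 r) = latBall z r := by
  ext u
  rw [dam_mem_sh, lat_mem_ball, lat_mem_ball, sub_zero]

theorem dpr_mem_shC_B (a : TV) (ω : ClCfg TV TV) (u : TV) : u ∈ (damShC a ω).B ↔ u - a ∈ ω.B := dam_mem_sh

theorem dpr_mem_shC_O (a : TV) (ω : ClCfg TV TV) (u : TV) : u ∈ (damShC a ω).O ↔ u - a ∈ ω.O := dam_mem_sh

theorem dpr_pin_sh (a : TV) (t : Bool) (T : Finset TV) (ω : ClCfg TV TV) : DisPin t (damSh a T) (damShC a ω) ↔ DisPin t T ω := by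
  unfold DisPin
  constructor
  · intro h v hv
    have := h (v + a) (dam_mem_sh.2 (by simpa using hv))
    rwa [dpr_mem_shC_B, add_sub_cancel_right] at this
  · intro h v hv
    rw [dpr_mem_shC_B]
    exact h (v - a) (dam_mem_sh.1 hv)

theorem dpr_tau_sh (x : ℝ) (a : TV) (A : Finset TV) (ω : ClCfg TV TV) (y : TV) :
    clTau (clInn x (damSh a A)) (damShC a ω) y = clTau (clInn x A) ω (y - a) := by
  have e2 : cellV y ∩ damSh a A ⊆ (damShC a ω).B ↔ cellV (y - a) ∩ A ⊆ ω.B := by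
    have ec : cellV y = damSh a (cellV (y - a)) := by rw [← dam_cell_sh, sub_add_cancel]
    constructor
    · intro h v hv
      rw [Finset.mem_inter] at hv
      have hm : v + a ∈ cellV y ∩ damSh a A :=
        Finset.mem_inter.2 ⟨by rw [ec]; exact dam_mem_sh.2 (by simpa using hv.1), dam_mem_sh.2 (by simpa using hv.2)⟩
      have := h hm
      rwa [dpr_mem_shC_B, add_sub_cancel_right] at this
    · intro h v hv
      rw [Finset.mem_inter, ec] at hv
      rw [dpr_mem_shC_B]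
      exact h (Finset.mem_inter.2 ⟨dam_mem_sh.1 hv.1, dam_mem_sh.1 hv.2⟩)
  unfold clTau
  show (if y ∈ (damShC a ω).O then (if cellV y ∩ damSh a A ⊆ (damShC a ω).B then (1 : ℤ) else -1) else 0)
    = (if y - a ∈ ω.O then (if cellV (y - a) ∩ A ⊆ ω.B then (1 : ℤ) else -1) else 0)
  simp only [dpr_mem_shC_O, e2]

/-- translation of a circuit -/
theorem dpr_sep_sh (x : ℝ) (a : TV) (A : Finset TV) (s : Bool) (ω : ClCfg TV TV) (O Z : Finset TV)
    (h : ClSep (clInn x A) s ∅ ω O Z) : ClSep (clInn x (damSh a A)) s ∅ (damShC a ω) (damSh a O) (damSh a Z) := by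
  have hstep : ∀ u v, clStep (clInn x (damSh a A)) s ∅ (damShC a ω) u v → clStep (clInn x A) s ∅ ω (u - a) (v - a) := by
    intro u v hst
    rcases hst with ⟨y, hy, hu, hv, ht⟩ | he | he
    · have hy' : y ∈ latCellsIn (damSh a A) := hy
      rw [dam_cellsIn_sh, dam_mem_sh] at hy'
      have ec : cellV y = damSh a (cellV (y - a)) := by rw [← dam_cell_sh, sub_add_cancel]
      have hu' : u ∈ cellV y ∩ damSh a A := hu
      have hv' : v ∈ cellV y ∩ damSh a A := hv
      rw [Finset.mem_inter, ec] at hu' hv'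
      refine Or.inl ⟨y - a, hy', Finset.mem_inter.2 ⟨dam_mem_sh.1 hu'.1, dam_mem_sh.1 hu'.2⟩,
        Finset.mem_inter.2 ⟨dam_mem_sh.1 hv'.1, dam_mem_sh.1 hv'.2⟩, ?_⟩
      rw [← dpr_tau_sh]; exact ht
    · simp at he
    · simp at he
  intro u hu v hv huv
  exact h (u - a) (dam_mem_sh.1 hu) (v - a) (dam_mem_sh.1 hv) (Relation.ReflTransGen.lift (fun w => w - a) hstep u v huv)

/-- Theorem 2.3 at the centre `z` -/
theorem dpr_t23_at (x : ℝ) (hx0 : 0 < x) (hx1 : x ≤ 1) (s : Bool) (z : TV) (R n : ℕ) :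
    (clInn x (latBall 0 R)).P (DisPin (!s) (latBd (latBall 0 R)))
        (fun ω => ClSep (clInn x (latBall 0 R)) s ∅ ω (latBd (latBall 0 R)) (latBall 0 n)) ≤
      (clInn x (latBall z R)).E (DisPin (!s) (latBd (latBall z R)))
        (clInd fun ω => ClSep (clInn x (latBall z R)) s ∅ ω (latBd (latBall z R)) (latBall z n)) := by
  rw [← dpr_ball_sh z R, ← dpr_ball_sh z n, dam_inn_sh, dam_bd_sh]
  have e : (fun ω => DisPin (!s) (damSh z (latBd (latBall 0 R))) (damShC z ω)) = DisPin (!s) (latBd (latBall 0 R)) :=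
    funext fun ω => propext (dpr_pin_sh z (!s) _ ω)
  rw [e, dis_P_eq, dis_E_eq]
  have hS := pcp_inn_ok x hx0 hx1 (latBall 0 R)
  exact div_le_div_of_nonneg_right (dis_N_mono _ hS _ fun ω _ _ => dpr_ind_mono (dpr_sep_sh x z _ s ω _ _))
    (dis_Z_nonneg _ hS _)

/-- **(PRIM)**, one scale, explicit constants, any sign -/
theorem dpr_main (x : ℝ) (hx0 : 0 < x) (hx1 : x ≤ 1) (s : Bool) (κ n : ℕ) (hκ : 1 ≤ κ) (c : ℝ)
    (hT : c ≤ (clInn x (latBall 0 (κ * n))).P (DisPin (!s) (latBd (latBall 0 (κ * n))))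
      (fun ω => ClSep (clInn x (latBall 0 (κ * n))) s ∅ ω (latBd (latBall 0 (κ * n))) (latBall 0 n)))
    (V : Finset TV) (hV : ClDisk (clAmb x V)) (K : ClCon TV TV) (hK : ClLegal (clAmb x V) K)
    (hZ : 0 < (clAmb x V).Z (K.Holds (clAmb x V))) (z : TV) (hB : latBall z (κ * n + 2) ⊆ V)
    (hc : ClClear (clAmb x V) s K (latBall z (κ * n + 2))) :
    c ≤ (clAmb x V).P (K.Holds (clAmb x V))
      (fun ω => ClSep (clAmb x V) s K.Eq ω (V \ latBall z (κ * n)) (latBall z n)) := by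
  obtain ⟨S, hSdef⟩ : ∃ S, S = clAmb x V := ⟨_, rfl⟩
  obtain ⟨I, hI⟩ : ∃ I, I = latBall z (κ * n) := ⟨_, rfl⟩
  obtain ⟨D, hD⟩ : ∃ D, D = latBall z (κ * n + 2) := ⟨_, rfl⟩
  have hS : ClOk (clAmb x V) := dam_pl_ok hx0 hx1 V
  have hID : I ⊆ D := by rw [hI, hD]; exact pnk_ball_mono z (by omega)
  have hIV : I ⊆ V := hID.trans (hD ▸ hB)
  have hnI : latBall z n ⊆ I := by rw [hI]; exact pnk_ball_mono z (Nat.le_mul_of_pos_left n hκ)
  have hcl : latCl I ⊆ V := by
    rw [hI]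
    exact (dpl_cl_ball z (κ * n)).trans ((pnk_ball_mono z (by omega)).trans hB)
  have hcx : ∀ y ∈ (clAmb x V).cx I, (clAmb x V).sv y ⊆ D := by
    intro y hy u hu
    have := (dpl_cx_geo x V I z (κ * n) (κ * n) hI.ge hI.le hy hu).2
    rw [hD]
    exact lat_mem_ball.2 (by omega)
  rw [← hD] at hc
  rw [← hI]
  rw [← hSdef] at hS hV hK hZ hc hcx ⊢
  -- the two less favourable histories
  have l1 : ClLegal S (K.unpin s D) := dpr_unpin_legal S K s D hK hc
  have f1 : ClFreeL S (K.unpin s D) D := dpr_unpin_free S K s D hK hc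
  have z1 : 0 < S.Z ((K.unpin s D).Holds S) := by
    obtain ⟨ω, hω, hk, hw⟩ := dis_Z_pos_wit _ _ hZ
    exact dpl_Z_pos S hS _ hω (dpr_unpin_holds S K s D hk) hw
  have l2 : ClLegal S ((K.unpin s D).cut S (!s) I) := dpl_cut_legal S _ (!s) I l1
  have z2 : 0 < S.Z (((K.unpin s D).cut S (!s) I).Holds S) := dpl_cut_feas S hS _ l1 z1 (!s) I D hcx f1.toClFree
  have up : ClUp S s (fun ω => ClSep S s K.Eq ω (V \ I) (latBall z n)) := dis_sep_up S s K.Eq _ _
  have o1 := dis_order_up S hV s _ K l1 hK (dpr_unpin_le K s D) up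
  have o2 := dis_order_up S hV s _ _ l2 l1 (dpr_cut_le S (K.unpin s D) s I) up
  have hE : ∀ e ∈ K.Eq, e.1 ∉ I ∧ e.2 ∉ I := fun e he =>
    ⟨fun h => (hc.eq e he).1 (hID h), fun h => (hc.eq e he).2 (hID h)⟩
  have key : c ≤ S.N (((K.unpin s D).cut S (!s) I).Holds S) (clInd fun ω => ClSep S s K.Eq ω (V \ I) (latBall z n)) /
      S.Z (((K.unpin s D).cut S (!s) I).Holds S) := by
    have h1 : S.N (((K.unpin s D).cut S (!s) I).Holds S) (clInd fun ω => ClSep (clInn x I) s ∅ ω (latBd I) (latBall z n)) ≤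
        S.N (((K.unpin s D).cut S (!s) I).Holds S) (clInd fun ω => ClSep S s K.Eq ω (V \ I) (latBall z n)) :=
      dis_N_mono S hS _ fun ω _ _ => dis_ind_mono fun h => by
        rw [hSdef]; exact dpr_sep_in x hIV s K.Eq hE ω _ hnI h
    have hco : ∀ ω ∈ S.cfgs, S.wt ω ≠ 0 →
        (((K.unpin s D).cut S (!s) I).Holds S ω ↔ (K.unpin s D).Holds S ω ∧ ClCut S (!s) I ω) :=
      fun ω _ hw => dpl_cut_holds S _ (!s) I hw
    have h2 : S.E (((K.unpin s D).cut S (!s) I).Holds S) (clInd fun ω => ClSep (clInn x I) s ∅ ω (latBd I) (latBall z n)) =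
        dplRef x (!s) I (clInd fun ω => ClSep (clInn x I) s ∅ ω (latBd I) (latBall z n)) := by
      rw [dam_E_congr S hco]
      rw [dam_Z_congr S hco] at z2
      subst hSdef
      exact dpl_ref x hx0 hx1 V I hcl (!s) _ (dpr_freeL_mono f1 hID) z2 _
        (fun ω ω' a b c => le_antisymm (dpr_ind_mono (dpr_sep_loc x I _ _ s ω ω' a b c).1)
          (dpr_ind_mono (dpr_sep_loc x I _ _ s ω ω' a b c).2))
    have h3 := dpr_t23_at x hx0 hx1 s z (κ * n) n
    rw [← hI] at h3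
    calc c ≤ _ := hT
      _ ≤ _ := h3
      _ = _ := h2.symm
      _ = _ := dis_E_eq _ _ _
      _ ≤ _ := div_le_div_of_nonneg_right h1 z2.le
  rw [dis_P_eq]
  rw [le_div_iff₀ z2] at key
  rw [le_div_iff₀ hZ]
  -- c Z₂ ≤ N₂,  N₂ Z₁ ≤ Z₂ N₁,  N₁ Z ≤ Z₁ N
  have a1 : c * S.Z ((K.unpin s D).Holds S) ≤ S.N ((K.unpin s D).Holds S) (clInd fun ω => ClSep S s K.Eq ω (V \ I) (latBall z n)) := by
    refine le_of_mul_le_mul_left ?_ z2
    calc _ = (c * S.Z (((K.unpin s D).cut S (!s) I).Holds S)) * S.Z ((K.unpin s D).Holds S) := by ring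
      _ ≤ _ := mul_le_mul_of_nonneg_right key z1.le
      _ ≤ _ := o2
  refine le_of_mul_le_mul_left ?_ z1
  calc _ = (c * S.Z ((K.unpin s D).Holds S)) * S.Z (K.Holds S) := by ring
    _ ≤ _ := mul_le_mul_of_nonneg_right a1 hZ.le
    _ ≤ _ := o1

/-- (PRIM) TEX[lem:buffer-circuits], primitive comparison.  PROVED (helper81; kit `dpr_` above; `dpr_main` = any sign, `ClDisk` only, explicit constants).
PLAN: delete the favourable pins of the disk (`dis_order`), prescribe the cells crossing `latBall z (κ n)` open of sign `!s` (`dis_order`, feasible by `dis_feas`), `dis_inn`, `dis_inn_shift`, T23. -/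
theorem dis_prim (x : ℝ) (hx0 : 0 < x) (hx1 : x ≤ 1) (s : Bool) (hT : DisT23 x s) :
    ∃ (κ n₀ : ℕ) (c : ℝ), 2 ≤ κ ∧ 0 < c ∧ ∀ (V : Finset TV), DisAmb V → ∀ K : ClCon TV TV, ClLegal (clAmb x V) K →
      0 < (clAmb x V).Z (K.Holds (clAmb x V)) → ∀ (z : TV) (n : ℕ), n₀ ≤ n → latBall z (κ * n + 2) ⊆ V →
      ClClear (clAmb x V) s K (latBall z (κ * n + 2)) →
      c ≤ (clAmb x V).P (K.Holds (clAmb x V))
        (fun ω => ClSep (clAmb x V) s K.Eq ω (V \ latBall z (κ * n)) (latBall z n)) := by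
  obtain ⟨κ, n₀, c, hκ, hc, h⟩ := hT
  exact ⟨κ, n₀, c, hκ, hc, fun V hV K hK hZ z n hn hB hcl =>
    dpr_main x hx0 hx1 s κ n (by omega) c (h n hn) V (dis_amb_disk x hx0 hx1 V hV) K hK hZ z hB hcl⟩

/-- (STACK) TEX (discrete:stack).  OWNER 141.
PLAN: slots `κ^(2j)`; failure in all slots; `dis_cond` on the FULL `(B, τ)` of the slots already inspected; `dis_prim` under every such history. -/
theorem dis_stack (x : ℝ) (hx0 : 0 < x) (hx1 : x ≤ 1) (s : Bool) (hT : DisT23 x s) :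
    ∃ (C α : ℝ), 0 < C ∧ 0 < α ∧ ∀ (V : Finset TV), DisAmb V → ∀ K : ClCon TV TV, ClLegal (clAmb x V) K →
      0 < (clAmb x V).Z (K.Holds (clAmb x V)) → ∀ (z : TV) (r L : ℕ), 1 ≤ r → r ≤ L → latBall z (L + 2) ⊆ V →
      ClClear (clAmb x V) s K (latBall z (L + 2) \ latBall z r) →
      (clAmb x V).P (K.Holds (clAmb x V))
        (fun ω => ¬ ClSep (clAmb x V) s K.Eq ω (V \ latBall z L) (latBall z r)) ≤ C * ((r : ℝ) / L) ^ α := by
  obtain ⟨κ, n₀, c, hκ, hc, H⟩ := dis_prim x hx0 hx1 s hT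
  exact drg_stack x s DisAmb (fun V hV => dis_amb_disk x hx0 hx1 V hV) hκ hc H

/-- (CORE), the statement: every free-in-the-ball law is close to the law inside the deterministic open-minus cut -/
def DplCore (x C α : ℝ) : Prop :=
  ∀ (V : Finset TV), DisAmb V → ∀ K : ClCon TV TV, ClLegal (clAmb x V) K →
      0 < (clAmb x V).Z (K.Holds (clAmb x V)) → ∀ (z : TV) (r L : ℕ), 1 ≤ r → r ≤ L → latBall z (L + 4) ⊆ V →
      ClFree (clAmb x V) K (latBall z (L + 4)) →
      ∀ F : ClCfg TV TV → ℝ, ClLoc (latBall z r) (latCellsIn (latBall z r)) F → (∀ ω, |F ω| ≤ 1) →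
      |(clAmb x V).E (K.Holds (clAmb x V)) F - dplRef x false (latBall z (L + 3)) F| ≤ C * ((r : ℝ) / L) ^ α

theorem dpl_core (x : ℝ) (hx0 : 0 < x) (hx1 : x ≤ 1) (hT : DisT23 x true) :
    ∃ (C α : ℝ), 0 < C ∧ 0 < α ∧ DplCore x C α := by
  obtain ⟨C₀, α₀, hC, hα, hst⟩ := dis_stack x hx0 hx1 true hT
  refine ⟨2 * C₀, α₀, by positivity, hα, ?_⟩
  intro V hV K hK hZ z r L hr hrL hsub hfree F hF hb
  have hS : ClDisk (clAmb x V) := dis_amb_disk x hx0 hx1 V hV
  have hOk : ClOk (clAmb x V) := hS.toClOk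
  have geo : ∀ y ∈ (clAmb x V).cx (latBall z (L + 3)), ∀ u ∈ (clAmb x V).sv y,
      L + 3 ≤ latN (u - z) ∧ latN (u - z) ≤ L + 3 + 1 := fun y hy u hu =>
    dpl_cx_geo x V _ z (L + 3) (L + 3) subset_rfl subset_rfl hy hu
  have hcxC : ∀ y ∈ (clAmb x V).cx (latBall z (L + 3)), y ∈ (clAmb x V).C := fun y hy => ((dpl_mem_cx _ _ y).1 hy).1
  have hD : ∀ y ∈ (clAmb x V).cx (latBall z (L + 3)), (clAmb x V).sv y ⊆ latBall z (L + 4) := fun y hy u hu =>
    lat_mem_ball.2 (geo y hy u hu).2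
  have legal' := dpl_cut_legal (clAmb x V) K false (latBall z (L + 3)) hK
  have feas' := dpl_cut_feas (clAmb x V) hOk K hK hZ false (latBall z (L + 3)) _ hD hfree
  have hclI : latCl (latBall z (L + 3)) ⊆ V := (dpl_cl_ball z (L + 3)).trans hsub
  have hclA : latCl (latBall z r) ⊆ V :=
    (dpl_cl_ball z r).trans ((pnk_ball_mono z (by omega)).trans hsub)
  have hAV : latBall z r ⊆ V := (pnk_ball_mono z (by omega)).trans hsub
  have hCA : latCellsIn (latBall z r) = (clAmb x V).cin (latBall z r) := dam_pl_cin x hclA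
  have hO : ∀ y ∈ (clAmb x V).cx (latBall z (L + 3)), (clAmb x V).sv y ⊆ V \ latBall z L := by
    intro y hy u hu
    refine Finset.mem_sdiff.2 ⟨hOk.sub y (hcxC y hy) hu, fun h => ?_⟩
    have := (geo y hy u hu).1
    have := lat_mem_ball.1 h
    omega
  have hmatch := dis_match (clAmb x V) hS _ K legal' hK (dpl_cut_le_false _ K _) feas' hZ (V \ latBall z L) (latBall z r)
    Finset.sdiff_subset hAV (dpl_cut_agree _ K false _ _ hO) F (hCA ▸ hF) hb
  have hclear : ClClear (clAmb x V) true (K.cut (clAmb x V) false (latBall z (L + 3))) (latBall z (L + 2) \ latBall z r) := by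
    refine dpl_free_clear (dpl_cut_free _ K false _ _ (dpl_free_mono hfree ?_) ?_) true
    · exact Finset.sdiff_subset.trans (pnk_ball_mono z (by omega))
    · intro y hy
      refine Finset.disjoint_left.2 fun u hu h => ?_
      have := (geo y hy u hu).1
      have := lat_mem_ball.1 (Finset.mem_sdiff.1 h).1
      omega
  have hstack := hst V hV _ legal' feas' z r L hr hrL ((pnk_ball_mono z (by omega)).trans hsub) hclear
  have hcong : ∀ ω ∈ (clAmb x V).cfgs, (clAmb x V).wt ω ≠ 0 →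
      ((K.cut (clAmb x V) false (latBall z (L + 3))).Holds (clAmb x V) ω ↔
        K.Holds (clAmb x V) ω ∧ ClCut (clAmb x V) false (latBall z (L + 3)) ω) := fun ω _ hw =>
    dpl_cut_holds _ K false _ hw
  have hfreeL : ClFreeL (clAmb x V) K (latBall z (L + 3)) :=
    { toClFree := dpl_free_mono hfree (pnk_ball_mono z (by omega))
      wp := by rw [hK.wp]; exact Finset.disjoint_empty_left _
      wm := by rw [hK.wm]; exact Finset.disjoint_empty_left _ }
  have href : (clAmb x V).E ((K.cut (clAmb x V) false (latBall z (L + 3))).Holds (clAmb x V)) F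
      = dplRef x false (latBall z (L + 3)) F := by
    rw [dam_E_congr _ hcong F]
    refine dpl_ref x hx0 hx1 V _ hclI false K hfreeL ?_ F ?_
    · rw [← dam_Z_congr _ hcong]; exact feas'
    · refine dde_loc_mono (pnk_ball_mono z (by omega)) ?_ hF
      intro y hy
      rw [lat_mem_cellsIn] at hy ⊢
      exact hy.trans (pnk_ball_mono z (by omega))
  rw [href] at hmatch
  rw [abs_sub_comm]
  calc _ ≤ _ := hmatch
    _ ≤ 2 * (C₀ * ((r : ℝ) / L) ^ α₀) := by
        rw [dpl_cut_eq] at hstack ⊢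
        linarith
    _ = _ := by ring

theorem dpl_eps (C α : ℝ) (hα : 0 < α) (r : ℕ) : Tendsto (fun L : ℕ => C * ((r : ℝ) / L) ^ α) atTop (𝓝 0) := by
  have h1 : Tendsto (fun L : ℕ => ((L : ℝ)) ^ α) atTop atTop :=
    (tendsto_rpow_atTop hα).comp tendsto_natCast_atTop_atTop
  have h2 := (h1.const_div_atTop ((r : ℝ) ^ α)).const_mul C
  rw [mul_zero] at h2
  refine h2.congr fun L => ?_
  rw [Real.div_rpow (Nat.cast_nonneg r) (Nat.cast_nonneg L)]

/-- the free laws in large hexagons converge on bounded observables of a ball -/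
theorem dpl_lim1 (x : ℝ) (hx0 : 0 < x) (hx1 : x ≤ 1) {C α : ℝ} (hα : 0 < α) (H : DplCore x C α) (z : TV) (r : ℕ)
    (hr : 1 ≤ r) (F : ClCfg TV TV → ℝ) (hF : ClLoc (latBall z r) (latCellsIn (latBall z r)) F) (hb : ∀ ω, |F ω| ≤ 1) :
    ∃ a : ℝ, Tendsto (fun N : ℕ => (clAmb x (latBall 0 N)).E (fun _ => True) F) atTop (𝓝 a) ∧ |a| ≤ 1 ∧
      ∀ L, r ≤ L → |a - dplRef x false (latBall z (L + 3)) F| ≤ C * ((r : ℝ) / L) ^ α := by
  have hN : ∀ L, r ≤ L → ∀ N, latN z + (L + 4) ≤ N →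
      |(clAmb x (latBall 0 N)).E (fun _ => True) F - dplRef x false (latBall z (L + 3)) F| ≤ C * ((r : ℝ) / L) ^ α := by
    intro L hL N hN
    have := H (latBall 0 N) (dis_amb_ball 0 N) clFree (dpl_nil_legal _) (dpl_nil_feas _ (dam_pl_ok hx0 hx1 _)) z r L hr hL
      (pnk_ball_sub (by rw [sub_zero]; exact hN)) (dpl_nil_free _ _) F hF hb
    rwa [dpl_nil_E] at this
  have hcau : CauchySeq (fun N : ℕ => (clAmb x (latBall 0 N)).E (fun _ => True) F) := by
    rw [Metric.cauchySeq_iff']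
    intro ε hε
    have h1 : ∀ᶠ L : ℕ in atTop, C * ((r : ℝ) / L) ^ α < ε / 2 :=
      (dpl_eps C α hα r).eventually (gt_mem_nhds (by linarith))
    obtain ⟨L, hL1, hL2⟩ := (h1.and (eventually_ge_atTop r)).exists
    refine ⟨latN z + (L + 4), fun n hn => ?_⟩
    have a1 := hN L hL2 n hn
    have a2 := hN L hL2 _ le_rfl
    rw [Real.dist_eq]
    have a3 := abs_sub_le ((clAmb x (latBall 0 n)).E (fun _ => True) F) (dplRef x false (latBall z (L + 3)) F)
      ((clAmb x (latBall 0 (latN z + (L + 4)))).E (fun _ => True) F)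
    rw [abs_sub_comm (dplRef x false (latBall z (L + 3)) F)] at a3
    linarith
  obtain ⟨a, ha⟩ := cauchySeq_tendsto_of_complete hcau
  refine ⟨a, ha, ?_, fun L hL => ?_⟩
  · exact le_of_tendsto ha.abs (Eventually.of_forall fun N => dpl_E_abs _ (dam_pl_ok hx0 hx1 _) _ F hb)
  · exact le_of_tendsto (ha.sub_const _).abs (eventually_atTop.2 ⟨_, hN L hL⟩)

theorem dpl_plane_eq {x : ℝ} {F : ClCfg TV TV → ℝ} {a : ℝ}
    (ha : Tendsto (fun N : ℕ => (clAmb x (latBall 0 N)).E (fun _ => True) F) atTop (𝓝 a)) : clPlane x F = a :=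
  ha.limUnder_eq

/-- a local observable is bounded -/
theorem dpl_loc_bdd {V Y : Type} [DecidableEq V] [DecidableEq Y] (T : Finset V) (T' : Finset Y) (F : ClCfg V Y → ℝ)
    (hF : ClLoc T T' F) : ∃ M : ℝ, 0 < M ∧ ∀ ω, |F ω| ≤ M := by
  refine ⟨1 + ∑ t ∈ T.powerset ×ˢ T.powerset ×ˢ T'.powerset, |F ⟨t.1, t.2.1, t.2.2⟩|, ?_, fun ω => ?_⟩
  · have : 0 ≤ ∑ t ∈ T.powerset ×ˢ T.powerset ×ˢ T'.powerset, |F ⟨t.1, t.2.1, t.2.2⟩| :=
      Finset.sum_nonneg fun _ _ => abs_nonneg _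
    linarith
  · have e : F ω = F ⟨ω.B ∩ T, ω.W ∩ T, ω.O ∩ T'⟩ := hF _ _ (by simp) (by simp) (by simp)
    have h1 : (ω.B ∩ T, ω.W ∩ T, ω.O ∩ T') ∈ T.powerset ×ˢ T.powerset ×ˢ T'.powerset := by
      simp only [Finset.mem_product, Finset.mem_powerset]
      exact ⟨Finset.inter_subset_right, Finset.inter_subset_right, Finset.inter_subset_right⟩
    have h2 := Finset.single_le_sum (f := fun t : Finset V × Finset V × Finset Y => |F ⟨t.1, t.2.1, t.2.2⟩|)
      (fun _ _ => abs_nonneg _) h1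
    rw [e]
    simp only at h2
    linarith

/-- finite sets of sites and cells lie in a hexagon -/
theorem dpl_in_ball (T T' : Finset TV) : ∃ r : ℕ, 1 ≤ r ∧ T ⊆ latBall 0 r ∧ T' ⊆ latCellsIn (latBall 0 r) := by
  refine ⟨T.sup latN + T'.sup latN + 1, by omega, fun u hu => ?_, fun y hy => ?_⟩
  · rw [lat_mem_ball, sub_zero]
    have := Finset.le_sup (f := latN) hu
    omega
  · rw [lat_mem_cellsIn]
    intro u hu
    rw [lat_mem_ball, sub_zero]
    have h1 := Finset.le_sup (f := latN) hy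
    have h2 : latN u ≤ latN y + 1 := by
      by_cases huy : u = y
      · subst huy; omega
      · have := pnk_N_lip 0 (pcp_cell_adj (show y ∈ cellV y by simp [cellV]) hu (Ne.symm huy))
        simp only [sub_zero] at this
        omega
    omega

theorem dpl_E_smul {V Y : Type} [DecidableEq V] [DecidableEq Y] (S : ClSys V Y) (K : ClCfg V Y → Prop) (c : ℝ)
    (F : ClCfg V Y → ℝ) : S.E K (fun ω => c * F ω) = c * S.E K F := by
  rw [dis_E_eq, dis_E_eq, dis_N_smul, mul_div_assoc]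

/-- existence of the limit for every local observable -/
theorem dpl_lim (x : ℝ) (hx0 : 0 < x) (hx1 : x ≤ 1) (hT : DisT23 x true) (T T' : Finset TV)
    (F : ClCfg TV TV → ℝ) (hF : ClLoc T T' F) :
    ∃ a : ℝ, Tendsto (fun N : ℕ => (clAmb x (latBall 0 N)).E (fun _ => True) F) atTop (𝓝 a) := by
  obtain ⟨C, α, _, hα, H⟩ := dpl_core x hx0 hx1 hT
  obtain ⟨M, hM, hb⟩ := dpl_loc_bdd T T' F hF
  obtain ⟨r, hr, h1, h2⟩ := dpl_in_ball T T'
  have hF' : ClLoc (latBall 0 r) (latCellsIn (latBall 0 r)) (fun ω => M⁻¹ * F ω) := by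
    intro ω ω' a b c
    have := dde_loc_mono h1 h2 hF ω ω' a b c
    simp only [this]
  obtain ⟨a, ha, _, _⟩ := dpl_lim1 x hx0 hx1 hα H 0 r hr _ hF' (fun ω => by
    rw [abs_mul, abs_of_pos (inv_pos.2 hM), inv_mul_le_iff₀ hM, mul_one]; exact hb ω)
  refine ⟨M * a, (ha.const_mul M).congr fun N => ?_⟩
  rw [dpl_E_smul, ← mul_assoc, mul_inv_cancel₀ hM.ne', one_mul]

/-- (PLANE-TV) TEX[prop:local-mixing], first paragraph.  OWNER 146. -/
theorem dis_plane_tv (x : ℝ) (hx0 : 0 < x) (hx1 : x ≤ 1) (hT : DisT23 x true) :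
    ∃ (C α : ℝ), 0 < C ∧ 0 < α ∧ ∀ (V : Finset TV), DisAmb V → ∀ K : ClCon TV TV, ClLegal (clAmb x V) K →
      0 < (clAmb x V).Z (K.Holds (clAmb x V)) → ∀ (z : TV) (r L : ℕ), 1 ≤ r → r ≤ L → latBall z (L + 2) ⊆ V →
      ClFree (clAmb x V) K (latBall z (L + 2)) →
      ∀ F : ClCfg TV TV → ℝ, ClLoc (latBall z r) (latCellsIn (latBall z r)) F → (∀ ω, |F ω| ≤ 1) →
      |(clAmb x V).E (K.Holds (clAmb x V)) F - clPlane x F| ≤ C * ((r : ℝ) / L) ^ α := by
  obtain ⟨C, α, hC, hα, H⟩ := dpl_core x hx0 hx1 hT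
  refine ⟨2 * C * 3 ^ α + 2 * 2 ^ α, α, by positivity, hα, ?_⟩
  intro V hV K hK hZ z r L hr hrL hsub hfree F hF hb
  obtain ⟨a, ha, ha1, ha2⟩ := dpl_lim1 x hx0 hx1 hα H z r hr F hF hb
  rw [dpl_plane_eq ha]
  have hr0 : (0 : ℝ) < r := by exact_mod_cast hr
  have hL0 : (0 : ℝ) < L := by exact_mod_cast (lt_of_lt_of_le hr hrL)
  have hq0 : 0 ≤ (r : ℝ) / L := by positivity
  have hp0 : 0 ≤ ((r : ℝ) / L) ^ α := Real.rpow_nonneg hq0 α
  by_cases hc : r + 2 ≤ L
  · obtain ⟨L₀, rfl⟩ : ∃ L₀, L = L₀ + 2 := ⟨L - 2, by omega⟩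
    have hrL₀ : r ≤ L₀ := by omega
    have h1 := H V hV K hK hZ z r L₀ hr hrL₀ hsub hfree F hF hb
    have h2 := ha2 L₀ hrL₀
    have hL₀ : (0 : ℝ) < L₀ := by exact_mod_cast (lt_of_lt_of_le hr hrL₀)
    have h3 : ((r : ℝ) / L₀) ^ α ≤ 3 ^ α * ((r : ℝ) / ((L₀ + 2 : ℕ) : ℝ)) ^ α := by
      rw [← Real.mul_rpow (by norm_num) hq0]
      refine Real.rpow_le_rpow (by positivity) ?_ hα.le
      rw [div_le_iff₀ hL₀]
      have h4 : (1 : ℝ) ≤ L₀ := by exact_mod_cast (le_trans hr hrL₀)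
      push_cast
      rw [mul_div_assoc', div_mul_eq_mul_div, le_div_iff₀ (by positivity)]
      nlinarith
    have h5 := abs_sub_le ((clAmb x V).E (K.Holds (clAmb x V)) F) (dplRef x false (latBall z (L₀ + 3)) F) a
    rw [abs_sub_comm (dplRef x false (latBall z (L₀ + 3)) F)] at h5
    have h6 : C * ((r : ℝ) / L₀) ^ α ≤ C * (3 ^ α * ((r : ℝ) / ((L₀ + 2 : ℕ) : ℝ)) ^ α) :=
      mul_le_mul_of_nonneg_left h3 hC.le
    have h7 : 0 ≤ 2 * (2 : ℝ) ^ α * ((r : ℝ) / ((L₀ + 2 : ℕ) : ℝ)) ^ α := by positivity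
    nlinarith
  · have h1 : |(clAmb x V).E (K.Holds (clAmb x V)) F| ≤ 1 := dpl_E_abs _ (dam_pl_ok hx0 hx1 V) _ F hb
    have h2 : |(clAmb x V).E (K.Holds (clAmb x V)) F - a| ≤ 2 := by
      have := abs_sub (((clAmb x V).E (K.Holds (clAmb x V)) F)) a
      linarith
    have h3 : (1 : ℝ) ≤ 2 ^ α * ((r : ℝ) / L) ^ α := by
      rw [← Real.mul_rpow (by norm_num) hq0]
      refine Real.one_le_rpow ?_ hα.le
      rw [mul_div_assoc', le_div_iff₀ hL0]
      have : (L : ℝ) ≤ r + 1 := by exact_mod_cast (by omega : L ≤ r + 1)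
      have : (1 : ℝ) ≤ r := by exact_mod_cast hr
      linarith
    have h4 : 0 ≤ 2 * C * (3 : ℝ) ^ α * ((r : ℝ) / L) ^ α := by positivity
    nlinarith

/-- (PLANE-LIM) the limit exists on local observables.  OWNER 146. -/
theorem dis_plane_lim (x : ℝ) (hx0 : 0 < x) (hx1 : x ≤ 1) (hT : DisT23 x true) (T T' : Finset TV)
    (F : ClCfg TV TV → ℝ) (hF : ClLoc T T' F) :
    Tendsto (fun N : ℕ => (clAmb x (latBall 0 N)).E (fun _ => True) F) atTop (𝓝 (clPlane x F)) :=
  tendsto_nhds_limUnder (dpl_lim x hx0 hx1 hT T T' F hF)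

/-! kit `dps_` (helper109): hexagons centred anywhere -/

theorem dps_squeeze (a e : ℕ → ℝ) (l : ℝ) (he : Tendsto e atTop (𝓝 0)) (L₀ : ℕ)
    (h : ∀ L, L₀ ≤ L → ∀ᶠ N in atTop, |a N - l| ≤ e L) : Tendsto a atTop (𝓝 l) := by
  rw [Metric.tendsto_atTop]
  intro ε hε
  obtain ⟨L, hL0, hL⟩ := ((eventually_ge_atTop L₀).and (he.eventually (gt_mem_nhds hε))).exists
  obtain ⟨N, hN⟩ := eventually_atTop.1 (h L hL0)
  exact ⟨N, fun n hn => by rw [Real.dist_eq]; exact (hN n hn).trans_lt hL⟩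

theorem dps_shift_eq (a : TV) (ω : ClCfg TV TV) : clShift a ω = damShC a ω := by
  have e1 : ∀ T : Finset TV, T.image (· + a) = damSh a T := fun T => by
    unfold damSh
    rw [Finset.map_eq_image]
    rfl
  unfold clShift damShC damMap
  rw [e1, e1, e1]
  rfl

theorem dps_ball_sh (a : TV) (N : ℕ) : damSh a (latBall 0 N) = latBall a N := by
  ext u
  rw [dam_mem_sh, lat_mem_ball, lat_mem_ball, sub_zero]

theorem dps_plane_smul (x : ℝ) (hx0 : 0 < x) (hx1 : x ≤ 1) (hT : DisT23 x true) (T T' : Finset TV)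
    (F : ClCfg TV TV → ℝ) (hF : ClLoc T T' F) (c : ℝ) : clPlane x (fun ω => c * F ω) = c * clPlane x F := by
  have h := (dis_plane_lim x hx0 hx1 hT T T' F hF).const_mul c
  simp only [← dpl_E_smul] at h
  exact h.limUnder_eq

/-- the free laws in hexagons centred anywhere converge to the plane law -/
theorem dps_lim_center (x : ℝ) (hx0 : 0 < x) (hx1 : x ≤ 1) (hT : DisT23 x true) (a : TV) (T T' : Finset TV)
    (F : ClCfg TV TV → ℝ) (hF : ClLoc T T' F) :
    Tendsto (fun N : ℕ => (clAmb x (latBall a N)).E (fun _ => True) F) atTop (𝓝 (clPlane x F)) := by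
  obtain ⟨C, α, _, hα, h⟩ := dis_plane_tv x hx0 hx1 hT
  obtain ⟨M, hM, hb⟩ := dpl_loc_bdd T T' F hF
  obtain ⟨r, hr, h1, h2⟩ := dpl_in_ball T T'
  have hF' : ClLoc (latBall 0 r) (latCellsIn (latBall 0 r)) (fun ω => M⁻¹ * F ω) := by
    intro ω ω' a b c
    have := dde_loc_mono h1 h2 hF ω ω' a b c
    simp only [this]
  have hb' : ∀ ω, |M⁻¹ * F ω| ≤ 1 := fun ω => by
    rw [abs_mul, abs_of_pos (inv_pos.2 hM), inv_mul_le_iff₀ hM, mul_one]; exact hb ω
  have key : Tendsto (fun N : ℕ => (clAmb x (latBall a N)).E (fun _ => True) (fun ω => M⁻¹ * F ω)) atTop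
      (𝓝 (clPlane x (fun ω => M⁻¹ * F ω))) := by
    refine dps_squeeze _ (fun L : ℕ => C * ((r : ℝ) / L) ^ α) _ (dpl_eps C α hα r) r fun L hL => ?_
    refine eventually_atTop.2 ⟨latN (0 - a) + (L + 2), fun N hN => ?_⟩
    have := h (latBall a N) (dis_amb_ball a N) clFree (dpl_nil_legal _) (dpl_nil_feas _ (dam_pl_ok hx0 hx1 _)) 0 r L hr hL
      (pnk_ball_sub hN) (dpl_nil_free _ _) _ hF' hb'
    rwa [dpl_nil_E] at this
  have k2 := key.const_mul M
  rw [dps_plane_smul x hx0 hx1 hT T T' F hF, ← mul_assoc, mul_inv_cancel₀ hM.ne', one_mul] at k2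
  refine k2.congr fun N => ?_
  rw [dpl_E_smul, ← mul_assoc, mul_inv_cancel₀ hM.ne', one_mul]

/-- translation invariance (spins AND statuses) -/
theorem dis_plane_shift (x : ℝ) (hx0 : 0 < x) (hx1 : x ≤ 1) (hT : DisT23 x true) (a : TV) (T T' : Finset TV)
    (F : ClCfg TV TV → ℝ) (hF : ClLoc T T' F) : clPlane x (fun ω => F (clShift a ω)) = clPlane x F := by
  have h := dps_lim_center x hx0 hx1 hT a T T' F hF
  have e : ∀ N : ℕ, (clAmb x (latBall a N)).E (fun _ => True) F =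
      (clAmb x (latBall 0 N)).E (fun _ => True) (fun ω => F (clShift a ω)) := fun N => by
    rw [← dps_ball_sh a N, dam_amb_sh]
    simp only [dps_shift_eq]
  simp only [e] at h
  exact h.limUnder_eq

/-- a finite set lies in all large hexagons -/
theorem dsy_sub_ball (T : Finset TV) : ∀ᶠ N : ℕ in atTop, T ⊆ latBall 0 N := by
  refine eventually_atTop.2 ⟨T.sup latN, fun N hN u hu => ?_⟩
  rw [lat_mem_ball, sub_zero]
  exact (Finset.le_sup (f := latN) hu).trans hN

theorem dsy_plane_congr (x : ℝ) (F G : ClCfg TV TV → ℝ)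
    (h : ∀ᶠ N : ℕ in atTop, (clAmb x (latBall 0 N)).E (fun _ => True) F = (clAmb x (latBall 0 N)).E (fun _ => True) G) :
    clPlane x F = clPlane x G := by
  unfold clPlane limUnder
  rw [Filter.map_congr h]

/-- invariance of the PAIR law under a lattice symmetry `φ` (rotation by 60 degrees, reflection) -/
theorem dis_plane_symm (x : ℝ) (hx0 : 0 < x) (hx1 : x ≤ 1) (hT : DisT23 x true) (φ : TV → TV)
    (hφ : φ = latRot ∨ φ = latRefl) (T : Finset TV) (F : ClCfg TV TV → ℝ) (hF : ClLoc T ∅ F) :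
    clPlane x (fun ω => F ⟨ω.B.image φ, ω.W.image φ, ∅⟩) = clPlane x F := by
  refine dsy_plane_congr x _ _ (Eventually.of_forall fun N => ?_)
  refine dsy_E_of_N _ _ _ _ ?_
  have hFp : ∀ ω ω' : ClCfg TV TV, ω.B = ω'.B → ω.W = ω'.W → F ω = F ω' :=
    fun ω ω' h1 h2 => hF _ _ (by rw [h1]) (by rw [h2]) (by simp)
  unfold ClSys.N
  simp only [if_true]
  rcases hφ with rfl | rfl
  · exact dlf_N_aut x (T' := fun u => latRot (latRot (latRot (latRot (latRot u))))) lat_rot_add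
      (fun u v => by simp only [lat_rot_add]) (fun u => lat_rot_six u) (fun u => lat_rot_six u) (fun d hd => lat_rot_dirs hd)
      (fun d hd => lat_rot_dirs (lat_rot_dirs (lat_rot_dirs (lat_rot_dirs (lat_rot_dirs hd))))) (ht_ball_rot N) F hFp
  · exact dlf_N_aut x (T' := latRefl) lat_refl_add lat_refl_add lat_refl_refl lat_refl_refl (fun d hd => lat_refl_dirs hd)
      (fun d hd => lat_refl_dirs hd) (ht_ball_refl N) F hFp

/-- invariance under the flip of the first spin (statuses kept), of the second spin, and (pair law) under the exchange of the colours -/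
theorem dis_plane_flipB (x : ℝ) (hx0 : 0 < x) (hx1 : x ≤ 1) (hT : DisT23 x true) (T T' : Finset TV)
    (F : ClCfg TV TV → ℝ) (hF : ClLoc T T' F) : clPlane x (fun ω => F ⟨T \ ω.B, ω.W, ω.O⟩) = clPlane x F := by
  refine dsy_plane_congr x _ _ ((dsy_sub_ball T).mono fun N hN => ?_)
  set S := clAmb x (latBall 0 N) with hS
  have hA : T ⊆ S.A := hN
  refine dsy_E_of_N S _ _ _ ?_
  rw [← dsy_flipB_N S (pcp_amb_ok x hx0 hx1 _) F]
  congr 1
  funext ω
  refine hF _ _ ?_ rfl rfl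
  ext v
  simp only [ClSys.flipB, Finset.mem_inter, Finset.mem_sdiff]
  constructor
  · rintro ⟨⟨h1, h2⟩, _⟩; exact ⟨⟨hA h1, h2⟩, h1⟩
  · rintro ⟨⟨_, h2⟩, h1⟩; exact ⟨⟨h1, h2⟩, h1⟩

theorem dis_plane_flipW (x : ℝ) (hx0 : 0 < x) (hx1 : x ≤ 1) (hT : DisT23 x true) (T T' : Finset TV)
    (F : ClCfg TV TV → ℝ) (hF : ClLoc T T' F) : clPlane x (fun ω => F ⟨ω.B, T \ ω.W, ω.O⟩) = clPlane x F := by
  refine dsy_plane_congr x _ _ ((dsy_sub_ball T).mono fun N hN => ?_)
  set S := clAmb x (latBall 0 N) with hS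
  have hA : T ⊆ S.A := hN
  refine dsy_E_of_N S _ _ _ ?_
  rw [← dsy_flipW_N S (pcp_amb_ok x hx0 hx1 _) F]
  congr 1
  funext ω
  refine hF _ _ rfl ?_ rfl
  ext v
  simp only [ClSys.flipW, Finset.mem_inter, Finset.mem_sdiff]
  constructor
  · rintro ⟨⟨h1, h2⟩, _⟩; exact ⟨⟨hA h1, h2⟩, h1⟩
  · rintro ⟨⟨_, h2⟩, h1⟩; exact ⟨⟨h1, h2⟩, h1⟩

theorem dis_plane_swap (x : ℝ) (hx0 : 0 < x) (hx1 : x ≤ 1) (hT : DisT23 x true) (T : Finset TV)
    (F : ClCfg TV TV → ℝ) (hF : ClLoc T ∅ F) : clPlane x (fun ω => F ⟨ω.W, ω.B, ∅⟩) = clPlane x F := by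
  refine dsy_plane_congr x _ _ (Eventually.of_forall fun N => ?_)
  refine dsy_E_of_N _ _ _ _ (dsy_swap_N _ F fun ω => hF _ _ rfl rfl ?_)
  simp

/-- SWAP (`dam_swap`) with an observable `G` which does not read the inner system -/
theorem dpd_swap {V Y : Type} [DecidableEq V] [DecidableEq Y] {S S' : ClSys V Y} (h : DamSub S S') (s : Bool)
    {Kin Kout : ClCfg V Y → Prop} {F G : ClCfg V Y → ℝ}
    (hKin : ClLocP S'.A S'.C Kin) (hKout : DamOut S'.A S'.C Kout) (hF : ClLoc S'.A S'.C F)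
    (hG : ∀ η ω, G (damMix S'.A S'.C η ω) = G ω) :
    S.N (DamKa S S' s Kin Kout) (fun ω => G ω * F ω) * S'.N (DamKi S S' s Kin) (fun _ => 1)
      = S.N (DamKa S S' s Kin Kout) G * S'.N (DamKi S S' s Kin) F := by
  classical
  unfold ClSys.N
  rw [Finset.sum_mul_sum, Finset.sum_mul_sum, ← Finset.sum_product', ← Finset.sum_product']
  refine Finset.sum_nbij' (fun p => (damMix S'.A S'.C p.2 p.1, damRes S'.A S'.C p.1))
    (fun p => (damMix S'.A S'.C p.2 p.1, damRes S'.A S'.C p.1)) ?_ ?_ ?_ ?_ ?_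
  · intro p hp
    obtain ⟨h1, _⟩ := Finset.mem_product.1 hp
    exact Finset.mem_product.2 ⟨dam_mix_mem h h1, dam_res_mem S S' _⟩
  · intro p hp
    obtain ⟨h1, _⟩ := Finset.mem_product.1 hp
    exact Finset.mem_product.2 ⟨dam_mix_mem h h1, dam_res_mem S S' _⟩
  · intro p hp
    obtain ⟨_, h2⟩ := Finset.mem_product.1 hp
    exact Prod.ext (dam_mix_res_mix _ _ _ _) (dam_res_mix h2 _)
  · intro p hp
    obtain ⟨_, h2⟩ := Finset.mem_product.1 hp
    exact Prod.ext (dam_mix_res_mix _ _ _ _) (dam_res_mix h2 _)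
  · rintro ⟨ω, η⟩ hp
    obtain ⟨_, h2⟩ := Finset.mem_product.1 hp
    have hev := dam_ev_swap S S' s hKin hKout η ω
    simp only
    by_cases hc : DamKa S S' s Kin Kout ω ∧ DamKi S S' s Kin η
    · obtain ⟨c1, c2⟩ := hc
      obtain ⟨c3, c4⟩ := hev.1 ⟨c1, c2⟩
      rw [if_pos c1, if_pos c2, if_pos c3, if_pos c4, dam_wt_split h ω, dam_wt_split h (damMix S'.A S'.C η ω), dam_res_mix h2,
        dam_rw_mix c1.1 c3.1, dam_loc_res hF, hG]
      ring
    · have hc' := fun hh => hc (hev.2 hh)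
      have e1 : (if DamKa S S' s Kin Kout ω then S.wt ω * (G ω * F ω) else 0) * (if DamKi S S' s Kin η then S'.wt η * 1 else 0) = 0 := by
        by_cases c1 : DamKa S S' s Kin Kout ω
        · rw [if_neg (fun c2 => hc ⟨c1, c2⟩), mul_zero]
        · rw [if_neg c1, zero_mul]
      have e2 : (if DamKa S S' s Kin Kout (damMix S'.A S'.C η ω) then S.wt (damMix S'.A S'.C η ω) * G (damMix S'.A S'.C η ω) else 0)
          * (if DamKi S S' s Kin (damRes S'.A S'.C ω) then S'.wt (damRes S'.A S'.C ω) * F (damRes S'.A S'.C ω) else 0) = 0 := by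
        by_cases c1 : DamKa S S' s Kin Kout (damMix S'.A S'.C η ω)
        · rw [if_neg (fun c2 => hc' ⟨c1, c2⟩), mul_zero]
        · rw [if_neg c1, zero_mul]
      rw [e1, e2]

/-- the crossing cells of the planar cut -/
theorem dpd_X (x : ℝ) {V I : Finset TV} (hI : latCl I ⊆ V) (y : TV) :
    y ∈ damX (clAmb x V) (clInn x I) ↔ y ∈ latCells I \ latCellsIn I := by
  rw [dam_X_cross (dam_pl_cin x hI) y, Finset.mem_sdiff, lat_mem_cells, lat_mem_cellsIn]
  constructor
  · rintro ⟨_, ⟨u, hu, huI⟩, v, hv, hvI⟩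
    exact ⟨⟨u, (Finset.mem_inter.1 hu).1, huI⟩, fun h => hvI (h (Finset.mem_inter.1 hv).1)⟩
  · rintro ⟨⟨u, hu, huI⟩, h⟩
    have huV : u ∈ V := hI (dam_sub_cl I huI)
    obtain ⟨v, hv, hvI⟩ := Finset.not_subset.1 h
    exact ⟨lat_mem_cells.2 ⟨u, hu, huV⟩, ⟨u, Finset.mem_inter.2 ⟨hu, huV⟩, huI⟩,
      v, Finset.mem_inter.2 ⟨hv, hI (dam_cell_cl hu huI hv)⟩, hvI⟩

/-- the strong cut of the planar systems, in the words of `dis_plane_dlr` -/
theorem dpd_cut_iff (x : ℝ) {V I : Finset TV} (hI : latCl I ⊆ V) (s : Bool) (ω : ClCfg TV TV) :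
    DamCut (clAmb x V) (damX (clAmb x V) (clInn x I)) s ω ↔
      ((∀ y ∈ latCells I \ latCellsIn I, y ∈ ω.O) ∧ DisPin s (latCl I \ latInt I) ω) := by
  constructor
  · intro h
    refine ⟨fun y hy => (h y ((dpd_X x hI y).2 hy)).1, fun v hv => ?_⟩
    obtain ⟨hv1, hv2⟩ := Finset.mem_sdiff.1 hv
    have key : ∀ y u w : TV, u ∈ cellV y → w ∈ cellV y → u ∈ I → w ∉ I → v ∈ cellV y → (v ∈ ω.B ↔ s = true) := by
      intro y u w hu hw huI hwI hvy
      have hy : y ∈ latCells I \ latCellsIn I :=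
        Finset.mem_sdiff.2 ⟨lat_mem_cells.2 ⟨u, hu, huI⟩, fun hh => hwI (lat_mem_cellsIn.1 hh hw)⟩
      exact (h y ((dpd_X x hI y).2 hy)).2 v (Finset.mem_inter.2 ⟨hvy, hI hv1⟩)
    by_cases hvI : v ∈ I
    · have : ¬ ∀ w, triAdj v w → w ∈ I := fun hh => hv2 (lat_mem_int.2 ⟨hvI, hh⟩)
      push Not at this
      obtain ⟨w, hvw, hwI⟩ := this
      obtain ⟨y, h1, h2⟩ := dam_adj_cell hvw
      exact key y v w h1 h2 hvI hwI h1
    · rcases lat_mem_cl.1 hv1 with h0 | ⟨w, hwI, hwv⟩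
      · exact absurd h0 hvI
      · obtain ⟨y, h1, h2⟩ := dam_adj_cell hwv
        exact key y w v h1 h2 hwI hvI h2
  · rintro ⟨h1, h2⟩ y hy
    have hy' := (dpd_X x hI y).1 hy
    refine ⟨h1 y hy', fun v hv => h2 v ?_⟩
    obtain ⟨hy1, hy2⟩ := Finset.mem_sdiff.1 hy'
    obtain ⟨u, hu, huI⟩ := lat_mem_cells.1 hy1
    obtain ⟨w, hw, hwI⟩ := Finset.not_subset.1 (fun hh => hy2 (lat_mem_cellsIn.2 hh))
    have hvy : v ∈ cellV y := (Finset.mem_inter.1 hv).1
    refine Finset.mem_sdiff.2 ⟨dam_cell_cl hu huI hvy, fun hvi => ?_⟩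
    obtain ⟨hvI, hall⟩ := lat_mem_int.1 hvi
    exact hwI (hall w (dam_cell_adj hvy hw (fun e => hwI (e ▸ hvI))))

/-- the pinned intrinsic law is feasible -/
theorem dpd_Z_pos (x : ℝ) (hx0 : 0 < x) (hx1 : x ≤ 1) (s : Bool) (I L : Finset TV) (hL : L ⊆ I) :
    0 < (clInn x I).Z (DisPin s L) := by
  have hS := pcp_inn_ok x hx0 hx1 I
  refine dpl_Z_pos _ hS _ (ω := ⟨if s = true then I else ∅, ∅, latCellsIn I⟩) ?_ ?_ ?_
  · rw [cl_mem_cfgs]
    refine ⟨?_, Finset.empty_subset _, Finset.Subset.refl _⟩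
    cases s
    · exact Finset.empty_subset _
    · exact Finset.Subset.refl _
  · intro v hv
    have hvI : v ∈ I := hL hv
    cases s <;> simp [hvI]
  · unfold ClSys.wt
    refine Finset.prod_ne_zero_iff.2 fun y hy => ?_
    have h1 : ClConst (if s = true then I else ∅) ((clInn x I).sv y) := by
      cases s
      · right; intro v _; simp
      · left; rw [if_pos rfl]; exact hS.sub y hy
    have h2 : y ∈ latCellsIn I := hy
    unfold clCellW
    rw [if_pos h2, if_pos h1]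
    exact (hS.q0 y hy).ne'

theorem dpd_N_ite {V Y : Type} [DecidableEq V] [DecidableEq Y] (S : ClSys V Y) (K : ClCfg V Y → Prop) [∀ ω, Decidable (K ω)]
    (H : ClCfg V Y → ℝ) : S.N (fun _ => True) (fun ω => if K ω then H ω else 0) = S.N K H := by
  unfold ClSys.N
  refine Finset.sum_congr rfl fun ω _ => ?_
  by_cases h : K ω <;> simp [h]

open Classical in
/-- exact cut in finite volume -/
theorem dpd_fin (x : ℝ) (hx0 : 0 < x) (hx1 : x ≤ 1) {V I : Finset TV} (hI : latCl I ⊆ V) (s : Bool) (T T' : Finset TV)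
    (G F : ClCfg TV TV → ℝ) (hG : ClLoc (T \ I) (T' \ latCells I) G) (hF : ClLoc I (latCellsIn I) F) :
    (clAmb x V).E (fun _ => True)
        (fun ω => if (∀ y ∈ latCells I \ latCellsIn I, y ∈ ω.O) ∧ DisPin s (latCl I \ latInt I) ω then G ω * F ω else 0) =
      (clAmb x V).E (fun _ => True)
        (fun ω => if (∀ y ∈ latCells I \ latCellsIn I, y ∈ ω.O) ∧ DisPin s (latCl I \ latInt I) ω then G ω else 0) *
        (clInn x I).E (DisPin s (latBd I)) F := by
  have hin : latCellsIn I ⊆ latCells I := fun y hy =>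
    lat_mem_cells.2 ⟨y, by simp [cellV], lat_mem_cellsIn.1 hy (by simp [cellV])⟩
  have hG' : ∀ η ω, G (damMix (clInn x I).A (clInn x I).C η ω) = G ω := by
    intro η ω
    refine hG _ _ ?_ ?_ ?_
    · ext v
      show v ∈ ((η.B ∩ I) ∪ (ω.B \ I)) ∩ (T \ I) ↔ _
      simp only [Finset.mem_inter, Finset.mem_union, Finset.mem_sdiff]
      tauto
    · ext v
      show v ∈ ((η.W ∩ I) ∪ (ω.W \ I)) ∩ (T \ I) ↔ _
      simp only [Finset.mem_inter, Finset.mem_union, Finset.mem_sdiff]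
      tauto
    · ext y
      show y ∈ ((η.O ∩ latCellsIn I) ∪ (ω.O \ latCellsIn I)) ∩ (T' \ latCells I) ↔ _
      have := @hin y
      simp only [Finset.mem_inter, Finset.mem_union, Finset.mem_sdiff]
      tauto
  have hsw := dpd_swap (dam_pl_sub x hI) s (Kin := fun _ => True) (Kout := fun _ => True) (F := F) (G := G)
    (fun _ _ _ _ _ => Iff.rfl) (fun _ _ _ _ _ => Iff.rfl) hF hG'
  have eKa : ∀ H : ClCfg TV TV → ℝ, (clAmb x V).N (DamKa (clAmb x V) (clInn x I) s (fun _ => True) (fun _ => True)) H =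
      (clAmb x V).N (fun ω => (∀ y ∈ latCells I \ latCellsIn I, y ∈ ω.O) ∧ DisPin s (latCl I \ latInt I) ω) H := by
    intro H
    refine dam_N_congr _ (fun ω _ _ => ?_) H
    unfold DamKa
    rw [dpd_cut_iff x hI]
    tauto
  have eKi : ∀ H : ClCfg TV TV → ℝ, (clInn x I).N (DamKi (clAmb x V) (clInn x I) s (fun _ => True)) H =
      (clInn x I).N (DisPin s (latBd I)) H := by
    intro H
    refine dam_N_congr _ (fun ω _ _ => ?_) H
    unfold DamKi
    rw [dam_pl_lay x hI, and_true]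
    rfl
  rw [eKa, eKa, eKi, eKi] at hsw
  have hpos := dpd_Z_pos x hx0 hx1 s I (latBd I) (Finset.filter_subset _ _)
  rw [dis_Z_eq] at hpos
  rw [dis_E_eq, dis_E_eq, dis_E_eq,
    dpd_N_ite _ (fun ω => (∀ y ∈ latCells I \ latCellsIn I, y ∈ ω.O) ∧ DisPin s (latCl I \ latInt I) ω) (fun ω => G ω * F ω),
    dpd_N_ite _ (fun ω => (∀ y ∈ latCells I \ latCellsIn I, y ∈ ω.O) ∧ DisPin s (latCl I \ latInt I) ω) G, dis_Z_eq (clInn x I)]
  rw [div_mul_div_comm, ← hsw, mul_div_mul_right _ _ hpos.ne']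

open Classical in
/-- (PLANE-DLR) exact cut in the plane: `G` local, not reading inside `I`; `F` reads inside `I` -/
theorem dis_plane_dlr (x : ℝ) (hx0 : 0 < x) (hx1 : x ≤ 1) (hT : DisT23 x true) (s : Bool) (I T T' : Finset TV)
    (G F : ClCfg TV TV → ℝ) (hG : ClLoc (T \ I) (T' \ latCells I) G) (hF : ClLoc I (latCellsIn I) F) :
    clPlane x (fun ω => if (∀ y ∈ latCells I \ latCellsIn I, y ∈ ω.O) ∧ DisPin s (latCl I \ latInt I) ω then G ω * F ω else 0) =
      clPlane x (fun ω => if (∀ y ∈ latCells I \ latCellsIn I, y ∈ ω.O) ∧ DisPin s (latCl I \ latInt I) ω then G ω else 0) *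
        (clInn x I).E (DisPin s (latBd I)) F := by
  have hin : latCellsIn I ⊆ latCells I := fun y hy =>
    lat_mem_cells.2 ⟨y, by simp [cellV], lat_mem_cellsIn.1 hy (by simp [cellV])⟩
  have hGl : ClLoc (T ∪ latCl I) (T' ∪ latCells I) G :=
    dde_loc_mono (Finset.sdiff_subset.trans Finset.subset_union_left) (Finset.sdiff_subset.trans Finset.subset_union_left) hG
  have hFl : ClLoc (T ∪ latCl I) (T' ∪ latCells I) F :=
    dde_loc_mono ((dam_sub_cl I).trans Finset.subset_union_right) (hin.trans Finset.subset_union_right) hF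
  have hcut : ∀ ω ω' : ClCfg TV TV, ω.B ∩ (T ∪ latCl I) = ω'.B ∩ (T ∪ latCl I) → ω.O ∩ (T' ∪ latCells I) = ω'.O ∩ (T' ∪ latCells I) →
      ((∀ y ∈ latCells I \ latCellsIn I, y ∈ ω.O) ∧ DisPin s (latCl I \ latInt I) ω) →
      ((∀ y ∈ latCells I \ latCellsIn I, y ∈ ω'.O) ∧ DisPin s (latCl I \ latInt I) ω') := by
    intro ω ω' hB hO ⟨h1, h2⟩
    refine ⟨fun y hy => ?_, fun v hv => ?_⟩
    · have hy' : y ∈ T' ∪ latCells I := Finset.mem_union_right _ (Finset.mem_sdiff.1 hy).1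
      have : y ∈ ω.O ∩ (T' ∪ latCells I) := Finset.mem_inter.2 ⟨h1 y hy, hy'⟩
      rw [hO] at this
      exact (Finset.mem_inter.1 this).1
    · have hv' : v ∈ T ∪ latCl I := Finset.mem_union_right _ (Finset.mem_sdiff.1 hv).1
      rw [← h2 v hv]
      have := Finset.ext_iff.1 hB v
      simp only [Finset.mem_inter, hv', and_true] at this
      exact this.symm
  have hloc : ∀ H : ClCfg TV TV → ℝ, ClLoc (T ∪ latCl I) (T' ∪ latCells I) H → ClLoc (T ∪ latCl I) (T' ∪ latCells I)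
      (fun ω => if (∀ y ∈ latCells I \ latCellsIn I, y ∈ ω.O) ∧ DisPin s (latCl I \ latInt I) ω then H ω else 0) := by
    intro H hH ω ω' hB hW hO
    by_cases hc : (∀ y ∈ latCells I \ latCellsIn I, y ∈ ω.O) ∧ DisPin s (latCl I \ latInt I) ω
    · simp only [if_pos hc, if_pos (hcut ω ω' hB hO hc)]
      exact hH ω ω' hB hW hO
    · simp only [if_neg hc, if_neg (fun h => hc (hcut ω' ω hB.symm hO.symm h))]
  have hGF : ClLoc (T ∪ latCl I) (T' ∪ latCells I) (fun ω => G ω * F ω) := by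
    intro ω ω' hB hW hO
    simp only [hGl ω ω' hB hW hO, hFl ω ω' hB hW hO]
  have l1 := dis_plane_lim x hx0 hx1 hT _ _ _ (hloc _ hGF)
  have l2 := dis_plane_lim x hx0 hx1 hT _ _ _ (hloc _ hGl)
  refine tendsto_nhds_unique l1 ((l2.mul_const _).congr' ?_)
  filter_upwards [dsy_sub_ball (latCl I)] with N hN
  exact (dpd_fin x hx0 hx1 hN s T T' G F hG hF).symm

/-! ### (PM), abstract form (146) -/

section abstractPm

variable {V Y : Type} [DecidableEq V] [DecidableEq Y]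

theorem dpl_N_abs (S : ClSys V Y) (hS : ClOk S) (K : ClCfg V Y → Prop) (H H' : ClCfg V Y → ℝ)
    (h : ∀ ω, |H ω| ≤ H' ω) : |S.N K H| ≤ S.N K H' := by
  rw [abs_le]
  constructor
  · rw [← dis_N_neg]
    exact dis_N_mono S hS K fun ω _ _ => by have := (abs_le.1 (h ω)).1; linarith
  · exact dis_N_mono S hS K fun ω _ _ => (abs_le.1 (h ω)).2

theorem dpl_E_one (S : ClSys V Y) (K : ClCfg V Y → Prop) (hZ : 0 < S.Z K) : S.E K (fun _ => 1) = 1 := by
  rw [dis_E_eq, ← dis_Z_eq, div_self hZ.ne']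

theorem dpl_E_sub_const (S : ClSys V Y) (K : ClCfg V Y → Prop) (hZ : 0 < S.Z K) (F : ClCfg V Y → ℝ) (p : ℝ) :
    S.E K (fun ω => F ω - p) = S.E K F - p := by
  have h1 : S.N K (fun ω => F ω - p) = S.N K F - p * S.Z K := by
    rw [dis_Z_eq, ← dis_N_smul, ← dis_N_sub]
    simp
  rw [dis_E_eq, dis_E_eq, h1, sub_div, mul_div_assoc, div_self hZ.ne', mul_one]

open Classical in
/-- an infeasible cut is never found -/
theorem dpl_inv_zero (S : ClSys V Y) (hS : ClOk S) (s : Bool) (K : ClCon V Y) (O I : Finset V) (hI : I ⊆ S.A)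
    (hZ : S.Z (fun ω => K.Holds S ω ∧ ClCut S s I ω) = 0) (G : ClCfg V Y → ℝ) :
    S.N (K.Holds S) (fun ω => if clInv S s K.Eq ω O = S.A \ I then G ω else 0) = 0 := by
  have h1 : S.N (K.Holds S) (fun ω => if clInv S s K.Eq ω O = S.A \ I then G ω else 0)
      = S.N (fun ω => K.Holds S ω ∧ ClCut S s I ω) (fun ω => if clInv S s K.Eq ω O = S.A \ I then G ω else 0) := by
    unfold ClSys.N
    refine Finset.sum_congr rfl fun ω _ => ?_
    by_cases hK : K.Holds S ω
    · by_cases hi : clInv S s K.Eq ω O = S.A \ I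
      · have hc : ClCut S s I ω := by
          have := dis_inv_cut S hS s K.Eq ω O
          rwa [hi, Finset.sdiff_sdiff_eq_self hI] at this
        rw [if_pos hK, if_pos (⟨hK, hc⟩ : K.Holds S ω ∧ ClCut S s I ω)]
      · simp [hi]
    · rw [if_neg hK, if_neg (fun h : K.Holds S ω ∧ ClCut S s I ω => hK h.1)]
  rw [h1, dis_N_zero S hS _ hZ]

open Classical in
/-- (PM-ABS) approximate independence across the cut found from `O`: if the law inside EVERY feasible cut `A ⊆ I ⊆ S.A \ O` gives `F` the mean `p` up to `ε`. -/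
theorem dpl_pm_abs (S : ClSys V Y) (hS : ClOk S) (s : Bool) (K : ClCon V Y) (hZ : 0 < S.Z (K.Holds S)) (O A : Finset V)
    (hO : O ⊆ S.A) (hA : A ⊆ S.A) (G F : ClCfg V Y → ℝ) (hG : ClLoc O (S.cin O) G) (hGb : ∀ ω, |G ω| ≤ 1)
    (hF : ClLoc A (S.cin A) F) (hFb : ∀ ω, |F ω| ≤ 1) (p ε : ℝ) (hp : |p| ≤ 1) (hε : 0 ≤ ε)
    (hI : ∀ I, I ⊆ S.A \ O → A ⊆ I → 0 < S.Z (fun ω => K.Holds S ω ∧ ClCut S s I ω) →
      |S.E (fun ω => K.Holds S ω ∧ ClCut S s I ω) F - p| ≤ ε) :
    |S.E (K.Holds S) (fun ω => G ω * F ω) - S.E (K.Holds S) G * p| ≤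
      2 * S.P (K.Holds S) (fun ω => ¬ ClSep S s K.Eq ω O A) + ε := by
  have hF' : ClLoc A (S.cin A) (fun ω => F ω - p) := fun ω ω' a b c => by simp only [hF ω ω' a b c]
  have hF'b : ∀ ω, |F ω - p| ≤ 2 := fun ω => by
    have := abs_sub (F ω) p
    have := hFb ω
    linarith
  have hone : ClLoc O (S.cin O) (fun _ : ClCfg V Y => (1 : ℝ)) := fun _ _ _ _ _ => rfl
  have hone' : ClLoc A (S.cin A) (fun _ : ClCfg V Y => (1 : ℝ)) := fun _ _ _ _ _ => rfl
  -- the part on `Sep`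
  have h1 : |S.N (K.Holds S) (fun ω => if ClSep S s K.Eq ω O A then G ω * (F ω - p) else 0)| ≤ ε * S.Z (K.Holds S) := by
    rw [dis_dec S hS s K O A hO hA G (fun ω => F ω - p) hG hF']
    have hd1 := dis_dec S hS s K O A hO hA (fun _ => 1) (fun _ => 1) hone hone'
    have hle : S.N (K.Holds S) (fun ω => if ClSep S s K.Eq ω O A then (1 : ℝ) * 1 else 0) ≤ S.Z (K.Holds S) := by
      rw [dis_Z_eq]
      refine dis_N_mono S hS _ fun ω _ _ => ?_
      split_ifs <;> norm_num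
    calc _ ≤ ∑ I ∈ (S.A \ O).powerset.filter (fun I => A ⊆ I),
          |S.N (K.Holds S) (fun ω => if clInv S s K.Eq ω O = S.A \ I then G ω else 0) *
            S.E (fun ω => K.Holds S ω ∧ ClCut S s I ω) (fun ω => F ω - p)| := Finset.abs_sum_le_sum_abs _ _
      _ ≤ ∑ I ∈ (S.A \ O).powerset.filter (fun I => A ⊆ I),
          ε * (S.N (K.Holds S) (fun ω => if clInv S s K.Eq ω O = S.A \ I then (1 : ℝ) else 0) *
            S.E (fun ω => K.Holds S ω ∧ ClCut S s I ω) (fun _ => 1)) := by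
          refine Finset.sum_le_sum fun I hIm => ?_
          rw [Finset.mem_filter, Finset.mem_powerset] at hIm
          have hIA : I ⊆ S.A := hIm.1.trans Finset.sdiff_subset
          rcases (dis_Z_nonneg S hS (fun ω => K.Holds S ω ∧ ClCut S s I ω)).eq_or_lt with h0 | h0
          · rw [dpl_inv_zero S hS s K O I hIA h0.symm, dpl_inv_zero S hS s K O I hIA h0.symm]
            simp
          · rw [dpl_E_one S _ h0, dpl_E_sub_const S _ h0, abs_mul, mul_one, mul_comm ε]
            refine mul_le_mul ?_ (hI I hIm.1 hIm.2 h0) (abs_nonneg _) ?_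
            · refine dpl_N_abs S hS _ _ _ fun ω => ?_
              split_ifs
              · exact hGb ω
              · simp
            · refine dis_N_nonneg S hS _ fun ω => ?_
              split_ifs <;> norm_num
      _ = ε * S.N (K.Holds S) (fun ω => if ClSep S s K.Eq ω O A then (1 : ℝ) * 1 else 0) := by
          rw [hd1, Finset.mul_sum]
      _ ≤ _ := mul_le_mul_of_nonneg_left hle hε
  -- the part off `Sep`
  have h2 : |S.N (K.Holds S) (fun ω => if ClSep S s K.Eq ω O A then 0 else G ω * (F ω - p))| ≤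
      2 * S.N (K.Holds S) (clInd fun ω => ¬ ClSep S s K.Eq ω O A) := by
    rw [← dis_N_smul]
    refine dpl_N_abs S hS _ _ _ fun ω => ?_
    by_cases hs : ClSep S s K.Eq ω O A
    · rw [if_pos hs, dis_ind_neg (not_not.2 hs)]; simp
    · rw [if_neg hs, dis_ind_pos hs, abs_mul, mul_one]
      calc |G ω| * |F ω - p| ≤ 1 * 2 := mul_le_mul (hGb ω) (hF'b ω) (abs_nonneg _) zero_le_one
        _ = 2 := by norm_num
  have h3 : S.N (K.Holds S) (fun ω => G ω * (F ω - p)) =
      S.N (K.Holds S) (fun ω => if ClSep S s K.Eq ω O A then G ω * (F ω - p) else 0) +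
      S.N (K.Holds S) (fun ω => if ClSep S s K.Eq ω O A then 0 else G ω * (F ω - p)) := by
    rw [← dis_N_add]
    refine dis_N_congr S _ fun ω _ _ => ?_
    split_ifs <;> simp
  have h4 : S.E (K.Holds S) (fun ω => G ω * F ω) - S.E (K.Holds S) G * p
      = S.N (K.Holds S) (fun ω => G ω * (F ω - p)) / S.Z (K.Holds S) := by
    have : S.N (K.Holds S) (fun ω => G ω * (F ω - p)) = S.N (K.Holds S) (fun ω => G ω * F ω) - p * S.N (K.Holds S) G := by
      rw [← dis_N_smul, ← dis_N_sub]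
      refine dis_N_congr S _ fun ω _ _ => by ring
    rw [this, dis_E_eq, dis_E_eq]
    field_simp
  rw [h4, abs_div, abs_of_pos hZ, div_le_iff₀ hZ, h3, dis_P_eq]
  have h5 := abs_add_le (S.N (K.Holds S) (fun ω => if ClSep S s K.Eq ω O A then G ω * (F ω - p) else 0))
    (S.N (K.Holds S) (fun ω => if ClSep S s K.Eq ω O A then 0 else G ω * (F ω - p)))
  have h6 : (2 * (S.N (K.Holds S) (clInd fun ω => ¬ ClSep S s K.Eq ω O A) / S.Z (K.Holds S)) + ε) * S.Z (K.Holds S)
      = 2 * S.N (K.Holds S) (clInd fun ω => ¬ ClSep S s K.Eq ω O A) + ε * S.Z (K.Holds S) := by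
    field_simp
  rw [h6]
  linarith

end abstractPm

/-- (PM) TEX[cor:conditional-plane-matching] in analytic form: approximate independence of the inside of a stopped cut from EVERYTHING outside (labels and absolute heights included).
`K` = any constraint living off `latBall z (L+2)`;  `G` reads the outside of `latBall z L`;  `F` reads `latBall z r`;  `r ≤ M ≤ L`.  OWNER 146. -/
theorem dis_pm (x : ℝ) (hx0 : 0 < x) (hx1 : x ≤ 1) (hT : DisT23 x true) :
    ∃ (C α : ℝ), 0 < C ∧ 0 < α ∧ ∀ (V : Finset TV), DisAmb V → ∀ K : ClCon TV TV,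
      0 < (clAmb x V).Z (K.Holds (clAmb x V)) → ∀ (z : TV) (r M L : ℕ), 1 ≤ r → r ≤ M → M + 4 ≤ L → latBall z (L + 2) ⊆ V →
      ClFreeL (clAmb x V) K (latBall z (L + 2)) → ∀ (s : Bool) (G F : ClCfg TV TV → ℝ),
      ClLoc (V \ latBall z L) ((clAmb x V).cin (V \ latBall z L)) G → (∀ ω, |G ω| ≤ 1) →
      ClLoc (latBall z r) (latCellsIn (latBall z r)) F → (∀ ω, |F ω| ≤ 1) →
      |(clAmb x V).E (K.Holds (clAmb x V)) (fun ω => G ω * F ω) - (clAmb x V).E (K.Holds (clAmb x V)) G * clPlane x F| ≤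
        2 * (clAmb x V).P (K.Holds (clAmb x V))
          (fun ω => ¬ ClSep (clAmb x V) s K.Eq ω (V \ latBall z L) (latBall z (M + 2))) + C * ((r : ℝ) / M) ^ α := by
  obtain ⟨C, α, hC, hα, H⟩ := dis_plane_tv x hx0 hx1 hT
  refine ⟨C * 2 ^ α + 2, α, by positivity, hα, ?_⟩
  intro V hV K hZ z r M L hr hrM hML hsub hfree s G F hG hGb hF hFb
  have hOk : ClOk (clAmb x V) := dam_pl_ok hx0 hx1 V
  have hr0 : (0 : ℝ) < r := by exact_mod_cast hr
  have hM0 : (0 : ℝ) < M := by exact_mod_cast (lt_of_lt_of_le hr hrM)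
  have hq0 : 0 ≤ (r : ℝ) / M := by positivity
  have hp0 : 0 ≤ ((r : ℝ) / M) ^ α := Real.rpow_nonneg hq0 α
  -- the plane mean is bounded
  have hp : |clPlane x F| ≤ 1 :=
    le_of_tendsto (dis_plane_lim x hx0 hx1 hT _ _ F hF).abs
      (Eventually.of_forall fun N => dpl_E_abs _ (dam_pl_ok hx0 hx1 _) _ F hFb)
  have hclr : latCl (latBall z r) ⊆ V := (dpl_cl_ball z r).trans ((pnk_ball_mono z (by omega)).trans hsub)
  have hCr : latCellsIn (latBall z r) = (clAmb x V).cin (latBall z r) := dam_pl_cin x hclr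
  have hAV : latBall z (M + 2) ⊆ V := (pnk_ball_mono z (by omega)).trans hsub
  have hFA : ∀ I, latBall z (M + 2) ⊆ I → ClLoc I ((clAmb x V).cin I) F := fun I hI =>
    dde_loc_mono ((pnk_ball_mono z (by omega)).trans hI)
      (dde_cin_mono _ ((pnk_ball_mono z (by omega)).trans hI)) (hCr ▸ hF)
  refine dpl_pm_abs (clAmb x V) hOk s K hZ (V \ latBall z L) (latBall z (M + 2)) Finset.sdiff_subset hAV G F hG hGb
    (hFA _ subset_rfl) hFb (clPlane x F) _ hp (by positivity) ?_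
  intro I hI1 hI2 hfe
  have hIL : I ⊆ latBall z L := by
    intro u hu
    have h := Finset.mem_sdiff.1 (hI1 hu)
    by_contra hn
    exact h.2 (Finset.mem_sdiff.2 ⟨h.1, hn⟩)
  rw [dpl_cut_law (clAmb x V) hOk K s I (latBall z (L + 2)) (hIL.trans (pnk_ball_mono z (by omega))) hfree hfe F (hFA I hI2)]
  by_cases hc : r + 1 ≤ M
  · obtain ⟨M₀, rfl⟩ : ∃ M₀, M = M₀ + 1 := ⟨M - 1, by omega⟩
    have hcong : ∀ ω ∈ (clAmb x V).cfgs, (clAmb x V).wt ω ≠ 0 →
        (((clFree : ClCon TV TV).cut (clAmb x V) s I).Holds (clAmb x V) ω ↔ ClCut (clAmb x V) s I ω) := fun ω _ hw =>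
      (dpl_cut_holds _ clFree s I hw).trans ⟨fun h => h.2, fun h => ⟨dpl_nil_holds _ ω, h⟩⟩
    rw [← dam_E_congr _ hcong F]
    have hcxC : ∀ y ∈ (clAmb x V).cx I, y ∈ (clAmb x V).C := fun y hy => ((dpl_mem_cx _ _ y).1 hy).1
    have h1 := H V hV _ (dpl_cut_legal _ clFree s I (dpl_nil_legal _))
      (dpl_cut_feas _ hOk clFree (dpl_nil_legal _) (dpl_nil_feas _ hOk) s I V (fun y hy => hOk.sub y (hcxC y hy))
        (dpl_nil_free _ _)) z r M₀ hr (by omega) ((pnk_ball_mono z (by omega)).trans hsub)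
      (dpl_cut_free _ clFree s I _ (dpl_nil_free _ _) (fun y hy => Finset.disjoint_left.2 fun u hu h => by
        have a1 := (dpl_cx_geo x V I z (M₀ + 1 + 2) L hI2 hIL hy hu).1
        have a2 := lat_mem_ball.1 h
        omega)) F hF hFb
    have hM₀ : (0 : ℝ) < M₀ := by exact_mod_cast (show 0 < M₀ by omega)
    have h3 : ((r : ℝ) / M₀) ^ α ≤ 2 ^ α * ((r : ℝ) / ((M₀ + 1 : ℕ) : ℝ)) ^ α := by
      rw [← Real.mul_rpow (by norm_num) hq0]
      refine Real.rpow_le_rpow (by positivity) ?_ hα.le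
      rw [div_le_iff₀ hM₀]
      have h4 : (1 : ℝ) ≤ M₀ := by exact_mod_cast (show 1 ≤ M₀ by omega)
      push_cast
      rw [mul_div_assoc', div_mul_eq_mul_div, le_div_iff₀ (by positivity)]
      nlinarith
    have h6 : C * ((r : ℝ) / M₀) ^ α ≤ C * (2 ^ α * ((r : ℝ) / ((M₀ + 1 : ℕ) : ℝ)) ^ α) :=
      mul_le_mul_of_nonneg_left h3 hC.le
    nlinarith
  · have hrM' : r = M := by omega
    subst hrM'
    have h1 : |(clAmb x V).E (ClCut (clAmb x V) s I) F| ≤ 1 := dpl_E_abs _ hOk _ F hFb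
    have h2 := abs_sub ((clAmb x V).E (ClCut (clAmb x V) s I) F) (clPlane x F)
    rw [div_self hr0.ne', Real.one_rpow, mul_one]
    have : 0 < C * (2 : ℝ) ^ α := by positivity
    linarith

/-- the equation / congruence lemmas of the definitions of this file are generated HERE (RULES.md, rule 6) -/
theorem dis_planar_eqns_cite : True := by
  have := @DisPin.eq_1
  have := @ClPair.eq_1
  have := @ClSys.flipW.eq_1
  have := @clShift.eq_1
  have := @DisT23.eq_1
  have := @clPlane.eq_1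
  have := @ClCon.cut.eq_1
  have := @dplRef.eq_1
  have := @DplCore.eq_1
  have := @DisPin.congr_simp
  have := @ClPair.congr_simp
  have := @ClSys.flipW.congr_simp
  have := @clShift.congr_simp
  have := @DisT23.congr_simp
  have := @clPlane.congr_simp
  have := @ClCon.cut.congr_simp
  have := @dplRef.congr_simp
  have := @DplCore.congr_simp
  trivial

end Claimed.Agent.R291
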