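import Claimed.Agent.R291.Defs.Cut
import Claimed.Agent.R291.Dis.Buffer

/-!
# Row 291 (S0539), Dis/Sw : THE PROTECTED SWITCH, ABSTRACT LAYER      (owner helper139, unit DIS; prefix `swi_`, defs `swi…`/`Swi…`)      no sorry

TEX[lem:collar-switch] 02-discrete.tex l.844-920.      Carrier: `ClSys V Y`, `ClCfg V Y`, `ClCon V Y` (Defs/Cell), `clInv`, `ClSep` (Dis/Base), `S.gr` (Defs/Cut), `TscConn` (Tool/TriSC).

FULL-COLLAR FLIP (lighter than the paper: no selection of a component, no component potentials, no oscillation bound, no simple connectedness in the deterministic part).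
`J1 := clInv S true E ω O`, `J2 := clInv S false E ω A` are functions of `(B, statuses, E)` only and are closed under the closed cells and the equality edges.  So every closed cell lies in `J1`, in `J2`
or in the collar `swiCol = S.A \ (J1 ∪ J2)`, and the flip `swiSw` of the second spin on the WHOLE collar keeps the weight, `B`, the statuses, `J1`, `J2`, and `W` on `J1 ∪ J2`; it is an involution.
SHIFT: on `{Disjoint J1 J2}`, for lifts `h` of `ω` and `h'` of `swiSw ω` which agree at one site of `O` (`O`, `A`, `S.A` connected):   `h' = h` on `J1 ⊇ O`,   `h' = h + k` on `J2 ⊇ A` with ONE `k`, `k % 8 = 4`.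
Proof: `g := -2` on `J1`, `2` on `J2`, `BW - 2B` on the collar; `h' - h - g` is constant mod 8 along every edge (`swi_edge`; finite checks `swi_arith0/B/C`).

* `SwiSat S s E ω J`, `swi_sat_inv`, `swi_sub_inv`, `swi_conn_inv`      saturated sets; the invaded set is saturated, contains its source, is connected
* `swiFl C ω`, `swi_fl_wt`, `swi_fl_fl`, `swi_fl_mem`, `swi_mem_fl`      flip of `W` on a set
* `SwiLift S ω h`, `swi_inc_eq`, `swi_edge`, **`swi_shift`**      lifts (Gray residues + 1-Lipschitz inside the cells), the shift for general saturated `J1`, `J2`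
* `swiCol`, **`swiSw`**, `swi_sw_B/O/tau/inv/col/sw/mem/wt/W/holds`, **`swi_sw_shift`**, **`swi_sw_N`** (orbit form: weight preserving involution under `K.Holds ∧ L`, `L` any event of `(B, statuses)`)
The planar instance and `exit_dis_switch` are in `Dis/SwPl.lean`.
-/

set_option autoImplicit false
set_option linter.unusedSectionVars false
set_option linter.unusedVariables false

namespace Claimed.Agent.R291

open Claims Claims.C0467 Relation


/-! ### 0. arithmetic of the Gray code -/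

/-- residue of the height as a function of the two spins -/
def swiR (b w : Bool) : ℤ := if b then (if w then 0 else 1) else (if w then 3 else 2)

/-- the reference function on the collar: `BW - 2B` -/
def swiGc (b w : Bool) : ℤ := if b then (if w then -1 else -3) else (if w then 1 else 3)

/-- two lifts of the same pair of spins have the same increments -/
theorem swi_arith0 : ∀ (bu bv wu wv : Bool) (a a' c c' : ℤ),
    a % 4 = swiR bu wu → c % 4 = swiR bv wv → a' % 4 = swiR bu wu → c' % 4 = swiR bv wv →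
    c - a ≤ 1 → a - c ≤ 1 → c' - a' ≤ 1 → a' - c' ≤ 1 → c' - a' = c - a := by
  intro bu bv wu wv a a' c c'
  cases bu <;> cases bv <;> cases wu <;> cases wv <;> simp only [swiR] <;> intros <;> omega

/-- both ends in the collar -/
theorem swi_arithB : ∀ (bu bv wu wv : Bool) (a a' c c' : ℤ),
    a % 4 = swiR bu wu → c % 4 = swiR bv wv → a' % 4 = swiR bu (!wu) → c' % 4 = swiR bv (!wv) →
    c - a ≤ 1 → a - c ≤ 1 → c' - a' ≤ 1 → a' - c' ≤ 1 → (bu = bv ∨ wu = wv) →
    (c' - c - swiGc bv wv) % 8 = (a' - a - swiGc bu wu) % 8 := by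
  intro bu bv wu wv a a' c c'
  cases bu <;> cases bv <;> cases wu <;> cases wv <;> simp [swiR, swiGc] <;> intros <;> omega

/-- one end protected, the other one in the collar, the first spin is `b` at both ends -/
theorem swi_arithC : ∀ (b wu wv : Bool) (a a' c c' : ℤ),
    a % 4 = swiR b wu → c % 4 = swiR b wv → a' % 4 = swiR b wu → c' % 4 = swiR b (!wv) →
    c - a ≤ 1 → a - c ≤ 1 → c' - a' ≤ 1 → a' - c' ≤ 1 →
    c' - c - swiGc b wv = a' - a - (if b then -2 else 2) := by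
  intro b wu wv a a' c c'
  cases b <;> cases wu <;> cases wv <;> simp [swiR, swiGc] <;> intros <;> omega

section abstract

variable {V Y : Type} [DecidableEq V] [DecidableEq Y]

/-! ### 1. saturated sets, the flip -/

/-- `J` is closed under the cells which are not open of sign `s` and under the equality edges -/
structure SwiSat (S : ClSys V Y) (s : Bool) (E : Finset (V × V)) (ω : ClCfg V Y) (J : Finset V) : Prop where
  sub : J ⊆ S.A
  cell : ∀ y ∈ S.C, clTau S ω y ≠ clSg s → ∀ u ∈ S.sv y, ∀ v ∈ S.sv y, u ∈ J → v ∈ J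
  eq : ∀ e ∈ E, (e.1 ∈ J ↔ e.2 ∈ J)

/-- flip of the second spin on the set `C` -/
def swiFl (C : Finset V) (ω : ClCfg V Y) : ClCfg V Y := ⟨ω.B, symmDiff ω.W C, ω.O⟩

theorem swi_fl_tau (S : ClSys V Y) (C : Finset V) (ω : ClCfg V Y) (y : Y) : clTau S (swiFl C ω) y = clTau S ω y := rfl

theorem swi_fl_fl (C : Finset V) (ω : ClCfg V Y) : swiFl C (swiFl C ω) = ω := by
  unfold swiFl
  simp only [symmDiff_symmDiff_cancel_right]

theorem swi_mem_fl (C : Finset V) (ω : ClCfg V Y) (u : V) : u ∈ (swiFl C ω).W ↔ ¬ (u ∈ ω.W ↔ u ∈ C) := by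
  show u ∈ symmDiff ω.W C ↔ _
  rw [Finset.mem_symmDiff]
  tauto

theorem swi_fl_mem (S : ClSys V Y) {C : Finset V} (hC : C ⊆ S.A) {ω : ClCfg V Y} (h : ω ∈ S.cfgs) : swiFl C ω ∈ S.cfgs := by
  rw [cl_mem_cfgs] at h ⊢
  refine ⟨h.1, ?_, h.2.2⟩
  intro u hu
  rcases Finset.mem_symmDiff.1 hu with h1 | h1
  · exact h.2.1 h1.1
  · exact hC h1.1

theorem swi_const_iff (P s : Finset V) : ClConst P s ↔ ∀ u ∈ s, ∀ v ∈ s, (u ∈ P ↔ v ∈ P) := by
  unfold ClConst
  constructor
  · rintro (h | h) u hu v hv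
    · exact ⟨fun _ => h hv, fun _ => h hu⟩
    · exact ⟨fun h' => absurd h' (h u hu), fun h' => absurd h' (h v hv)⟩
  · intro h
    by_cases hex : ∃ u ∈ s, u ∈ P
    · obtain ⟨u, hu, huP⟩ := hex
      exact Or.inl fun v hv => (h u hu v hv).1 huP
    · exact Or.inr fun v hv hvP => hex ⟨v, hv, hvP⟩

/-- **the flip keeps the weight** as soon as no closed cell crosses `C` -/
theorem swi_fl_wt (S : ClSys V Y) (C : Finset V) (ω : ClCfg V Y)
    (hC : ∀ y ∈ S.C, y ∉ ω.O → ∀ u ∈ S.sv y, ∀ v ∈ S.sv y, (u ∈ C ↔ v ∈ C)) : S.wt (swiFl C ω) = S.wt ω := by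
  unfold ClSys.wt
  refine Finset.prod_congr rfl fun y hy => ?_
  show clCellW (S.q y) (ClConst ω.B (S.sv y)) (ClConst (swiFl C ω).W (S.sv y)) (y ∈ ω.O) = _
  by_cases ho : y ∈ ω.O
  · unfold clCellW
    rw [if_pos ho, if_pos ho]
  · have hiff : ClConst (swiFl C ω).W (S.sv y) ↔ ClConst ω.W (S.sv y) := by
      rw [swi_const_iff, swi_const_iff]
      refine forall_congr' fun u => forall_congr' fun hu => forall_congr' fun v => forall_congr' fun hv => ?_
      rw [swi_mem_fl, swi_mem_fl]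
      have := hC y hy ho u hu v hv
      tauto
    unfold clCellW
    rw [if_neg ho, if_neg ho]
    by_cases hc : ClConst ω.W (S.sv y)
    · rw [if_pos hc, if_pos (hiff.2 hc)]
    · rw [if_neg hc, if_neg (fun h => hc (hiff.1 h))]

/-- the invaded set is saturated -/
theorem swi_sat_inv (S : ClSys V Y) (hS : ClOk S) (s : Bool) (E : Finset (V × V)) (hE : ∀ e ∈ E, e.1 ∈ S.A ∧ e.2 ∈ S.A)
    (ω : ClCfg V Y) (O : Finset V) : SwiSat S s E ω (clInv S s E ω O) where
  sub := fun u hu => ((dde_mem_inv S s E ω O u).1 hu).1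
  cell := by
    intro y hy ht u hu v hv huJ
    obtain ⟨_, o, ho, hr⟩ := (dde_mem_inv S s E ω O u).1 huJ
    exact (dde_mem_inv S s E ω O v).2 ⟨hS.sub y hy hv, o, ho, hr.tail (Or.inl ⟨y, hy, hu, hv, ht⟩)⟩
  eq := by
    intro e he
    constructor
    · intro h
      obtain ⟨_, o, ho, hr⟩ := (dde_mem_inv S s E ω O e.1).1 h
      exact (dde_mem_inv S s E ω O e.2).2 ⟨(hE e he).2, o, ho, hr.tail (Or.inr (Or.inl he))⟩
    · intro h
      obtain ⟨_, o, ho, hr⟩ := (dde_mem_inv S s E ω O e.2).1 h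
      exact (dde_mem_inv S s E ω O e.1).2 ⟨(hE e he).1, o, ho, hr.tail (Or.inr (Or.inr he))⟩

theorem swi_sub_inv (S : ClSys V Y) (s : Bool) (E : Finset (V × V)) (ω : ClCfg V Y) {O : Finset V} (hO : O ⊆ S.A) :
    O ⊆ clInv S s E ω O := fun u hu => (dde_mem_inv S s E ω O u).2 ⟨hO hu, u, hu, ReflTransGen.refl⟩

/-- the invaded set of a connected set is connected -/
theorem swi_conn_inv (S : ClSys V Y) (hS : ClOk S) (s : Bool) (E : Finset (V × V))
    (hE : ∀ e ∈ E, ∃ y ∈ S.C, e.1 ∈ S.sv y ∧ e.2 ∈ S.sv y) (ω : ClCfg V Y) {O : Finset V} (hO : O ⊆ S.A)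
    (hc : TscConn S.gr (↑O : Set V)) : TscConn S.gr (↑(clInv S s E ω O) : Set V) := by
  have hE' : ∀ e ∈ E, e.1 ∈ S.A ∧ e.2 ∈ S.A := fun e he => by
    obtain ⟨y, hy, h1, h2⟩ := hE e he
    exact ⟨hS.sub y hy h1, hS.sub y hy h2⟩
  set J := clInv S s E ω O with hJ
  have hsub : (↑O : Set V) ⊆ ↑J := fun u hu => swi_sub_inv S s E ω hO hu
  have key : ∀ o ∈ O, ∀ v, ReflTransGen (clStep S s E ω) o v → v ∈ J ∧ TscR S.gr (↑J : Set V) o v := by
    intro o ho v hr
    induction hr with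
    | refl => exact ⟨hsub ho, ReflTransGen.refl⟩
    | @tail b c hob hbc ih =>
      obtain ⟨hbJ, hR⟩ := ih
      have hcell : ∃ y ∈ S.C, b ∈ S.sv y ∧ c ∈ S.sv y := by
        rcases hbc with ⟨y, hy, hb, hc', _⟩ | he | he
        · exact ⟨y, hy, hb, hc'⟩
        · exact hE _ he
        · obtain ⟨y, hy, h1, h2⟩ := hE _ he
          exact ⟨y, hy, h2, h1⟩
      obtain ⟨y, hy, hb, hc'⟩ := hcell
      have hcJ : c ∈ J := (dde_mem_inv S s E ω O c).2 ⟨hS.sub y hy hc', o, ho, hob.tail hbc⟩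
      refine ⟨hcJ, ?_⟩
      by_cases hbc' : b = c
      · rw [← hbc']; exact hR
      · exact hR.tail ⟨⟨hbc', y, hy, hb, hc'⟩, hbJ, hcJ⟩
  intro u hu v hv
  obtain ⟨_, o, ho, hr⟩ := (dde_mem_inv S s E ω O u).1 hu
  obtain ⟨_, o', ho', hr'⟩ := (dde_mem_inv S s E ω O v).1 hv
  exact tsc_R_trans (tsc_R_symm (key o ho u hr).2) (tsc_R_trans (tsc_R_mono hsub (hc o ho o' ho')) (key o' ho' v hr').2)

/-! ### 2. lifts and the shift -/

/-- `h` is an integer lift of the pair of spins of `ω`: Gray residues, 1-Lipschitz inside the cells -/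
structure SwiLift (S : ClSys V Y) (ω : ClCfg V Y) (h : V → ℤ) : Prop where
  res : ∀ u ∈ S.A, h u % 4 = clRes ω u
  lip : ∀ y ∈ S.C, ∀ u ∈ S.sv y, ∀ v ∈ S.sv y, h v - h u ≤ 1

theorem swi_res_eq (ω : ClCfg V Y) (u : V) : clRes ω u = swiR (decide (u ∈ ω.B)) (decide (u ∈ ω.W)) := by
  unfold clRes swiR
  by_cases h1 : u ∈ ω.B <;> by_cases h2 : u ∈ ω.W <;> simp [h1, h2]

/-- the reference function -/
def swiG (J1 J2 : Finset V) (ω : ClCfg V Y) (u : V) : ℤ :=
  if u ∈ J1 then -2 else if u ∈ J2 then 2 else swiGc (decide (u ∈ ω.B)) (decide (u ∈ ω.W))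

/-- two lifts of configurations which agree at `u` and `v` have the same increment -/
theorem swi_inc_eq (S : ClSys V Y) (hS : ClOk S) {ω ω' : ClCfg V Y} {h h' : V → ℤ} (hl : SwiLift S ω h) (hl' : SwiLift S ω' h')
    {y : Y} (hy : y ∈ S.C) {u v : V} (hu : u ∈ S.sv y) (hv : v ∈ S.sv y)
    (hBu : u ∈ ω'.B ↔ u ∈ ω.B) (hBv : v ∈ ω'.B ↔ v ∈ ω.B) (hWu : u ∈ ω'.W ↔ u ∈ ω.W) (hWv : v ∈ ω'.W ↔ v ∈ ω.W) :
    h' v - h' u = h v - h u := by
  have huA := hS.sub y hy hu
  have hvA := hS.sub y hy hv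
  have e1 := hl.res u huA
  have e2 := hl.res v hvA
  have e3 := hl'.res u huA
  have e4 := hl'.res v hvA
  rw [swi_res_eq] at e1 e2 e3 e4
  rw [decide_eq_decide.2 hBu, decide_eq_decide.2 hWu] at e3
  rw [decide_eq_decide.2 hBv, decide_eq_decide.2 hWv] at e4
  exact swi_arith0 _ _ _ _ _ _ _ _ e1 e2 e3 e4 (hl.lip y hy u hu v hv) (hl.lip y hy v hv u hu) (hl'.lip y hy u hu v hv)
    (hl'.lip y hy v hv u hu)

theorem swi_tau_pos {S : ClSys V Y} {ω : ClCfg V Y} {y : Y} (h : clTau S ω y = clSg true) : y ∈ ω.O ∧ S.sv y ⊆ ω.B :=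
  dis_tau_one.1 h

theorem swi_tau_neg {S : ClSys V Y} {ω : ClCfg V Y} (hw : S.wt ω ≠ 0) {y : Y} (hy : y ∈ S.C) (h : clTau S ω y = clSg false) :
    y ∈ ω.O ∧ ∀ v ∈ S.sv y, v ∉ ω.B := by
  obtain ⟨ho, hn⟩ := dis_tau_neg.1 h
  refine ⟨ho, ?_⟩
  rcases dis_wt_open hw hy ho with hc | hc
  · exact absurd hc hn
  · exact hc

/-- **the edge lemma**: `h' - h - g` does not change mod 8 inside a cell -/
theorem swi_edge (S : ClSys V Y) (hS : ClOk S) (E : Finset (V × V)) {ω : ClCfg V Y} (hw : S.wt ω ≠ 0) {J1 J2 : Finset V}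
    (h1 : SwiSat S true E ω J1) (h2 : SwiSat S false E ω J2) (hd : Disjoint J1 J2)
    {h h' : V → ℤ} (hl : SwiLift S ω h) (hl' : SwiLift S (swiFl (S.A \ (J1 ∪ J2)) ω) h')
    {y : Y} (hy : y ∈ S.C) {u v : V} (hu : u ∈ S.sv y) (hv : v ∈ S.sv y) :
    (h' v - h v - swiG J1 J2 ω v) % 8 = (h' u - h u - swiG J1 J2 ω u) % 8 := by
  have huA := hS.sub y hy hu
  have hvA := hS.sub y hy hv
  have e1 := hl.res u huA
  have e2 := hl.res v hvA
  have e3 := hl'.res u huA
  have e4 := hl'.res v hvA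
  rw [swi_res_eq] at e1 e2 e3 e4
  have l1 := hl.lip y hy u hu v hv
  have l2 := hl.lip y hy v hv u hu
  have l3 := hl'.lip y hy u hu v hv
  have l4 := hl'.lip y hy v hv u hu
  -- membership in the flipped second spin
  have hW : ∀ w ∈ S.A, decide (w ∈ (swiFl (S.A \ (J1 ∪ J2)) ω).W) =
      if w ∈ J1 ∨ w ∈ J2 then decide (w ∈ ω.W) else !decide (w ∈ ω.W) := by
    intro w hwA
    by_cases hJ : w ∈ J1 ∨ w ∈ J2
    · rw [if_pos hJ]
      refine decide_eq_decide.2 ?_
      rw [swi_mem_fl]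
      have : w ∉ S.A \ (J1 ∪ J2) := fun hc => (Finset.mem_sdiff.1 hc).2 (Finset.mem_union.2 hJ)
      tauto
    · rw [if_neg hJ]
      have hc : w ∈ S.A \ (J1 ∪ J2) := Finset.mem_sdiff.2 ⟨hwA, fun hc => hJ (Finset.mem_union.1 hc)⟩
      by_cases hwW : w ∈ ω.W
      · have : w ∉ (swiFl (S.A \ (J1 ∪ J2)) ω).W := by rw [swi_mem_fl]; tauto
        simp [hwW, this]
      · have : w ∈ (swiFl (S.A \ (J1 ∪ J2)) ω).W := by rw [swi_mem_fl]; tauto
        simp [hwW, this]
  have hB : ∀ w, decide (w ∈ (swiFl (S.A \ (J1 ∪ J2)) ω).B) = decide (w ∈ ω.B) := fun _ => rfl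
  rw [hB, hW u huA] at e3
  rw [hB, hW v hvA] at e4
  have hdj : ∀ w, w ∈ J1 → w ∉ J2 := fun w a b => Finset.disjoint_left.1 hd a b
  -- crossing cells
  have c1 : ∀ a ∈ S.sv y, ∀ b ∈ S.sv y, a ∈ J1 → b ∉ J1 → S.sv y ⊆ ω.B := by
    intro a ha b hb haJ hbJ
    by_contra hne
    exact hbJ (h1.cell y hy (fun ht => hne (swi_tau_pos ht).2) a ha b hb haJ)
  have c2 : ∀ a ∈ S.sv y, ∀ b ∈ S.sv y, a ∈ J2 → b ∉ J2 → ∀ w ∈ S.sv y, w ∉ ω.B := by
    intro a ha b hb haJ hbJ
    by_contra hne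
    exact hbJ (h2.cell y hy (fun ht => hne (swi_tau_neg hw hy ht).2) a ha b hb haJ)
  -- a cell on which `B` is not constant is closed
  have c3 : (u ∈ ω.B ↔ v ∈ ω.B) ∨ (u ∈ ω.W ↔ v ∈ ω.W) := by
    by_cases ho : y ∈ ω.O
    · exact Or.inl (dis_const_iff (dis_wt_open hw hy ho) hu hv)
    · exact Or.inr (dis_const_iff (dis_lbl_closed S hw hy ho) hu hv)
  unfold swiG
  by_cases hu1 : u ∈ J1
  · by_cases hv1 : v ∈ J1
    · rw [if_pos (Or.inl hu1)] at e3
      rw [if_pos (Or.inl hv1)] at e4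
      rw [if_pos hu1, if_pos hv1]
      have := swi_arith0 _ _ _ _ _ _ _ _ e1 e2 e3 e4 l1 l2 l3 l4
      congr 1
      omega
    · have hBy := c1 u hu v hv hu1 hv1
      have hv2 : v ∉ J2 := fun hv2 => c2 v hv u hu hv2 (hdj u hu1) u hu (hBy hu)
      rw [if_pos (Or.inl hu1)] at e3
      rw [if_neg (by tauto)] at e4
      rw [if_pos hu1, if_neg hv1, if_neg hv2]
      simp only [hBy hu, hBy hv, decide_true] at e1 e2 e3 e4 ⊢
      have := swi_arithC true _ _ _ _ _ _ e1 e2 e3 e4 l1 l2 l3 l4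
      simp only [if_true] at this
      rw [this]
  · by_cases hv1 : v ∈ J1
    · have hBy := c1 v hv u hu hv1 hu1
      have hu2 : u ∉ J2 := fun hu2 => c2 u hu v hv hu2 (hdj v hv1) u hu (hBy hu)
      rw [if_neg (by tauto)] at e3
      rw [if_pos (Or.inl hv1)] at e4
      rw [if_neg hu1, if_neg hu2, if_pos hv1]
      simp only [hBy hu, hBy hv, decide_true] at e1 e2 e3 e4 ⊢
      have := swi_arithC true _ _ _ _ _ _ e2 e1 e4 e3 l2 l1 l4 l3
      simp only [if_true] at this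
      rw [this]
    · by_cases hu2 : u ∈ J2
      · by_cases hv2 : v ∈ J2
        · rw [if_pos (Or.inr hu2)] at e3
          rw [if_pos (Or.inr hv2)] at e4
          rw [if_neg hu1, if_neg hv1, if_pos hu2, if_pos hv2]
          have := swi_arith0 _ _ _ _ _ _ _ _ e1 e2 e3 e4 l1 l2 l3 l4
          congr 1
          omega
        · have hBy := c2 u hu v hv hu2 hv2
          rw [if_pos (Or.inr hu2)] at e3
          rw [if_neg (by tauto)] at e4
          rw [if_neg hu1, if_neg hv1, if_pos hu2, if_neg hv2]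
          simp only [hBy u hu, hBy v hv, decide_false] at e1 e2 e3 e4 ⊢
          have := swi_arithC false _ _ _ _ _ _ e1 e2 e3 e4 l1 l2 l3 l4
          simp only [Bool.false_eq_true, if_false] at this
          rw [this]
      · by_cases hv2 : v ∈ J2
        · have hBy := c2 v hv u hu hv2 hu2
          rw [if_neg (by tauto)] at e3
          rw [if_pos (Or.inr hv2)] at e4
          rw [if_neg hu1, if_neg hv1, if_neg hu2, if_pos hv2]
          simp only [hBy u hu, hBy v hv, decide_false] at e1 e2 e3 e4 ⊢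
          have := swi_arithC false _ _ _ _ _ _ e2 e1 e4 e3 l2 l1 l4 l3
          simp only [Bool.false_eq_true, if_false] at this
          rw [this]
        · rw [if_neg (by tauto)] at e3
          rw [if_neg (by tauto)] at e4
          rw [if_neg hu1, if_neg hv1, if_neg hu2, if_neg hv2]
          refine swi_arithB _ _ _ _ _ _ _ _ e1 e2 e3 e4 l1 l2 l3 l4 ?_
          rcases c3 with h | h
          · exact Or.inl (decide_eq_decide.2 h)
          · exact Or.inr (decide_eq_decide.2 h)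

/-- **THE SHIFT** (TEX[lem:collar-switch], deterministic part, full-collar form).  `J1` saturated for plus, `J2` saturated for minus, disjoint, connected; `ω'` = `ω` with `W` flipped on the whole collar.
Two lifts which agree at one site of `J1` agree on `J1` and differ on `J2` by ONE constant `k = 4 mod 8`. -/
theorem swi_shift (S : ClSys V Y) (hS : ClOk S) (E : Finset (V × V)) {ω : ClCfg V Y} (hw : S.wt ω ≠ 0) {J1 J2 : Finset V}
    (h1 : SwiSat S true E ω J1) (h2 : SwiSat S false E ω J2) (hd : Disjoint J1 J2)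
    (hc1 : TscConn S.gr (↑J1 : Set V)) (hc2 : TscConn S.gr (↑J2 : Set V)) (hV : TscConn S.gr (↑S.A : Set V))
    {h h' : V → ℤ} (hl : SwiLift S ω h) (hl' : SwiLift S (swiFl (S.A \ (J1 ∪ J2)) ω) h')
    {o : V} (ho : o ∈ J1) (hoo : h' o = h o) :
    (∀ u ∈ J1, h' u = h u) ∧ ∃ k : ℤ, k % 8 = 4 ∧ ∀ u ∈ J2, h' u = h u + k := by
  -- the second spin is kept on `J1 ∪ J2`
  have hWk : ∀ w, (w ∈ J1 ∨ w ∈ J2) → (w ∈ (swiFl (S.A \ (J1 ∪ J2)) ω).W ↔ w ∈ ω.W) := by
    intro w hJ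
    rw [swi_mem_fl]
    have : w ∉ S.A \ (J1 ∪ J2) := fun hc => (Finset.mem_sdiff.1 hc).2 (Finset.mem_union.2 hJ)
    tauto
  -- `h' - h` is constant on a connected protected set
  have hconst : ∀ J : Finset V, (∀ w ∈ J, w ∈ J1 ∨ w ∈ J2) → ∀ a b, TscR S.gr (↑J : Set V) a b → h' a - h a = h' b - h b := by
    intro J hJ a b hab
    refine tsc_R_const (fun w => h' w - h w) (fun p q hpq => ?_) hab
    obtain ⟨⟨_, y, hy, hp, hq⟩, hpJ, hqJ⟩ := hpq
    have := swi_inc_eq S hS hl hl' hy hp hq Iff.rfl Iff.rfl (hWk p (hJ p hpJ)) (hWk q (hJ q hqJ))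
    show h' p - h p = h' q - h q
    omega
  have hmod : ∀ a b, TscR S.gr (↑S.A : Set V) a b →
      (h' a - h a - swiG J1 J2 ω a) % 8 = (h' b - h b - swiG J1 J2 ω b) % 8 := by
    intro a b hab
    refine tsc_R_const (fun w => (h' w - h w - swiG J1 J2 ω w) % 8) (fun p q hpq => ?_) hab
    obtain ⟨⟨_, y, hy, hp, hq⟩, _, _⟩ := hpq
    exact (swi_edge S hS E hw h1 h2 hd hl hl' hy hp hq).symm
  refine ⟨fun u hu => ?_, ?_⟩
  · have := hconst J1 (fun w hw => Or.inl hw) o u (hc1 o ho u hu)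
    omega
  · by_cases hne : J2.Nonempty
    · obtain ⟨a, ha⟩ := hne
      refine ⟨h' a - h a, ?_, fun u hu => ?_⟩
      · have := hmod o a (hV o (h1.sub ho) a (h2.sub ha))
        have ha1 : a ∉ J1 := fun hc => Finset.disjoint_left.1 hd hc ha
        unfold swiG at this
        rw [if_pos ho, if_neg ha1, if_pos ha] at this
        omega
      · have := hconst J2 (fun w hw => Or.inr hw) a u (hc2 a ha u hu)
        omega
    · exact ⟨4, by norm_num, fun u hu => absurd ⟨u, hu⟩ hne⟩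

/-! ### 3. the switch -/

/-- the collar between the plus invasion of `O` and the minus invasion of `A` -/
noncomputable def swiCol (S : ClSys V Y) (E : Finset (V × V)) (O A : Finset V) (ω : ClCfg V Y) : Finset V :=
  S.A \ (clInv S true E ω O ∪ clInv S false E ω A)

/-- **THE SWITCH**: flip of the second spin on the whole collar -/
noncomputable def swiSw (S : ClSys V Y) (E : Finset (V × V)) (O A : Finset V) (ω : ClCfg V Y) : ClCfg V Y :=
  swiFl (swiCol S E O A ω) ω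

theorem swi_sw_B (S : ClSys V Y) (E : Finset (V × V)) (O A : Finset V) (ω : ClCfg V Y) : (swiSw S E O A ω).B = ω.B := rfl

theorem swi_sw_O (S : ClSys V Y) (E : Finset (V × V)) (O A : Finset V) (ω : ClCfg V Y) : (swiSw S E O A ω).O = ω.O := rfl

theorem swi_sw_tau (S : ClSys V Y) (E : Finset (V × V)) (O A : Finset V) (ω : ClCfg V Y) (y : Y) :
    clTau S (swiSw S E O A ω) y = clTau S ω y := rfl

/-- invasions see only `(B, τ)` -/
theorem swi_inv_congr (S : ClSys V Y) (s : Bool) (E : Finset (V × V)) {ω ω' : ClCfg V Y} (hB : ω'.B = ω.B) (hO : ω'.O = ω.O)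
    (X : Finset V) : clInv S s E ω' X = clInv S s E ω X := by
  have : clStep S s E ω' = clStep S s E ω := by
    funext u v
    unfold clStep clTau
    rw [hB, hO]
  unfold clInv
  rw [this]

theorem swi_sep_congr (S : ClSys V Y) (s : Bool) (E : Finset (V × V)) {ω ω' : ClCfg V Y} (hB : ω'.B = ω.B) (hO : ω'.O = ω.O)
    (X Z : Finset V) : ClSep S s E ω' X Z ↔ ClSep S s E ω X Z := by
  have : clStep S s E ω' = clStep S s E ω := by
    funext u v
    unfold clStep clTau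
    rw [hB, hO]
  unfold ClSep
  rw [this]

theorem swi_sw_inv (S : ClSys V Y) (E : Finset (V × V)) (O A : Finset V) (ω : ClCfg V Y) (s : Bool) (E' : Finset (V × V)) (X : Finset V) :
    clInv S s E' (swiSw S E O A ω) X = clInv S s E' ω X := swi_inv_congr S s E' rfl rfl X

theorem swi_sw_col (S : ClSys V Y) (E : Finset (V × V)) (O A : Finset V) (ω : ClCfg V Y) :
    swiCol S E O A (swiSw S E O A ω) = swiCol S E O A ω := by
  unfold swiCol
  rw [swi_sw_inv, swi_sw_inv]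

/-- the switch is an involution -/
theorem swi_sw_sw (S : ClSys V Y) (E : Finset (V × V)) (O A : Finset V) (ω : ClCfg V Y) :
    swiSw S E O A (swiSw S E O A ω) = ω := by
  have : swiSw S E O A (swiSw S E O A ω) = swiFl (swiCol S E O A ω) (swiFl (swiCol S E O A ω) ω) := by
    conv_lhs => unfold swiSw
    rw [show swiFl (swiCol S E O A ω) ω = swiSw S E O A ω from rfl, swi_sw_col]
  rw [this, swi_fl_fl]

theorem swi_sw_mem (S : ClSys V Y) (E : Finset (V × V)) (O A : Finset V) {ω : ClCfg V Y} (h : ω ∈ S.cfgs) :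
    swiSw S E O A ω ∈ S.cfgs := swi_fl_mem S Finset.sdiff_subset h

/-- no closed cell and no equality edge crosses the collar -/
theorem swi_col_cell (S : ClSys V Y) (hS : ClOk S) (E : Finset (V × V)) (hE : ∀ e ∈ E, e.1 ∈ S.A ∧ e.2 ∈ S.A) (O A : Finset V)
    (ω : ClCfg V Y) {y : Y} (hy : y ∈ S.C) (ho : y ∉ ω.O) {u v : V} (hu : u ∈ S.sv y) (hv : v ∈ S.sv y) :
    u ∈ swiCol S E O A ω ↔ v ∈ swiCol S E O A ω := by
  have h1 := swi_sat_inv S hS true E hE ω O
  have h2 := swi_sat_inv S hS false E hE ω A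
  have ht : clTau S ω y = 0 := (dis_tau_zero S ω y).2 ho
  have t1 : clTau S ω y ≠ clSg true := by rw [ht]; simp [clSg]
  have t2 : clTau S ω y ≠ clSg false := by rw [ht]; simp [clSg]
  have a1 : u ∈ clInv S true E ω O ↔ v ∈ clInv S true E ω O := ⟨h1.cell y hy t1 u hu v hv, h1.cell y hy t1 v hv u hu⟩
  have a2 : u ∈ clInv S false E ω A ↔ v ∈ clInv S false E ω A := ⟨h2.cell y hy t2 u hu v hv, h2.cell y hy t2 v hv u hu⟩
  unfold swiCol
  simp only [Finset.mem_sdiff, Finset.mem_union, hS.sub y hy hu, hS.sub y hy hv, a1, a2]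

theorem swi_col_eq (S : ClSys V Y) (hS : ClOk S) (E : Finset (V × V)) (hE : ∀ e ∈ E, e.1 ∈ S.A ∧ e.2 ∈ S.A) (O A : Finset V)
    (ω : ClCfg V Y) {e : V × V} (he : e ∈ E) : e.1 ∈ swiCol S E O A ω ↔ e.2 ∈ swiCol S E O A ω := by
  have a1 := (swi_sat_inv S hS true E hE ω O).eq e he
  have a2 := (swi_sat_inv S hS false E hE ω A).eq e he
  unfold swiCol
  simp only [Finset.mem_sdiff, Finset.mem_union, (hE e he).1, (hE e he).2, a1, a2]

/-- **the switch keeps the weight** -/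
theorem swi_sw_wt (S : ClSys V Y) (hS : ClOk S) (E : Finset (V × V)) (hE : ∀ e ∈ E, e.1 ∈ S.A ∧ e.2 ∈ S.A) (O A : Finset V)
    (ω : ClCfg V Y) : S.wt (swiSw S E O A ω) = S.wt ω :=
  swi_fl_wt S _ ω fun _ hy ho _ hu _ hv => swi_col_cell S hS E hE O A ω hy ho hu hv

/-- the switch keeps the second spin off the collar -/
theorem swi_sw_W (S : ClSys V Y) (E : Finset (V × V)) (O A : Finset V) (ω : ClCfg V Y) {u : V} (hu : u ∉ swiCol S E O A ω) :
    u ∈ (swiSw S E O A ω).W ↔ u ∈ ω.W := by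
  unfold swiSw
  rw [swi_mem_fl]
  tauto

/-- **the switch keeps every constraint** whose equality edges are those of the invasion and whose labels are in `O ∪ A` -/
theorem swi_sw_holds (S : ClSys V Y) (hS : ClOk S) (K : ClCon V Y) (hE : ∀ e ∈ K.Eq, e.1 ∈ S.A ∧ e.2 ∈ S.A) {O A : Finset V}
    (hO : O ⊆ S.A) (hA : A ⊆ S.A) (hp : K.Wp ⊆ O ∪ A) (hm : K.Wm ⊆ O ∪ A) {ω : ClCfg V Y} (h : K.Holds S ω) :
    K.Holds S (swiSw S K.Eq O A ω) := by
  obtain ⟨a1, a2, a3, a4, a5, a6, a7, a8⟩ := h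
  have hoff : ∀ u ∈ O ∪ A, u ∉ swiCol S K.Eq O A ω := by
    intro u hu hc
    refine (Finset.mem_sdiff.1 hc).2 (Finset.mem_union.2 ?_)
    rcases Finset.mem_union.1 hu with h | h
    · exact Or.inl (swi_sub_inv S true K.Eq ω hO h)
    · exact Or.inr (swi_sub_inv S false K.Eq ω hA h)
  refine ⟨a1, a2, fun e he => ?_, a4, a5, a6, fun u hu => ?_, fun u hu => ?_⟩
  · have := swi_col_eq S hS K.Eq hE O A ω he
    have h3 := a3 e he
    unfold swiSw
    rw [swi_mem_fl, swi_mem_fl]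
    tauto
  · exact (swi_sw_W S K.Eq O A ω (hoff u (hp hu))).2 (a7 hu)
  · exact fun hc => a8 u hu ((swi_sw_W S K.Eq O A ω (hoff u (hm hu))).1 hc)

/-- **the shift of the switch** -/
theorem swi_sw_shift (S : ClSys V Y) (hS : ClOk S) (E : Finset (V × V)) (hE : ∀ e ∈ E, ∃ y ∈ S.C, e.1 ∈ S.sv y ∧ e.2 ∈ S.sv y)
    {O A : Finset V} (hO : O ⊆ S.A) (hA : A ⊆ S.A) (hOc : TscConn S.gr (↑O : Set V)) (hAc : TscConn S.gr (↑A : Set V))
    (hV : TscConn S.gr (↑S.A : Set V)) {ω : ClCfg V Y} (hw : S.wt ω ≠ 0)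
    (hd : Disjoint (clInv S true E ω O) (clInv S false E ω A))
    {h h' : V → ℤ} (hl : SwiLift S ω h) (hl' : SwiLift S (swiSw S E O A ω) h') {o : V} (ho : o ∈ O) (hoo : h' o = h o) :
    (∀ u ∈ clInv S true E ω O, h' u = h u) ∧ ∃ k : ℤ, k % 8 = 4 ∧ ∀ u ∈ clInv S false E ω A, h' u = h u + k := by
  have hE' : ∀ e ∈ E, e.1 ∈ S.A ∧ e.2 ∈ S.A := fun e he => by
    obtain ⟨y, hy, h1, h2⟩ := hE e he
    exact ⟨hS.sub y hy h1, hS.sub y hy h2⟩
  exact swi_shift S hS E hw (swi_sat_inv S hS true E hE' ω O) (swi_sat_inv S hS false E hE' ω A) hd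
    (swi_conn_inv S hS true E hE ω hO hOc) (swi_conn_inv S hS false E hE ω hA hAc) hV hl hl' (swi_sub_inv S true E ω hO ho) hoo

/-- **orbit form**: the switch is a weight preserving involution of the configurations which satisfy `K` and any event `L` of `(B, statuses)` -/
theorem swi_sw_N (S : ClSys V Y) (hS : ClOk S) (K : ClCon V Y) (hE : ∀ e ∈ K.Eq, e.1 ∈ S.A ∧ e.2 ∈ S.A) {O A : Finset V}
    (hO : O ⊆ S.A) (hA : A ⊆ S.A) (hp : K.Wp ⊆ O ∪ A) (hm : K.Wm ⊆ O ∪ A) (L : ClCfg V Y → Prop)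
    (hL : ∀ ω ω' : ClCfg V Y, ω.B = ω'.B → ω.O = ω'.O → (L ω ↔ L ω')) (F : ClCfg V Y → ℝ) :
    S.N (fun ω => K.Holds S ω ∧ L ω) (fun ω => F (swiSw S K.Eq O A ω)) = S.N (fun ω => K.Holds S ω ∧ L ω) F := by
  classical
  unfold ClSys.N
  refine Finset.sum_bij' (fun ω _ => swiSw S K.Eq O A ω) (fun ω _ => swiSw S K.Eq O A ω)
    (fun ω h => swi_sw_mem S K.Eq O A h) (fun ω h => swi_sw_mem S K.Eq O A h)
    (fun ω _ => swi_sw_sw S K.Eq O A ω) (fun ω _ => swi_sw_sw S K.Eq O A ω) (fun ω _ => ?_)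
  have hiff : (K.Holds S ω ∧ L ω) ↔ (K.Holds S (swiSw S K.Eq O A ω) ∧ L (swiSw S K.Eq O A ω)) := by
    constructor
    · rintro ⟨h1, h2⟩
      exact ⟨swi_sw_holds S hS K hE hO hA hp hm h1, (hL ω (swiSw S K.Eq O A ω) rfl rfl).1 h2⟩
    · rintro ⟨h1, h2⟩
      have := swi_sw_holds S hS K hE hO hA hp hm h1
      rw [swi_sw_sw] at this
      exact ⟨this, (hL ω (swiSw S K.Eq O A ω) rfl rfl).2 h2⟩
  by_cases h : K.Holds S ω ∧ L ω
  · rw [if_pos h, if_pos (hiff.1 h), swi_sw_wt S hS K.Eq hE]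
  · rw [if_neg h, if_neg (fun hc => h (hiff.2 hc))]

end abstract

/-- the equation lemmas of the definitions of this file are generated HERE -/
theorem swi_defs_eqns_cite : True := by
  have := @swiR.eq_1
  have := @swiGc.eq_1
  have := @swiFl.eq_1
  have := @swiG.eq_1
  have := @swiCol.eq_1
  have := @swiSw.eq_1
  trivial

end Claimed.Agent.R291
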