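import Claimed.Agent.R291.Defs.Mom
import Claimed.Agent.R291.Dis.HtOrd

/-!
# Row 291 (S0539), Dis/First : THE FIRST-DOMAIN DECOMPOSITION OF A FLAT HEIGHT PROBLEM      (owner helper139; prefix `mne_`, `Mne`, `mne`)      no sorry

TEX[lem:height-order], second half ("flat loops"), in the loop free form (R) of helper122 (`origin/helper122:notes/R291/sec3_122.md`, sec. (d)); vocabulary `Defs/Mom.lean`, `Defs/Ht.lean`.
Proves the contracts `Exit/DisFirst.lean` (`exit_dis_first_geo`, `exit_dis_first`).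

* §1 topology: `mne_compl_conn` (complement of a component of the complement of a connected set), the cluster `momC0` (`mne_C0_conn` ..),
  `MneDom F t z D h` = "`D` is the first domain of `z`" in a form which reads `h` only on `latBd D` and off `D`; `MneDom.eq_comp`, `mne_dom_of_comp`, `MneDom.unique`, `mne_dom_exists`
* §2 (R0): `MneDom.co`, `mne_int_co`, `MneDom.out_val`, `MneDom.eps` (Timar `tsc_plane_timar`), `MneDom.card_lt`, `mne_dom_congr`
* §3 `mne_bdry`: the boundary function may be changed where neither the weights nor the observable read it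
* §4 the reflection `mneRho D t h = 2t - h` on `D`
* §5 (R2): `mne_fair` (fair sign), `mne_R2e`, `mne_R2`, `mne_total` (partition of unity)
-/

set_option autoImplicit false
set_option linter.unusedVariables false

namespace Claimed.Agent.R291

open Claims Claims.C0467 Relation

/-! ## 1. Topology -/

/-- the complement of a component of the complement of a connected set is connected -/
theorem mne_compl_conn {V : Type*} {G : SimpleGraph V} (hV : TscConn G Set.univ) {K : Set V} (hK : TscConn G K) (hne : K.Nonempty) (x : V) :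
    TscConn G (tscComp G Kᶜ x)ᶜ := by
  obtain ⟨k₀, hk₀⟩ := hne
  set D := tscComp G Kᶜ x with hD
  have hKD : K ⊆ Dᶜ := fun a ha h => h.1 ha
  have key : ∀ w, TscR G Set.univ w k₀ → w ∉ D → TscR G Dᶜ w k₀ := by
    intro w hw
    induction hw using ReflTransGen.head_induction_on with
    | refl => intro _; exact ReflTransGen.refl
    | @head a b hab _ ih =>
      intro ha
      by_cases hb : b ∈ D
      · have haK : a ∈ K := by
          by_contra hcon
          exact ha (tsc_comp_adj hb hcon hab.1.symm)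
        exact tsc_R_mono hKD (hK a haK k₀ hk₀)
      · exact ReflTransGen.head ⟨hab.1, ha, hb⟩ (ih hb)
  intro u hu v hv
  exact tsc_R_trans (key u (hV u trivial k₀ trivial) hu) (tsc_R_symm (key v (hV v trivial k₀ trivial) hv))

theorem mne_plane_conn : TscConn tscG (Set.univ : Set TV) := by
  have := tsc_conn_prod (Set.univ : Set ℤ) (Set.univ : Set ℤ) Set.ordConnected_univ Set.ordConnected_univ
  rwa [Set.univ_prod_univ] at this

/-- a finite set has a site outside -/
theorem mne_exists_out (F : Finset TV) : ∃ u : TV, u ∉ F := Infinite.exists_notMem_finset F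

section C0
variable {F : Finset TV} {t : ℤ} {h : TV → ℤ}

theorem mne_C0_out {u : TV} (hu : u ∉ F) : u ∈ momC0 F t h := ⟨u, hu, ReflTransGen.refl⟩

theorem mne_C0_val (hh : ∀ u, u ∉ F → h u = t) {v : TV} (hv : v ∈ momC0 F t h) : h v = t := by
  obtain ⟨u, hu, hp⟩ := hv
  have : v ∈ {w | h w = t} := tsc_R_mem hp (hh u hu)
  exact this

theorem mne_C0_adj (hh : ∀ u, u ∉ F → h u = t) {v w : TV} (hv : v ∈ momC0 F t h) (hvw : triAdj v w) (hw : h w = t) : w ∈ momC0 F t h := by
  have hvt := mne_C0_val hh hv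
  obtain ⟨u, hu, hp⟩ := hv
  exact ⟨u, hu, hp.tail ⟨hvw, hvt, hw⟩⟩

theorem mne_C0_path {u v : TV} (hu : u ∉ F) (hp : TscR tscG {w | h w = t} u v) : TscR tscG (momC0 F t h) u v := by
  induction hp with
  | refl => exact ReflTransGen.refl
  | @tail b c hab hbc ih => exact ih.tail ⟨hbc.1, ⟨u, hu, hab⟩, ⟨u, hu, hab.tail hbc⟩⟩

theorem mne_C0_conn (hF : MomCo F) : TscConn tscG (momC0 F t h) := by
  rintro v ⟨u, hu, hp⟩ v' ⟨u', hu', hp'⟩
  have h1 := mne_C0_path hu hp
  have h2 := mne_C0_path hu' hp'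
  have h3 : TscR tscG (momC0 F t h) u u' := tsc_R_mono (fun a ha => mne_C0_out ha) (hF u hu u' hu')
  exact tsc_R_trans (tsc_R_symm h1) (tsc_R_trans h3 h2)

theorem mne_C0_compl_sub : (momC0 F t h)ᶜ ⊆ (↑F : Set TV) := by
  intro a ha
  by_contra hcon
  exact ha (mne_C0_out hcon)

end C0

/-- **`D` is the first domain of `z`**: the component of `z` off the `t`-cluster of the complement of `F`, in a form which reads `h` only on the
inner layer `latBd D` and outside `D` -/
structure MneDom (F : Finset TV) (t : ℤ) (z : TV) (D : Finset TV) (h : TV → ℤ) : Prop where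
  mem : z ∈ D
  sub : D ⊆ F
  conn : TscConn tscG (↑D : Set TV)
  ne : ∀ u ∈ latBd D, h u ≠ t
  out : ∀ v ∈ latOut D, ∃ u, u ∉ F ∧ TscR tscG ({w | h w = t} \ (↑D : Set TV)) u v

theorem mne_mem_out {D : Finset TV} {v : TV} : v ∈ latOut D ↔ v ∉ D ∧ ∃ u ∈ D, triAdj u v := by
  unfold latOut
  rw [Finset.mem_sdiff, Finset.mem_biUnion]
  simp only [lat_mem_nb]
  tauto

section Dom
variable {F : Finset TV} {t : ℤ} {h : TV → ℤ} {z : TV} {D : Finset TV}

theorem MneDom.out_C0 (hd : MneDom F t z D h) {v : TV} (hv : v ∈ latOut D) : v ∈ momC0 F t h := by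
  obtain ⟨u, hu, hp⟩ := hd.out v hv
  exact ⟨u, hu, tsc_R_mono Set.sdiff_subset hp⟩

/-- a path which starts outside `D` and ends in `D` visits `latBd D` -/
theorem mne_enter {s : Set TV} {u v : TV} (hp : TscR tscG s u v) (hu : u ∉ D) (hv : v ∈ D) : ∃ w ∈ latBd D, w ∈ s := by
  induction hp with
  | refl => exact absurd hv hu
  | @tail b c _ hbc ih =>
    by_cases hb : b ∈ D
    · exact ih hb
    · exact ⟨c, lat_mem_bd.2 ⟨hv, b, hbc.1.symm, hb⟩, hbc.2.2⟩

theorem MneDom.disj (hd : MneDom F t z D h) {w : TV} (hw : w ∈ D) : w ∉ momC0 F t h := by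
  rintro ⟨u, hu, hp⟩
  obtain ⟨a, ha, hat⟩ := mne_enter hp (fun hc => hu (hd.sub hc)) hw
  exact hd.ne a ha hat

theorem MneDom.eq_comp (hd : MneDom F t z D h) : (↑D : Set TV) = tscComp tscG (momC0 F t h)ᶜ z := by
  ext w
  constructor
  · intro hw
    exact ⟨hd.disj hw, tsc_R_mono (fun a ha => hd.disj ha) (hd.conn z hd.mem w hw)⟩
  · rintro ⟨_, hp⟩
    have : ∀ w, TscR tscG (momC0 F t h)ᶜ z w → w ∈ D := by
      intro w hp
      induction hp with
      | refl => exact hd.mem
      | @tail b c _ hbc ih =>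
        by_contra hc
        exact hbc.2.2 (hd.out_C0 (mne_mem_out.2 ⟨hc, b, ih, hbc.1⟩))
    exact this w hp

theorem MneDom.unique {D' : Finset TV} (hd : MneDom F t z D h) (hd' : MneDom F t z D' h) : D = D' :=
  Finset.coe_injective (hd.eq_comp.trans hd'.eq_comp.symm)

theorem MneDom.notMem_C0 (hd : MneDom F t z D h) : z ∉ momC0 F t h := hd.disj hd.mem

/-- a path inside `{h = t}` from the complement of `F` avoids every set disjoint from the cluster -/
theorem mne_path_avoid {u v : TV} (hu : u ∉ F) (hp : TscR tscG {w | h w = t} u v) {S : Set TV} (hS : ∀ a ∈ S, a ∉ momC0 F t h) :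
    TscR tscG ({w | h w = t} \ S) u v := by
  induction hp with
  | refl => exact ReflTransGen.refl
  | @tail b c hab hbc ih =>
    exact ih.tail ⟨hbc.1, ⟨hbc.2.1, fun hb => hS b hb ⟨u, hu, hab⟩⟩, ⟨hbc.2.2, fun hc => hS c hc ⟨u, hu, hab.tail hbc⟩⟩⟩

theorem mne_dom_of_comp (hh : ∀ u, u ∉ F → h u = t) (hz : z ∉ momC0 F t h) (hD : (↑D : Set TV) = tscComp tscG (momC0 F t h)ᶜ z) :
    MneDom F t z D h := by
  have hmem : ∀ a, a ∈ D ↔ a ∈ tscComp tscG (momC0 F t h)ᶜ z := fun a => by rw [← hD]; exact Iff.rfl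
  have hdis : ∀ a ∈ (↑D : Set TV), a ∉ momC0 F t h := fun a ha => ((hmem a).1 ha).1
  have hout : ∀ v ∈ latOut D, v ∈ momC0 F t h := by
    intro v hv
    obtain ⟨h1, u, hu, huv⟩ := mne_mem_out.1 hv
    by_contra hc
    exact h1 ((hmem v).2 (tsc_comp_adj ((hmem u).1 hu) hc huv))
  refine ⟨(hmem z).2 (tsc_comp_self hz), fun a ha => mne_C0_compl_sub (hdis a ha), ?_, ?_, ?_⟩
  · rw [hD]; exact tsc_comp_conn z
  · intro u hu hut
    obtain ⟨h1, v, huv, hv⟩ := lat_mem_bd.1 hu
    have hvC := hout v (mne_mem_out.2 ⟨hv, u, h1, huv⟩)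
    exact hdis u h1 (mne_C0_adj hh hvC (lat_adj_symm huv) hut)
  · intro v hv
    obtain ⟨u, hu, hp⟩ := hout v hv
    exact ⟨u, hu, mne_path_avoid hu hp hdis⟩

open Classical in
theorem mne_dom_exists (hh : ∀ u, u ∉ F → h u = t) (hz : z ∉ momC0 F t h) : ∃ D, MneDom F t z D h := by
  refine ⟨F.filter (fun a => a ∈ tscComp tscG (momC0 F t h)ᶜ z), mne_dom_of_comp hh hz ?_⟩
  ext a
  simp only [Finset.coe_filter, Set.mem_ofPred_eq]
  exact ⟨fun h => h.2, fun h => ⟨mne_C0_compl_sub h.1, h⟩⟩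

end Dom

/-! ## 2. (R0): structure of the first domain -/

theorem mne_bd_nonempty {D : Finset TV} (hD : D.Nonempty) : (latBd D).Nonempty := by
  obtain ⟨u, hu, hmax⟩ := Finset.exists_max_image D (fun a => a.1) hD
  refine ⟨u, lat_mem_bd.2 ⟨hu, u + (1, 0), lat_adj_add u (by decide), fun hc => ?_⟩⟩
  have := hmax _ hc
  simp at this

theorem mne_int_co {D : Finset TV} (hD : MomCo D) : MomCo (latInt D) := by
  have hsub : ((↑D : Set TV)ᶜ) ⊆ ((↑(latInt D) : Set TV)ᶜ) := fun a ha hc => ha (lat_int_sub D hc)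
  obtain ⟨o, ho⟩ := mne_exists_out D
  have key : ∀ a, a ∉ latInt D → TscR tscG ((↑(latInt D) : Set TV)ᶜ) a o := by
    intro a ha
    by_cases haD : a ∈ D
    · have hb : a ∈ latBd D := by
        rw [lat_int_eq, Finset.mem_sdiff] at ha
        by_contra hc
        exact ha ⟨haD, hc⟩
      obtain ⟨_, v, hav, hv⟩ := lat_mem_bd.1 hb
      exact ReflTransGen.head ⟨hav, ha, hsub hv⟩ (tsc_R_mono hsub (hD v hv o ho))
    · exact tsc_R_mono hsub (hD a haD o ho)
  intro a ha b hb
  exact tsc_R_trans (key a ha) (tsc_R_symm (key b hb))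

section R0
variable {F : Finset TV} {t : ℤ} {h : TV → ℤ} {z : TV} {D : Finset TV}

theorem MneDom.co (hd : MneDom F t z D h) (hF : MomCo F) : MomCo D := by
  unfold MomCo
  rw [hd.eq_comp]
  obtain ⟨o, ho⟩ := mne_exists_out F
  exact mne_compl_conn mne_plane_conn (mne_C0_conn hF) ⟨o, mne_C0_out ho⟩ z

theorem MneDom.out_val (hd : MneDom F t z D h) (hh : ∀ u, u ∉ F → h u = t) {v : TV} (hv : v ∈ latOut D) : h v = t :=
  mne_C0_val hh (hd.out_C0 hv)

theorem MneDom.layer (hd : MneDom F t z D h) :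
    {d | d ∈ tscComp tscG (momC0 F t h)ᶜ z ∧ ∃ c ∈ momC0 F t h, triAdj c d} = (↑(latBd D) : Set TV) := by
  ext a
  rw [← hd.eq_comp]
  simp only [Set.mem_ofPred_eq, Finset.mem_coe, lat_mem_bd]
  constructor
  · rintro ⟨h1, c, hc, hca⟩
    exact ⟨h1, c, lat_adj_symm hca, fun hcD => hd.disj hcD hc⟩
  · rintro ⟨h1, v, hav, hv⟩
    exact ⟨h1, v, hd.out_C0 (mne_mem_out.2 ⟨hv, a, h1, hav⟩), lat_adj_symm hav⟩

theorem MneDom.bd_val (hd : MneDom F t z D h) (hadm : HtAdm F (fun _ => t) h) {u : TV} (hu : u ∈ latBd D) : h u = t + 1 ∨ h u = t - 1 := by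
  obtain ⟨h1, v, huv, hv⟩ := lat_mem_bd.1 hu
  have h2 := hd.out_val hadm.1 (mne_mem_out.2 ⟨hv, u, h1, huv⟩)
  have h3 := hadm.2 u (hd.sub h1) (v - u) ((lat_adj_iff u v).1 huv)
  rw [add_sub_cancel, h2, abs_le] at h3
  have h4 := hd.ne u hu
  omega

/-- **(R0)** the height is constant `t ± 1` on the inner layer -/
theorem MneDom.eps (hd : MneDom F t z D h) (hadm : HtAdm F (fun _ => t) h) (hF : MomCo F) :
    (∀ u ∈ latBd D, h u = t + 1) ∨ (∀ u ∈ latBd D, h u = t - 1) := by
  obtain ⟨u₀, hu₀⟩ := mne_bd_nonempty ⟨z, hd.mem⟩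
  have hconn := tsc_plane_timar (mne_C0_conn (t := t) (h := h) hF) z
  rw [hd.layer] at hconn
  have hconst : ∀ u ∈ latBd D, h u₀ = h u := by
    intro u hu
    refine tsc_R_const h (fun a b hab => ?_) (hconn u₀ hu₀ u hu)
    have ha := hd.bd_val hadm hab.2.1
    have hb := hd.bd_val hadm hab.2.2
    have h3 := hadm.2 a (hd.sub (lat_bd_sub D hab.2.1)) (b - a) ((lat_adj_iff a b).1 hab.1)
    rw [add_sub_cancel, abs_le] at h3
    omega
  rcases hd.bd_val hadm hu₀ with h0 | h0
  · exact Or.inl fun u hu => (hconst u hu).symm.trans h0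
  · exact Or.inr fun u hu => (hconst u hu).symm.trans h0

theorem MneDom.card_lt (hd : MneDom F t z D h) : (latInt D).card < F.card := by
  obtain ⟨u₀, hu₀⟩ := mne_bd_nonempty ⟨z, hd.mem⟩
  refine Finset.card_lt_card ⟨(lat_int_sub D).trans hd.sub, fun hc => ?_⟩
  have h1 := hc (hd.sub (lat_bd_sub D hu₀))
  rw [lat_int_eq, Finset.mem_sdiff] at h1
  exact h1.2 hu₀

/-- the event does not read the interior of `D` -/
theorem mne_dom_congr {g : TV → ℤ} (hgh : ∀ u, u ∉ latInt D → h u = g u) : MneDom F t z D h ↔ MneDom F t z D g := by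
  have hset : ({w | h w = t} \ (↑D : Set TV)) = ({w | g w = t} \ (↑D : Set TV)) := by
    ext a
    simp only [Set.mem_sdiff, Set.mem_ofPred_eq, Finset.mem_coe]
    constructor
    · rintro ⟨h1, h2⟩; exact ⟨by rw [← hgh a (fun hc => h2 (lat_int_sub D hc))]; exact h1, h2⟩
    · rintro ⟨h1, h2⟩; exact ⟨by rw [hgh a (fun hc => h2 (lat_int_sub D hc))]; exact h1, h2⟩
  have hbd : ∀ u ∈ latBd D, h u = g u := by
    intro u hu
    refine hgh u (fun hc => ?_)
    rw [lat_int_eq, Finset.mem_sdiff] at hc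
    exact hc.2 hu
  constructor
  · rintro ⟨h1, h2, h3, h4, h5⟩
    exact ⟨h1, h2, h3, fun u hu => by rw [← hbd u hu]; exact h4 u hu, by rw [← hset]; exact h5⟩
  · rintro ⟨h1, h2, h3, h4, h5⟩
    exact ⟨h1, h2, h3, fun u hu => by rw [hbd u hu]; exact h4 u hu, by rw [hset]; exact h5⟩

end R0

/-! ## 3. Change of the boundary function far from the observable -/

theorem mne_E_mem_cl {A : Finset TV} {p : TV × TV} (hp : p ∈ latE A) : p.1 ∈ latCl A ∧ p.1 + p.2 ∈ latCl A := by
  obtain ⟨h1, h2⟩ := lat_mem_E.1 hp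
  have hadj := lat_adj_add p.1 (lat_pos_sub h1)
  rcases h2 with h2 | h2
  · exact ⟨lat_mem_cl.2 (Or.inl h2), lat_mem_cl.2 (Or.inr ⟨_, h2, hadj⟩)⟩
  · exact ⟨lat_mem_cl.2 (Or.inr ⟨_, h2, lat_adj_symm hadj⟩), lat_mem_cl.2 (Or.inl h2)⟩

theorem mne_N_congr {A : Finset TV} {h g : TV → ℤ} (hgh : ∀ u ∈ latCl A, h u = g u) : htN A h = htN A g := by
  unfold htN
  refine Finset.sum_congr rfl fun p hp => ?_
  obtain ⟨h1, h2⟩ := mne_E_mem_cl hp
  rw [hgh _ h1, hgh _ h2]

open Classical in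
theorem mne_bdry_S (x : ℝ) (A S : Finset TV) (b b' : TV → ℤ) (φ : (TV → ℤ) → ℝ) (hS : latCl A ⊆ S)
    (hb : ∀ u ∈ S, u ∉ A → b u = b' u) (hφ : HtLoc S φ) : htS x A b φ = htS x A b' φ := by
  have main : ∀ (c c' : TV → ℤ), (∀ u ∈ S, u ∉ A → c u = c' u) → ∀ h, HtAdm A c h →
      HtAdm A c' (fun u => if u ∈ A then h u else c' u) ∧ ∀ u ∈ S, (fun u => if u ∈ A then h u else c' u) u = h u := by
    intro c c' hc h hh
    have hag : ∀ u ∈ S, (fun u => if u ∈ A then h u else c' u) u = h u := by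
      intro u hu
      by_cases huA : u ∈ A
      · simp only [huA, if_true]
      · simp only [huA, if_false]
        rw [hh.1 u huA, hc u hu huA]
    refine ⟨⟨fun u hu => by simp only [hu, if_false], fun u hu d hd => ?_⟩, hag⟩
    rw [hag u (hS (lat_mem_cl.2 (Or.inl hu))), hag (u + d) (hS (lat_mem_cl.2 (Or.inr ⟨u, hu, lat_adj_add u hd⟩)))]
    exact hh.2 u hu d hd
  unfold htS
  refine Finset.sum_bij' (fun h _ => fun u => if u ∈ A then h u else b' u) (fun h _ => fun u => if u ∈ A then h u else b u) ?_ ?_ ?_ ?_ ?_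
  · intro h hh
    exact ht_mem_cfg.2 (main b b' hb h (ht_mem_cfg.1 hh)).1
  · intro h hh
    exact ht_mem_cfg.2 (main b' b (fun u hu hu' => (hb u hu hu').symm) h (ht_mem_cfg.1 hh)).1
  · intro h hh
    funext u
    by_cases hu : u ∈ A
    · simp only [hu, if_true]
    · simp only [hu, if_false]; exact ((ht_mem_cfg.1 hh).1 u hu).symm
  · intro h hh
    funext u
    by_cases hu : u ∈ A
    · simp only [hu, if_true]
    · simp only [hu, if_false]; exact ((ht_mem_cfg.1 hh).1 u hu).symm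
  · intro h hh
    have h2 := (main b b' hb h (ht_mem_cfg.1 hh)).2
    unfold htWt
    rw [mne_N_congr (fun u hu => (h2 u (hS hu)).symm), hφ _ _ (fun u hu => (h2 u hu).symm)]

theorem mne_bdry (x : ℝ) (A S : Finset TV) (b b' : TV → ℤ) (φ : (TV → ℤ) → ℝ) (hS : latCl A ⊆ S)
    (hb : ∀ u ∈ S, u ∉ A → b u = b' u) (hφ : HtLoc S φ) : htE x A b φ = htE x A b' φ := by
  rw [hto_E_eq, hto_E_eq, hto_Z_eq, hto_Z_eq, mne_bdry_S x A S b b' φ hS hb hφ,
    mne_bdry_S x A S b b' (fun _ => 1) hS hb (fun _ _ _ => rfl)]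

/-! ## 4. The reflection in the first domain -/

open Classical in
/-- reflection of the heights of `D` about the level `t` -/
noncomputable def mneRho (D : Finset TV) (t : ℤ) (h : TV → ℤ) : TV → ℤ := fun u => if u ∈ D then 2 * t - h u else h u

theorem mne_rho_in {D : Finset TV} {t : ℤ} {h : TV → ℤ} {u : TV} (hu : u ∈ D) : mneRho D t h u = 2 * t - h u := by
  unfold mneRho; rw [if_pos hu]

theorem mne_rho_out {D : Finset TV} {t : ℤ} {h : TV → ℤ} {u : TV} (hu : u ∉ D) : mneRho D t h u = h u := by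
  unfold mneRho; rw [if_neg hu]

theorem mne_rho_rho (D : Finset TV) (t : ℤ) (h : TV → ℤ) : mneRho D t (mneRho D t h) = h := by
  funext u
  by_cases hu : u ∈ D
  · rw [mne_rho_in hu, mne_rho_in hu]; ring
  · rw [mne_rho_out hu, mne_rho_out hu]

section Rho
variable {F : Finset TV} {t : ℤ} {h : TV → ℤ} {z : TV} {D : Finset TV}

/-- what the reflection does on an edge -/
theorem MneDom.rho_edge (hd : MneDom F t z D h) (hh : ∀ u, u ∉ F → h u = t) {a b : TV} (hab : triAdj a b) :
    mneRho D t h b - mneRho D t h a = h b - h a ∨ mneRho D t h b - mneRho D t h a = -(h b - h a) := by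
  by_cases ha : a ∈ D
  · by_cases hb : b ∈ D
    · right; rw [mne_rho_in ha, mne_rho_in hb]; ring
    · right
      have := hd.out_val hh (mne_mem_out.2 ⟨hb, a, ha, hab⟩)
      rw [mne_rho_in ha, mne_rho_out hb, this]; ring
  · by_cases hb : b ∈ D
    · right
      have := hd.out_val hh (mne_mem_out.2 ⟨ha, b, hb, lat_adj_symm hab⟩)
      rw [mne_rho_out ha, mne_rho_in hb, this]; ring
    · left; rw [mne_rho_out ha, mne_rho_out hb]

theorem MneDom.rho_adm (hd : MneDom F t z D h) (hadm : HtAdm F (fun _ => t) h) : HtAdm F (fun _ => t) (mneRho D t h) := by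
  refine ⟨fun u hu => ?_, fun u hu d hd' => ?_⟩
  · rw [mne_rho_out (fun hc => hu (hd.sub hc))]; exact hadm.1 u hu
  · have h1 := hadm.2 u hu d hd'
    rcases hd.rho_edge hadm.1 (lat_adj_add u hd') with e | e
    · rw [e]; exact h1
    · rw [e, abs_neg]; exact h1

theorem MneDom.rho_N (hd : MneDom F t z D h) (hh : ∀ u, u ∉ F → h u = t) : htN F (mneRho D t h) = htN F h := by
  unfold htN
  refine Finset.sum_congr rfl fun p hp => ?_
  have h1 := (lat_mem_E.1 hp).1
  have e := hd.rho_edge hh (lat_adj_add p.1 (lat_pos_sub h1))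
  have : (mneRho D t h p.1 ≠ mneRho D t h (p.1 + p.2)) ↔ (h p.1 ≠ h (p.1 + p.2)) := by
    constructor <;> intro h2 h3 <;> apply h2 <;> omega
  simp only [this]

theorem MneDom.rho_dom (hd : MneDom F t z D h) : MneDom F t z D (mneRho D t h) := by
  have hset : ({w | mneRho D t h w = t} \ (↑D : Set TV)) = ({w | h w = t} \ (↑D : Set TV)) := by
    ext a
    simp only [Set.mem_sdiff, Set.mem_ofPred_eq, Finset.mem_coe]
    constructor
    · rintro ⟨h1, h2⟩; exact ⟨by rw [← mne_rho_out (t := t) (h := h) h2]; exact h1, h2⟩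
    · rintro ⟨h1, h2⟩; exact ⟨by rw [mne_rho_out h2]; exact h1, h2⟩
  refine ⟨hd.mem, hd.sub, hd.conn, fun u hu => ?_, by rw [hset]; exact hd.out⟩
  rw [mne_rho_in (lat_bd_sub D hu)]
  have := hd.ne u hu
  omega

end Rho

/-! ## 5. (R2) -/

open Classical in
/-- indicator of the event "`D` is the first domain of `z`" -/
noncomputable def mneI (F : Finset TV) (t : ℤ) (z : TV) (D : Finset TV) (h : TV → ℤ) : ℝ := if MneDom F t z D h then 1 else 0

open Classical in
/-- indicator of "`D` is the first domain of `z` and the height of its inner layer is `t + e`" -/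
noncomputable def mneIe (F : Finset TV) (t : ℤ) (z : TV) (D : Finset TV) (e : ℤ) (h : TV → ℤ) : ℝ :=
  if MneDom F t z D h ∧ ∀ u ∈ latBd D, h u = t + e then 1 else 0

section R2
variable {F : Finset TV} {t : ℤ} {z : TV} {D : Finset TV}

theorem mne_I_split (hF : MomCo F) {h : TV → ℤ} (hadm : HtAdm F (fun _ => t) h) :
    mneI F t z D h = mneIe F t z D 1 h + mneIe F t z D (-1) h := by
  unfold mneI mneIe
  by_cases hd : MneDom F t z D h
  · obtain ⟨u₀, hu₀⟩ := mne_bd_nonempty ⟨z, hd.mem⟩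
    rcases hd.eps hadm hF with e | e
    · have h2 : ¬ (MneDom F t z D h ∧ ∀ u ∈ latBd D, h u = t + -1) := by
        rintro ⟨_, h3⟩
        have := h3 u₀ hu₀
        have := e u₀ hu₀
        omega
      rw [if_pos hd, if_pos ⟨hd, e⟩, if_neg h2, add_zero]
    · have h2 : ¬ (MneDom F t z D h ∧ ∀ u ∈ latBd D, h u = t + 1) := by
        rintro ⟨_, h3⟩
        have := h3 u₀ hu₀
        have := e u₀ hu₀
        omega
      rw [if_pos hd, if_neg h2, if_pos ⟨hd, fun u hu => by rw [e u hu]; ring⟩, zero_add]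
  · rw [if_neg hd, if_neg (fun hc => hd hc.1), if_neg (fun hc => hd hc.1), add_zero]

/-- **fair sign** -/
theorem mne_fair (x : ℝ) (ψ : (TV → ℤ) → ℝ) (hψ : ∀ g h : TV → ℤ, (∀ u, u ∉ D → h u = g u) → ψ h = ψ g) :
    htE x F (fun _ => t) (fun h => mneIe F t z D 1 h * ψ h) = htE x F (fun _ => t) (fun h => mneIe F t z D (-1) h * ψ h) := by
  classical
  unfold htE
  congr 1
  have key : ∀ (e : ℤ) (h : TV → ℤ), HtAdm F (fun _ => t) h → (MneDom F t z D h ∧ ∀ u ∈ latBd D, h u = t + e) →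
      HtAdm F (fun _ => t) (mneRho D t h) ∧ (MneDom F t z D (mneRho D t h) ∧ ∀ u ∈ latBd D, mneRho D t h u = t + -e) ∧
        htWt x F (mneRho D t h) = htWt x F h ∧ ψ (mneRho D t h) = ψ h := by
    rintro e h hadm ⟨hd, he⟩
    refine ⟨hd.rho_adm hadm, ⟨hd.rho_dom, fun u hu => ?_⟩, ?_, hψ _ _ (fun u hu => mne_rho_out hu)⟩
    · rw [mne_rho_in (lat_bd_sub D hu), he u hu]; ring
    · unfold htWt; rw [hd.rho_N hadm.1]
  have e1 : ∀ e : ℤ, ∑ h ∈ htCfg F (fun _ => t), htWt x F h * (mneIe F t z D e h * ψ h)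
      = ∑ h ∈ (htCfg F (fun _ => t)).filter (fun h => MneDom F t z D h ∧ ∀ u ∈ latBd D, h u = t + e), htWt x F h * ψ h := by
    intro e
    rw [Finset.sum_filter]
    refine Finset.sum_congr rfl fun h _ => ?_
    unfold mneIe
    split_ifs <;> simp
  rw [e1, e1]
  refine Finset.sum_bij' (fun h _ => mneRho D t h) (fun h _ => mneRho D t h) ?_ ?_ ?_ ?_ ?_
  · intro h hh
    obtain ⟨h1, h2⟩ := Finset.mem_filter.1 hh
    obtain ⟨k1, k2, _, _⟩ := key 1 h (ht_mem_cfg.1 h1) h2
    exact Finset.mem_filter.2 ⟨ht_mem_cfg.2 k1, k2⟩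
  · intro h hh
    obtain ⟨h1, h2⟩ := Finset.mem_filter.1 hh
    obtain ⟨k1, k2, _, _⟩ := key (-1) h (ht_mem_cfg.1 h1) h2
    exact Finset.mem_filter.2 ⟨ht_mem_cfg.2 k1, by simpa using k2⟩
  · intro h _; exact mne_rho_rho D t h
  · intro h _; exact mne_rho_rho D t h
  · intro h hh
    obtain ⟨h1, h2⟩ := Finset.mem_filter.1 hh
    obtain ⟨_, _, k3, k4⟩ := key 1 h (ht_mem_cfg.1 h1) h2
    rw [k3, k4]

/-- **(R2), first-domain decomposition**: `φ` reads `h` on `D` only, `ψ` reads `h` off `D` only -/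
theorem mne_R2 {x : ℝ} (hx0 : 0 < x) (hF : MomCo F) (φ ψ : (TV → ℤ) → ℝ) (hφ : HtLoc D φ)
    (hψ : ∀ g h : TV → ℤ, (∀ u, u ∉ D → h u = g u) → ψ h = ψ g) :
    htE x F (fun _ => t) (fun h => mneI F t z D h * (ψ h * φ h))
      = htE x F (fun _ => t) (fun h => mneI F t z D h * ψ h)
        * ((htE x (latInt D) (fun _ => t + 1) φ + htE x (latInt D) (fun _ => t - 1) φ) / 2) := by
  classical
  by_cases hDF : D ⊆ F
  swap
  · have h0 : ∀ h, mneI F t z D h = 0 := fun h => if_neg (fun hd => hDF hd.sub)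
    simp only [h0, zero_mul, ht_E_zero]
  set Ep := htE x (latInt D) (fun _ => t + 1) φ with hEp
  set Em := htE x (latInt D) (fun _ => t - 1) φ with hEm
  have hsub : latInt D ⊆ F := (lat_int_sub D).trans hDF
  -- DLR
  have s1 : htE x F (fun _ => t) (fun h => mneI F t z D h * (ψ h * φ h))
      = htE x F (fun _ => t) (fun g => (mneI F t z D g * ψ g) * htE x (latInt D) g φ) := by
    rw [hto_dlr_mul hx0 hsub (fun _ => t) φ (fun g => mneI F t z D g * ψ g) ?_]
    · congr 1; funext h; ring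
    · intro g h hgh
      have e1 : mneI F t z D h = mneI F t z D g := by
        unfold mneI
        simp only [mne_dom_congr hgh]
      rw [e1, hψ g h (fun u hu => hgh u (fun hc => hu (lat_int_sub D hc)))]
  -- the boundary function
  have s2 : ∀ g, HtAdm F (fun _ => t) g → (mneI F t z D g * ψ g) * htE x (latInt D) g φ
      = (mneIe F t z D 1 g * ψ g) * Ep + (mneIe F t z D (-1) g * ψ g) * Em := by
    intro g hadm
    rw [mne_I_split hF hadm]
    have hb : ∀ e : ℤ, (∀ u ∈ latBd D, g u = t + e) → htE x (latInt D) g φ = htE x (latInt D) (fun _ => t + e) φ := by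
      intro e he
      refine mne_bdry x (latInt D) D g (fun _ => t + e) φ (lat_cl_int_sub D) (fun u hu hu' => he u ?_) hφ
      rw [lat_int_eq, Finset.mem_sdiff] at hu'
      by_contra hc
      exact hu' ⟨hu, hc⟩
    have a1 : mneIe F t z D 1 g * htE x (latInt D) g φ = mneIe F t z D 1 g * Ep := by
      unfold mneIe
      split_ifs with hc
      · rw [hb 1 hc.2]
      · simp
    have a2 : mneIe F t z D (-1) g * htE x (latInt D) g φ = mneIe F t z D (-1) g * Em := by
      unfold mneIe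
      split_ifs with hc
      · rw [hb (-1) hc.2]; rfl
      · simp
    calc (mneIe F t z D 1 g + mneIe F t z D (-1) g) * ψ g * htE x (latInt D) g φ
        = ψ g * (mneIe F t z D 1 g * htE x (latInt D) g φ) + ψ g * (mneIe F t z D (-1) g * htE x (latInt D) g φ) := by ring
      _ = _ := by rw [a1, a2]; ring
  rw [s1, ht_E_congr x F _ s2, ht_E_add, ht_E_mul_const, ht_E_mul_const]
  have s3 : htE x F (fun _ => t) (fun h => mneI F t z D h * ψ h)
      = htE x F (fun _ => t) (fun h => mneIe F t z D 1 h * ψ h) + htE x F (fun _ => t) (fun h => mneIe F t z D (-1) h * ψ h) := by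
    rw [← ht_E_add]
    refine ht_E_congr x F _ fun g hadm => ?_
    rw [mne_I_split hF hadm]; ring
  rw [s3, mne_fair x ψ hψ]
  ring

end R2

/-! ## 6. The forms of `Exit/DisFirst` -/

section Exit
variable {F : Finset TV} {t : ℤ} {z : TV} {D : Finset TV}

theorem mne_fst_iff {h : TV → ℤ} (hh : ∀ u, u ∉ F → h u = t) (e : ℤ) :
    MomFst F t z D e h ↔ (MneDom F t z D h ∧ ∀ u ∈ latBd D, h u = t + e) := by
  constructor
  · rintro ⟨h1, h2, h3⟩
    have hz : z ∉ momC0 F t h := by
      have : z ∈ momD F t h z := by rw [h2]; exact h1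
      exact this.1
    exact ⟨mne_dom_of_comp hh hz h2.symm, h3⟩
  · rintro ⟨hd, h3⟩
    exact ⟨hd.mem, hd.eq_comp.symm, h3⟩

theorem mne_fst_ex_iff (hF : MomCo F) {h : TV → ℤ} (hadm : HtAdm F (fun _ => t) h) :
    (∃ e, MomFst F t z D e h) ↔ MneDom F t z D h := by
  constructor
  · rintro ⟨e, he⟩; exact ((mne_fst_iff hadm.1 e).1 he).1
  · intro hd
    rcases hd.eps hadm hF with e | e
    · exact ⟨1, (mne_fst_iff hadm.1 1).2 ⟨hd, e⟩⟩
    · exact ⟨-1, (mne_fst_iff hadm.1 (-1)).2 ⟨hd, fun u hu => by rw [e u hu]; ring⟩⟩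

theorem mne_Ie_congr {e : ℤ} {g h : TV → ℤ} (hgh : ∀ u, u ∉ latInt D → h u = g u) : mneIe F t z D e h = mneIe F t z D e g := by
  have hbd : ∀ u ∈ latBd D, h u = g u := by
    intro u hu
    refine hgh u (fun hc => ?_)
    rw [lat_int_eq, Finset.mem_sdiff] at hc
    exact hc.2 hu
  have : (MneDom F t z D h ∧ ∀ u ∈ latBd D, h u = t + e) ↔ (MneDom F t z D g ∧ ∀ u ∈ latBd D, g u = t + e) := by
    rw [mne_dom_congr hgh]
    refine and_congr_right fun _ => ⟨fun k u hu => by rw [← hbd u hu]; exact k u hu, fun k u hu => by rw [hbd u hu]; exact k u hu⟩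
  unfold mneIe
  by_cases hc : MneDom F t z D h ∧ ∀ u ∈ latBd D, h u = t + e
  · rw [if_pos hc, if_pos (this.1 hc)]
  · rw [if_neg hc, if_neg (fun k => hc (this.2 k))]

/-- (R2) with the sign prescribed -/
theorem mne_R2e {x : ℝ} (hx0 : 0 < x) (e : ℤ) (φ ψ : (TV → ℤ) → ℝ) (hφ : HtLoc D φ) (hψ : HtOff D ψ) :
    htE x F (fun _ => t) (fun h => mneIe F t z D e h * (ψ h * φ h))
      = htE x F (fun _ => t) (fun h => mneIe F t z D e h * ψ h) * htE x (latInt D) (fun _ => t + e) φ := by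
  classical
  by_cases hDF : D ⊆ F
  swap
  · have h0 : ∀ h, mneIe F t z D e h = 0 := fun h => if_neg (fun hd => hDF hd.1.sub)
    simp only [h0, zero_mul, ht_E_zero]
  have hsub : latInt D ⊆ F := (lat_int_sub D).trans hDF
  have s1 : htE x F (fun _ => t) (fun h => mneIe F t z D e h * (ψ h * φ h))
      = htE x F (fun _ => t) (fun g => (mneIe F t z D e g * ψ g) * htE x (latInt D) g φ) := by
    rw [hto_dlr_mul hx0 hsub (fun _ => t) φ (fun g => mneIe F t z D e g * ψ g) ?_]
    · congr 1; funext h; ring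
    · intro g h hgh
      rw [mne_Ie_congr hgh, hψ h g (fun u hu => hgh u (fun hc => hu (lat_int_sub D hc)))]
  rw [s1, ← ht_E_mul_const]
  congr 1
  funext g
  have a1 : mneIe F t z D e g * htE x (latInt D) g φ = mneIe F t z D e g * htE x (latInt D) (fun _ => t + e) φ := by
    unfold mneIe
    split_ifs with hc
    · congr 1
      refine mne_bdry x (latInt D) D g (fun _ => t + e) φ (lat_cl_int_sub D) (fun u hu hu' => hc.2 u ?_) hφ
      rw [lat_int_eq, Finset.mem_sdiff] at hu'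
      by_contra hcon
      exact hu' ⟨hu, hcon⟩
    · simp
  calc mneIe F t z D e g * ψ g * htE x (latInt D) g φ = ψ g * (mneIe F t z D e g * htE x (latInt D) g φ) := by ring
    _ = _ := by rw [a1]; ring

theorem mne_half (x : ℝ) (hF : MomCo F) {e : ℤ} (he : e = 1 ∨ e = -1) (ψ : (TV → ℤ) → ℝ) (hψ : HtOff D ψ) :
    htE x F (fun _ => t) (fun h => mneIe F t z D e h * ψ h) = 1 / 2 * htE x F (fun _ => t) (fun h => mneI F t z D h * ψ h) := by
  have s3 : htE x F (fun _ => t) (fun h => mneI F t z D h * ψ h)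
      = htE x F (fun _ => t) (fun h => mneIe F t z D 1 h * ψ h) + htE x F (fun _ => t) (fun h => mneIe F t z D (-1) h * ψ h) := by
    rw [← ht_E_add]
    refine ht_E_congr x F _ fun g hadm => ?_
    rw [mne_I_split hF hadm]; ring
  have s4 := mne_fair (F := F) (t := t) (z := z) (D := D) x ψ (fun g h hgh => hψ h g hgh)
  rcases he with rfl | rfl
  · rw [s3, ← s4]; ring
  · rw [s3, s4]; ring

open Classical in
/-- **partition of unity**: either `z` is in the cluster of the complement or exactly one `D ⊆ F` is its first domain -/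
theorem mne_total {h : TV → ℤ} (hh : ∀ u, u ∉ F → h u = t) :
    (if z ∈ momC0 F t h then (1 : ℝ) else 0) + ∑ D ∈ F.powerset, mneI F t z D h = 1 := by
  by_cases hz : z ∈ momC0 F t h
  · rw [if_pos hz, Finset.sum_eq_zero, add_zero]
    intro D _
    exact if_neg (fun hd => hd.notMem_C0 hz)
  · obtain ⟨D₀, hd₀⟩ := mne_dom_exists hh hz
    rw [if_neg hz, zero_add, Finset.sum_eq_single D₀]
    · exact if_pos hd₀
    · intro D _ hne
      exact if_neg (fun hd => hne (hd.unique hd₀))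
    · intro hc
      exact absurd (Finset.mem_powerset.2 hd₀.sub) hc

end Exit

end Claimed.Agent.R291
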