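import Claimed.Agent.R291.Exit.T23
import Claimed.Agent.R291.Defs.Mom
import Claimed.Agent.R291.Pl.Ball
import Claimed.Agent.R291.Pl.CellPath
import Claimed.Agent.R291.Ht.Basic

/-!
# Row 291 (S0539), Dis/StackHt : STACK OF CIRCUITS IN A FLAT HEIGHT PROBLEM (D4)      (owner helper50; prefix `dsh_`, defs `Dsh…`/`dsh…`)

TEX (moments:arm), (discrete:stack).   PRODUCES `dsh_main` = the body of `exit_dis_stack` (Exit/DisStack.lean).
CONSUMES `exit_t23`, `dis_stack` (141), `dis_lift` (63), `dis_lbl_one` (13), `dis_amb_disk`, `dis_amb_ball` (206), `dis_feas` (182), Timar in the plane (147), balls (110).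
ROUTE  (A) shift / reflection of the heights: the level `t` of the flat problem does not matter (`momB (k+1) ↔ momB (-k)`);
       (B) ambient hexagon `V ⊇ latCl F`, skeleton `V \ F` connected (because `F` has no hole);
       (C) LIFT;  (D) label on the skeleton replaced by equalities, cost `2`;  (E) `dis_stack`;
       (F) CONN: on `ClSep` the outer layer of the component of the inner ball off the invaded set is a connected blocking set of plus sites.
-/

set_option autoImplicit false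
set_option linter.unusedVariables false
set_option linter.unusedSectionVars false
set_option linter.unusedSimpArgs false

namespace Claimed.Agent.R291

open Relation Claims Claims.C0467

/-! ### the circuit event of a colouring -/

/-- `MomCirc` for an arbitrary colouring `P` of the sites -/
def DshCirc (z : TV) (r1 r2 : ℕ) (P : TV → Prop) : Prop :=
  ∃ S : Set TV, (∀ u ∈ S, u ∈ latBall z r2 ∧ u ∉ latBall z r1) ∧ TscConn tscG S ∧
    (∀ u ∈ S, ∀ v ∈ S, (P u ↔ P v)) ∧
    ∀ (Q : Set TV) (a b : TV), a ∈ latBall z r1 → b ∉ latBall z r2 → TscR tscG Q a b → (Q ∩ S).Nonempty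

theorem dsh_circ_def (z : TV) (r1 r2 : ℕ) (h : TV → ℤ) :
    MomCirc z r1 r2 h ↔ DshCirc z r1 r2 (fun u => momB (h u)) := Iff.rfl

theorem dsh_circ_imp {z : TV} {r1 r2 : ℕ} {P P' : TV → Prop}
    (h : ∀ u ∈ latBall z r2, ∀ v ∈ latBall z r2, ((P u ↔ P v) → (P' u ↔ P' v))) (hc : DshCirc z r1 r2 P) :
    DshCirc z r1 r2 P' := by
  obtain ⟨S, h1, h2, h3, h4⟩ := hc
  exact ⟨S, h1, h2, fun u hu v hv => h u (h1 u hu).1 v (h1 v hv).1 (h3 u hu v hv), h4⟩

theorem dsh_circ_congr {z : TV} {r1 r2 : ℕ} {P P' : TV → Prop}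
    (h : ∀ u ∈ latBall z r2, ∀ v ∈ latBall z r2, ((P u ↔ P v) ↔ (P' u ↔ P' v))) :
    DshCirc z r1 r2 P ↔ DshCirc z r1 r2 P' :=
  ⟨dsh_circ_imp fun u hu v hv => (h u hu v hv).1, dsh_circ_imp fun u hu v hv => (h u hu v hv).2⟩

/-! ### (A) the level does not matter -/

theorem dsh_momB_even (k l t : ℤ) (ht : t % 2 = 0) : (momB (k + t) ↔ momB (l + t)) ↔ (momB k ↔ momB l) := by
  unfold momB; omega

theorem dsh_momB_odd (k l t : ℤ) (ht : t % 2 = 1) : (momB (k + t) ↔ momB (l + t)) ↔ (momB (-k) ↔ momB (-l)) := by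
  unfold momB; omega

theorem dsh_level (x : ℝ) (F : Finset TV) (t : ℤ) (z : TV) (r1 r2 : ℕ) :
    htP x F (fun _ => t) (fun h => ¬ MomCirc z r1 r2 h) = htP x F 0 (fun h => ¬ MomCirc z r1 r2 h) := by
  classical
  unfold htP
  have e0 : (fun _ : TV => t) = fun u => (0 : TV → ℤ) u + t := by funext u; simp
  rw [e0, ht_E_shift]
  rcases Int.emod_two_eq_zero_or_one t with ht | ht
  · refine ht_E_congr x F 0 fun H _ => ?_
    have : MomCirc z r1 r2 (fun u => H u + t) ↔ MomCirc z r1 r2 H :=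
      dsh_circ_congr fun u _ v _ => dsh_momB_even (H u) (H v) t ht
    dsimp only
    by_cases hc : MomCirc z r1 r2 H
    · rw [if_neg (not_not.2 (this.2 hc)), if_neg (not_not.2 hc)]
    · rw [if_pos (fun h => hc (this.1 h)), if_pos hc]
  · have e1 : (0 : TV → ℤ) = fun u => -(0 : TV → ℤ) u := by funext u; simp
    conv_rhs => rw [e1, ht_E_neg]
    refine ht_E_congr x F 0 fun H _ => ?_
    have : MomCirc z r1 r2 (fun u => H u + t) ↔ MomCirc z r1 r2 (fun u => - H u) :=
      dsh_circ_congr fun u _ v _ => dsh_momB_odd (H u) (H v) t ht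
    dsimp only
    by_cases hc : MomCirc z r1 r2 (fun u => - H u)
    · rw [if_neg (not_not.2 (this.2 hc)), if_neg (not_not.2 hc)]
    · rw [if_pos (fun h => hc (this.1 h)), if_pos hc]

/-! ### (B) the ambient hexagon and its skeleton -/

/-- a radius such that `F ⊆ latBall 0 (dshR F)` -/
def dshR (F : Finset TV) : ℕ := F.sup latN

theorem dsh_R_le {F : Finset TV} {u : TV} (hu : u ∈ F) : latN u ≤ dshR F := Finset.le_sup (f := latN) hu

/-- the ambient hexagon of `F` -/
noncomputable def dshV (F : Finset TV) : Finset TV := latBall 0 (dshR F + 2)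

theorem dsh_mem_V {F : Finset TV} {u : TV} : u ∈ dshV F ↔ latN u ≤ dshR F + 2 := by
  unfold dshV
  rw [lat_mem_ball, sub_zero]

theorem dsh_cl_sub (F : Finset TV) : latCl F ⊆ dshV F := by
  intro u hu
  rw [dsh_mem_V]
  rcases lat_mem_cl.1 hu with h | ⟨v, hv, hvu⟩
  · have := dsh_R_le h
    omega
  · have h1 := dsh_R_le hv
    have h2 := plh_N_adj hvu
    omega

theorem dsh_F_sub (F : Finset TV) : F ⊆ dshV F := fun u hu => dsh_cl_sub F (lat_mem_cl.2 (Or.inl hu))

theorem dsh_sphere_sub (F : Finset TV) {u : TV} (hu : latN u = dshR F + 2) : u ∈ dshV F \ F := by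
  rw [Finset.mem_sdiff, dsh_mem_V]
  refine ⟨hu.le, fun h => ?_⟩
  have := dsh_R_le h
  omega

theorem dsh_sk_ne (F : Finset TV) : (dshV F \ F).Nonempty := by
  refine ⟨(((dshR F + 2 : ℕ) : ℤ), 0), dsh_sphere_sub F ?_⟩
  rw [plh_N_hor, Int.natAbs_natCast]

/-- the skeleton is connected when `F` has no hole -/
theorem dsh_sk_conn (F : Finset TV) (hF : MomCo F) : TscConn tscG (↑(dshV F \ F) : Set TV) := by
  obtain ⟨w, hw⟩ : ∃ w : TV, latN w = dshR F + 2 := ⟨(((dshR F + 2 : ℕ) : ℤ), 0), by rw [plh_N_hor, Int.natAbs_natCast]⟩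
  have hwF : w ∈ (↑F : Set TV)ᶜ := by
    have := dsh_sphere_sub F hw
    rw [Finset.mem_sdiff] at this
    exact fun h => this.2 (by exact_mod_cast h)
  have hsph : TscConn tscG {u : TV | latN (u - 0) = dshR F + 2} := plh_sphere_conn 0 (dshR F + 2)
  have hsub : {u : TV | latN (u - 0) = dshR F + 2} ⊆ (↑(dshV F \ F) : Set TV) := by
    intro u hu
    simp only [Set.mem_ofPred_eq, sub_zero] at hu
    exact_mod_cast dsh_sphere_sub F hu
  have key : ∀ u, u ∈ (↑(dshV F \ F) : Set TV) → ∃ s, latN s = dshR F + 2 ∧ TscR tscG (↑(dshV F \ F) : Set TV) u s := by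
    intro u hu
    have huF : u ∈ (↑F : Set TV)ᶜ := by
      have : u ∈ dshV F \ F := by exact_mod_cast hu
      rw [Finset.mem_sdiff] at this
      exact fun h => this.2 (by exact_mod_cast h)
    have hpath := hF u huF w hwF
    have claim : ∀ v, TscR tscG (↑F : Set TV)ᶜ u v →
        (TscR tscG (↑(dshV F \ F) : Set TV) u v) ∨ ∃ s, latN s = dshR F + 2 ∧ TscR tscG (↑(dshV F \ F) : Set TV) u s := by
      intro v hv
      induction hv with
      | refl => exact Or.inl (tsc_R_refl _)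
      | @tail a b _ hab ih =>
        rcases ih with h | h
        · have haV : a ∈ (↑(dshV F \ F) : Set TV) := tsc_R_mem h hu
          by_cases hbV : b ∈ dshV F
          · left
            refine h.tail ⟨hab.1, haV, ?_⟩
            have hbF : b ∉ F := fun hb => hab.2.2 (by exact_mod_cast hb)
            exact_mod_cast Finset.mem_sdiff.2 ⟨hbV, hbF⟩
          · right
            refine ⟨a, ?_, h⟩
            have haV' : a ∈ dshV F \ F := by exact_mod_cast haV
            rw [Finset.mem_sdiff, dsh_mem_V] at haV'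
            rw [dsh_mem_V] at hbV
            have := plh_N_adj (u := a) (v := b) hab.1
            omega
        · exact Or.inr h
    rcases claim w hpath with h | h
    · exact ⟨w, hw, h⟩
    · exact h
  intro u hu v hv
  obtain ⟨s, hs, hus⟩ := key u hu
  obtain ⟨s', hs', hvs⟩ := key v hv
  have h1 : TscR tscG (↑(dshV F \ F) : Set TV) s s' :=
    tsc_R_mono hsub (hsph s (by simpa using hs) s' (by simpa using hs'))
  exact tsc_R_trans hus (tsc_R_trans h1 (tsc_R_symm hvs))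

/-! ### (F) CONN: separation gives a connected blocking set of plus sites -/

theorem dsh_conn (x : ℝ) (V : Finset TV) (E : Finset (TV × TV)) (ω : ClCfg TV TV) (z : TV) (r L : ℕ)
    (hV : latBall z (L + 1) ⊆ V) (hrL : r ≤ L)
    (hsep : ClSep (clAmb x V) true E ω (V \ latBall z L) (latBall z r)) :
    DshCirc z r (L + 1) (fun u => u ∈ ω.B) := by
  set S := clAmb x V with hS
  -- sites which are not invaded
  set I : Set TV := {v | v ∈ V ∧ ∀ u ∈ V \ latBall z L, ¬ ReflTransGen (clStep S true E ω) u v} with hI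
  have hIL : ∀ v ∈ I, v ∈ latBall z L := by
    intro v hv
    by_contra hn
    exact hv.2 v (Finset.mem_sdiff.2 ⟨hv.1, hn⟩) ReflTransGen.refl
  have hAI : (↑(latBall z r) : Set TV) ⊆ I := by
    intro v hv
    have hv' : v ∈ latBall z r := by exact_mod_cast hv
    exact ⟨hV (plh_ball_mono z (by omega) hv'), fun u hu => hsep u hu v hv'⟩
  set C : Set TV := tscComp tscG I z with hC
  have hzA : z ∈ (↑(latBall z r) : Set TV) := by exact_mod_cast plh_ball_self z r
  have hAC : (↑(latBall z r) : Set TV) ⊆ C :=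
    plh_conn_sub_comp (plh_ball_conn z r) hAI hzA (tsc_comp_self (hAI hzA))
  have hCI : C ⊆ I := tsc_comp_sub z
  have hCconn : TscConn tscG C := tsc_comp_conn z
  set b₀ : TV := z + (((L + 2 : ℕ) : ℤ), 0) with hb₀
  have hb₀N : latN (b₀ - z) = L + 2 := by
    rw [hb₀, add_sub_cancel_left, plh_N_hor, Int.natAbs_natCast]
  refine ⟨{d | d ∈ tscComp tscG Cᶜ b₀ ∧ ∃ c ∈ C, triAdj c d}, ?_, tsc_plane_timar hCconn b₀, ?_, ?_⟩
  · rintro d ⟨hd, c, hc, hcd⟩
    constructor
    · have h1 := hIL c (hCI hc)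
      rw [lat_mem_ball] at h1 ⊢
      have h2 : triAdj (c - z) (d - z) := by
        rw [lat_adj_iff] at hcd ⊢
        have : d - z - (c - z) = d - c := by abel
        rwa [this]
      have := plh_N_adj h2
      omega
    · intro hdA
      exact hd.1 (hAC (by exact_mod_cast hdA))
  · -- all these sites are plus
    have hplus : ∀ d, (d ∈ tscComp tscG Cᶜ b₀ ∧ ∃ c ∈ C, triAdj c d) → d ∈ ω.B := by
      rintro d ⟨hd, c, hc, hcd⟩
      have hcI := hCI hc
      have hdL : d ∈ latBall z (L + 1) := by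
        have h1 := hIL c hcI
        rw [lat_mem_ball] at h1 ⊢
        have h2 : triAdj (c - z) (d - z) := by
          rw [lat_adj_iff] at hcd ⊢
          have : d - z - (c - z) = d - c := by abel
          rwa [this]
        have := plh_N_adj h2
        omega
      have hdV : d ∈ V := hV hdL
      have hdI : d ∉ I := fun h => hd.1 (tsc_comp_adj hc h hcd)
      have hdR : ∃ u ∈ V \ latBall z L, ReflTransGen (clStep S true E ω) u d := by
        by_contra hn
        push Not at hn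
        exact hdI ⟨hdV, hn⟩
      obtain ⟨u, hu, hud⟩ := hdR
      obtain ⟨y, hcy, hdy⟩ := pcp_adj_cell hcd
      have hyC : y ∈ S.C := by
        rw [hS]
        exact lat_mem_cells.2 ⟨c, hcy, hcI.1⟩
      have hcs : c ∈ S.sv y := by
        rw [hS]
        exact Finset.mem_inter.2 ⟨hcy, hcI.1⟩
      have hds : d ∈ S.sv y := by
        rw [hS]
        exact Finset.mem_inter.2 ⟨hdy, hdV⟩
      have htau : clTau S ω y = clSg true := by
        by_contra hn
        exact hcI.2 u hu (hud.tail (Or.inl ⟨y, hyC, hds, hcs, hn⟩))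
      have hsub : S.sv y ⊆ ω.B := by
        by_contra h
        unfold clTau at htau
        simp only [clSg, if_true] at htau
        split_ifs at htau
        all_goals omega
      exact hsub hds
    intro u hu v hv
    exact ⟨fun _ => hplus v hv, fun _ => hplus u hu⟩
  · intro Q a b ha hb hab
    have hbc : b ∈ tscComp tscG Cᶜ b₀ := by
      have hsub : (↑(latBall z (L + 1)) : Set TV)ᶜ ⊆ Cᶜ := by
        refine Set.compl_subset_compl.2 fun c hc => ?_
        exact_mod_cast plh_ball_mono z (by omega) (hIL c (hCI hc))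
      have hb' : b ∈ (↑(latBall z (L + 1)) : Set TV)ᶜ := fun h => hb (by exact_mod_cast h)
      have hb₀' : b₀ ∈ (↑(latBall z (L + 1)) : Set TV)ᶜ := by
        rw [Set.mem_compl_iff, plh_mem_ball]
        omega
      exact ⟨hsub hb', tsc_R_mono hsub (plh_ball_compl_conn z (L + 1) b₀ hb₀' b hb')⟩
    exact tsc_plane_meets hbc (hAC (by exact_mod_cast ha)) (tsc_R_symm hab)

theorem dsh_circ_mono {z : TV} {r1 r2 r2' : ℕ} {P : TV → Prop} (h : r2 ≤ r2') (hc : DshCirc z r1 r2 P) :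
    DshCirc z r1 r2' P := by
  obtain ⟨S, h1, h2, h3, h4⟩ := hc
  exact ⟨S, fun u hu => ⟨plh_ball_mono z h (h1 u hu).1, (h1 u hu).2⟩, h2, h3,
    fun Q a b ha hb hab => h4 Q a b ha (fun hb' => hb (plh_ball_mono z h hb')) hab⟩

/-! ### (D) the history of the flat problem -/

/-- plus pins and equalities on the skeleton `V \ F` -/
noncomputable def dshK (V F : Finset TV) : ClCon TV TV :=
  ⟨V \ F, ∅, ((V \ F) ×ˢ (V \ F)).filter (fun e => triAdj e.1 e.2), ∅, ∅, ∅, ∅, ∅⟩

theorem dsh_mem_Eq {V F : Finset TV} {e : TV × TV} :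
    e ∈ (dshK V F).Eq ↔ e.1 ∈ V \ F ∧ e.2 ∈ V \ F ∧ triAdj e.1 e.2 := by
  simp only [dshK, Finset.mem_filter, Finset.mem_product]
  tauto

theorem dsh_K_legal (x : ℝ) (V F : Finset TV) : ClLegal (clAmb x V) (dshK V F) where
  wp := rfl
  wm := rfl
  full := by
    intro y _ hy
    simp [dshK] at hy
  eq := by
    intro e he
    obtain ⟨h1, h2, h3⟩ := dsh_mem_Eq.1 he
    obtain ⟨y, hy1, hy2⟩ := pcp_adj_cell h3
    have h1V := (Finset.mem_sdiff.1 h1).1
    have h2V := (Finset.mem_sdiff.1 h2).1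
    exact ⟨y, lat_mem_cells.2 ⟨e.1, hy1, h1V⟩, Finset.mem_inter.2 ⟨hy1, h1V⟩, Finset.mem_inter.2 ⟨hy2, h2V⟩⟩

theorem dsh_K_feas (x : ℝ) (V F : Finset TV) : ClFeas (clAmb x V) (dshK V F) where
  bpA := Finset.sdiff_subset
  dis := by simp [dshK]
  opC := by simp [dshK]
  omC := by simp [dshK]
  op := by simp [dshK]
  om := by simp [dshK]
  cl := by simp [dshK]
  d1 := by simp [dshK]
  d2 := by simp [dshK]
  d3 := by simp [dshK]

theorem dsh_K_clear (x : ℝ) (V F D : Finset TV) (hD : D ⊆ F) : ClClear (clAmb x V) true (dshK V F) D where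
  pin := by simp [dshK]
  obs := by
    intro y _ hy
    simp [dshK] at hy
  eq := by
    intro e he
    obtain ⟨h1, h2, _⟩ := dsh_mem_Eq.1 he
    exact ⟨fun h => (Finset.mem_sdiff.1 h1).2 (hD h), fun h => (Finset.mem_sdiff.1 h2).2 (hD h)⟩

theorem dsh_K_lab (x : ℝ) (V F : Finset TV) (ω : ClCfg TV TV) :
    (({ dshK V F with Wp := (dshK V F).Wp ∪ (V \ F) } : ClCon TV TV).Holds (clAmb x V) ω) ↔
      (V \ F ⊆ ω.B ∧ V \ F ⊆ ω.W) := by
  constructor
  · intro h
    refine ⟨h.1, ?_⟩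
    have := h.2.2.2.2.2.2.1
    exact fun v hv => this (Finset.mem_union_right _ hv)
  · rintro ⟨h1, h2⟩
    refine ⟨h1, by simp [dshK], ?_, by simp [dshK], by simp [dshK], by simp [dshK], ?_, by simp [dshK]⟩
    · intro e he
      obtain ⟨a1, a2, _⟩ := dsh_mem_Eq.1 he
      exact ⟨fun _ => h2 a2, fun _ => h2 a1⟩
    · intro v hv
      rcases Finset.mem_union.1 hv with h | h
      · simp [dshK] at h
      · exact h2 h

theorem dsh_K_conn {V F : Finset TV} (h : TscConn tscG (↑(V \ F) : Set TV)) :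
    ∀ u ∈ V \ F, ∀ v ∈ V \ F,
      ReflTransGen (fun a b => (a, b) ∈ (dshK V F).Eq ∨ (b, a) ∈ (dshK V F).Eq) u v := by
  intro u hu v hv
  have this : ReflTransGen (TscStep tscG (↑(V \ F) : Set TV)) u v :=
    h u (by exact_mod_cast hu) v (by exact_mod_cast hv)
  refine ReflTransGen.mono ?_ u v this
  intro a b hab
  exact Or.inl (dsh_mem_Eq.2 ⟨by exact_mod_cast hab.2.1, by exact_mod_cast hab.2.2, hab.1⟩)

/-! ### sums -/

theorem dsh_N_mono {V Y : Type} [DecidableEq V] [DecidableEq Y] (S : ClSys V Y) (hS : ClOk S)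
    {K K' : ClCfg V Y → Prop} {G G' : ClCfg V Y → ℝ} (hK : ∀ ω, K ω → K' ω) (hG : ∀ ω, K ω → G ω ≤ G' ω)
    (hG' : ∀ ω, 0 ≤ G' ω) : S.N K G ≤ S.N K' G' := by
  classical
  unfold ClSys.N
  refine Finset.sum_le_sum fun ω _ => ?_
  have hw := dis_wt_nonneg S hS ω
  by_cases h : K ω
  · rw [if_pos h, if_pos (hK ω h)]
    exact mul_le_mul_of_nonneg_left (hG ω h) hw
  · rw [if_neg h]
    split_ifs
    · exact mul_nonneg hw (hG' ω)
    · exact le_rfl

/-! ### (C)+(D)+(E)+(F): the flat problem at level `0` -/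

theorem dsh_zero (x : ℝ) (hx0 : 0 < x) (hx1 : x ≤ 1) (b : ℝ) (hb0 : 0 ≤ b) (V F : Finset TV) (z : TV) (r L : ℕ)
    (hV : DisAmb V) (hcl : latCl F ⊆ V) (hsk : TscConn tscG (↑(V \ F) : Set TV)) (hne : (V \ F).Nonempty)
    (H : ∀ K : ClCon TV TV, ClLegal (clAmb x V) K →
      0 < (clAmb x V).Z (K.Holds (clAmb x V)) → latBall z (L + 2) ⊆ V →
      ClClear (clAmb x V) true K (latBall z (L + 2) \ latBall z r) →
      (clAmb x V).P (K.Holds (clAmb x V))
        (fun ω => ¬ ClSep (clAmb x V) true K.Eq ω (V \ latBall z L) (latBall z r)) ≤ b)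
    (h2 : r ≤ L) (hB : latBall z (L + 2) ⊆ F) :
    htP x F 0 (fun h => ¬ MomCirc z r (L + 2) h) ≤ 2 * b := by
  classical
  have hD : ClDisk (clAmb x V) := dis_amb_disk x hx0 hx1 V hV
  have hOk : ClOk (clAmb x V) := hD.toClOk
  have hFV : F ⊆ V := fun u hu => hcl (lat_mem_cl.2 (Or.inl hu))
  obtain ⟨G, hG⟩ : ∃ G : ClCfg TV TV → ℝ, G = fun ω => if DshCirc z r (L + 2) (fun u => u ∈ ω.B) then 0 else 1 :=
    ⟨_, rfl⟩
  have hG0 : ∀ ω, 0 ≤ G ω := fun ω => by rw [hG]; dsimp only; split_ifs <;> norm_num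
  have hG1 : ∀ ω, G ω ≤ 1 := fun ω => by rw [hG]; dsimp only; split_ifs <;> norm_num
  have hGc : ∀ ω, DshCirc z r (L + 2) (fun u => u ∈ ω.B) → G ω = 0 := fun ω h => by rw [hG]; exact if_pos h
  have hGn : ∀ ω, ¬ DshCirc z r (L + 2) (fun u => u ∈ ω.B) → G ω = 1 := fun ω h => by rw [hG]; exact if_neg h
  have hGP : ClPair G := by
    intro ω ω' hb _
    rw [hG]
    simp only [hb]
  -- (C) lift
  have lift := dis_lift x hx0 hx1 V F hV hcl hsk hne G hGP
  have e1 : htP x F 0 (fun h => ¬ MomCirc z r (L + 2) h) = htE x F 0 (fun h => G ⟨htB V h, htW V h, ∅⟩) := by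
    unfold htP
    refine ht_E_congr x F 0 fun h _ => ?_
    have : MomCirc z r (L + 2) h ↔ DshCirc z r (L + 2) (fun u => u ∈ htB V h) := by
      refine dsh_circ_congr fun u hu v hv => ?_
      have a : ∀ w ∈ latBall z (L + 2), (w ∈ htB V h ↔ momB (h w)) := by
        intro w hw
        unfold htB momB
        rw [Finset.mem_filter]
        exact ⟨fun h => h.2, fun h => ⟨hFV (hB hw), h⟩⟩
      rw [a u hu, a v hv]
    by_cases hc : MomCirc z r (L + 2) h
    · rw [if_neg (not_not.2 hc), hGc _ (this.1 hc)]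
    · rw [if_pos hc, hGn _ (fun h => hc (this.2 h))]
  have e2 : (fun ω : ClCfg TV TV => V \ F ⊆ ω.B ∧ V \ F ⊆ ω.W) =
      ({ dshK V F with Wp := (dshK V F).Wp ∪ (V \ F) } : ClCon TV TV).Holds (clAmb x V) := by
    funext ω
    exact propext (dsh_K_lab x V F ω).symm
  rw [e1, lift, e2, dis_E_eq]
  -- (D) label
  have hZK : 0 < (clAmb x V).Z ((dshK V F).Holds (clAmb x V)) :=
    dis_feas _ hOk _ (dsh_K_legal x V F) (dsh_K_feas x V F)
  have hlab := dis_lbl_one (clAmb x V) hOk (dshK V F) (fun e he => by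
      obtain ⟨a1, a2, _⟩ := dsh_mem_Eq.1 he
      exact ⟨(Finset.mem_sdiff.1 a1).1, (Finset.mem_sdiff.1 a2).1⟩) (V \ F) Finset.sdiff_subset
      (dsh_K_conn hsk) rfl (fun _ => 1) (fun _ => zero_le_one) (fun _ _ _ _ => rfl)
  rw [← dis_Z_eq, ← dis_Z_eq] at hlab
  have hKK' : ∀ ω, ({ dshK V F with Wp := (dshK V F).Wp ∪ (V \ F) } : ClCon TV TV).Holds (clAmb x V) ω →
      (dshK V F).Holds (clAmb x V) ω := by
    intro ω h
    obtain ⟨a1, a2⟩ := (dsh_K_lab x V F ω).1 h
    refine ⟨a1, by simp [dshK], ?_, by simp [dshK], by simp [dshK], by simp [dshK],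
      by simp [dshK], by simp [dshK]⟩
    intro e he
    obtain ⟨b1, b2, _⟩ := dsh_mem_Eq.1 he
    exact ⟨fun _ => a2 b2, fun _ => a2 b1⟩
  -- (E) stack
  have hst := H (dshK V F) (dsh_K_legal x V F) hZK (hB.trans hFV)
    (dsh_K_clear x V F _ (Finset.sdiff_subset.trans hB))
  -- (F) CONN
  have hGsep : ∀ ω, G ω ≤
      @ite ℝ (¬ ClSep (clAmb x V) true (dshK V F).Eq ω (V \ latBall z L) (latBall z r))
        (Classical.propDecidable _) 1 0 := by
    intro ω
    by_cases hs : ClSep (clAmb x V) true (dshK V F).Eq ω (V \ latBall z L) (latBall z r)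
    · have hc : DshCirc z r (L + 2) (fun u => u ∈ ω.B) :=
        dsh_circ_mono (by omega) (dsh_conn x V (dshK V F).Eq ω z r L
          ((plh_ball_mono z (by omega)).trans (hB.trans hFV)) h2 hs)
      rw [hGc ω hc, if_neg (not_not.2 hs)]
    · rw [if_pos hs]
      exact hG1 ω
  have hN1 := dsh_N_mono (clAmb x V) hOk hKK' (fun ω _ => hGsep ω) (fun ω => by split_ifs <;> norm_num)
  unfold ClSys.P at hst
  rw [dis_E_eq, div_le_iff₀ hZK] at hst
  generalize (clAmb x V).Z ((dshK V F).Holds (clAmb x V)) = Z1 at *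
  generalize (clAmb x V).Z (({ dshK V F with Wp := (dshK V F).Wp ∪ (V \ F) } : ClCon TV TV).Holds (clAmb x V)) = Z2 at *
  have hZK' : 0 < Z2 := by linarith
  rw [div_le_iff₀ hZK']
  refine hN1.trans (hst.trans ?_)
  nlinarith

/-- **(D4)** stack of circuits in a flat height problem. -/
theorem dsh_main (x : ℝ) (hx1 : 1 / Real.sqrt 2 ≤ x) (hx2 : x ≤ 1) :
    ∃ (C α : ℝ), 0 < C ∧ 0 < α ∧ ∀ (F : Finset TV) (t : ℤ) (z : TV) (r1 r2 : ℕ),
      MomCo F → 1 ≤ r1 → r1 ≤ r2 → latBall z r2 ⊆ F →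
      htP x F (fun _ => t) (fun h => ¬ MomCirc z r1 r2 h) ≤ C * ((r1 : ℝ) / r2) ^ α := by
  have hx0 : 0 < x := lt_of_lt_of_le (by positivity) hx1
  obtain ⟨C₀, α, hC₀, hα, H⟩ := dis_stack x hx0 hx2 true (exit_t23 x hx1 hx2)
  refine ⟨(2 * C₀ + 1) * 3 ^ α, α, by positivity, hα, fun F t z r1 r2 hF h1 h12 hB => ?_⟩
  rw [dsh_level]
  have hr1 : (1 : ℝ) ≤ r1 := by exact_mod_cast h1
  have hr2 : (0 : ℝ) < r2 := by
    have : 0 < r2 := by omega
    exact_mod_cast this
  have hq0 : 0 ≤ (r1 : ℝ) / r2 := by positivity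
  have e3 : (3 : ℝ) ^ α * ((r1 : ℝ) / r2) ^ α = (3 * ((r1 : ℝ) / r2)) ^ α := by
    rw [Real.mul_rpow (by norm_num) hq0]
  rw [mul_assoc, e3]
  by_cases hc : r1 + 2 ≤ r2
  · obtain ⟨L, rfl⟩ : ∃ L, r2 = L + 2 := ⟨r2 - 2, by omega⟩
    have hL : r1 ≤ L := by omega
    have hLpos : (0 : ℝ) < L := by
      have : 0 < L := by omega
      exact_mod_cast this
    have h0 := dsh_zero x hx0 hx2 (C₀ * ((r1 : ℝ) / L) ^ α)
      (mul_nonneg hC₀.le (Real.rpow_nonneg (div_nonneg (Nat.cast_nonneg _) (Nat.cast_nonneg _)) _))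
      (dshV F) F z r1 L (dis_amb_ball 0 _) (dsh_cl_sub F) (dsh_sk_conn F hF) (dsh_sk_ne F)
      (fun K hK hZ hsub hcl => H (dshV F) (dis_amb_ball 0 _) K hK hZ z r1 L h1 hL hsub hcl) hL hB
    have hL1 : (1 : ℝ) ≤ L := by
      have : 1 ≤ L := by omega
      exact_mod_cast this
    have hle : (r1 : ℝ) / L ≤ 3 * ((r1 : ℝ) / ((L + 2 : ℕ) : ℝ)) := by
      push_cast
      rw [← mul_div_assoc, div_le_div_iff₀ hLpos (by positivity)]
      nlinarith
    have hpw : ((r1 : ℝ) / L) ^ α ≤ (3 * ((r1 : ℝ) / ((L + 2 : ℕ) : ℝ))) ^ α :=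
      Real.rpow_le_rpow (by positivity) hle hα.le
    have hnn : 0 ≤ (3 * ((r1 : ℝ) / ((L + 2 : ℕ) : ℝ))) ^ α := Real.rpow_nonneg (by positivity) _
    calc _ ≤ 2 * (C₀ * ((r1 : ℝ) / L) ^ α) := h0
      _ ≤ 2 * (C₀ * (3 * ((r1 : ℝ) / ((L + 2 : ℕ) : ℝ))) ^ α) := by
          have := mul_le_mul_of_nonneg_left hpw hC₀.le
          linarith
      _ ≤ (2 * C₀ + 1) * (3 * ((r1 : ℝ) / ((L + 2 : ℕ) : ℝ))) ^ α := by nlinarith
  · have hle : (1 : ℝ) ≤ 3 * ((r1 : ℝ) / r2) := by
      rw [← mul_div_assoc, le_div_iff₀ hr2, one_mul]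
      have : r2 ≤ 3 * r1 := by omega
      exact_mod_cast this
    have h1' : (1 : ℝ) ≤ (3 * ((r1 : ℝ) / r2)) ^ α := Real.one_le_rpow hle hα.le
    calc _ ≤ (1 : ℝ) := ht_P_le_one hx0 F 0 _
      _ ≤ (2 * C₀ + 1) * (3 * ((r1 : ℝ) / r2)) ^ α := by nlinarith

end Claimed.Agent.R291
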