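import Claimed.Agent.R291.Dis.ObstrCell
import Claimed.Agent.R291.Dis.StackHt

/-!
# Row 291 (S0539), Dis/Obstr : THE OBSTRUCTION IN A FLAT HEIGHT PROBLEM (D3), HEIGHT SIDE      (owner helper164; prefix `dob_`, defs `dob…`)

TEX[lem:shell-moments] l.48-112 (the OBSTRUCTION).   PRODUCES `dob_exit` = the body of `exit_dis_obstr` (Exit/DisObstr.lean).
THE CELL SIDE `dob_cell` and the events `DobBW`, `DobWW`, `DobBad1`, `DobBad` are helper133's (Dis/ObstrCell.lean, imported here).
CONSUMES `dis_lift` (63), `dis_amb_ball`, the ambient hexagon of helper50 (Dis/StackHt.lean).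
ROUTE  (A) LEVEL: shift / reflection of the heights: the flat problem at level `t` becomes the flat problem at level `0`, and the ordered pair of walls `MomBad`
           becomes the ordered pair of walls `DobBad s` of the Gray spins `(B, W)` where the sign `s` of `B` along the outer wall is `momB t`   (`momB (k+1) ↔ momB (-k)`, `momB (k+2) ↔ ¬ momB k`);
       (B) ambient hexagon `V = latBall 0 R` of ANY radius `R ≥ dshR F + 2`: the skeleton `V \ F` is connected because `F` has no hole;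
       (C) LIFT: the event only reads the spins on `latCl F ⊆ V`;
       (D) GLUE with the cell bound for both signs.
-/

set_option autoImplicit false
set_option linter.unusedVariables false
set_option linter.unusedSectionVars false
set_option linter.unusedSimpArgs false

namespace Claimed.Agent.R291

open Relation Claims Claims.C0467

/-! ### the cell bound (the events `DobBW`, `DobWW`, `DobBad1`, `DobBad` are defined in Dis/ObstrCell.lean, helper133) -/

/-- THE CELL BOUND, in the form in which it is consumed (statement of helper133; proof: Dis/ObstrCell.lean) -/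
def DobCell (x : ℝ) (s : Bool) (κ : ℝ) (r0 Cv : ℕ) : Prop :=
  ∀ (V F : Finset TV) (z : TV) (r : ℕ), DisAmb V → latCl F ⊆ V → MomCo F →
    latBall z (Cv * r + 2) ⊆ V → r0 ≤ r → ¬ latBall z (5 * r) ⊆ F →
    (clAmb x V).P (fun ω => V \ F ⊆ ω.B ∧ V \ F ⊆ ω.W)
      (fun ω => DobBad s (fun u => u ∈ ω.B) (fun u => u ∈ ω.W) F z r) ≤ 1 - κ

/-! ### (A) the level -/

/-- an admissible height is 1-Lipschitz along every edge leaving a free site -/
theorem dob_adm_adj {A : Finset TV} {b h : TV → ℤ} (hh : HtAdm A b h) {u v : TV} (hu : u ∈ A) (huv : triAdj u v) :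
    |h v - h u| ≤ 1 := by
  have hd : v - u ∈ latDirs := (lat_adj_iff u v).1 huv
  have := hh.2 u hu (v - u) hd
  rwa [add_sub_cancel] at this

/-- the sign of the first Gray spin along the outer wall, seen from the level `0` -/
def dobS (t : ℤ) : Bool := decide (momB t)

theorem dob_S_iff (t : ℤ) : dobS t = true ↔ momB t := by
  unfold dobS
  exact decide_eq_true_iff

theorem dob_momB_even (k t : ℤ) (ht : t % 2 = 0) : momB (k + t) ↔ (momB k ↔ dobS t = true) := by
  rw [dob_S_iff]
  unfold momB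
  omega

theorem dob_momB_odd (k t : ℤ) (ht : t % 2 = 1) : momB (k + t) ↔ (momB (-k) ↔ dobS t = true) := by
  rw [dob_S_iff]
  unfold momB
  omega

/-- two neighbouring heights with the same first spin have different second spins as soon as they differ -/
theorem dob_second (a b : ℤ) (hab : |b - a| ≤ 1) (hne : a ≠ b) (hB : momB a ↔ momB b) : ¬ (momB (a + 1) ↔ momB (b + 1)) := by
  rw [abs_le] at hab
  unfold momB at *
  omega

/-- transfer of the ordered pair of walls from the heights `h` to the heights `g` -/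
theorem dob_bad_of_mom {F : Finset TV} {z : TV} {r : ℕ} {s : Bool} {h g : TV → ℤ}
    (hlip : ∀ u ∈ F, ∀ v, triAdj u v → |g v - g u| ≤ 1)
    (hB : ∀ u, momB (h u) ↔ (momB (g u) ↔ s = true))
    (hne : ∀ u v, h u ≠ h v → g u ≠ g v) (hb : MomBad F z r h) :
    DobBad s (fun u => momB (g u)) (fun u => momB (g u + 1)) F z r := by
  obtain ⟨D, hDF, _, hWW, D', hball, hD'D, hBW⟩ := hb
  refine ⟨D, hDF, ?_, D', hball, hD'D, ?_⟩
  · intro u hu v hv huv
    obtain ⟨h1, h2, h3⟩ := hWW u hu v hv huv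
    have a1 := (hB u).1 h1
    have a2 := (hB v).1 h2
    exact ⟨a1, a2, dob_second _ _ (hlip u (hDF hu) v huv) (hne u v h3) (a1.trans a2.symm)⟩
  · intro u hu v hv huv hc
    refine hBW u hu v hv huv ?_
    rw [hB u, hB v]
    exact ⟨fun a => hc.symm.trans a, fun a => hc.trans a⟩

/-- **(A) LEVEL.**  The flat problem at level `t` is dominated by the flat problem at level `0` with the sign `dobS t`. -/
theorem dob_level {x : ℝ} (hx0 : 0 < x) (F : Finset TV) (t : ℤ) (z : TV) (r : ℕ) :
    htP x F (fun _ => t) (MomBad F z r) ≤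
      htP x F 0 (fun g => DobBad (dobS t) (fun u => momB (g u)) (fun u => momB (g u + 1)) F z r) := by
  classical
  unfold htP
  have e0 : (fun _ : TV => t) = fun u => (0 : TV → ℤ) u + t := by funext u; simp
  rw [e0, ht_E_shift]
  rcases Int.emod_two_eq_zero_or_one t with ht | ht
  · refine ht_E_mono hx0 F 0 fun H hH => ?_
    dsimp only
    by_cases hc : MomBad F z r (fun u => H u + t)
    · have := dob_bad_of_mom (s := dobS t) (g := H) (fun u hu v huv => dob_adm_adj hH hu huv)
        (fun u => dob_momB_even (H u) t ht) (fun u v h1 h2 => h1 (by rw [h2])) hc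
      rw [if_pos hc, if_pos this]
    · rw [if_neg hc]
      split_ifs <;> norm_num
  · have e1 : (0 : TV → ℤ) = fun u => -(0 : TV → ℤ) u := by funext u; simp
    conv_rhs => rw [e1, ht_E_neg]
    refine ht_E_mono hx0 F 0 fun H hH => ?_
    dsimp only
    by_cases hc : MomBad F z r (fun u => H u + t)
    · have := dob_bad_of_mom (s := dobS t) (g := fun u => - H u)
        (fun u hu v huv => by
          have := dob_adm_adj hH hu huv
          rw [abs_le] at this ⊢
          constructor <;> linarith [this.1, this.2])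
        (fun u => dob_momB_odd (H u) t ht) (fun u v h1 h2 => h1 (by
          have : H u = H v := neg_injective h2
          rw [this])) hc
      rw [if_pos hc, if_pos this]
    · rw [if_neg hc]
      split_ifs <;> norm_num

/-! ### (B) ambient hexagons of any large radius -/

theorem dob_cl_sub (F : Finset TV) {R : ℕ} (hR : dshR F + 2 ≤ R) : latCl F ⊆ latBall 0 R :=
  (dsh_cl_sub F).trans (plh_ball_mono 0 hR)

theorem dob_sphere_sub (F : Finset TV) {R : ℕ} (hR : dshR F + 2 ≤ R) {u : TV} (hu : latN u = R) : u ∈ latBall 0 R \ F := by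
  rw [Finset.mem_sdiff, lat_mem_ball, sub_zero]
  refine ⟨hu.le, fun h => ?_⟩
  have := dsh_R_le h
  omega

theorem dob_sk_ne (F : Finset TV) {R : ℕ} (hR : dshR F + 2 ≤ R) : (latBall 0 R \ F).Nonempty := by
  refine ⟨(((R : ℕ) : ℤ), 0), dob_sphere_sub F hR ?_⟩
  rw [plh_N_hor, Int.natAbs_natCast]

/-- **(B)** the skeleton of a large hexagon is connected when `F` has no hole -/
theorem dob_sk_conn (F : Finset TV) (hF : MomCo F) {R : ℕ} (hR : dshR F + 2 ≤ R) :
    TscConn tscG (↑(latBall 0 R \ F) : Set TV) := by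
  obtain ⟨w, hw⟩ : ∃ w : TV, latN w = R := ⟨(((R : ℕ) : ℤ), 0), by rw [plh_N_hor, Int.natAbs_natCast]⟩
  have hwF : w ∈ (↑F : Set TV)ᶜ := by
    have := dob_sphere_sub F hR hw
    rw [Finset.mem_sdiff] at this
    exact fun h => this.2 (by exact_mod_cast h)
  have hsph : TscConn tscG {u : TV | latN (u - 0) = R} := plh_sphere_conn 0 R
  have hsub : {u : TV | latN (u - 0) = R} ⊆ (↑(latBall 0 R \ F) : Set TV) := by
    intro u hu
    simp only [Set.mem_ofPred_eq, sub_zero] at hu
    exact_mod_cast dob_sphere_sub F hR hu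
  have key : ∀ u, u ∈ (↑(latBall 0 R \ F) : Set TV) → ∃ s, latN s = R ∧ TscR tscG (↑(latBall 0 R \ F) : Set TV) u s := by
    intro u hu
    have huF : u ∈ (↑F : Set TV)ᶜ := by
      have : u ∈ latBall 0 R \ F := by exact_mod_cast hu
      rw [Finset.mem_sdiff] at this
      exact fun h => this.2 (by exact_mod_cast h)
    have hpath := hF u huF w hwF
    have claim : ∀ v, TscR tscG (↑F : Set TV)ᶜ u v →
        (TscR tscG (↑(latBall 0 R \ F) : Set TV) u v) ∨ ∃ s, latN s = R ∧ TscR tscG (↑(latBall 0 R \ F) : Set TV) u s := by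
      intro v hv
      induction hv with
      | refl => exact Or.inl (tsc_R_refl _)
      | @tail a b _ hab ih =>
        rcases ih with h | h
        · have haV : a ∈ (↑(latBall 0 R \ F) : Set TV) := tsc_R_mem h hu
          by_cases hbV : b ∈ latBall 0 R
          · left
            refine h.tail ⟨hab.1, haV, ?_⟩
            have hbF : b ∉ F := fun hb => hab.2.2 (by exact_mod_cast hb)
            exact_mod_cast Finset.mem_sdiff.2 ⟨hbV, hbF⟩
          · right
            refine ⟨a, ?_, h⟩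
            have haV' : a ∈ latBall 0 R \ F := by exact_mod_cast haV
            rw [Finset.mem_sdiff, lat_mem_ball, sub_zero] at haV'
            rw [lat_mem_ball, sub_zero] at hbV
            have := plh_N_adj (u := a) (v := b) hab.1
            omega
        · exact Or.inr h
    rcases claim w hpath with h | h
    · exact ⟨w, hw, h⟩
    · exact h
  intro u hu v hv
  obtain ⟨s, hs, hus⟩ := key u hu
  obtain ⟨s', hs', hvs⟩ := key v hv
  have h1 : TscR tscG (↑(latBall 0 R \ F) : Set TV) s s' :=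
    tsc_R_mono hsub (hsph s (by simpa using hs) s' (by simpa using hs'))
  exact tsc_R_trans hus (tsc_R_trans h1 (tsc_R_symm hvs))

/-! ### (C) the lift -/

/-- the ordered pair of walls only reads the colourings on `latCl F` -/
theorem dob_bad_imp {s : Bool} {F : Finset TV} {z : TV} {r : ℕ} {P P' Q Q' : TV → Prop}
    (hP : ∀ u ∈ latCl F, (P u ↔ P' u)) (hQ : ∀ u ∈ latCl F, (Q u ↔ Q' u)) (hb : DobBad s P Q F z r) :
    DobBad s P' Q' F z r := by
  obtain ⟨D, hDF, hWW, D', hball, hD'D, hBW⟩ := hb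
  have hin : ∀ u ∈ D, u ∈ latCl F := fun u hu => lat_mem_cl.2 (Or.inl (hDF hu))
  have hout : ∀ u ∈ D, ∀ v, triAdj u v → v ∈ latCl F := fun u hu v huv => lat_mem_cl.2 (Or.inr ⟨u, hDF hu, huv⟩)
  refine ⟨D, hDF, ?_, D', hball, hD'D, ?_⟩
  · intro u hu v hv huv
    obtain ⟨h1, h2, h3⟩ := hWW u hu v hv huv
    rw [← hP u (hin u hu), ← hP v (hout u hu v huv), ← hQ u (hin u hu), ← hQ v (hout u hu v huv)]
    exact ⟨h1, h2, h3⟩
  · intro u hu v hv huv
    rw [← hP u (hin u (hD'D hu)), ← hP v (hout u (hD'D hu) v huv)]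
    exact hBW u hu v hv huv

theorem dob_bad_congr {s : Bool} {F : Finset TV} {z : TV} {r : ℕ} {P P' Q Q' : TV → Prop}
    (hP : ∀ u ∈ latCl F, (P u ↔ P' u)) (hQ : ∀ u ∈ latCl F, (Q u ↔ Q' u)) :
    DobBad s P Q F z r ↔ DobBad s P' Q' F z r :=
  ⟨dob_bad_imp hP hQ, dob_bad_imp (fun u hu => (hP u hu).symm) (fun u hu => (hQ u hu).symm)⟩

theorem dob_mem_htB {V : Finset TV} {h : TV → ℤ} {u : TV} (hu : u ∈ V) : u ∈ htB V h ↔ momB (h u) := by
  unfold htB momB
  rw [Finset.mem_filter]
  exact ⟨fun h => h.2, fun h => ⟨hu, h⟩⟩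

theorem dob_mem_htW {V : Finset TV} {h : TV → ℤ} {u : TV} (hu : u ∈ V) : u ∈ htW V h ↔ momB (h u + 1) := by
  unfold htW momB
  rw [Finset.mem_filter]
  constructor
  · rintro ⟨_, h⟩; omega
  · intro h; exact ⟨hu, by omega⟩

/-- **(C) LIFT.**  The ordered pair of walls of the Gray spins of the flat problem at level `0` = the same event under the ambient pair law with `(+,+)` on the skeleton. -/
theorem dob_lift (x : ℝ) (hx0 : 0 < x) (hx1 : x ≤ 1) (s : Bool) (V F : Finset TV) (z : TV) (r : ℕ)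
    (hV : DisAmb V) (hcl : latCl F ⊆ V) (hsk : TscConn tscG (↑(V \ F) : Set TV)) (hne : (V \ F).Nonempty) :
    htP x F 0 (fun g => DobBad s (fun u => momB (g u)) (fun u => momB (g u + 1)) F z r) =
      (clAmb x V).P (fun ω => V \ F ⊆ ω.B ∧ V \ F ⊆ ω.W)
        (fun ω => DobBad s (fun u => u ∈ ω.B) (fun u => u ∈ ω.W) F z r) := by
  classical
  obtain ⟨G, hG⟩ : ∃ G : ClCfg TV TV → ℝ,
      G = fun ω => if DobBad s (fun u => u ∈ ω.B) (fun u => u ∈ ω.W) F z r then 1 else 0 := ⟨_, rfl⟩
  have hGP : ClPair G := by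
    intro ω ω' hb hw
    rw [hG]
    simp only [hb, hw]
  have lift := dis_lift x hx0 hx1 V F hV hcl hsk hne G hGP
  have e1 : htP x F 0 (fun g => DobBad s (fun u => momB (g u)) (fun u => momB (g u + 1)) F z r) =
      htE x F 0 (fun h => G ⟨htB V h, htW V h, ∅⟩) := by
    unfold htP
    refine ht_E_congr x F 0 fun h _ => ?_
    have : DobBad s (fun u => momB (h u)) (fun u => momB (h u + 1)) F z r ↔
        DobBad s (fun u => u ∈ htB V h) (fun u => u ∈ htW V h) F z r :=
      dob_bad_congr (fun u hu => (dob_mem_htB (hcl hu)).symm) (fun u hu => (dob_mem_htW (hcl hu)).symm)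
    rw [hG]
    dsimp only
    by_cases hc : DobBad s (fun u => momB (h u)) (fun u => momB (h u + 1)) F z r
    · rw [if_pos hc, if_pos (this.1 hc)]
    · rw [if_neg hc, if_neg (fun h => hc (this.2 h))]
  rw [e1, lift, hG]
  unfold ClSys.P
  congr 1

/-! ### (D) the glue -/

/-- the radius of the ambient hexagon -/
def dobR (F : Finset TV) (z : TV) (m : ℕ) : ℕ := max (dshR F + 2) (m + latN z)

/-- the flat problem at level `0`, one sign -/
theorem dob_zero (x : ℝ) (hx0 : 0 < x) (hx1 : x ≤ 1) (s : Bool) (κ : ℝ) (r0 Cv : ℕ) (H : DobCell x s κ r0 Cv)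
    (F : Finset TV) (z : TV) (r : ℕ) (hF : MomCo F) (hr : r0 ≤ r) (hB : ¬ latBall z (5 * r) ⊆ F) :
    htP x F 0 (fun g => DobBad s (fun u => momB (g u)) (fun u => momB (g u + 1)) F z r) ≤ 1 - κ := by
  have hR : dshR F + 2 ≤ dobR F z (Cv * r + 2) := le_max_left _ _
  rw [dob_lift x hx0 hx1 s (latBall 0 (dobR F z (Cv * r + 2))) F z r (dis_amb_ball 0 _) (dob_cl_sub F hR)
    (dob_sk_conn F hF hR) (dob_sk_ne F hR)]
  refine H _ F z r (dis_amb_ball 0 _) (dob_cl_sub F hR) hF (plh_ball_sub_ball ?_) hr hB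
  rw [sub_zero]
  exact le_max_right _ _

/-- **(D3)** the obstruction in a flat height problem, from the cell bound of both signs. -/
theorem dob_main (x : ℝ) (hx0 : 0 < x) (hx2 : x ≤ 1)
    (hp : ∃ (κ : ℝ) (r0 Cv : ℕ), 0 < κ ∧ DobCell x true κ r0 Cv)
    (hm : ∃ (κ : ℝ) (r0 Cv : ℕ), 0 < κ ∧ DobCell x false κ r0 Cv) :
    ∃ (κ : ℝ) (r0 : ℕ), 0 < κ ∧ ∀ (F : Finset TV) (t : ℤ) (z : TV) (r : ℕ),
      MomCo F → r0 ≤ r → ¬ latBall z (5 * r) ⊆ F →
      htP x F (fun _ => t) (MomBad F z r) ≤ 1 - κ := by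
  obtain ⟨κ1, r1, C1, hκ1, H1⟩ := hp
  obtain ⟨κ2, r2, C2, hκ2, H2⟩ := hm
  refine ⟨min κ1 κ2, max r1 r2, lt_min hκ1 hκ2, fun F t z r hF hr hB => ?_⟩
  refine (dob_level hx0 F t z r).trans ?_
  cases dobS t with
  | true =>
    have := dob_zero x hx0 hx2 true κ1 r1 C1 H1 F z r hF ((le_max_left _ _).trans hr) hB
    have h2 := min_le_left κ1 κ2
    linarith
  | false =>
    have := dob_zero x hx0 hx2 false κ2 r2 C2 H2 F z r hF ((le_max_right _ _).trans hr) hB
    have h2 := min_le_right κ1 κ2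
    linarith

/-- **(D3)** the obstruction in a flat height problem = the body of `exit_dis_obstr`. -/
theorem dob_exit (x : ℝ) (hx1 : 1 / Real.sqrt 2 ≤ x) (hx2 : x ≤ 1) :
    ∃ (κ : ℝ) (r0 : ℕ), 0 < κ ∧ ∀ (F : Finset TV) (t : ℤ) (z : TV) (r : ℕ),
      MomCo F → r0 ≤ r → ¬ latBall z (5 * r) ⊆ F →
      htP x F (fun _ => t) (MomBad F z r) ≤ 1 - κ := by
  have hx0 : 0 < x := lt_of_lt_of_le (by positivity) hx1
  have hT : DisT23 x true := exit_t23 x hx1 hx2
  obtain ⟨κ1, r1, C1, hκ1, _, H1⟩ := dob_cell x hx0 hx2 true hT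
  obtain ⟨κ2, r2, C2, hκ2, _, H2⟩ := dob_cell x hx0 hx2 false (dis_t23_flip x hx0 hx2 hT)
  exact dob_main x hx0 hx2 ⟨κ1, r1, C1, hκ1, H1⟩ ⟨κ2, r2, C2, hκ2, H2⟩

/-- the equation lemmas of the definitions of this file are generated HERE (RULES.md, rule 6) -/
theorem dob_eqns_cite : True := by
  have := @DobCell.eq_1
  have := @dobS.eq_1
  have := @dobR.eq_1
  trivial

end Claimed.Agent.R291
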