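import Claimed.Agent.R291.Dis.Amb
import Claimed.Agent.R291.Dis.First
import Claimed.Agent.R291.Pl.Ball
import Claimed.Agent.R291.Pl.CellPath

/-!
# Row 291 (S0539), Dis/Conn : (CONN) SEPARATION GIVES A CONNECTED, HOLE FREE CUT DOMAIN      (owner helper206, unit DIS; prefix `dcn_`, defs `Dcn…`)      no sorry

TEX 02-discrete l.96-110 ("good circuit"), l.511-690 (every use of "the circuit found"), in the SET language of `Dis/Base` (146).   No curve, no circuit.
On `ClSep S s E ω O A` (`S = clAmb x V`; the invasion from `O` through the cells which are not open of sign `s` and the equality edges `E` misses `A`), `A` connected: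
`I₁` := the connected component of `A` in the set of the sites which are not invaded.  Then (`dcn_main`, structure `DcnDom`)
* `A ⊆ I₁`, `latCl I₁ ⊆ V`, `I₁` misses the invaded set (in particular `O`);   `I₁` is connected;
* `I₁` and `latInt I₁` have no hole (`MomCo`);
* the inner layer `latBd I₁` and the outer layer `latOut I₁` are connected (Timar);
* `ClCut S s I₁ ω` : every cell which crosses `I₁` is open of sign `s`;   the first spin equals `s` on both layers (`DcnDom.sign`; for `s = false` the weight of `ω` must be non zero);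
* both layers meet every path from `I₁` to its complement (`dcn_blk_bd`, `dcn_blk_out`: true for every finite set), in particular every path from `A` to `O`.
Forms: `dcn_main` (general), `dcn_ball` (`O = V \ latBall z L`, `A = latBall z r`), `dcn_legal_E` (the equality edges of a legal history are fine),
`DcnBlk S A Z` ("`S` meets every path from `A` to `Z`"), `dcn_blk_meet`, `dcn_blk_conn`, **`dcn_two`** (two rings with overlapping inner balls, each protruding from the outer ball of the other, MEET), `dcn_chain`.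
-/

set_option autoImplicit false
set_option linter.unusedVariables false
set_option linter.unusedSectionVars false
set_option linter.unusedSimpArgs false

namespace Claimed.Agent.R291

open Relation Claims Claims.C0467

/-! ### blocking sets -/

/-- `S` meets every path from `A` to `Z` -/
def DcnBlk (S A Z : Set TV) : Prop := ∀ (Q : Set TV) (a b : TV), a ∈ A → b ∈ Z → TscR tscG Q a b → (Q ∩ S).Nonempty

theorem dcn_blk_mono {S S' A A' Z Z' : Set TV} (hS : S ⊆ S') (hA : A' ⊆ A) (hZ : Z' ⊆ Z) (h : DcnBlk S A Z) : DcnBlk S' A' Z' :=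
  fun Q a b ha hb hab => (h Q a b (hA ha) (hZ hb) hab).mono (Set.inter_subset_inter_right Q hS)

/-- a connected set which meets `A` and `Z` meets the blocking set -/
theorem dcn_blk_meet {S A Z K : Set TV} (h : DcnBlk S A Z) (hK : TscConn tscG K) (hA : (K ∩ A).Nonempty) (hZ : (K ∩ Z).Nonempty) :
    (K ∩ S).Nonempty := by
  obtain ⟨a, haK, haA⟩ := hA
  obtain ⟨b, hbK, hbZ⟩ := hZ
  exact h K a b haA hbZ (hK a haK b hbK)

theorem dcn_blk_symm {S A Z : Set TV} (h : DcnBlk S A Z) : DcnBlk S Z A :=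
  fun Q a b ha hb hab => h Q b a hb ha (tsc_R_symm hab)

/-- a path which leaves a set has a step which leaves it -/
theorem dcn_exit {C Q : Set TV} {a b : TV} (ha : a ∈ C) (hb : b ∉ C) (h : TscR tscG Q a b) :
    ∃ c d, c ∈ C ∧ d ∉ C ∧ triAdj c d ∧ c ∈ Q ∧ d ∈ Q := by
  induction h with
  | refl => exact absurd ha hb
  | @tail b' b _ hs ih =>
    by_cases hb' : b' ∈ C
    · exact ⟨b', b, hb', hb, hs.1, hs.2.1, hs.2.2⟩
    · exact ih hb'

/-- the inner layer of a finite set meets every path which leaves the set -/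
theorem dcn_blk_bd (I : Finset TV) : DcnBlk (↑(latBd I)) (↑I) ((↑I : Set TV)ᶜ) := by
  intro Q a b ha hb hab
  obtain ⟨c, d, hc, hd, hcd, hcQ, _⟩ := dcn_exit ha hb hab
  exact ⟨c, hcQ, Finset.mem_coe.2 (lat_mem_bd.2 ⟨hc, d, hcd, hd⟩)⟩

/-- the outer layer of a finite set meets every path which leaves the set -/
theorem dcn_blk_out (I : Finset TV) : DcnBlk (↑(latOut I)) (↑I) ((↑I : Set TV)ᶜ) := by
  intro Q a b ha hb hab
  obtain ⟨c, d, hc, hd, hcd, _, hdQ⟩ := dcn_exit ha hb hab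
  exact ⟨d, hdQ, Finset.mem_coe.2 (mne_mem_out.2 ⟨hd, c, hc, hcd⟩)⟩

/-- a connected set is its own component -/
theorem dcn_comp_eq {s : Set TV} (hs : TscConn tscG s) {x : TV} (hx : x ∈ s) : tscComp tscG s x = s :=
  Set.Subset.antisymm (tsc_comp_sub x) fun v hv => ⟨hv, hs x hx v hv⟩

/-- **Timar for a finite connected set without hole**: both layers are connected -/
theorem dcn_layers {I : Finset TV} (hc : TscConn tscG (↑I : Set TV)) (hco : MomCo I) :
    TscConn tscG (↑(latBd I) : Set TV) ∧ TscConn tscG (↑(latOut I) : Set TV) := by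
  obtain ⟨o, ho⟩ := mne_exists_out I
  have ho' : o ∈ (↑I : Set TV)ᶜ := ho
  have hcomp : tscComp tscG (↑I : Set TV)ᶜ o = (↑I : Set TV)ᶜ := dcn_comp_eq hco ho'
  constructor
  · have h := tsc_plane_timar_in hc o
    rw [hcomp] at h
    have e : (↑(latBd I) : Set TV) = {c | c ∈ (↑I : Set TV) ∧ ∃ d ∈ (↑I : Set TV)ᶜ, triAdj d c} := by
      ext c
      rw [Finset.mem_coe, lat_mem_bd]
      constructor
      · rintro ⟨h1, v, hv, hvI⟩; exact ⟨h1, v, hvI, lat_adj_symm hv⟩
      · rintro ⟨h1, v, hvI, hv⟩; exact ⟨h1, v, lat_adj_symm hv, hvI⟩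
    rw [e]; exact h
  · have h := tsc_plane_timar hc o
    rw [hcomp] at h
    have e : (↑(latOut I) : Set TV) = {d | d ∈ (↑I : Set TV)ᶜ ∧ ∃ c ∈ (↑I : Set TV), triAdj c d} := by
      ext d
      rw [Finset.mem_coe, mne_mem_out]
      exact Iff.rfl
    rw [e]; exact h

/-! ### the cut domain -/

/-- the conclusions of (CONN) -/
structure DcnDom (x : ℝ) (V : Finset TV) (s : Bool) (E : Finset (TV × TV)) (ω : ClCfg TV TV) (O A I : Finset TV) : Prop where
  sub : A ⊆ I
  cl : latCl I ⊆ V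
  off : ∀ v ∈ I, ∀ u ∈ O, ¬ ReflTransGen (clStep (clAmb x V) s E ω) u v
  conn : TscConn tscG (↑I : Set TV)
  co : MomCo I
  coInt : MomCo (latInt I)
  bd : TscConn tscG (↑(latBd I) : Set TV)
  out : TscConn tscG (↑(latOut I) : Set TV)
  cut : ClCut (clAmb x V) s I ω
  inv : ∀ d ∈ latOut I, ∃ u ∈ O, ReflTransGen (clStep (clAmb x V) s E ω) u d

theorem dcn_eqns_cite : True := by
  have := @DcnBlk.eq_1
  trivial

/-- one step of the invasion moves to the same site or to a neighbour -/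
theorem dcn_step_adj (x : ℝ) (V : Finset TV) (s : Bool) (E : Finset (TV × TV)) (hE : ∀ e ∈ E, e.1 = e.2 ∨ triAdj e.1 e.2)
    (ω : ClCfg TV TV) {u v : TV} (h : clStep (clAmb x V) s E ω u v) : u = v ∨ triAdj u v := by
  rcases h with ⟨y, _, hu, hv, _⟩ | h | h
  · by_cases huv : u = v
    · exact Or.inl huv
    · exact Or.inr (pcp_cell_adj (Finset.mem_inter.1 hu).1 (Finset.mem_inter.1 hv).1 huv)
  · exact hE _ h
  · rcases hE _ h with h' | h'
    · exact Or.inl h'.symm
    · exact Or.inr (lat_adj_symm h')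

/-- the equality edges of a legal history lie inside cells -/
theorem dcn_legal_E (x : ℝ) (V : Finset TV) (K : ClCon TV TV) (hK : ClLegal (clAmb x V) K) :
    ∀ e ∈ K.Eq, e.1 = e.2 ∨ triAdj e.1 e.2 := by
  intro e he
  obtain ⟨y, _, h1, h2⟩ := hK.eq e he
  by_cases h : e.1 = e.2
  · exact Or.inl h
  · exact Or.inr (pcp_cell_adj (Finset.mem_inter.1 h1).1 (Finset.mem_inter.1 h2).1 h)

/-- **(CONN)** -/
theorem dcn_main (x : ℝ) (V : Finset TV) (s : Bool) (E : Finset (TV × TV)) (hE : ∀ e ∈ E, e.1 = e.2 ∨ triAdj e.1 e.2)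
    (ω : ClCfg TV TV) (O A : Finset TV) (hbd : latBd V ⊆ O) (hOc : TscConn tscG ((↑V : Set TV)ᶜ ∪ ↑O))
    (hAV : A ⊆ V) (hA : TscConn tscG (↑A : Set TV)) (hne : A.Nonempty) (hsep : ClSep (clAmb x V) s E ω O A) :
    ∃ I : Finset TV, DcnDom x V s E ω O A I := by
  classical
  set S := clAmb x V with hS
  -- the invaded set together with the outside of `V`
  set X : Set TV := {v | v ∉ V ∨ ∃ u ∈ O, ReflTransGen (clStep S s E ω) u v} with hX
  have hX0 : (↑V : Set TV)ᶜ ∪ ↑O ⊆ X := by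
    rintro v (hv | hv)
    · exact Or.inl hv
    · exact Or.inr ⟨v, hv, ReflTransGen.refl⟩
  -- every site reached by the invasion is joined to its starting point inside `X`
  have hreach : ∀ u ∈ O, ∀ v, ReflTransGen (clStep S s E ω) u v → TscR tscG X u v := by
    intro u hu v huv
    induction huv with
    | refl => exact tsc_R_refl u
    | @tail b c hub hbc ih =>
      rcases dcn_step_adj x V s E hE ω hbc with rfl | hadj
      · exact ih
      · exact ih.tail ⟨hadj, Or.inr ⟨u, hu, hub⟩, Or.inr ⟨u, hu, hub.tail hbc⟩⟩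
  obtain ⟨o, ho⟩ := mne_exists_out V
  have hoX : o ∈ X := Or.inl ho
  have hXconn : TscConn tscG X := by
    have key : ∀ v ∈ X, TscR tscG X v o := by
      rintro v (hv | ⟨u, hu, huv⟩)
      · exact tsc_R_mono hX0 (hOc v (Or.inl hv) o (Or.inl ho))
      · exact tsc_R_trans (tsc_R_symm (hreach u hu v huv)) (tsc_R_mono hX0 (hOc u (Or.inr hu) o (Or.inl ho)))
    exact fun a ha b hb => tsc_R_trans (key a ha) (tsc_R_symm (key b hb))
  obtain ⟨a0, ha0⟩ := hne
  have hAX : (↑A : Set TV) ⊆ Xᶜ := by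
    rintro v hv (h | ⟨u, hu, huv⟩)
    · exact h (hAV hv)
    · exact hsep u hu v hv huv
  set C : Set TV := tscComp tscG Xᶜ a0 with hC
  have hnice : PlhNice C := plh_comp_nice hXconn ⟨o, hoX⟩ a0
  have hCX : C ⊆ Xᶜ := tsc_comp_sub a0
  have hCV : ∀ v ∈ C, v ∈ V := by
    intro v hv
    by_contra h
    exact hCX hv (Or.inl h)
  have hAC : (↑A : Set TV) ⊆ C := plh_conn_sub_comp hA hAX (Finset.mem_coe.2 ha0) (tsc_comp_self (hAX (Finset.mem_coe.2 ha0)))
  set I : Finset TV := V.filter (fun v => v ∈ C) with hI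
  have hIC : (↑I : Set TV) = C := by
    ext v
    rw [Finset.mem_coe, Finset.mem_filter]
    exact ⟨fun h => h.2, fun h => ⟨hCV v h, h⟩⟩
  have hmem : ∀ v, v ∈ I ↔ v ∈ C := fun v => by rw [← hIC, Finset.mem_coe]
  have hoff : ∀ v ∈ I, ∀ u ∈ O, ¬ ReflTransGen (clStep S s E ω) u v :=
    fun v hv u hu huv => hCX ((hmem v).1 hv) (Or.inr ⟨u, hu, huv⟩)
  -- the neighbours of `I` are in `V`
  have hnb : ∀ c ∈ I, ∀ d, triAdj c d → d ∈ V := by
    intro c hc d hcd
    by_contra hd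
    have hcV := hCV c ((hmem c).1 hc)
    exact hoff c hc c (hbd (lat_mem_bd.2 ⟨hcV, d, hcd, hd⟩)) ReflTransGen.refl
  -- a neighbour of `I` off `I` is invaded
  have hinv : ∀ c ∈ I, ∀ d, triAdj c d → d ∉ I → ∃ u ∈ O, ReflTransGen (clStep S s E ω) u d := by
    intro c hc d hcd hd
    have hdX : d ∈ X := by
      by_contra h
      exact hd ((hmem d).2 (tsc_comp_adj ((hmem c).1 hc) h hcd))
    rcases hdX with h | h
    · exact absurd (hnb c hc d hcd) h
    · exact h
  have hconn : TscConn tscG (↑I : Set TV) := by rw [hIC]; exact hnice.1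
  have hco : MomCo I := by unfold MomCo; rw [hIC]; exact hnice.2
  have hlay := dcn_layers hconn hco
  refine ⟨I, ⟨fun v hv => (hmem v).2 (hAC (Finset.mem_coe.2 hv)), ?_, hoff, hconn, hco, mne_int_co hco, hlay.1, hlay.2, ?_, ?_⟩⟩
  · intro v hv
    rcases lat_mem_cl.1 hv with h | ⟨c, hc, hcv⟩
    · exact hCV v ((hmem v).1 h)
    · exact hnb c hc v hcv
  · rintro y hy ⟨⟨c, hcy, hc⟩, d, hdy, hd⟩
    by_contra hτ
    have hcd : triAdj c d := pcp_cell_adj (Finset.mem_inter.1 hcy).1 (Finset.mem_inter.1 hdy).1 (fun h => hd (h ▸ hc))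
    obtain ⟨u, hu, hud⟩ := hinv c hc d hcd hd
    exact hoff c hc u hu (hud.tail (Or.inl ⟨y, hy, hdy, hcy, hτ⟩))
  · intro d hd
    obtain ⟨hdI, c, hc, hcd⟩ := mne_mem_out.1 hd
    exact hinv c hc d hcd hdI

section consequences

variable {x : ℝ} {V : Finset TV} {s : Bool} {E : Finset (TV × TV)} {ω : ClCfg TV TV} {O A I : Finset TV}

theorem DcnDom.disj (h : DcnDom x V s E ω O A I) : Disjoint I O :=
  Finset.disjoint_left.2 fun v hv hO => h.off v hv v hO ReflTransGen.refl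

theorem DcnDom.subV (h : DcnDom x V s E ω O A I) : I ⊆ V := fun v hv => h.cl (lat_mem_cl.2 (Or.inl hv))

theorem DcnDom.not_inv (h : DcnDom x V s E ω O A I) : Disjoint I (clInv (clAmb x V) s E ω O) := by
  classical
  refine Finset.disjoint_left.2 fun v hv hi => ?_
  unfold clInv at hi
  obtain ⟨_, u, hu, huv⟩ := Finset.mem_filter.1 hi
  exact h.off v hv u hu huv

/-- the inner layer meets every path from `A` to `O` -/
theorem DcnDom.blk_bd (h : DcnDom x V s E ω O A I) : DcnBlk (↑(latBd I)) (↑A) (↑O) :=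
  dcn_blk_mono subset_rfl (Finset.coe_subset.2 h.sub) (fun v hv hI => (Finset.disjoint_left.1 h.disj) hI hv) (dcn_blk_bd I)

/-- the outer layer meets every path from `A` to `O` -/
theorem DcnDom.blk_out (h : DcnDom x V s E ω O A I) : DcnBlk (↑(latOut I)) (↑A) (↑O) :=
  dcn_blk_mono subset_rfl (Finset.coe_subset.2 h.sub) (fun v hv hI => (Finset.disjoint_left.1 h.disj) hI hv) (dcn_blk_out I)

/-- every site of the two layers lies in a cell which crosses `I` -/
theorem DcnDom.lay_cell (h : DcnDom x V s E ω O A I) {v : TV} (hv : v ∈ latBd I ∪ latOut I) :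
    ∃ y ∈ (clAmb x V).C, v ∈ (clAmb x V).sv y ∧ clCross (clAmb x V) I y := by
  have key : ∀ c d, c ∈ I → d ∉ I → triAdj c d →
      ∃ y ∈ (clAmb x V).C, c ∈ (clAmb x V).sv y ∧ d ∈ (clAmb x V).sv y ∧ clCross (clAmb x V) I y := by
    intro c d hc hd hcd
    obtain ⟨y, hcy, hdy⟩ := pcp_adj_cell hcd
    have hcV := h.subV hc
    have hdV : d ∈ V := h.cl (lat_mem_cl.2 (Or.inr ⟨c, hc, hcd⟩))
    have h1 : c ∈ (clAmb x V).sv y := Finset.mem_inter.2 ⟨hcy, hcV⟩
    have h2 : d ∈ (clAmb x V).sv y := Finset.mem_inter.2 ⟨hdy, hdV⟩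
    exact ⟨y, lat_mem_cells.2 ⟨c, hcy, hcV⟩, h1, h2, ⟨c, h1, hc⟩, d, h2, hd⟩
  rcases Finset.mem_union.1 hv with hv | hv
  · obtain ⟨hvI, d, hvd, hd⟩ := lat_mem_bd.1 hv
    obtain ⟨y, hy, h1, _, h3⟩ := key v d hvI hd hvd
    exact ⟨y, hy, h1, h3⟩
  · obtain ⟨hvI, c, hc, hcv⟩ := mne_mem_out.1 hv
    obtain ⟨y, hy, _, h2, h3⟩ := key c v hc hvI hcv
    exact ⟨y, hy, h2, h3⟩

/-- **the first spin equals `s` on the two layers** (for `s = false`: on configurations of non zero weight) -/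
theorem DcnDom.sign (h : DcnDom x V s E ω O A I) (hw : s = true ∨ (clAmb x V).wt ω ≠ 0) {v : TV} (hv : v ∈ latBd I ∪ latOut I) :
    v ∈ ω.B ↔ s = true := by
  obtain ⟨y, hy, hvy, hcr⟩ := h.lay_cell hv
  have hτ := h.cut y hy hcr
  unfold clTau clSg at hτ
  by_cases ho : y ∈ ω.O
  · rw [if_pos ho] at hτ
    by_cases hB : (clAmb x V).sv y ⊆ ω.B
    · rw [if_pos hB] at hτ
      have hs : s = true := by
        by_contra hs
        rw [if_neg hs] at hτ
        omega
      exact ⟨fun _ => hs, fun _ => hB hvy⟩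
    · rw [if_neg hB] at hτ
      have hs : s ≠ true := by
        intro hs
        rw [if_pos hs] at hτ
        omega
      have hw' : (clAmb x V).wt ω ≠ 0 := hw.resolve_left hs
      rcases dam_open_const hw' hy ho with hc | hc
      · exact absurd hc hB
      · exact ⟨fun hvB => absurd hvB (hc v hvy), fun h' => absurd h' hs⟩
  · rw [if_neg ho] at hτ
    split_ifs at hτ
    omega

end consequences

/-! ### balls -/

/-- a neighbour of a site of a ball lies in the next ball -/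
theorem dcn_ball_nb {z c d : TV} {L : ℕ} (hc : c ∈ latBall z L) (hcd : triAdj c d) : d ∈ latBall z (L + 1) := by
  rw [lat_mem_ball] at hc ⊢
  have h2 : triAdj (c - z) (d - z) := by
    rw [lat_adj_iff] at hcd ⊢
    have : d - z - (c - z) = d - c := by abel
    rwa [this]
  have := plh_N_adj h2
  omega

/-- **(CONN) for concentric balls** -/
theorem dcn_ball (x : ℝ) (V : Finset TV) (s : Bool) (E : Finset (TV × TV)) (hE : ∀ e ∈ E, e.1 = e.2 ∨ triAdj e.1 e.2)
    (ω : ClCfg TV TV) (z : TV) (r L : ℕ) (hV : latBall z (L + 1) ⊆ V) (hrL : r ≤ L)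
    (hsep : ClSep (clAmb x V) s E ω (V \ latBall z L) (latBall z r)) :
    ∃ I : Finset TV, DcnDom x V s E ω (V \ latBall z L) (latBall z r) I ∧ I ⊆ latBall z L ∧
      latOut I ⊆ latBall z (L + 1) \ latBall z r := by
  have hLV : latBall z L ⊆ V := (plh_ball_mono z (Nat.le_succ L)).trans hV
  have hbd : latBd V ⊆ V \ latBall z L := by
    intro v hv
    obtain ⟨hvV, d, hvd, hd⟩ := lat_mem_bd.1 hv
    exact Finset.mem_sdiff.2 ⟨hvV, fun hvL => hd (hV (dcn_ball_nb hvL hvd))⟩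
  have hset : (↑V : Set TV)ᶜ ∪ ↑(V \ latBall z L) = (↑(latBall z L) : Set TV)ᶜ := by
    ext v
    simp only [Set.mem_union, Set.mem_compl_iff, Finset.mem_coe, Finset.mem_sdiff]
    constructor
    · rintro (h | h)
      · exact fun hL => h (hLV hL)
      · exact h.2
    · intro h
      by_cases hv : v ∈ V
      · exact Or.inr ⟨hv, h⟩
      · exact Or.inl hv
  obtain ⟨I, hI⟩ := dcn_main x V s E hE ω (V \ latBall z L) (latBall z r) hbd (hset ▸ plh_ball_compl_conn z L)
    ((plh_ball_mono z hrL).trans hLV) (plh_ball_conn z r) ⟨z, plh_ball_self z r⟩ hsep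
  have hIL : I ⊆ latBall z L := by
    intro v hv
    by_contra hn
    exact (Finset.disjoint_left.1 hI.disj) hv (Finset.mem_sdiff.2 ⟨hI.subV hv, hn⟩)
  refine ⟨I, hI, hIL, fun d hd => ?_⟩
  obtain ⟨hdI, c, hc, hcd⟩ := mne_mem_out.1 hd
  exact Finset.mem_sdiff.2 ⟨dcn_ball_nb (hIL hc) hcd, fun hdr => hdI (hI.sub hdr)⟩

/-! ### rings meet -/

/-- two blocking sets, the second one connected: if it joins the two sides of the first one they meet -/
theorem dcn_blk_conn {S₁ S₂ A₁ Z₁ : Set TV} (h₁ : DcnBlk S₁ A₁ Z₁) (hc : TscConn tscG S₂) (hA : (S₂ ∩ A₁).Nonempty)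
    (hZ : (S₂ ∩ Z₁).Nonempty) : (S₁ ∩ S₂).Nonempty := by
  obtain ⟨v, h1, h2⟩ := dcn_blk_meet h₁ hc hA hZ
  exact ⟨v, h2, h1⟩

/-- the complements of two finite sets meet -/
theorem dcn_compl_meet (F G : Finset TV) : ((↑F : Set TV)ᶜ ∩ (↑G : Set TV)ᶜ).Nonempty := by
  classical
  obtain ⟨o, ho⟩ := mne_exists_out (F ∪ G)
  exact ⟨o, fun h => ho (Finset.mem_union_left _ h), fun h => ho (Finset.mem_union_right _ h)⟩

/-- **two rings meet** (general form): `A₁` connected, `F₁` finite without hole -/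
theorem dcn_two' {S₁ S₂ A₁ A₂ : Set TV} {F₁ F₂ : Finset TV} (h₁ : DcnBlk S₁ A₁ (↑F₁ : Set TV)ᶜ) (h₂ : DcnBlk S₂ A₂ (↑F₂ : Set TV)ᶜ)
    (hc : TscConn tscG S₂) (hA₁ : TscConn tscG A₁) (hF₁ : MomCo F₁) (hov : (A₁ ∩ A₂).Nonempty)
    (hp₁ : (A₁ ∩ (↑F₂ : Set TV)ᶜ).Nonempty) (hp₂ : (A₂ ∩ (↑F₁ : Set TV)ᶜ).Nonempty) : (S₁ ∩ S₂).Nonempty := by
  refine dcn_blk_conn h₁ hc ?_ ?_
  · obtain ⟨v, h1, h2⟩ := dcn_blk_meet h₂ hA₁ hov hp₁
    exact ⟨v, h2, h1⟩
  · obtain ⟨v, h1, h2⟩ := dcn_blk_meet h₂ hF₁ (by rw [Set.inter_comm]; exact hp₂) (dcn_compl_meet F₁ F₂)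
    exact ⟨v, h2, h1⟩

/-- **two rings meet**: `S_i` blocks `latBall z_i r_i` from the complement of `latBall z_i R_i`, `S₂` connected; the inner balls overlap and each of them
protrudes from the outer ball of the other ring -/
theorem dcn_two {S₁ S₂ : Set TV} {z₁ z₂ : TV} {r₁ R₁ r₂ R₂ : ℕ}
    (h₁ : DcnBlk S₁ (↑(latBall z₁ r₁)) (↑(latBall z₁ R₁) : Set TV)ᶜ) (h₂ : DcnBlk S₂ (↑(latBall z₂ r₂)) (↑(latBall z₂ R₂) : Set TV)ᶜ)
    (hc : TscConn tscG S₂) (hov : ¬ Disjoint (latBall z₁ r₁) (latBall z₂ r₂)) (hp₁ : ¬ latBall z₁ r₁ ⊆ latBall z₂ R₂)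
    (hp₂ : ¬ latBall z₂ r₂ ⊆ latBall z₁ R₁) : (S₁ ∩ S₂).Nonempty := by
  refine dcn_two' h₁ h₂ hc (plh_ball_conn z₁ r₁) (plh_ball_compl_conn z₁ R₁) ?_ ?_ ?_
  · obtain ⟨v, h1, h2⟩ := Finset.not_disjoint_iff.1 hov
    exact ⟨v, h1, h2⟩
  · obtain ⟨v, h1, h2⟩ := Finset.not_subset.1 hp₁
    exact ⟨v, h1, h2⟩
  · obtain ⟨v, h1, h2⟩ := Finset.not_subset.1 hp₂
    exact ⟨v, h1, h2⟩

/-- a chain of connected sets, consecutive ones meeting, is connected -/
theorem dcn_chain (S : ℕ → Set TV) (hS : ∀ j, TscConn tscG (S j)) (hm : ∀ j, (S j ∩ S (j + 1)).Nonempty) (n : ℕ) :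
    TscConn tscG (⋃ j ∈ Finset.range (n + 1), S j) := by
  induction n with
  | zero => simpa using hS 0
  | succ n ih =>
    obtain ⟨v, h1, h2⟩ := hm n
    have e : (⋃ j ∈ Finset.range (n + 1 + 1), S j) = (⋃ j ∈ Finset.range (n + 1), S j) ∪ S (n + 1) := by
      ext w
      simp only [Set.mem_iUnion, Finset.mem_range, Set.mem_union, exists_prop]
      constructor
      · rintro ⟨j, hj, hw⟩
        rcases Nat.lt_succ_iff_lt_or_eq.1 hj with h | h
        · exact Or.inl ⟨j, h, hw⟩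
        · exact Or.inr (h ▸ hw)
      · rintro (⟨j, hj, hw⟩ | hw)
        · exact ⟨j, Nat.lt_succ_of_lt hj, hw⟩
        · exact ⟨n + 1, Nat.lt_succ_self _, hw⟩
    rw [e]
    refine tsc_conn_union ih (hS (n + 1)) (a := v) (b := v) ?_ h2 (Or.inl rfl)
    simp only [Set.mem_iUnion, Finset.mem_range, exists_prop]
    exact ⟨n, Nat.lt_succ_self n, h1⟩

end Claimed.Agent.R291
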