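import Claimed.Agent.R291.Dis.Planar
import Claimed.Agent.R291.Ht.Basic
import Claimed.Agent.R291.Pl.Ball
import Claimed.Agent.R291.Exit.T23
import Claimed.Agent.R291.Defs.Mom

/-!
# Row 291 (S0539), Dis/CutHt : THE STOPPED CUT IN HEIGHT FORM (contract D5 = `exit_dis_cut`)      (owner helper62; head of the unit DIS helper146; prefix `dch_` / `Dch` / `dch`)

TEX[prop:plane-moments] 03-moments l.474-490, TEX[lem:cell-cut] 02-discrete l.112-150, TEX[lem:buffer-circuits].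

CHAIN (no second lift, no component of the cut set, no TriSC on the cut set):
* sec. 1  STATUS SUMMATION (abstract): for a constraint `K` and an observable `G` of the pair `(B, W)`:   `N (K ∧ Cut_s(I)) G = N K (f_I * G)`,
          `f_I = dchF S (S.ccr I) s` = conditional probability of the cut given the pair = `∏_{y crossing} 1{B = s on y} * (q_y if W is constant on y, else 1)`.
* sec. 2  HEIGHT SIDE: `U ≥ 0` does not read `F' ⊆ F0`, `m ≤ htE x F' h φ` on `{U ≠ 0}`   ⟹   `m * htE x F0 0 U ≤ htE x F0 0 (U * φ)`      (DLR).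
* sec. 3  DESCENT: a local gradient observable `φ` on a connected `T` is a pair observable `dchG T φ`.
* sec. 4  GEOMETRY: `dchD I z0` = component of `z0` in `latInt I`: hole-free, its outer boundary is a connected part of `latBd I`.
* sec. 5  AMBIENT: `MomCo F0` ⟹ a ball `V ⊇ latCl F0` with `V \ F0` connected;  the histories `dchK V F0` (legal), `dchKL V F0` (with the label).
* sec. 6  RING: a plus cut between `latBall z0 (ρ+1)` and `latBall z0 (2ρ)` has probability `≥ c`.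
* sec. 7  ASSEMBLY: `dch_main` = `exit_dis_cut`.
-/

set_option autoImplicit false
set_option linter.unusedSectionVars false
set_option linter.unusedVariables false

namespace Claimed.Agent.R291

open Claims Claims.C0467 Finset

/-! ## 1. Status summation -/

section abs

variable {V Y : Type} [DecidableEq V] [DecidableEq Y]

/-- event of the pair `(B, W)` only -/
def DchPairP (K : ClCfg V Y → Prop) : Prop := ∀ ω ω' : ClCfg V Y, ω.B = ω'.B → ω.W = ω'.W → (K ω ↔ K ω')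

/-- one factor of `dchF` -/
def dchF1 (S : ClSys V Y) (s : Bool) (B W : Finset V) (y : Y) : ℝ :=
  if (∀ v ∈ S.sv y, (v ∈ B ↔ s = true)) then (if ClConst W (S.sv y) then S.q y else 1) else 0

/-- conditional probability, given the pair, that all the cells of `X` are open of sign `s` -/
def dchF (S : ClSys V Y) (X : Finset Y) (s : Bool) (ω : ClCfg V Y) : ℝ := ∏ y ∈ X, dchF1 S s ω.B ω.W y

/-- weight of an open cell -/
def dchA (S : ClSys V Y) (B : Finset V) (y : Y) : ℝ := if ClConst B (S.sv y) then S.q y else 0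

/-- weight of a closed cell -/
def dchB (S : ClSys V Y) (B W : Finset V) (y : Y) : ℝ :=
  if ClConst W (S.sv y) then (if ClConst B (S.sv y) then 1 - S.q y else S.q y) else 0

theorem dch_eqns_cite : True := by
  have := @DchPairP.eq_1
  have := @dchF1.eq_1
  have := @dchF.eq_1
  have := @dchA.eq_1
  have := @dchB.eq_1
  trivial

theorem dch_F_pair (S : ClSys V Y) (X : Finset Y) (s : Bool) : ClPair (dchF S X s) := by
  intro ω ω' h1 h2
  unfold dchF
  rw [h1, h2]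

theorem dch_F1_nonneg (S : ClSys V Y) (s : Bool) (B W : Finset V) {y : Y} (hq : 0 ≤ S.q y) : 0 ≤ dchF1 S s B W y := by
  unfold dchF1
  split_ifs <;> first | exact hq | norm_num

theorem dch_F_nonneg {S : ClSys V Y} (hS : ClOk S) {X : Finset Y} (hX : X ⊆ S.C) (s : Bool) (ω : ClCfg V Y) : 0 ≤ dchF S X s ω :=
  Finset.prod_nonneg fun y hy => dch_F1_nonneg S s _ _ (hS.q0 y (hX hy)).le

theorem dch_F_ne {S : ClSys V Y} {X : Finset Y} {s : Bool} {ω : ClCfg V Y} (h : dchF S X s ω ≠ 0) :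
    ∀ y ∈ X, ∀ v ∈ S.sv y, (v ∈ ω.B ↔ s = true) := by
  intro y hy
  by_contra hn
  apply h
  unfold dchF
  refine Finset.prod_eq_zero hy ?_
  unfold dchF1
  rw [if_neg hn]

theorem dch_F_congr (S : ClSys V Y) (X : Finset Y) (s : Bool) {ω ω' : ClCfg V Y}
    (h : ∀ y ∈ X, ∀ v ∈ S.sv y, (v ∈ ω.B ↔ v ∈ ω'.B) ∧ (v ∈ ω.W ↔ v ∈ ω'.W)) : dchF S X s ω = dchF S X s ω' := by
  unfold dchF
  refine Finset.prod_congr rfl fun y hy => ?_
  unfold dchF1
  have e1 : (∀ v ∈ S.sv y, (v ∈ ω.B ↔ s = true)) ↔ (∀ v ∈ S.sv y, (v ∈ ω'.B ↔ s = true)) :=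
    forall₂_congr fun v hv => by rw [(h y hy v hv).1]
  have e2 : ClConst ω.W (S.sv y) ↔ ClConst ω'.W (S.sv y) := dam_const_congr fun v hv => (h y hy v hv).2
  simp only [e1, e2]

/-- the weight as a product over the open and the closed cells -/
theorem dch_wt_split (S : ClSys V Y) (B W : Finset V) {O : Finset Y} (hO : O ⊆ S.C) :
    S.wt ⟨B, W, O⟩ = (∏ y ∈ O, dchA S B y) * ∏ y ∈ S.C \ O, dchB S B W y := by
  unfold ClSys.wt
  rw [← Finset.prod_sdiff hO, mul_comm]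
  congr 1
  · refine Finset.prod_congr rfl fun y hy => ?_
    unfold clCellW dchA
    rw [if_pos hy]
  · refine Finset.prod_congr rfl fun y hy => ?_
    unfold clCellW dchB
    rw [if_neg (Finset.mem_sdiff.1 hy).2]

/-- sum over the statuses -/
theorem dch_sum_O (S : ClSys V Y) (B W : Finset V) :
    ∑ O ∈ S.C.powerset, S.wt ⟨B, W, O⟩ = ∏ y ∈ S.C, (dchA S B y + dchB S B W y) := by
  rw [Finset.prod_add]
  exact Finset.sum_congr rfl fun O hO => dch_wt_split S B W (Finset.mem_powerset.1 hO)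

open Classical in
/-- sum over the statuses on the strong cut -/
theorem dch_sum_O_cut (S : ClSys V Y) {X : Finset Y} (hX : X ⊆ S.C) (s : Bool) (B W : Finset V) :
    ∑ O ∈ S.C.powerset, (if DamCut S X s ⟨B, W, O⟩ then S.wt ⟨B, W, O⟩ else 0) =
      ∏ y ∈ S.C, ((if y ∈ X then (if (∀ v ∈ S.sv y, (v ∈ B ↔ s = true)) then dchA S B y else 0) else dchA S B y)
        + (if y ∈ X then 0 else dchB S B W y)) := by
  classical
  rw [Finset.prod_add]
  refine Finset.sum_congr rfl fun O hO => ?_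
  have hO' := Finset.mem_powerset.1 hO
  by_cases hc : DamCut S X s ⟨B, W, O⟩
  · rw [if_pos hc, dch_wt_split S B W hO']
    congr 1
    · refine Finset.prod_congr rfl fun y hy => ?_
      by_cases hyX : y ∈ X
      · have h2 : ∀ v ∈ S.sv y, (v ∈ B ↔ s = true) := (hc y hyX).2
        rw [if_pos hyX, if_pos h2]
      · rw [if_neg hyX]
    · refine Finset.prod_congr rfl fun y hy => ?_
      have hyX : y ∉ X := fun h => (Finset.mem_sdiff.1 hy).2 (hc y h).1
      rw [if_neg hyX]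
  · rw [if_neg hc]
    unfold DamCut at hc
    push Not at hc
    obtain ⟨y, hyX, hy⟩ := hc
    by_cases hyO : y ∈ O
    · obtain ⟨v, hv, hvn⟩ := hy hyO
      symm
      refine mul_eq_zero_of_left (Finset.prod_eq_zero hyO ?_) _
      have : ¬ ∀ v ∈ S.sv y, (v ∈ B ↔ s = true) := fun h => hvn (h v hv)
      rw [if_pos hyX, if_neg this]
    · symm
      refine mul_eq_zero_of_right _ (Finset.prod_eq_zero (Finset.mem_sdiff.2 ⟨hX hyX, hyO⟩) ?_)
      rw [if_pos hyX]

theorem dch_factor (S : ClSys V Y) (s : Bool) (B W : Finset V) (y : Y) :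
    (if (∀ v ∈ S.sv y, (v ∈ B ↔ s = true)) then dchA S B y else 0) = dchF1 S s B W y * (dchA S B y + dchB S B W y) := by
  unfold dchF1
  by_cases h : ∀ v ∈ S.sv y, (v ∈ B ↔ s = true)
  · have hc : ClConst B (S.sv y) := by
      cases s
      · exact Or.inr fun v hv hvB => by simpa using (h v hv).1 hvB
      · exact Or.inl fun v hv => (h v hv).2 rfl
    rw [if_pos h, if_pos h]
    unfold dchA dchB
    rw [if_pos hc, if_pos hc]
    split_ifs <;> ring
  · rw [if_neg h, if_neg h, zero_mul]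

open Classical in
/-- **status summation**, at a fixed pair -/
theorem dch_sum_O_F (S : ClSys V Y) {X : Finset Y} (hX : X ⊆ S.C) (s : Bool) (B W : Finset V) :
    ∑ O ∈ S.C.powerset, (if DamCut S X s ⟨B, W, O⟩ then S.wt ⟨B, W, O⟩ else 0) =
      (∏ y ∈ X, dchF1 S s B W y) * ∑ O ∈ S.C.powerset, S.wt ⟨B, W, O⟩ := by
  rw [dch_sum_O_cut S hX, dch_sum_O]
  have e : ∏ y ∈ X, dchF1 S s B W y = ∏ y ∈ S.C, (if y ∈ X then dchF1 S s B W y else 1) := by
    rw [Finset.prod_ite_mem, Finset.inter_eq_right.2 hX]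
  rw [e, ← Finset.prod_mul_distrib]
  refine Finset.prod_congr rfl fun y _ => ?_
  by_cases hy : y ∈ X
  · rw [if_pos hy, if_pos hy, if_pos hy, add_zero, dch_factor]
  · rw [if_neg hy, if_neg hy, if_neg hy, one_mul]

/-- **STATUS SUMMATION**, strong cut -/
theorem dch_status (S : ClSys V Y) {X : Finset Y} (hX : X ⊆ S.C) (s : Bool) {K : ClCfg V Y → Prop} (hK : DchPairP K)
    {G : ClCfg V Y → ℝ} (hG : ClPair G) :
    S.N (fun ω => K ω ∧ DamCut S X s ω) G = S.N K (fun ω => dchF S X s ω * G ω) := by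
  classical
  unfold ClSys.N
  rw [cl_sum_cfgs, cl_sum_cfgs]
  refine Finset.sum_congr rfl fun B _ => Finset.sum_congr rfl fun W _ => ?_
  beta_reduce
  have hK' : ∀ O, K ⟨B, W, O⟩ ↔ K ⟨B, W, ∅⟩ := fun O => hK _ _ rfl rfl
  have hG' : ∀ O, G ⟨B, W, O⟩ = G ⟨B, W, ∅⟩ := fun O => hG _ _ rfl rfl
  by_cases hk : K ⟨B, W, ∅⟩
  · calc _ = (∑ O ∈ S.C.powerset, (if DamCut S X s ⟨B, W, O⟩ then S.wt ⟨B, W, O⟩ else 0)) * G ⟨B, W, ∅⟩ := by
          rw [Finset.sum_mul]
          refine Finset.sum_congr rfl fun O _ => ?_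
          rw [hG' O]
          by_cases hc : DamCut S X s ⟨B, W, O⟩
          · rw [if_pos ⟨(hK' O).2 hk, hc⟩, if_pos hc]
          · rw [if_neg (fun h => hc h.2), if_neg hc, zero_mul]
      _ = (∑ O ∈ S.C.powerset, S.wt ⟨B, W, O⟩) * ((∏ y ∈ X, dchF1 S s B W y) * G ⟨B, W, ∅⟩) := by
          rw [dch_sum_O_F S hX]
          ring
      _ = _ := by
          rw [Finset.sum_mul]
          refine Finset.sum_congr rfl fun O _ => ?_
          rw [hG' O, if_pos ((hK' O).2 hk)]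
          rfl
  · refine Finset.sum_congr rfl fun O _ => ?_
    have hk' : ¬ K ⟨B, W, O⟩ := fun h => hk ((hK' O).1 h)
    rw [if_neg (fun h => hk' h.1), if_neg hk']

/-- **STATUS SUMMATION**, `ClCut` form:   `N (K ∧ Cut_s(I)) G = N K (f_I * G)` -/
theorem dch_status_cut (S : ClSys V Y) (hS : ClOk S) (s : Bool) (I : Finset V) {K : ClCfg V Y → Prop} (hK : DchPairP K)
    {G : ClCfg V Y → ℝ} (hG : ClPair G) :
    S.N (fun ω => K ω ∧ ClCut S s I ω) G = S.N K (fun ω => dchF S (S.ccr I) s ω * G ω) := by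
  have hX : S.ccr I ⊆ S.C := Finset.filter_subset _ _
  rw [← dch_status S hX s hK hG]
  refine dam_N_congr S (fun ω _ hw => and_congr_right fun _ => ?_) G
  rw [← dam_cut_tau hX (fun y hy => hS.ne y (hX hy)) s hw]
  unfold ClCut ClSys.ccr
  constructor
  · intro h y hy
    obtain ⟨h1, h2⟩ := Finset.mem_filter.1 hy
    exact h y h1 h2
  · intro h y h1 h2
    exact h y (Finset.mem_filter.2 ⟨h1, h2⟩)

end abs

/-! ## 2. The height side -/

/-- **DLR lower bound**: `U ≥ 0` does not read `F' ⊆ F0`; on `{U ≠ 0}` the inside expectation of `φ` is at least `m` -/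
theorem dch_ht_term {x : ℝ} (hx : 0 < x) {F' F0 : Finset TV} (hF : F' ⊆ F0) (U φ : (TV → ℤ) → ℝ) (m : ℝ)
    (hU0 : ∀ h, 0 ≤ U h) (hU : HtOff F' U) (hm : ∀ h, HtAdm F0 0 h → U h ≠ 0 → m ≤ htE x F' h φ) :
    m * htE x F0 0 U ≤ htE x F0 0 (fun h => U h * φ h) := by
  rw [ht_dlr_mul hx hF 0 hU φ, ← ht_E_smul]
  refine ht_E_mono hx F0 0 fun h hh => ?_
  by_cases h0 : U h = 0
  · rw [h0]; simp
  · rw [mul_comm]
    exact mul_le_mul_of_nonneg_left (hm h hh h0) (hU0 h)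

/-! ## 3. Descent of a local gradient observable to the pair -/

/-- `g` is 1-Lipschitz on the edges inside `T` -/
def DchLip (T : Finset TV) (g : TV → ℤ) : Prop := ∀ u ∈ T, ∀ v ∈ T, triAdj u v → |g v - g u| ≤ 1

open Classical in
/-- value of `φ` on any lift of the pair `(P, Q)` on `T` -/
noncomputable def dchG0 (T : Finset TV) (φ : (TV → ℤ) → ℝ) (P Q : Finset TV) : ℝ :=
  if h : ∃ g : TV → ℤ, DchLip T g ∧ htB T g = P ∧ htW T g = Q then φ h.choose else 0

/-- the pair observable of the local gradient observable `φ` -/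
noncomputable def dchG (T : Finset TV) (φ : (TV → ℤ) → ℝ) (ω : ClCfg TV TV) : ℝ := dchG0 T φ (ω.B ∩ T) (ω.W ∩ T)

theorem dch_G_pair (T : Finset TV) (φ : (TV → ℤ) → ℝ) : ClPair (dchG T φ) := by
  intro ω ω' h1 h2
  unfold dchG
  rw [h1, h2]

theorem dch_G_loc (T : Finset TV) (φ : (TV → ℤ) → ℝ) : ClLoc T ∅ (dchG T φ) := by
  intro ω ω' h1 h2 _
  unfold dchG
  rw [h1, h2]

theorem dch_G_nonneg (T : Finset TV) {φ : (TV → ℤ) → ℝ} (hφ : ∀ h, 0 ≤ φ h) (ω : ClCfg TV TV) : 0 ≤ dchG T φ ω := by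
  unfold dchG dchG0
  split_ifs
  · exact hφ _
  · exact le_rfl

/-- two lifts of the same pair on a connected set differ by a constant -/
theorem dch_lift_unique {T : Finset TV} (hT : TscConn tscG (↑T : Set TV)) {g g' : TV → ℤ} (hg : DchLip T g) (hg' : DchLip T g')
    (hB : htB T g' = htB T g) (hW : htW T g' = htW T g) : ∃ c : ℤ, ∀ u ∈ T, g' u = g u + c := by
  have hres : ∀ u ∈ T, g' u % 4 = g u % 4 := by
    intro u hu
    have h1 := Finset.ext_iff.1 hB u
    have h2 := Finset.ext_iff.1 hW u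
    simp only [htB, htW, Finset.mem_filter, hu, true_and] at h1 h2
    omega
  rcases T.eq_empty_or_nonempty with rfl | ⟨u0, hu0⟩
  · exact ⟨0, fun u hu => by simp at hu⟩
  refine ⟨g' u0 - g u0, fun u hu => ?_⟩
  have hc := tsc_R_const (G := tscG) (s := (↑T : Set TV)) (fun u => g' u - g u) (fun a b hab => ?_) (hT u0 (Finset.mem_coe.2 hu0) u (Finset.mem_coe.2 hu))
  · omega
  · obtain ⟨h1, h2, h3⟩ := hab
    have a1 := abs_le.1 (hg a h2 b h3 h1)
    have a2 := abs_le.1 (hg' a h2 b h3 h1)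
    have r1 := hres a h2
    have r2 := hres b h3
    show g' a - g a = g' b - g b
    omega

/-- **descent** -/
theorem dch_G_eq {T : Finset TV} (hT : TscConn tscG (↑T : Set TV)) {φ : (TV → ℤ) → ℝ} (hloc : HtLoc T φ) (hgr : HtGrad φ)
    {g : TV → ℤ} (hg : DchLip T g) {ω : ClCfg TV TV} (hB : ω.B ∩ T = htB T g) (hW : ω.W ∩ T = htW T g) : dchG T φ ω = φ g := by
  have hex : ∃ g' : TV → ℤ, DchLip T g' ∧ htB T g' = ω.B ∩ T ∧ htW T g' = ω.W ∩ T := ⟨g, hg, hB.symm, hW.symm⟩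
  unfold dchG dchG0
  rw [dif_pos hex]
  obtain ⟨h1, h2, h3⟩ := hex.choose_spec
  obtain ⟨c, hc⟩ := dch_lift_unique hT hg h1 (h2.trans hB) (h3.trans hW)
  rw [← hgr g c]
  exact hloc _ _ hc

/-! ## 4. Geometry of the domain inside a cut -/

/-- every site of `V \ I` is joined to `O` inside `V \ I` -/
def DchInv (V O I : Finset TV) : Prop := ∀ v ∈ V \ I, ∃ u ∈ O, TscR tscG (↑(V \ I) : Set TV) u v

open Classical in
/-- THE DOMAIN: the component of `z0` in the interior of `I` -/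
noncomputable def dchD (I : Finset TV) (z0 : TV) : Finset TV := (latInt I).filter (fun u => TscR tscG (↑(latInt I) : Set TV) z0 u)

theorem dch_eqns_cite2 : True := by
  have := @DchLip.eq_1
  have := @dchG0.eq_1
  have := @dchG.eq_1
  have := @DchInv.eq_1
  have := @dchD.eq_1
  trivial

theorem dch_D_coe (I : Finset TV) (z0 : TV) : (↑(dchD I z0) : Set TV) = tscComp tscG (↑(latInt I) : Set TV) z0 := by
  ext u
  simp [dchD, tscComp]

theorem dch_D_sub (I : Finset TV) (z0 : TV) : dchD I z0 ⊆ latInt I := by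
  classical
  exact fun _ hu => (Finset.mem_filter.1 hu).1

theorem dch_mem_out {D : Finset TV} {v : TV} : v ∈ latOut D ↔ v ∉ D ∧ ∃ u ∈ D, triAdj u v := by
  unfold latOut
  rw [Finset.mem_sdiff, Finset.mem_biUnion]
  constructor
  · rintro ⟨⟨u, hu, huv⟩, hv⟩
    exact ⟨hv, u, hu, lat_mem_nb.1 huv⟩
  · rintro ⟨hv, u, hu, huv⟩
    exact ⟨⟨u, hu, lat_mem_nb.2 huv⟩, hv⟩

/-- the invaded set of the planar system is joined to `O` -/
theorem dch_inv_of (x : ℝ) (V : Finset TV) (s : Bool) (E : Finset (TV × TV)) (hE : ∀ e ∈ E, triAdj e.1 e.2 ∧ e.1 ∈ V ∧ e.2 ∈ V)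
    (ω : ClCfg TV TV) {O I : Finset TV} (hO : O ⊆ V) (hI : I ⊆ V) (h : clInv (clAmb x V) s E ω O = V \ I) : DchInv V O I := by
  classical
  intro v hv
  rw [← h] at hv
  obtain ⟨u, hu, huv⟩ := (Finset.mem_filter.1 hv).2
  refine ⟨u, hu, ?_⟩
  have stepV : ∀ a b : TV, clStep (clAmb x V) s E ω a b → b ∈ V ∧ (a = b ∨ triAdj a b) := by
    intro a b hab
    rcases hab with ⟨y, _, ha, hb, _⟩ | hab | hab
    · have ha' : a ∈ cellV y ∩ V := ha
      have hb' : b ∈ cellV y ∩ V := hb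
      refine ⟨(Finset.mem_inter.1 hb').2, ?_⟩
      by_cases e : a = b
      · exact Or.inl e
      · exact Or.inr (dam_cell_adj (Finset.mem_inter.1 ha').1 (Finset.mem_inter.1 hb').1 e)
    · exact ⟨(hE _ hab).2.2, Or.inr (hE _ hab).1⟩
    · exact ⟨(hE _ hab).2.1, Or.inr (lat_adj_symm (hE _ hab).1)⟩
  have memV : ∀ w, Relation.ReflTransGen (clStep (clAmb x V) s E ω) u w → w ∈ V := by
    intro w hw
    induction hw with
    | refl => exact hO hu
    | tail _ hbc _ => exact (stepV _ _ hbc).1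
  have mem : ∀ w, Relation.ReflTransGen (clStep (clAmb x V) s E ω) u w → w ∈ V \ I := by
    intro w hw
    rw [← h]
    exact Finset.mem_filter.2 ⟨memV w hw, u, hu, hw⟩
  clear hv
  induction huv with
  | refl => exact tsc_R_refl _
  | @tail b c hub hbc ih =>
    rcases (stepV _ _ hbc).2 with e | e
    · rw [← e]
      exact ih
    · exact ih.tail ⟨e, Finset.mem_coe.2 (mem b hub), Finset.mem_coe.2 (mem c (hub.tail hbc))⟩

/-- the complement of the interior of a cut set found from the outside of a ball is connected -/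
theorem dch_X_conn {V I : Finset TV} {z0 : TV} {R : ℕ} (hV : latBall z0 R ⊆ V) (hI : I ⊆ latBall z0 R)
    (hinv : DchInv V (V \ latBall z0 R) I) : TscConn tscG ((↑(latInt I) : Set TV)ᶜ) := by
  have hsub : ((↑(latBall z0 R) : Set TV))ᶜ ⊆ ((↑(latInt I) : Set TV)ᶜ) := by
    intro p hp hp'
    exact hp (Finset.mem_coe.2 (hI (lat_int_sub I (Finset.mem_coe.1 hp'))))
  have hsub2 : (↑(V \ I) : Set TV) ⊆ ((↑(latInt I) : Set TV)ᶜ) := by
    intro p hp hp'
    exact (Finset.mem_sdiff.1 (Finset.mem_coe.1 hp)).2 (lat_int_sub I (Finset.mem_coe.1 hp'))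
  -- a site off `I` is joined to the outside of the ball
  have s1 : ∀ p : TV, p ∉ I → ∃ q : TV, q ∉ latBall z0 R ∧ TscR tscG ((↑(latInt I) : Set TV)ᶜ) p q := by
    intro p hp
    by_cases hb : p ∈ latBall z0 R
    · obtain ⟨u, hu, hup⟩ := hinv p (Finset.mem_sdiff.2 ⟨hV hb, hp⟩)
      exact ⟨u, (Finset.mem_sdiff.1 hu).2, tsc_R_symm (tsc_R_mono hsub2 hup)⟩
    · exact ⟨p, hb, tsc_R_refl _⟩
  have s2 : ∀ p : TV, p ∉ latInt I → ∃ q : TV, q ∉ latBall z0 R ∧ TscR tscG ((↑(latInt I) : Set TV)ᶜ) p q := by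
    intro p hp
    by_cases hpI : p ∈ I
    · have : ∃ v, triAdj p v ∧ v ∉ I := by
        by_contra hc
        push Not at hc
        exact hp (lat_mem_int.2 ⟨hpI, hc⟩)
      obtain ⟨v, hpv, hv⟩ := this
      obtain ⟨q, hq, hvq⟩ := s1 v hv
      have hv' : v ∉ latInt I := fun h => hv (lat_int_sub I h)
      exact ⟨q, hq, tsc_R_trans (tsc_R_step hpv (fun h => hp (Finset.mem_coe.1 h)) (fun h => hv' (Finset.mem_coe.1 h))) hvq⟩
    · exact s1 p hpI
  intro p hp p' hp'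
  obtain ⟨q, hq, hpq⟩ := s2 p (fun h => hp (Finset.mem_coe.2 h))
  obtain ⟨q', hq', hpq'⟩ := s2 p' (fun h => hp' (Finset.mem_coe.2 h))
  have hqq := plh_ball_compl_conn z0 R q (fun h => hq (Finset.mem_coe.1 h)) q' (fun h => hq' (Finset.mem_coe.1 h))
  exact tsc_R_trans hpq (tsc_R_trans (tsc_R_mono hsub hqq) (tsc_R_symm hpq'))

/-- the domain has no hole -/
theorem dch_D_co {V I : Finset TV} {z0 : TV} {R : ℕ} (hV : latBall z0 R ⊆ V) (hI : I ⊆ latBall z0 R)
    (hinv : DchInv V (V \ latBall z0 R) I) : MomCo (dchD I z0) := by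
  unfold MomCo
  rw [dch_D_coe]
  have hK := dch_X_conn hV hI hinv
  have hne : ((↑(latInt I) : Set TV)ᶜ).Nonempty := by
    by_contra hc
    rw [Set.not_nonempty_iff_eq_empty, Set.compl_empty_iff] at hc
    exact (Set.finite_univ_iff.1 (hc ▸ Finset.finite_toSet _)).false
  have := plh_plane_comp_compl_conn hK hne z0
  rwa [compl_compl] at this

/-- the domain contains the ball -/
theorem dch_D_ball {I : Finset TV} {z0 : TV} {ρ : ℕ} (h : latBall z0 (ρ + 1) ⊆ I) : latBall z0 ρ ⊆ dchD I z0 := by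
  classical
  have hsub : latBall z0 ρ ⊆ latInt I := by
    intro u hu
    rw [← plh_int_ball] at hu
    obtain ⟨h1, h2⟩ := lat_mem_int.1 hu
    exact lat_mem_int.2 ⟨h h1, fun v hv => h (h2 v hv)⟩
  intro u hu
  refine Finset.mem_filter.2 ⟨hsub hu, ?_⟩
  exact tsc_R_mono (Finset.coe_subset.2 hsub) (plh_ball_conn z0 ρ z0 (Finset.mem_coe.2 (plh_ball_self z0 ρ)) u (Finset.mem_coe.2 hu))

/-- the outer boundary of the domain lies in the layer of `I` -/
theorem dch_D_out (I : Finset TV) (z0 : TV) : latOut (dchD I z0) ⊆ latBd I := by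
  classical
  intro u hu
  obtain ⟨hu1, v, hv, hvu⟩ := dch_mem_out.1 hu
  obtain ⟨hv1, hv2⟩ := Finset.mem_filter.1 hv
  have huI : u ∈ I := (lat_mem_int.1 hv1).2 u hvu
  have hun : u ∉ latInt I := fun hc =>
    hu1 (Finset.mem_filter.2 ⟨hc, hv2.tail ⟨hvu, Finset.mem_coe.2 hv1, Finset.mem_coe.2 hc⟩⟩)
  rw [lat_int_eq, Finset.mem_sdiff] at hun
  by_contra hc
  exact hun ⟨huI, hc⟩

/-- the outer boundary of the domain is connected (Timar) -/
theorem dch_D_out_conn {V I : Finset TV} {z0 : TV} {R : ℕ} (hV : latBall z0 R ⊆ V) (hI : I ⊆ latBall z0 R)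
    (hinv : DchInv V (V \ latBall z0 R) I) : TscConn tscG (↑(latOut (dchD I z0)) : Set TV) := by
  have hco : TscConn tscG ((↑(dchD I z0) : Set TV)ᶜ) := dch_D_co hV hI hinv
  have hC : TscConn tscG (↑(dchD I z0) : Set TV) := by
    rw [dch_D_coe]
    exact tsc_comp_conn z0
  intro u hu
  have hu' := dch_mem_out.1 (Finset.mem_coe.1 hu)
  have hux : u ∈ ((↑(dchD I z0) : Set TV)ᶜ) := fun h => hu'.1 (Finset.mem_coe.1 h)
  have ht := tsc_plane_timar hC u
  rw [plh_comp_eq_of_conn hco hux] at ht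
  have e : {d | d ∈ ((↑(dchD I z0) : Set TV)ᶜ) ∧ ∃ c ∈ (↑(dchD I z0) : Set TV), triAdj c d} = (↑(latOut (dchD I z0)) : Set TV) := by
    ext d
    rw [Finset.mem_coe, dch_mem_out]
    rfl
  rw [e] at ht
  exact ht u hu

/-- on a connected set where the first Gray spin is plus, a Lipschitz height takes its values in ONE pair -/
theorem dch_pair {L : Set TV} (hL : TscConn tscG L) {h : TV → ℤ} (hlip : ∀ u ∈ L, ∀ v ∈ L, triAdj u v → |h v - h u| ≤ 1)
    (hB : ∀ u ∈ L, momB (h u)) : ∃ k : ℤ, ∀ u ∈ L, h u = k ∨ h u = k + 1 := by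
  rcases L.eq_empty_or_nonempty with rfl | ⟨u0, hu0⟩
  · exact ⟨0, fun u hu => by simp at hu⟩
  refine ⟨4 * (h u0 / 4), fun u hu => ?_⟩
  have hc := tsc_R_const (G := tscG) (s := L) (fun u => h u / 4) (fun a b hab => ?_) (hL u0 hu0 u hu)
  · have := hB u hu
    unfold momB at this
    omega
  · obtain ⟨h1, h2, h3⟩ := hab
    have a1 := abs_le.1 (hlip a h2 b h3 h1)
    have b1 := hB a h2
    have b2 := hB b h3
    unfold momB at b1 b2
    show h a / 4 = h b / 4
    omega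

/-! ## 5. The ambient system of a flat height problem -/

/-- the legal history of the flat problem on `F0` seen in `V`: first spin plus on the skeleton `V \ F0`, second spin equal along the edges of the skeleton -/
def dchK (V F0 : Finset TV) : ClCon TV TV :=
  ⟨V \ F0, ∅, ((V \ F0) ×ˢ (V \ F0)).filter (fun e => triAdj e.1 e.2), ∅, ∅, ∅, ∅, ∅⟩

/-- the same history with the label: second spin plus on the skeleton -/
def dchKL (V F0 : Finset TV) : ClCon TV TV := { dchK V F0 with Wp := (dchK V F0).Wp ∪ (V \ F0) }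

/-- inside a ball which contains `F0` in its interior, every site off `F0` is joined to the sphere off `F0` -/
theorem dch_to_sphere {F0 : Finset TV} (hF0 : MomCo F0) {R : ℕ} (hR : ∀ u ∈ F0, latN u < R) {u : TV} (hu : u ∈ (↑(latBall 0 R \ F0) : Set TV)) :
    ∃ s : TV, latN s = R ∧ TscR tscG (↑(latBall 0 R \ F0) : Set TV) u s := by
  have hmem : ∀ w : TV, w ∈ (↑(latBall 0 R \ F0) : Set TV) ↔ latN w ≤ R ∧ w ∉ F0 := by
    intro w
    rw [Finset.mem_coe, Finset.mem_sdiff, lat_mem_ball, sub_zero]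
  obtain ⟨p, hp⟩ : ∃ p : TV, p = ((R : ℤ), 0) := ⟨_, rfl⟩
  have hpN : latN p = R := by rw [hp, plh_N_hor]; simp
  have hpF : p ∉ F0 := fun h => by have := hR p h; omega
  have huF : u ∉ F0 := ((hmem u).1 hu).2
  have hpath := hF0 u (by simpa using huF) p (by simpa using hpF)
  have claim : ∀ w, TscR tscG ((↑F0 : Set TV)ᶜ) u w →
      (∃ s : TV, latN s = R ∧ TscR tscG (↑(latBall 0 R \ F0) : Set TV) u s) ∨ (w ∈ (↑(latBall 0 R \ F0) : Set TV) ∧ TscR tscG (↑(latBall 0 R \ F0) : Set TV) u w) := by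
    intro w hw
    induction hw with
    | refl => exact Or.inr ⟨hu, Relation.ReflTransGen.refl⟩
    | @tail w w' _ hww ih =>
      rcases ih with h | ⟨hwS, hwR⟩
      · exact Or.inl h
      · have hw'F : w' ∉ F0 := by simpa using hww.2.2
        have hwN := ((hmem w).1 hwS).1
        by_cases hN : latN w' ≤ R
        · have hw'S : w' ∈ (↑(latBall 0 R \ F0) : Set TV) := (hmem w').2 ⟨hN, hw'F⟩
          exact Or.inr ⟨hw'S, hwR.tail ⟨hww.1, hwS, hw'S⟩⟩
        · have := plh_N_adj (u := w) (v := w') hww.1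
          exact Or.inl ⟨w, by omega, hwR⟩
  rcases claim p hpath with h | ⟨_, h⟩
  · exact h
  · exact ⟨p, hpN, h⟩

/-- an ambient ball for a hole-free set      (139: `swi_skel`) -/
theorem dch_amb {F0 : Finset TV} (hF0 : MomCo F0) :
    ∃ V : Finset TV, DisAmb V ∧ latCl F0 ⊆ V ∧ TscConn tscG (↑(V \ F0) : Set TV) ∧ (V \ F0).Nonempty := by
  obtain ⟨R0, hR0⟩ : ∃ R0 : ℕ, R0 = (latCl F0).sup latN := ⟨_, rfl⟩
  have hb : ∀ u ∈ latCl F0, latN u ≤ R0 := fun u hu => by rw [hR0]; exact Finset.le_sup hu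
  have hF : ∀ u ∈ F0, latN u < R0 + 1 := fun u hu => Nat.lt_succ_of_le (hb u (lat_mem_cl.2 (Or.inl hu)))
  have hmem : ∀ w : TV, w ∈ (↑(latBall 0 (R0 + 1) \ F0) : Set TV) ↔ latN w ≤ R0 + 1 ∧ w ∉ F0 := by
    intro w
    rw [Finset.mem_coe, Finset.mem_sdiff, lat_mem_ball, sub_zero]
  have hsph : {w : TV | latN (w - 0) = R0 + 1} ⊆ (↑(latBall 0 (R0 + 1) \ F0) : Set TV) := by
    intro w hw
    have hw' : latN w = R0 + 1 := by simpa using hw
    exact (hmem w).2 ⟨hw'.le, fun h => by have := hF w h; omega⟩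
  refine ⟨latBall 0 (R0 + 1), dis_amb_ball 0 (R0 + 1), fun u hu => lat_mem_ball.2 (by rw [sub_zero]; exact (hb u hu).trans (Nat.le_succ _)), ?_, ?_⟩
  · intro u hu v hv
    obtain ⟨s, hs, hus⟩ := dch_to_sphere hF0 hF hu
    obtain ⟨s', hs', hvs⟩ := dch_to_sphere hF0 hF hv
    have h1 := tsc_R_mono hsph (plh_sphere_conn 0 (R0 + 1) s (by simpa using hs) s' (by simpa using hs'))
    exact tsc_R_trans hus (tsc_R_trans h1 (tsc_R_symm hvs))
  · refine ⟨(((R0 + 1 : ℕ) : ℤ), 0), ?_⟩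
    have := hsph (a := (((R0 + 1 : ℕ) : ℤ), 0)) (by
      show latN ((((R0 + 1 : ℕ) : ℤ), 0) - 0) = R0 + 1
      rw [sub_zero, plh_N_hor]; exact Int.natAbs_natCast _)
    exact Finset.mem_coe.1 this

theorem dch_KL_holds (S : ClSys TV TV) (V F0 : Finset TV) (ω : ClCfg TV TV) :
    (dchKL V F0).Holds S ω ↔ V \ F0 ⊆ ω.B ∧ V \ F0 ⊆ ω.W := by
  unfold ClCon.Holds dchKL dchK
  simp only [Finset.notMem_empty, false_imp_iff, implies_true, true_and, and_true, Finset.empty_union]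
  constructor
  · rintro ⟨h1, _, h3⟩; exact ⟨h1, h3⟩
  · rintro ⟨h1, h3⟩
    refine ⟨h1, fun e he => ?_, h3⟩
    have he' := Finset.mem_product.1 (Finset.mem_filter.1 he).1
    exact ⟨fun _ => h3 he'.2, fun _ => h3 he'.1⟩

theorem dch_KL_K (S : ClSys TV TV) (V F0 : Finset TV) (ω : ClCfg TV TV) (h : (dchKL V F0).Holds S ω) : (dchK V F0).Holds S ω := by
  unfold ClCon.Holds dchKL at h
  unfold ClCon.Holds
  exact ⟨h.1, h.2.1, h.2.2.1, h.2.2.2.1, h.2.2.2.2.1, h.2.2.2.2.2.1, Finset.empty_subset _, h.2.2.2.2.2.2.2⟩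

theorem dch_K_legal (x : ℝ) (V F0 : Finset TV) : ClLegal (clAmb x V) (dchK V F0) := by
  refine ⟨rfl, rfl, fun y _ hy => ?_, fun e he => ?_⟩
  · simp [dchK] at hy
  · have he' := Finset.mem_filter.1 he
    have he'' := Finset.mem_product.1 he'.1
    have h1 := (Finset.mem_sdiff.1 he''.1).1
    have h2 := (Finset.mem_sdiff.1 he''.2).1
    obtain ⟨y, hu, hv⟩ := dam_adj_cell he'.2
    exact ⟨y, lat_mem_cells.2 ⟨_, hu, h1⟩, Finset.mem_inter.2 ⟨hu, h1⟩, Finset.mem_inter.2 ⟨hv, h2⟩⟩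

theorem dch_K_clear (x : ℝ) (V F0 : Finset TV) {D : Finset TV} (hD : D ⊆ F0) : ClClear (clAmb x V) true (dchK V F0) D := by
  refine ⟨fun v _ => ⟨fun _ => by simp [dchK], fun h => by simp at h⟩, fun y _ hy => ?_, fun e he => ?_⟩
  · simp [dchK] at hy
  · have he'' := Finset.mem_product.1 (Finset.mem_filter.1 he).1
    exact ⟨fun h => (Finset.mem_sdiff.1 he''.1).2 (hD h), fun h => (Finset.mem_sdiff.1 he''.2).2 (hD h)⟩

/-- (LIFT) in the form used here -/
theorem dch_lift {x : ℝ} (hx0 : 0 < x) (hx1 : x ≤ 1) {V F0 : Finset TV} (hV : DisAmb V) (hF : latCl F0 ⊆ V)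
    (hsk : TscConn tscG (↑(V \ F0) : Set TV)) (hne : (V \ F0).Nonempty) {G : ClCfg TV TV → ℝ} (hG : ClPair G) :
    htE x F0 0 (fun h => G ⟨htB V h, htW V h, ∅⟩) = (clAmb x V).E ((dchKL V F0).Holds (clAmb x V)) G := by
  rw [dis_lift x hx0 hx1 V F0 hV hF hsk hne G hG]
  congr 1
  funext ω
  exact propext (dch_KL_holds _ V F0 ω).symm

/-- the flat problem is feasible in the cell system -/
theorem dch_KL_feas {x : ℝ} (hx0 : 0 < x) (hx1 : x ≤ 1) {V F0 : Finset TV} (hV : DisAmb V) (hF : latCl F0 ⊆ V)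
    (hsk : TscConn tscG (↑(V \ F0) : Set TV)) (hne : (V \ F0).Nonempty) : 0 < (clAmb x V).Z ((dchKL V F0).Holds (clAmb x V)) := by
  have h1 := dch_lift hx0 hx1 hV hF hsk hne (G := fun _ => (1 : ℝ)) (fun _ _ _ _ => rfl)
  rw [ht_E_const hx0 (ht_adm_zero F0), dis_E_eq] at h1
  rcases (dis_Z_nonneg (clAmb x V) (dam_pl_ok hx0 hx1 V) ((dchKL V F0).Holds (clAmb x V))).eq_or_lt with h0 | h0
  · rw [← h0, div_zero] at h1
    exact absurd h1 one_ne_zero
  · exact h0

/-- label cost: an event which does not read `W` -/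
theorem dch_label {x : ℝ} (hx0 : 0 < x) (hx1 : x ≤ 1) {V F0 : Finset TV} (hsk : TscConn tscG (↑(V \ F0) : Set TV))
    (F : ClCfg TV TV → ℝ) (hF0 : ∀ ω, 0 ≤ F ω) (hFW : ∀ ω ω' : ClCfg TV TV, ω.B = ω'.B → ω.O = ω'.O → F ω = F ω') :
    (clAmb x V).N ((dchK V F0).Holds (clAmb x V)) F ≤ 2 * (clAmb x V).N ((dchKL V F0).Holds (clAmb x V)) F := by
  refine dis_lbl_one (clAmb x V) (dam_pl_ok hx0 hx1 V) (dchK V F0) ?_ (V \ F0) Finset.sdiff_subset ?_ rfl F hF0 hFW
  · intro e he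
    have he'' := Finset.mem_product.1 (Finset.mem_filter.1 he).1
    exact ⟨(Finset.mem_sdiff.1 he''.1).1, (Finset.mem_sdiff.1 he''.2).1⟩
  · intro u hu v hv
    refine Relation.ReflTransGen.mono ?_ _ _ (hsk u (Finset.mem_coe.2 hu) v (Finset.mem_coe.2 hv))
    rintro a b ⟨hab, ha, hb⟩
    exact Or.inl (Finset.mem_filter.2 ⟨Finset.mem_product.2 ⟨Finset.mem_coe.1 ha, Finset.mem_coe.1 hb⟩, hab⟩)

/-! ## 6. The ring -/

/-- the hexagonal norm moves by at most one inside a cell -/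
theorem dch_N_cell (z0 : TV) {y u v : TV} (hu : u ∈ cellV y) (hv : v ∈ cellV y) : (latN (u - z0) : ℤ) - 1 ≤ (latN (v - z0) : ℤ) := by
  by_cases e : u = v
  · rw [e]; omega
  · have h1 : triAdj u v := dam_cell_adj hu hv e
    have h2 : triAdj (u - z0) (v - z0) := by
      rw [sub_eq_add_neg, sub_eq_add_neg]
      exact (lat_adj_shift (-z0)).2 h1
    have := plh_N_adj' h2
    omega

/-- rounding to the grid of step `a = n / 2 + 1` -/
theorem dch_grid (n : ℕ) (w : TV) :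
    latN (w - (((n / 2 + 1 : ℕ) : ℤ) * (w.1 / ((n / 2 + 1 : ℕ) : ℤ)), ((n / 2 + 1 : ℕ) : ℤ) * (w.2 / ((n / 2 + 1 : ℕ) : ℤ)))) ≤ n := by
  set a : ℤ := ((n / 2 + 1 : ℕ) : ℤ) with ha
  have ha0 : 0 < a := by rw [ha]; positivity
  have h1 := Int.emod_nonneg w.1 ha0.ne'
  have h2 := Int.emod_lt_of_pos w.1 ha0
  have h3 := Int.emod_nonneg w.2 ha0.ne'
  have h4 := Int.emod_lt_of_pos w.2 ha0
  have e1 : w.1 - a * (w.1 / a) = w.1 % a := by rw [Int.emod_def]
  have e2 : w.2 - a * (w.2 / a) = w.2 % a := by rw [Int.emod_def]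
  have han : 2 * (a - 1) ≤ n := by
    rw [ha]; push_cast; omega
  unfold latN
  simp only [Prod.fst_sub, Prod.snd_sub, e1, e2]
  omega

/-- the index of a grid point of norm `≤ ρ + 2 + n` is bounded in terms of `κ` only -/
theorem dch_grid_bd {κ n ρ : ℕ} (h2 : ρ < (κ + 1) * (n + 1) + 2) {i : ℤ} (hi : (((n / 2 + 1 : ℕ) : ℤ) * i).natAbs ≤ ρ + 2 + n) :
    -((4 * κ + 14 : ℕ) : ℤ) ≤ i ∧ i ≤ ((4 * κ + 14 : ℕ) : ℤ) := by
  have ha : (n : ℤ) + 1 ≤ 2 * ((n / 2 + 1 : ℕ) : ℤ) := by push_cast; omega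
  set a : ℤ := ((n / 2 + 1 : ℕ) : ℤ) with hadef
  have h2' : (ρ : ℤ) < ((κ : ℤ) + 1) * ((n : ℤ) + 1) + 2 := by exact_mod_cast h2
  have hi' : |a * i| ≤ (ρ : ℤ) + 2 + n := by
    rw [Int.abs_eq_natAbs]; exact_mod_cast hi
  obtain ⟨hl, hu⟩ := abs_le.1 hi'
  have hn0 : (0 : ℤ) ≤ n := Int.natCast_nonneg n
  have hk0 : (0 : ℤ) ≤ κ := Int.natCast_nonneg κ
  push_cast
  constructor
  · by_contra hc
    push Not at hc
    have h5 : i ≤ -(4 * (κ : ℤ) + 15) := by omega
    have h6 : 2 * (a * i) ≤ ((n : ℤ) + 1) * -(4 * (κ : ℤ) + 15) := by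
      calc 2 * (a * i) = (2 * a) * i := by ring
        _ ≤ (2 * a) * -(4 * (κ : ℤ) + 15) := mul_le_mul_of_nonneg_left h5 (by omega)
        _ ≤ ((n : ℤ) + 1) * -(4 * (κ : ℤ) + 15) := mul_le_mul_of_nonpos_right ha (by omega)
    nlinarith
  · by_contra hc
    push Not at hc
    have h5 : 4 * (κ : ℤ) + 15 ≤ i := by omega
    have h6 : ((n : ℤ) + 1) * (4 * (κ : ℤ) + 15) ≤ 2 * (a * i) := by
      calc ((n : ℤ) + 1) * (4 * (κ : ℤ) + 15) ≤ (2 * a) * (4 * (κ : ℤ) + 15) := mul_le_mul_of_nonneg_right ha (by omega)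
        _ ≤ (2 * a) * i := mul_le_mul_of_nonneg_left h5 (by omega)
        _ = 2 * (a * i) := by ring
    nlinarith

/-- (RING) a plus cut between `latBall z0 (ρ+1)` and `latBall z0 (2ρ)`: beads of `dis_prim` on the sphere of radius `ρ + 2`, `dis_fkg_fin`, `dis_neck` -/
theorem dch_ring (x : ℝ) (hx0 : 0 < x) (hx1 : x ≤ 1) (s : Bool) (hT : DisT23 x s) :
    ∃ (c : ℝ) (ρ0 : ℕ), 0 < c ∧ ∀ (V : Finset TV), DisAmb V → ∀ K : ClCon TV TV, ClLegal (clAmb x V) K →
      0 < (clAmb x V).Z (K.Holds (clAmb x V)) → ∀ (z0 : TV) (ρ : ℕ), ρ0 ≤ ρ → latBall z0 (2 * ρ + 2) ⊆ V →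
      ClClear (clAmb x V) s K (latBall z0 (2 * ρ + 2)) →
      c ≤ (clAmb x V).P (K.Holds (clAmb x V))
        (fun ω => ClSep (clAmb x V) s K.Eq ω (V \ latBall z0 (2 * ρ)) (latBall z0 (ρ + 1))) := by
  classical
  obtain ⟨κ, n₀, c₁, hκ, hc₁, hprim⟩ := dis_prim x hx0 hx1 s hT
  have hc0 : 0 < min c₁ 1 := lt_min hc₁ one_pos
  refine ⟨min c₁ 1 ^ ((2 * (4 * κ + 14) + 1) * (2 * (4 * κ + 14) + 1)), (κ + 1) * (n₀ + 1) + 2, pow_pos hc0 _, ?_⟩
  intro V hV K hK hZ z0 ρ hρ hball hclear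
  set S := clAmb x V with hS
  have hOk : ClOk S := pcp_amb_ok x hx0 hx1 V
  obtain ⟨n, hn0, hn1, hn2⟩ : ∃ n : ℕ, n₀ ≤ n ∧ (κ + 1) * n + 2 ≤ ρ ∧ ρ < (κ + 1) * (n + 1) + 2 := by
    have hk : 0 < κ + 1 := by omega
    refine ⟨(ρ - 2) / (κ + 1), ?_, ?_, ?_⟩
    · rw [Nat.le_div_iff_mul_le hk]
      have : (κ + 1) * (n₀ + 1) = n₀ * (κ + 1) + (κ + 1) := by ring
      omega
    · have := Nat.mul_div_le (ρ - 2) (κ + 1)
      omega
    · have := Nat.lt_mul_div_succ (ρ - 2) hk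
      omega
  set a : ℤ := ((n / 2 + 1 : ℕ) : ℤ) with ha
  set M : ℤ := ((4 * κ + 14 : ℕ) : ℤ) with hM
  set zc : ℤ × ℤ → TV := fun p => z0 + (a * p.1, a * p.2) with hzc
  set T : Finset (ℤ × ℤ) := ((Finset.Icc (-M) M) ×ˢ (Finset.Icc (-M) M)).filter (fun p => latN (a * p.1, a * p.2) ≤ ρ + 2 + n) with hTdef
  have hzN : ∀ p : ℤ × ℤ, latN (zc p - z0) = latN (a * p.1, a * p.2) := fun p => by
    rw [hzc]; simp only [add_sub_cancel_left]
  have hκn : κ * n + n + 2 ≤ ρ := by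
    have : (κ + 1) * n = κ * n + n := by ring
    omega
  have hTN : ∀ p ∈ T, latN (zc p - z0) ≤ ρ + 2 + n := fun p hp => by
    rw [hzN]; exact (Finset.mem_filter.1 hp).2
  -- the beads
  have hbead : ∀ p ∈ T, min c₁ 1 * S.Z (K.Holds S) ≤
      S.N (K.Holds S) (clInd fun ω => ClSep S s K.Eq ω (V \ latBall (zc p) (κ * n)) (latBall (zc p) n)) := by
    intro p hp
    have hsub : latBall (zc p) (κ * n + 2) ⊆ latBall z0 (2 * ρ + 2) := plh_ball_sub_ball (by have := hTN p hp; omega)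
    have h := hprim V hV K hK hZ (zc p) n hn0 (hsub.trans hball) (dis_clear_mono hclear hsub)
    rw [dis_P_eq, le_div_iff₀ hZ] at h
    exact (mul_le_mul_of_nonneg_right (min_le_left _ _) hZ.le).trans h
  have hfkg := dis_fkg_fin S (dis_amb_disk x hx0 hx1 V hV) K hK hZ s T
    (L := fun p ω => ClSep S s K.Eq ω (V \ latBall (zc p) (κ * n)) (latBall (zc p) n))
    (fun p _ => dis_sep_up S s K.Eq _ _) hc0.le hbead
  -- the necklace
  have hneck : ∀ ω : ClCfg TV TV, (∀ p ∈ T, ClSep S s K.Eq ω (V \ latBall (zc p) (κ * n)) (latBall (zc p) n)) →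
      ClSep S s K.Eq ω (V \ latBall z0 (2 * ρ)) (latBall z0 (ρ + 1)) := by
    intro ω hsep
    have hcell : ∀ y ∈ S.C, ∀ u ∈ S.sv y, ∀ v ∈ S.sv y, (latN (u - z0) : ℤ) - 1 ≤ (latN (v - z0) : ℤ) := by
      intro y _ u hu v hv
      have hu' : u ∈ cellV y ∩ V := hu
      have hv' : v ∈ cellV y ∩ V := hv
      exact dch_N_cell z0 (Finset.mem_inter.1 hu').1 (Finset.mem_inter.1 hv').1
    refine dis_neck S s K.Eq ω _ _ T (fun p => V \ latBall (zc p) (κ * n)) (fun p => latBall (zc p) n)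
      (fun u => (latN (u - z0) : ℤ)) ((ρ + 2 : ℕ) : ℤ) hcell ?_ ?_ ?_ ?_ ?_ hsep
    · intro e he
      obtain ⟨y, hy, h1, h2⟩ := hK.eq e he
      exact ⟨hcell y hy _ h1 _ h2, hcell y hy _ h2 _ h1⟩
    · intro u hu
      have := (Finset.mem_sdiff.1 hu).2
      rw [lat_mem_ball] at this
      have h3 : ρ + 2 < latN (u - z0) := by omega
      exact_mod_cast h3
    · intro v hv
      rw [lat_mem_ball] at hv
      have h3 : latN (v - z0) < ρ + 2 := by omega
      exact_mod_cast h3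
    · intro v hv
      have hv' : latN (v - z0) = ρ + 2 := by exact_mod_cast hv
      have hg := dch_grid n (v - z0)
      rw [← ha] at hg
      set p : ℤ × ℤ := ((v - z0).1 / a, (v - z0).2 / a) with hp
      have hg' : latN (v - z0 - (a * p.1, a * p.2)) ≤ n := hg
      have hpN : latN (a * p.1, a * p.2) ≤ ρ + 2 + n := by
        have h7 := plh_N_tri (a * p.1, a * p.2) (v - z0) 0
        rw [sub_zero, sub_zero, plh_N_sub_comm (a * p.1, a * p.2) (v - z0)] at h7
        omega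
      refine ⟨p, Finset.mem_filter.2 ⟨Finset.mem_product.2 ⟨Finset.mem_Icc.2 ?_, Finset.mem_Icc.2 ?_⟩, hpN⟩, ?_⟩
      · exact dch_grid_bd hn2 ((plh_N_fst _).trans hpN)
      · exact dch_grid_bd hn2 ((plh_N_snd _).trans hpN)
      · rw [lat_mem_ball]
        have e : v - zc p = v - z0 - (a * p.1, a * p.2) := by
          show v - (z0 + (a * p.1, a * p.2)) = _
          rw [sub_add_eq_sub_sub]
        rw [e]
        exact hg'
    · intro p hp
      exact Finset.sdiff_subset_sdiff (Finset.Subset.refl V) (plh_ball_sub_ball (by have := hTN p hp; omega))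
  have hmono : S.N (K.Holds S) (clInd fun ω => ∀ p ∈ T, ClSep S s K.Eq ω (V \ latBall (zc p) (κ * n)) (latBall (zc p) n)) ≤
      S.N (K.Holds S) (clInd fun ω => ClSep S s K.Eq ω (V \ latBall z0 (2 * ρ)) (latBall z0 (ρ + 1))) :=
    dis_N_mono S hOk _ fun ω _ _ => dis_ind_mono (hneck ω)
  have hcard : T.card ≤ (2 * (4 * κ + 14) + 1) * (2 * (4 * κ + 14) + 1) := by
    refine (Finset.card_filter_le _ _).trans ?_
    rw [Finset.card_product, Int.card_Icc]
    have : (M + 1 - -M).toNat = 2 * (4 * κ + 14) + 1 := by rw [hM]; omega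
    rw [this]
  rw [dis_P_eq, le_div_iff₀ hZ]
  refine le_trans ?_ (hfkg.trans hmono)
  exact mul_le_mul_of_nonneg_right (pow_le_pow_of_le_one hc0.le (min_le_right _ _) hcard) hZ.le

/-! ## 7. Assembly -/

/-- the height observable of the cut: conditional probability of `Cut_+(I)` given the heights -/
noncomputable def dchU (x : ℝ) (V I : Finset TV) (h : TV → ℤ) : ℝ :=
  dchF (clAmb x V) ((clAmb x V).ccr I) true ⟨htB V h, htW V h, ∅⟩

theorem dch_eqns_cite3 : True := by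
  have := @dchK.eq_1
  have := @dchKL.eq_1
  have := @dchU.eq_1
  trivial

/-- a site of a crossing cell is not in the interior -/
theorem dch_ccr_int (x : ℝ) (V I : Finset TV) {y v : TV} (hy : y ∈ (clAmb x V).ccr I) (hv : v ∈ (clAmb x V).sv y) : v ∉ latInt I := by
  intro hvI
  obtain ⟨hv1, hv2⟩ := lat_mem_int.1 hvI
  obtain ⟨_, _, w, hw, hwI⟩ := Finset.mem_filter.1 hy
  by_cases hvw : v = w
  · exact hwI (hvw ▸ hv1)
  · exact hwI (hv2 w (dam_cell_adj (Finset.mem_inter.1 hv).1 (Finset.mem_inter.1 hw).1 hvw))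

/-- every site of the layer lies in a crossing cell -/
theorem dch_bd_ccr (x : ℝ) {V I : Finset TV} (hI : latCl I ⊆ V) {u : TV} (hu : u ∈ latBd I) :
    ∃ y ∈ (clAmb x V).ccr I, u ∈ (clAmb x V).sv y := by
  obtain ⟨huI, v, huv, hvI⟩ := lat_mem_bd.1 hu
  obtain ⟨y, hu', hv'⟩ := dam_adj_cell huv
  have huV : u ∈ V := hI (dam_sub_cl I huI)
  have hvV : v ∈ V := hI (lat_mem_cl.2 (Or.inr ⟨u, huI, huv⟩))
  exact ⟨y, Finset.mem_filter.2 ⟨lat_mem_cells.2 ⟨u, hu', huV⟩, ⟨u, Finset.mem_inter.2 ⟨hu', huV⟩, huI⟩,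
    v, Finset.mem_inter.2 ⟨hv', hvV⟩, hvI⟩, Finset.mem_inter.2 ⟨hu', huV⟩⟩

theorem dch_U_off (x : ℝ) (V I : Finset TV) : HtOff (latInt I) (dchU x V I) := by
  intro h h' hh
  unfold dchU
  refine dch_F_congr _ _ _ fun y hy v hv => ?_
  have e := hh v (dch_ccr_int x V I hy hv)
  simp only [htB, htW, Finset.mem_filter, e, and_self]

theorem dch_U_ne (x : ℝ) {V I : Finset TV} (hI : latCl I ⊆ V) {h : TV → ℤ} (hU : dchU x V I h ≠ 0) : ∀ u ∈ latBd I, momB (h u) := by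
  intro u hu
  obtain ⟨y, hy, huy⟩ := dch_bd_ccr x hI hu
  have := (dch_F_ne hU y hy u huy).2 rfl
  exact (Finset.mem_filter.1 this).2

theorem dch_U_nonneg {x : ℝ} (hx0 : 0 < x) (hx1 : x ≤ 1) (V I : Finset TV) (h : TV → ℤ) : 0 ≤ dchU x V I h :=
  dch_F_nonneg (dam_pl_ok hx0 hx1 V) (Finset.filter_subset _ _) _ _

theorem dch_adm_lip {F0 : Finset TV} {h : TV → ℤ} (hh : HtAdm F0 0 h) {u v : TV} (hu : u ∈ F0) (huv : triAdj u v) : |h v - h u| ≤ 1 := by
  have := hh.2 u hu (v - u) ((lat_adj_iff u v).1 huv)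
  simpa using this

theorem dch_KL_pair (S : ClSys TV TV) (V F0 : Finset TV) : DchPairP ((dchKL V F0).Holds S) := by
  intro ω ω' h1 h2
  rw [dch_KL_holds, dch_KL_holds, h1, h2]

theorem dch_gray_inter {V T : Finset TV} (hT : T ⊆ V) (h : TV → ℤ) : htB V h ∩ T = htB T h ∧ htW V h ∩ T = htW T h := by
  constructor <;>
  · ext u
    simp only [htB, htW, Finset.mem_inter, Finset.mem_filter]
    constructor
    · rintro ⟨⟨_, h2⟩, h3⟩; exact ⟨h3, h2⟩
    · rintro ⟨h1, h2⟩; exact ⟨⟨hT h1, h2⟩, h1⟩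

/-- **one term of the decomposition**: inside a plus cut found from outside, the expectation of `φ` is at least `m` -/
theorem dch_term {x : ℝ} (hx0 : 0 < x) (hx1 : x ≤ 1) {V F0 I : Finset TV} {z0 : TV} {ρ : ℕ} (hV : DisAmb V) (hF : latCl F0 ⊆ V)
    (hsk : TscConn tscG (↑(V \ F0) : Set TV)) (hne : (V \ F0).Nonempty) (hball : latBall z0 (2 * ρ) ⊆ F0)
    (hA : latBall z0 (ρ + 1) ⊆ I) (hI : I ⊆ latBall z0 (2 * ρ)) (hinv : DchInv V (V \ latBall z0 (2 * ρ)) I)
    {φ : (TV → ℤ) → ℝ} {m : ℝ} (hloc : HtLoc (latBall z0 ρ) φ) (hgr : HtGrad φ)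
    (hm : ∀ (F : Finset TV) (b : TV → ℤ) (k : ℤ), MomCo F → latBall z0 ρ ⊆ F → F ⊆ latBall z0 (2 * ρ) →
      (htCfg F b).Nonempty → (∀ u ∈ latOut F, b u = k ∨ b u = k + 1) → m ≤ htE x F b φ) :
    m * (clAmb x V).N (fun ω => (dchKL V F0).Holds (clAmb x V) ω ∧ ClCut (clAmb x V) true I ω) (fun _ => 1) ≤
      (clAmb x V).N (fun ω => (dchKL V F0).Holds (clAmb x V) ω ∧ ClCut (clAmb x V) true I ω) (dchG (latBall z0 ρ) φ) := by
  set S := clAmb x V with hSdef
  have hS : ClOk S := dam_pl_ok hx0 hx1 V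
  have hF0V : F0 ⊆ V := (dam_sub_cl F0).trans hF
  have hIF : I ⊆ F0 := hI.trans hball
  have hIV : latCl I ⊆ V := by
    intro u hu
    rcases lat_mem_cl.1 hu with h | ⟨v, hv, hvu⟩
    · exact hF0V (hIF h)
    · exact hF (lat_mem_cl.2 (Or.inr ⟨v, hIF hv, hvu⟩))
  have hTF : latBall z0 ρ ⊆ F0 := (plh_ball_mono z0 (by omega)).trans hball
  have hZ := dch_KL_feas hx0 hx1 hV hF hsk hne
  have hp1 : ClPair (fun _ : ClCfg TV TV => (1 : ℝ)) := fun _ _ _ _ => rfl
  rw [dch_status_cut S hS true I (dch_KL_pair S V F0) hp1, dch_status_cut S hS true I (dch_KL_pair S V F0) (dch_G_pair _ φ)]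
  -- to the heights
  have q1 : ClPair (fun ω => dchF S (S.ccr I) true ω * 1) := fun ω ω' h1 h2 => by
    show dchF S (S.ccr I) true ω * 1 = dchF S (S.ccr I) true ω' * 1
    rw [dch_F_pair S _ _ ω ω' h1 h2]
  have q2 : ClPair (fun ω => dchF S (S.ccr I) true ω * dchG (latBall z0 ρ) φ ω) := fun ω ω' h1 h2 => by
    show dchF S (S.ccr I) true ω * dchG (latBall z0 ρ) φ ω = dchF S (S.ccr I) true ω' * dchG (latBall z0 ρ) φ ω'
    rw [dch_F_pair S _ _ ω ω' h1 h2, dch_G_pair _ φ ω ω' h1 h2]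
  have e1 : htE x F0 0 (dchU x V I) = S.E ((dchKL V F0).Holds S) (fun ω => dchF S (S.ccr I) true ω * 1) := by
    rw [← dch_lift hx0 hx1 hV hF hsk hne q1]
    refine ht_E_congr x F0 0 fun h _ => ?_
    show dchU x V I h = dchU x V I h * 1
    rw [mul_one]
  have e2 : htE x F0 0 (fun h => dchU x V I h * φ h)
      = S.E ((dchKL V F0).Holds S) (fun ω => dchF S (S.ccr I) true ω * dchG (latBall z0 ρ) φ ω) := by
    rw [← dch_lift hx0 hx1 hV hF hsk hne q2]
    refine ht_E_congr x F0 0 fun h hh => ?_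
    show dchU x V I h * φ h = dchU x V I h * dchG (latBall z0 ρ) φ ⟨htB V h, htW V h, ∅⟩
    have hg := dch_gray_inter (hTF.trans hF0V) h
    rw [dch_G_eq (plh_ball_conn z0 ρ) hloc hgr (g := h) (fun u hu v _ huv => dch_adm_lip hh (hTF hu) huv) hg.1 hg.2]
  -- the height inequality
  have hDI : dchD I z0 ⊆ I := (dch_D_sub I z0).trans (lat_int_sub I)
  have hVb : latBall z0 (2 * ρ) ⊆ V := hball.trans hF0V
  have key : m * htE x F0 0 (dchU x V I) ≤ htE x F0 0 (fun h => dchU x V I h * φ h) := by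
    refine dch_ht_term hx0 (hDI.trans hIF) _ φ m (dch_U_nonneg hx0 hx1 V I) ?_ ?_
    · intro h h' hh
      exact dch_U_off x V I h h' fun u hu => hh u fun hc => hu (dch_D_sub I z0 hc)
    · intro h hh hU
      have hout : ∀ u ∈ latOut (dchD I z0), u ∈ latBd I := fun u hu => dch_D_out I z0 hu
      obtain ⟨k, hk⟩ := dch_pair (dch_D_out_conn hVb hI hinv) (h := h)
        (fun u hu v _ huv => dch_adm_lip hh (hIF (lat_bd_sub I (hout u hu))) huv)
        (fun u hu => dch_U_ne x hIV hU u (hout u hu))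
      exact hm (dchD I z0) h k (dch_D_co hVb hI hinv) (dch_D_ball hA) (hDI.trans hI)
        ⟨h, ht_mem_cfg.2 (ht_adm_sub_self (hDI.trans hIF) hh)⟩ hk
  rw [e1, e2, dis_E_eq, dis_E_eq, ← mul_div_assoc] at key
  exact (div_le_div_iff_of_pos_right hZ).1 key

/-- **D5** = `exit_dis_cut` -/
theorem dch_main (x : ℝ) (hx1 : 1 / Real.sqrt 2 ≤ x) (hx2 : x ≤ 1) :
    ∃ (c1 : ℝ) (L1 ρ0 : ℕ), 0 < c1 ∧ ∀ (F0 : Finset TV) (z0 : TV) (ρ : ℕ) (φ : (TV → ℤ) → ℝ) (m : ℝ),
      MomCo F0 → ρ0 ≤ ρ → latBall z0 (L1 * ρ) ⊆ F0 →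
      (∀ h, 0 ≤ φ h) → HtLoc (latBall z0 ρ) φ → HtGrad φ →
      (∀ (F : Finset TV) (b : TV → ℤ) (k : ℤ), MomCo F → latBall z0 ρ ⊆ F → F ⊆ latBall z0 (2 * ρ) →
        (htCfg F b).Nonempty → (∀ u ∈ latOut F, b u = k ∨ b u = k + 1) → m ≤ htE x F b φ) →
      c1 * m ≤ htE x F0 0 φ := by
  classical
  have hx0 : 0 < x := lt_of_lt_of_le (by positivity) hx1
  obtain ⟨c, ρ0, hc, hring⟩ := dch_ring x hx0 hx2 true (exit_t23 x hx1 hx2)
  refine ⟨c / 2, 3, max ρ0 2, by positivity, ?_⟩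
  intro F0 z0 ρ φ m hF0 hρ hball hφ0 hloc hgr hm
  have hρ0 : ρ0 ≤ ρ := le_trans (le_max_left _ _) hρ
  have hρ2 : 2 ≤ ρ := le_trans (le_max_right _ _) hρ
  rcases le_or_gt m 0 with hm0 | hm0
  · have h1 : c / 2 * m ≤ 0 := mul_nonpos_of_nonneg_of_nonpos (by positivity) hm0
    exact h1.trans (ht_E_nonneg hx0 F0 0 fun h _ => hφ0 h)
  obtain ⟨V, hV, hF, hsk, hne⟩ := dch_amb hF0
  set S := clAmb x V with hSdef
  have hS : ClOk S := dam_pl_ok hx0 hx2 V
  have hF0V : F0 ⊆ V := (dam_sub_cl F0).trans hF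
  have hb2 : latBall z0 (2 * ρ + 2) ⊆ F0 := (plh_ball_mono z0 (by omega)).trans hball
  have hb1 : latBall z0 (2 * ρ) ⊆ F0 := (plh_ball_mono z0 (by omega)).trans hb2
  have hTF : latBall z0 ρ ⊆ F0 := (plh_ball_mono z0 (by omega)).trans hb1
  set KL := dchKL V F0 with hKL
  set K' := dchK V F0 with hK'
  set O := V \ latBall z0 (2 * ρ) with hO
  set A := latBall z0 (ρ + 1) with hA
  set G := dchG (latBall z0 ρ) φ with hG
  have hZ : 0 < S.Z (KL.Holds S) := dch_KL_feas hx0 hx2 hV hF hsk hne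
  have hEq : KL.Eq = K'.Eq := rfl
  have hAV : A ⊆ S.A := ((plh_ball_mono z0 (by omega)).trans hb1).trans hF0V
  have hOV : O ⊆ S.A := Finset.sdiff_subset
  -- step 1: to the cell system
  have s1 : htE x F0 0 φ = S.E (KL.Holds S) G := by
    rw [← dch_lift hx0 hx2 hV hF hsk hne (dch_G_pair _ φ)]
    refine ht_E_congr x F0 0 fun h hh => ?_
    have hg := dch_gray_inter (hTF.trans hF0V) h
    exact (dch_G_eq (plh_ball_conn z0 ρ) hloc hgr (g := h) (fun u hu v _ huv => dch_adm_lip hh (hTF hu) huv) hg.1 hg.2).symm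
  -- step 2: restriction to the separation event
  have s2 : S.N (KL.Holds S) (fun ω => if ClSep S true KL.Eq ω O A then 1 * G ω else 0) ≤ S.N (KL.Holds S) G := by
    refine dis_N_mono S hS _ fun ω _ _ => ?_
    split_ifs
    · rw [one_mul]
    · exact dch_G_nonneg _ hφ0 ω
  -- step 3: decomposition
  have hl1 : ClLoc O (S.cin O) (fun _ : ClCfg TV TV => (1 : ℝ)) := fun _ _ _ _ _ => rfl
  have hl2 : ClLoc A (S.cin A) (fun _ : ClCfg TV TV => (1 : ℝ)) := fun _ _ _ _ _ => rfl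
  have hl3 : ClLoc A (S.cin A) G := dde_loc_mono (plh_ball_mono z0 (by omega)) (Finset.empty_subset _) (dch_G_loc _ φ)
  have d1 := dis_dec S hS true KL O A hOV hAV (fun _ => 1) G hl1 hl3
  have d2 := dis_dec S hS true KL O A hOV hAV (fun _ => 1) (fun _ => 1) hl1 hl2
  have s3 : m * S.N (KL.Holds S) (fun ω => if ClSep S true KL.Eq ω O A then 1 * 1 else 0)
      ≤ S.N (KL.Holds S) (fun ω => if ClSep S true KL.Eq ω O A then 1 * G ω else 0) := by
    rw [d1, d2, Finset.mul_sum]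
    refine Finset.sum_le_sum fun I hI => ?_
    rw [Finset.mem_filter, Finset.mem_powerset] at hI
    set a := S.N (KL.Holds S) (fun ω => if clInv S true KL.Eq ω O = S.A \ I then (1 : ℝ) else 0) with ha
    have ha0 : 0 ≤ a := dis_N_nonneg S hS _ fun ω => by split_ifs <;> norm_num
    rcases ha0.eq_or_lt with h0 | h0
    · rw [← h0]; simp
    have hIb : I ⊆ latBall z0 (2 * ρ) := by
      intro u hu
      have := hI.1 hu
      rw [hO] at this
      simp only [Finset.mem_sdiff, not_and, not_not] at this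
      exact this.2 this.1
    -- a configuration realising `I`
    have hw : ∃ ω : ClCfg TV TV, clInv S true KL.Eq ω O = S.A \ I := by
      by_contra hcon
      push Not at hcon
      have : a = 0 := by
        rw [ha]
        unfold ClSys.N
        refine Finset.sum_eq_zero fun ω _ => ?_
        beta_reduce
        rw [if_neg (hcon ω)]
        simp
      exact h0.ne' this
    obtain ⟨ω, hω⟩ := hw
    have hinv : DchInv V O I := by
      refine dch_inv_of x V true KL.Eq ?_ ω hOV (hIb.trans (hb1.trans hF0V)) hω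
      intro e he
      have he' := Finset.mem_filter.1 he
      have he'' := Finset.mem_product.1 he'.1
      exact ⟨he'.2, (Finset.mem_sdiff.1 he''.1).1, (Finset.mem_sdiff.1 he''.2).1⟩
    have ht := dch_term hx0 hx2 hV hF hsk hne hb1 hI.2 hIb hinv hloc hgr hm
    have hZI : 0 ≤ S.Z (fun ω => KL.Holds S ω ∧ ClCut S true I ω) := dis_Z_nonneg S hS _
    have hE : m * S.E (fun ω => KL.Holds S ω ∧ ClCut S true I ω) (fun _ => 1) ≤ S.E (fun ω => KL.Holds S ω ∧ ClCut S true I ω) G := by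
      rw [dis_E_eq, dis_E_eq, ← mul_div_assoc]
      exact div_le_div_of_nonneg_right ht hZI
    calc m * (a * S.E (fun ω => KL.Holds S ω ∧ ClCut S true I ω) (fun _ => 1))
        = a * (m * S.E (fun ω => KL.Holds S ω ∧ ClCut S true I ω) (fun _ => 1)) := by ring
      _ ≤ a * S.E (fun ω => KL.Holds S ω ∧ ClCut S true I ω) G := mul_le_mul_of_nonneg_left hE ha0
  -- step 4: probability of the separation event
  have hleg : ClLegal S K' := dch_K_legal x V F0
  have hZle : S.Z (KL.Holds S) ≤ S.Z (K'.Holds S) := by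
    unfold ClSys.Z
    refine Finset.sum_le_sum fun ω _ => ?_
    by_cases h1 : KL.Holds S ω
    · rw [if_pos h1, if_pos (dch_KL_K S V F0 ω h1)]
    · rw [if_neg h1]
      split_ifs
      · exact dis_wt_nonneg S hS ω
      · exact le_rfl
  have hZ' : 0 < S.Z (K'.Holds S) := hZ.trans_le hZle
  have r1 := hring V hV K' hleg hZ' z0 ρ hρ0 (hb2.trans hF0V) (dch_K_clear x V F0 hb2)
  have r2 : c * S.Z (K'.Holds S) ≤ S.N (K'.Holds S) (clInd fun ω => ClSep S true K'.Eq ω O A) := by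
    rw [dis_P_eq, le_div_iff₀ hZ'] at r1
    exact r1
  have r3 := dch_label (F0 := F0) hx0 hx2 hsk (clInd fun ω => ClSep S true K'.Eq ω O A) (dis_ind_nonneg _) (by
    intro ω ω' h1 h2
    have e : ClSep S true K'.Eq ω O A ↔ ClSep S true K'.Eq ω' O A := by
      refine dis_sep_congr A fun y _ _ => ?_
      unfold clTau
      rw [h1, h2]
    unfold clInd
    simp only [e])
  have r4 : S.N (KL.Holds S) (fun ω => if ClSep S true KL.Eq ω O A then 1 * 1 else 0)
      = S.N (KL.Holds S) (clInd fun ω => ClSep S true K'.Eq ω O A) := by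
    refine dis_N_congr S _ fun ω _ _ => ?_
    unfold clInd
    rw [hEq, mul_one]
  -- conclusion
  have fin1 : c / 2 * S.Z (KL.Holds S) ≤ S.N (KL.Holds S) (clInd fun ω => ClSep S true K'.Eq ω O A) := by
    have : c * S.Z (KL.Holds S) ≤ c * S.Z (K'.Holds S) := mul_le_mul_of_nonneg_left hZle hc.le
    linarith
  rw [s1, dis_E_eq, le_div_iff₀ hZ]
  calc c / 2 * m * S.Z (KL.Holds S) = m * (c / 2 * S.Z (KL.Holds S)) := by ring
    _ ≤ m * S.N (KL.Holds S) (clInd fun ω => ClSep S true K'.Eq ω O A) := mul_le_mul_of_nonneg_left fin1 hm0.le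
    _ = m * S.N (KL.Holds S) (fun ω => if ClSep S true KL.Eq ω O A then 1 * 1 else 0) := by rw [r4]
    _ ≤ _ := s3.trans s2

end Claimed.Agent.R291
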