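import Claimed.Agent.R291.Dis.StackHt
import Claimed.Agent.R291.Defs.Pin

/-!
# Row 291 (S0539), Dis/PinBr : THE BRIDGE (BR)  height-only plane laws `htPl`, `pinPer`  <->  free plane cell law `clPlane`      (owner helper267; prefix `dbr_`, defs `Dbr…`/`dbr…`)

TEX[lem:spin-lift], TEX[prop:local-mixing], TEX[cor:conditional-plane-matching], 05-pins l.150-165.
CONSUMES `dis_lift` (63), `dis_pm`, `dis_plane_lim`, flips / swap (146, 182), `dis_stack` (141), `dis_lbl_one` (13), the kit `dsh_` of helper50 (skeleton history of a flat height problem).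

* `DbrLip h`            `h` is 1-Lipschitz on the whole lattice
* `DbrRep Q K KK`       the PAIR observable `KK` (reads `B`, `W` on `Q` only) represents the height observable `K`: `KK ⟨htB Q h, htW Q h, ∅⟩ = K h` for every Lipschitz `h`
* `dbr_rep_of_loc`      the form of helper182 (heights Lipschitz on `Q` only) implies `DbrRep`;   `dbr_rep_mono`, `dbr_rep_smul`, `dbr_rep_rot` (`K (· + 1)` is represented by `KK ⟨W, Q \ B, ∅⟩`)
* `dbr_tv`              QUANTITATIVE (BR), every hole-free flat problem: `|htE x F 0 K - clPlane x KK| ≤ C (((M+2)/L)^α + (r/M)^α)`, `latBall z (L+2) ⊆ F`, `r ≤ M`, `M + 4 ≤ L`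
* `dbr_lim`             `htE x (latBall 0 R) 0 K → clPlane x KK`  (NO average over the shifts is needed: the residue equidistributes)
* `dbr_main`            **(BR)**  `pinPer x K = clPlane x KK`;      `dbr_pl` : `htPl x K = clPlane x KK`
* `dbrF Q K`            THE canonical representative of a local 4-periodic `K` on a connected `Q`;  `dbr_rep_F`
* `dbr_per_lim`, `dbr_pl_lim` (= `LimPl0.lim`), `dbr_per_pl`
* `dbr_flat_low`        flat lower bound: `F ⊆ B`, boundary values in a pair `{k, k+1}`, `φ ≥ 0`, `φ = 1` at the flat filling `dbrFlat F b k`  ⟹  `x ^ |latE B| / (dbrNum B + 1) ≤ htE x F b φ`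
* `dbr_gr_loc`, `dbr_gr_grad`, `dbr_pinI_nonneg`, `dbr_pinI_pos`      the event `PinGr`
-/

set_option autoImplicit false
set_option linter.unusedVariables false
set_option linter.unusedSectionVars false
set_option linter.unusedSimpArgs false

namespace Claimed.Agent.R291

open Relation Claims Claims.C0467 Filter Topology

/-! ### 1. representation of a height observable by a pair observable -/

/-- `h` is 1-Lipschitz on the whole lattice -/
def DbrLip (h : TV → ℤ) : Prop := ∀ u v : TV, triAdj u v → |h v - h u| ≤ 1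

/-- the pair observable `KK` represents the height observable `K` on the sites `Q` -/
structure DbrRep (Q : Finset TV) (K : (TV → ℤ) → ℝ) (KK : ClCfg TV TV → ℝ) : Prop where
  loc : ClLoc Q ∅ KK
  rep : ∀ h : TV → ℤ, DbrLip h → KK ⟨htB Q h, htW Q h, ∅⟩ = K h

/-- the form of helper182 -/
theorem dbr_rep_of_loc {Q : Finset TV} {K : (TV → ℤ) → ℝ} {KK : ClCfg TV TV → ℝ} (h1 : ClLoc Q ∅ KK)
    (h2 : ∀ h : TV → ℤ, (∀ u ∈ Q, ∀ v ∈ Q, triAdj u v → |h u - h v| ≤ 1) → KK ⟨htB Q h, htW Q h, ∅⟩ = K h) : DbrRep Q K KK :=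
  ⟨h1, fun h hh => h2 h fun u _ v _ huv => by rw [abs_sub_comm]; exact hh u v huv⟩

theorem dbr_htB_inter {Q V : Finset TV} (hQ : Q ⊆ V) (h : TV → ℤ) : htB V h ∩ Q = htB Q h ∩ Q := by
  ext u
  simp only [Finset.mem_inter, dlf_mem_htB]
  constructor
  · rintro ⟨⟨_, h1⟩, h2⟩; exact ⟨⟨h2, h1⟩, h2⟩
  · rintro ⟨⟨_, h1⟩, h2⟩; exact ⟨⟨hQ h2, h1⟩, h2⟩

theorem dbr_htW_inter {Q V : Finset TV} (hQ : Q ⊆ V) (h : TV → ℤ) : htW V h ∩ Q = htW Q h ∩ Q := by
  ext u
  simp only [Finset.mem_inter, dlf_mem_htW]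
  constructor
  · rintro ⟨⟨_, h1⟩, h2⟩; exact ⟨⟨h2, h1⟩, h2⟩
  · rintro ⟨⟨_, h1⟩, h2⟩; exact ⟨⟨hQ h2, h1⟩, h2⟩

/-- the representation read on a larger set of sites, any statuses -/
theorem dbr_rep_big {Q V : Finset TV} {K : (TV → ℤ) → ℝ} {KK : ClCfg TV TV → ℝ} (H : DbrRep Q K KK) (hQ : Q ⊆ V)
    {h : TV → ℤ} (hh : DbrLip h) (O : Finset TV) : KK ⟨htB V h, htW V h, O⟩ = K h := by
  rw [← H.rep h hh]
  exact H.loc _ _ (dbr_htB_inter hQ h) (dbr_htW_inter hQ h) (by simp)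

theorem dbr_rep_mono {Q Q' : Finset TV} {K : (TV → ℤ) → ℝ} {KK : ClCfg TV TV → ℝ} (H : DbrRep Q K KK) (hQ : Q ⊆ Q') :
    DbrRep Q' K KK :=
  ⟨dde_loc_mono hQ subset_rfl H.loc, fun h hh => dbr_rep_big H hQ hh ∅⟩

theorem dbr_rep_smul {Q : Finset TV} {K : (TV → ℤ) → ℝ} {KK : ClCfg TV TV → ℝ} (H : DbrRep Q K KK) (c : ℝ) :
    DbrRep Q (fun h => c * K h) (fun ω => c * KK ω) :=
  ⟨fun ω ω' a b d => by simp only [H.loc ω ω' a b d], fun h hh => by simp only [H.rep h hh]⟩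

theorem dbr_rep_pair {Q : Finset TV} {K : (TV → ℤ) → ℝ} {KK : ClCfg TV TV → ℝ} (H : DbrRep Q K KK) : ClPair KK :=
  fun ω ω' hB hW => H.loc ω ω' (by rw [hB]) (by rw [hW]) (by simp)

theorem dbr_adm_lip {A : Finset TV} {h : TV → ℤ} (hh : HtAdm A 0 h) : DbrLip h := by
  intro u v huv
  by_cases hA : u ∈ A ∨ v ∈ A
  · exact dlf_adm_edge hh huv hA
  · rw [not_or] at hA
    rw [hh.1 u hA.1, hh.1 v hA.2]
    simp

theorem dbr_lip_shift {h : TV → ℤ} (hh : DbrLip h) (c : ℤ) : DbrLip (fun u => h u + c) := by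
  intro u v huv
  have := hh u v huv
  simpa using this

/-- (LIFT) for a represented observable -/
theorem dbr_push (x : ℝ) (hx0 : 0 < x) (hx1 : x ≤ 1) (V F : Finset TV) (hV : DisAmb V) (hcl : latCl F ⊆ V)
    (hsk : TscConn tscG (↑(V \ F) : Set TV)) (hne : (V \ F).Nonempty) {Q : Finset TV} (hQ : Q ⊆ V)
    {K : (TV → ℤ) → ℝ} {KK : ClCfg TV TV → ℝ} (H : DbrRep Q K KK) :
    htE x F 0 K = (clAmb x V).E (fun ω => V \ F ⊆ ω.B ∧ V \ F ⊆ ω.W) KK := by
  rw [← dis_lift x hx0 hx1 V F hV hcl hsk hne KK (dbr_rep_pair H)]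
  exact ht_E_congr x F 0 fun h hh => (dbr_rep_big H hQ (dbr_adm_lip hh) ∅).symm

/-! ### 2. the quantitative bridge -/

/-- label on the skeleton: cost `2` for events which do not read `W` -/
theorem dbr_lab (x : ℝ) (hx0 : 0 < x) (hx1 : x ≤ 1) (V F : Finset TV) (hsk : TscConn tscG (↑(V \ F) : Set TV))
    (E : ClCfg TV TV → Prop) :
    0 < (clAmb x V).Z (({ dshK V F with Wp := (dshK V F).Wp ∪ (V \ F) } : ClCon TV TV).Holds (clAmb x V)) ∧
    (clAmb x V).P (({ dshK V F with Wp := (dshK V F).Wp ∪ (V \ F) } : ClCon TV TV).Holds (clAmb x V)) E ≤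
      2 * (clAmb x V).P ((dshK V F).Holds (clAmb x V)) E := by
  classical
  have hOk : ClOk (clAmb x V) := dam_pl_ok hx0 hx1 V
  have hZK : 0 < (clAmb x V).Z ((dshK V F).Holds (clAmb x V)) :=
    dis_feas _ hOk _ (dsh_K_legal x V F) (dsh_K_feas x V F)
  have hlab := dis_lbl_one (clAmb x V) hOk (dshK V F) (fun e he => by
      obtain ⟨a1, a2, _⟩ := dsh_mem_Eq.1 he
      exact ⟨(Finset.mem_sdiff.1 a1).1, (Finset.mem_sdiff.1 a2).1⟩) (V \ F) Finset.sdiff_subset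
      (dsh_K_conn hsk) rfl (fun _ => 1) (fun _ => zero_le_one) (fun _ _ _ _ => rfl)
  rw [← dis_Z_eq, ← dis_Z_eq] at hlab
  have hKK' : ∀ ω, ({ dshK V F with Wp := (dshK V F).Wp ∪ (V \ F) } : ClCon TV TV).Holds (clAmb x V) ω →
      (dshK V F).Holds (clAmb x V) ω := by
    intro ω h
    obtain ⟨a1, a2⟩ := (dsh_K_lab x V F ω).1 h
    refine ⟨a1, by simp [dshK], ?_, by simp [dshK], by simp [dshK], by simp [dshK],
      by simp [dshK], by simp [dshK]⟩
    intro e he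
    obtain ⟨b1, b2, _⟩ := dsh_mem_Eq.1 he
    exact ⟨fun _ => a2 b2, fun _ => a2 b1⟩
  have hN1 := dsh_N_mono (clAmb x V) hOk hKK' (G := fun ω => if E ω then (1 : ℝ) else 0)
    (G' := fun ω => if E ω then (1 : ℝ) else 0) (fun ω _ => le_rfl) (fun ω => by split_ifs <;> norm_num)
  have hN0 : 0 ≤ (clAmb x V).N ((dshK V F).Holds (clAmb x V)) (fun ω => if E ω then (1 : ℝ) else 0) :=
    dis_N_nonneg _ hOk _ fun ω => by split_ifs <;> norm_num
  unfold ClSys.P
  rw [dis_E_eq, dis_E_eq]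
  generalize (clAmb x V).Z ((dshK V F).Holds (clAmb x V)) = Z1 at *
  generalize (clAmb x V).Z (({ dshK V F with Wp := (dshK V F).Wp ∪ (V \ F) } : ClCon TV TV).Holds (clAmb x V)) = Z2 at *
  have hZ2 : 0 < Z2 := by linarith
  refine ⟨hZ2, ?_⟩
  rw [div_le_iff₀ hZ2]
  refine hN1.trans ?_
  generalize (clAmb x V).N ((dshK V F).Holds (clAmb x V)) (fun ω => if E ω then (1 : ℝ) else 0) = N1 at *
  have : N1 = N1 / Z1 * Z1 := by field_simp
  have h3 : 0 ≤ N1 / Z1 := div_nonneg hN0 hZK.le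
  nlinarith

theorem dbr_K_free (x : ℝ) (V F D : Finset TV) (hD : D ⊆ F) :
    ClFreeL (clAmb x V) ({ dshK V F with Wp := (dshK V F).Wp ∪ (V \ F) } : ClCon TV TV) D where
  bp := Finset.disjoint_left.2 fun v hv hvD => (Finset.mem_sdiff.1 hv).2 (hD hvD)
  bm := by simp [dshK]
  obs := by
    intro y _ hy
    simp [dshK] at hy
  eq := by
    intro e he
    obtain ⟨h1, h2, _⟩ := dsh_mem_Eq.1 he
    exact ⟨fun h => (Finset.mem_sdiff.1 h1).2 (hD h), fun h => (Finset.mem_sdiff.1 h2).2 (hD h)⟩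
  wp := Finset.disjoint_left.2 fun v hv hvD => by
    rcases Finset.mem_union.1 hv with h | h
    · simp [dshK] at h
    · exact (Finset.mem_sdiff.1 h).2 (hD hvD)
  wm := by simp [dshK]

/-- QUANTITATIVE (BR) -/
theorem dbr_tv (x : ℝ) (hx0 : 0 < x) (hx1 : x ≤ 1) (hT : DisT23 x true) :
    ∃ (C α : ℝ), 0 < C ∧ 0 < α ∧ ∀ (F : Finset TV), MomCo F → ∀ (z : TV) (r M L : ℕ), 1 ≤ r → r ≤ M → M + 4 ≤ L →
      latBall z (L + 2) ⊆ F → ∀ (K : (TV → ℤ) → ℝ) (KK : ClCfg TV TV → ℝ), DbrRep (latBall z r) K KK → (∀ ω, |KK ω| ≤ 1) →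
      |htE x F 0 K - clPlane x KK| ≤ C * ((((M + 2 : ℕ) : ℝ) / L) ^ α + ((r : ℝ) / M) ^ α) := by
  obtain ⟨C1, α1, hC1, hα1, Hst⟩ := dis_stack x hx0 hx1 true hT
  obtain ⟨C2, α2, hC2, hα2, Hpm⟩ := dis_pm x hx0 hx1 hT
  refine ⟨4 * C1 + C2, min α1 α2, by positivity, lt_min hα1 hα2, ?_⟩
  intro F hF z r M L hr hrM hML hB K KK H hb
  have hV : DisAmb (dshV F) := dis_amb_ball 0 _
  have hFV : F ⊆ dshV F := dsh_F_sub F
  have hsk := dsh_sk_conn F hF
  have hQ : latBall z r ⊆ dshV F := (plh_ball_mono z (by omega)).trans (hB.trans hFV)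
  rw [dbr_push x hx0 hx1 (dshV F) F hV (dsh_cl_sub F) hsk (dsh_sk_ne F) hQ H]
  have e2 : (fun ω : ClCfg TV TV => dshV F \ F ⊆ ω.B ∧ dshV F \ F ⊆ ω.W) =
      ({ dshK (dshV F) F with Wp := (dshK (dshV F) F).Wp ∪ (dshV F \ F) } : ClCon TV TV).Holds (clAmb x (dshV F)) := by
    funext ω
    exact propext (dsh_K_lab x (dshV F) F ω).symm
  rw [e2]
  obtain ⟨hZ1, hP⟩ := dbr_lab x hx0 hx1 (dshV F) F hsk
    (fun ω => ¬ ClSep (clAmb x (dshV F)) true (dshK (dshV F) F).Eq ω (dshV F \ latBall z L) (latBall z (M + 2)))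
  have pm := Hpm (dshV F) hV _ hZ1 z r M L hr hrM hML (hB.trans hFV) (dbr_K_free x (dshV F) F _ hB) true (fun _ => 1) KK
    (fun _ _ _ _ _ => rfl) (fun _ => by simp) (dde_loc_mono subset_rfl (Finset.empty_subset _) H.loc) hb
  simp only [one_mul] at pm
  rw [dpl_E_one _ _ hZ1, one_mul] at pm
  have hOk : ClOk (clAmb x (dshV F)) := dam_pl_ok hx0 hx1 _
  have st := Hst (dshV F) hV (dshK (dshV F) F) (dsh_K_legal x _ F)
    (dis_feas _ hOk _ (dsh_K_legal x _ F) (dsh_K_feas x _ F)) z (M + 2) L (by omega) (by omega) (hB.trans hFV)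
    (dsh_K_clear x _ F _ (Finset.sdiff_subset.trans hB))
  have hM0 : (0 : ℝ) < M := by exact_mod_cast (show 0 < M by omega)
  have hL0 : (0 : ℝ) < L := by exact_mod_cast (show 0 < L by omega)
  have q1 : (((M + 2 : ℕ) : ℝ) / L) ^ α1 ≤ (((M + 2 : ℕ) : ℝ) / L) ^ (min α1 α2) :=
    Real.rpow_le_rpow_of_exponent_ge' (by positivity)
      (by rw [div_le_one hL0]; exact_mod_cast (show M + 2 ≤ L by omega)) (lt_min hα1 hα2).le (min_le_left _ _)
  have q2 : ((r : ℝ) / M) ^ α2 ≤ ((r : ℝ) / M) ^ (min α1 α2) :=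
    Real.rpow_le_rpow_of_exponent_ge' (by positivity)
      (by rw [div_le_one hM0]; exact_mod_cast hrM) (lt_min hα1 hα2).le (min_le_right _ _)
  have p1 : 0 ≤ (((M + 2 : ℕ) : ℝ) / L) ^ (min α1 α2) := Real.rpow_nonneg (by positivity) _
  have p2 : 0 ≤ ((r : ℝ) / M) ^ (min α1 α2) := Real.rpow_nonneg (by positivity) _
  refine pm.trans ?_
  have a1 := mul_le_mul_of_nonneg_left q1 hC1.le
  have a2 := mul_le_mul_of_nonneg_left q2 hC2.le
  have a3 : (clAmb x (dshV F)).P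
      (({ dshK (dshV F) F with Wp := (dshK (dshV F) F).Wp ∪ (dshV F \ F) } : ClCon TV TV).Holds (clAmb x (dshV F)))
      (fun ω => ¬ ClSep (clAmb x (dshV F)) true (dshK (dshV F) F).Eq ω (dshV F \ latBall z L) (latBall z (M + 2))) ≤
      2 * (C1 * (((M + 2 : ℕ) : ℝ) / L) ^ (min α1 α2)) := by linarith
  have a4 : 0 ≤ C1 * ((r : ℝ) / M) ^ (min α1 α2) := by positivity
  have a5 : 0 ≤ C2 * (((M + 2 : ℕ) : ℝ) / L) ^ (min α1 α2) := by positivity
  calc _ ≤ 2 * (2 * (C1 * (((M + 2 : ℕ) : ℝ) / L) ^ (min α1 α2))) + C2 * ((r : ℝ) / M) ^ (min α1 α2) := by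
        have := a3
        linarith
    _ ≤ _ := by nlinarith

/-! ### 3. the limit -/

theorem dbr_plane_smul (x : ℝ) (hx0 : 0 < x) (hx1 : x ≤ 1) (hT : DisT23 x true) (T T' : Finset TV)
    (F : ClCfg TV TV → ℝ) (hF : ClLoc T T' F) (c : ℝ) : clPlane x (fun ω => c * F ω) = c * clPlane x F := by
  refine dpl_plane_eq (((dis_plane_lim x hx0 hx1 hT T T' F hF).const_mul c).congr fun N => ?_)
  rw [dpl_E_smul]

theorem dbr_lim1 (x : ℝ) (hx0 : 0 < x) (hx1 : x ≤ 1) (hT : DisT23 x true) (r : ℕ) (hr : 1 ≤ r) (K : (TV → ℤ) → ℝ)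
    (KK : ClCfg TV TV → ℝ) (h : DbrRep (latBall 0 r) K KK) (hb : ∀ ω, |KK ω| ≤ 1) :
    Tendsto (fun R : ℕ => htE x (latBall 0 R) 0 K) atTop (𝓝 (clPlane x KK)) := by
  obtain ⟨C, α, hC, hα, H⟩ := dbr_tv x hx0 hx1 hT
  rw [Metric.tendsto_atTop]
  intro ε hε
  have h1 : ∀ᶠ M : ℕ in atTop, C * ((r : ℝ) / M) ^ α < ε / 2 :=
    (dpl_eps C α hα r).eventually (gt_mem_nhds (by linarith))
  obtain ⟨M, hM1, hM2⟩ := (h1.and (eventually_ge_atTop r)).exists
  have h2 : ∀ᶠ L : ℕ in atTop, C * (((M + 2 : ℕ) : ℝ) / L) ^ α < ε / 2 :=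
    (dpl_eps C α hα (M + 2)).eventually (gt_mem_nhds (by linarith))
  obtain ⟨L0, hL0⟩ := eventually_atTop.1 h2
  refine ⟨max L0 (M + 4) + 2, fun R hR => ?_⟩
  obtain ⟨L, rfl⟩ : ∃ L, R = L + 2 := ⟨R - 2, by omega⟩
  have hL1 : L0 ≤ L := by
    have := le_max_left L0 (M + 4)
    omega
  have hL2 : M + 4 ≤ L := by
    have := le_max_right L0 (M + 4)
    omega
  have := H (latBall 0 (L + 2)) (plh_ball_compl_conn 0 (L + 2)) 0 r M L hr hM2 hL2 subset_rfl K KK h hb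
  rw [Real.dist_eq]
  have h3 := hL0 L hL1
  rw [mul_add] at this
  linarith

/-- the zero boundary laws in large hexagons converge to the free plane pair law -/
theorem dbr_lim (x : ℝ) (hx0 : 0 < x) (hx1 : x ≤ 1) (hT : DisT23 x true) (Q : Finset TV) (K : (TV → ℤ) → ℝ)
    (KK : ClCfg TV TV → ℝ) (h : DbrRep Q K KK) :
    Tendsto (fun R : ℕ => htE x (latBall 0 R) 0 K) atTop (𝓝 (clPlane x KK)) := by
  obtain ⟨Mb, hM, hb⟩ := dpl_loc_bdd Q ∅ KK h.loc
  obtain ⟨r, hr, h1, _⟩ := dpl_in_ball Q ∅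
  have h2 := dbr_lim1 x hx0 hx1 hT r hr _ _ (dbr_rep_smul (dbr_rep_mono h h1) Mb⁻¹) (fun ω => by
    rw [abs_mul, abs_of_pos (inv_pos.2 hM), inv_mul_le_iff₀ hM, mul_one]; exact hb ω)
  rw [dbr_plane_smul x hx0 hx1 hT Q ∅ KK h.loc] at h2
  have h3 := h2.const_mul Mb
  rw [← mul_assoc, mul_inv_cancel₀ hM.ne', one_mul] at h3
  refine h3.congr fun R => ?_
  rw [ht_E_smul, ← mul_assoc, mul_inv_cancel₀ hM.ne', one_mul]

/-- `htPl` of ANY represented observable -/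
theorem dbr_pl (x : ℝ) (hx0 : 0 < x) (hx1 : x ≤ 1) (hT : DisT23 x true) (Q : Finset TV) (K : (TV → ℤ) → ℝ)
    (KK : ClCfg TV TV → ℝ) (h : DbrRep Q K KK) : htPl x K = clPlane x KK :=
  (dbr_lim x hx0 hx1 hT Q K KK h).limUnder_eq

/-! ### 4. the Gray rotation -/

theorem dbr_htB_succ (Q : Finset TV) (h : TV → ℤ) : htB Q (fun u => h u + 1) = htW Q h := by
  ext u
  rw [dlf_mem_htB, dlf_mem_htW]
  unfold dlfB dlfW
  refine and_congr_right fun _ => ?_
  omega

theorem dbr_htW_succ (Q : Finset TV) (h : TV → ℤ) : htW Q (fun u => h u + 1) = Q \ htB Q h := by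
  ext u
  rw [dlf_mem_htW, Finset.mem_sdiff, dlf_mem_htB]
  unfold dlfB dlfW
  constructor
  · rintro ⟨h1, h2⟩; exact ⟨h1, fun h3 => by omega⟩
  · rintro ⟨h1, h2⟩
    refine ⟨h1, ?_⟩
    have : ¬ (h u % 4 = 0 ∨ h u % 4 = 1) := fun h3 => h2 ⟨h1, h3⟩
    omega

/-- the Gray rotation of a pair observable -/
def dbrRot (Q : Finset TV) (KK : ClCfg TV TV → ℝ) (ω : ClCfg TV TV) : ℝ := KK ⟨ω.W, Q \ ω.B, ∅⟩

theorem dbr_rot_loc {Q : Finset TV} {KK : ClCfg TV TV → ℝ} (h : ClLoc Q ∅ KK) : ClLoc Q ∅ (dbrRot Q KK) := by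
  intro ω ω' hB hW _
  refine h _ _ hW ?_ rfl
  ext v
  have := Finset.ext_iff.1 hB v
  simp only [Finset.mem_inter, Finset.mem_sdiff] at this ⊢
  tauto

theorem dbr_rep_rot {Q : Finset TV} {K : (TV → ℤ) → ℝ} {KK : ClCfg TV TV → ℝ} (H : DbrRep Q K KK) :
    DbrRep Q (fun h => K fun u => h u + 1) (dbrRot Q KK) :=
  ⟨dbr_rot_loc H.loc, fun h hh => by
    rw [← H.rep _ (dbr_lip_shift hh 1), dbr_htB_succ, dbr_htW_succ]
    rfl⟩

theorem dbr_plane_rot (x : ℝ) (hx0 : 0 < x) (hx1 : x ≤ 1) (hT : DisT23 x true) (Q : Finset TV)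
    (KK : ClCfg TV TV → ℝ) (h : ClLoc Q ∅ KK) : clPlane x (dbrRot Q KK) = clPlane x KK := by
  have hF : ClLoc Q ∅ (fun ω : ClCfg TV TV => KK ⟨ω.B, Q \ ω.W, ω.O⟩) := by
    intro ω ω' hB hW hO
    refine h _ _ hB ?_ hO
    ext v
    have := Finset.ext_iff.1 hW v
    simp only [Finset.mem_inter, Finset.mem_sdiff] at this ⊢
    tauto
  rw [← dis_plane_flipW x hx0 hx1 hT Q ∅ KK h, ← dis_plane_swap x hx0 hx1 hT Q _ hF]
  rfl

/-- the shifted observables have the same limit -/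
theorem dbr_lim_shift (x : ℝ) (hx0 : 0 < x) (hx1 : x ≤ 1) (hT : DisT23 x true) (Q : Finset TV) (K : (TV → ℤ) → ℝ)
    (KK : ClCfg TV TV → ℝ) (h : DbrRep Q K KK) (c : ℕ) :
    Tendsto (fun R : ℕ => htE x (latBall 0 R) 0 (fun g => K fun u => g u + (c : ℤ))) atTop (𝓝 (clPlane x KK)) := by
  induction c generalizing K KK with
  | zero => simpa using dbr_lim x hx0 hx1 hT Q K KK h
  | succ c ih =>
    have := ih _ _ (dbr_rep_rot h)
    rw [dbr_plane_rot x hx0 hx1 hT Q KK h.loc] at this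
    refine this.congr fun R => ?_
    congr 1
    funext g
    congr 1
    funext u
    push_cast
    ring

/-- **(BR)** the plane pair law of the heights is the free plane cell law -/
theorem dbr_main (x : ℝ) (hx0 : 0 < x) (hx1 : x ≤ 1) (hT : DisT23 x true) (Q : Finset TV) (K : (TV → ℤ) → ℝ)
    (KK : ClCfg TV TV → ℝ) (h : DbrRep Q K KK) : pinPer x K = clPlane x KK := by
  unfold pinPer htPl
  refine Tendsto.limUnder_eq ?_
  have h1 : Tendsto (fun R : ℕ => (∑ c ∈ Finset.range 4, htE x (latBall 0 R) 0 (fun g => K fun u => g u + (c : ℤ))) / 4) atTop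
      (𝓝 ((∑ c ∈ Finset.range 4, clPlane x KK) / 4)) :=
    (tendsto_finsetSum _ fun c _ => dbr_lim_shift x hx0 hx1 hT Q K KK h c).div_const 4
  have e : (∑ c ∈ Finset.range 4, clPlane x KK) / 4 = clPlane x KK := by
    rw [Finset.sum_const, Finset.card_range]
    simp
  rw [e] at h1
  refine h1.congr fun R => ?_
  rw [ht_E_div_const, ht_E_sum]

/-! ### 5. the canonical representative -/

theorem dbr_gray_res {Q : Finset TV} {g h : TV → ℤ} (hB : htB Q g = htB Q h) (hW : htW Q g = htW Q h) {u : TV} (hu : u ∈ Q) :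
    g u % 4 = h u % 4 := by
  have h1 : dlfB (g u) ↔ dlfB (h u) := by
    have : u ∈ htB Q g ↔ u ∈ htB Q h := by rw [hB]
    rw [dlf_mem_htB, dlf_mem_htB] at this
    exact ⟨fun a => (this.1 ⟨hu, a⟩).2, fun a => (this.2 ⟨hu, a⟩).2⟩
  have h2 : dlfW (g u) ↔ dlfW (h u) := by
    have : u ∈ htW Q g ↔ u ∈ htW Q h := by rw [hW]
    rw [dlf_mem_htW, dlf_mem_htW] at this
    exact ⟨fun a => (this.1 ⟨hu, a⟩).2, fun a => (this.2 ⟨hu, a⟩).2⟩
  unfold dlfB at h1
  unfold dlfW at h2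
  omega

/-- two Lipschitz heights with the same Gray code on a connected set differ there by a constant of `4ℤ` -/
theorem dbr_gray_unique {Q : Finset TV} (hQ : TscConn tscG (↑Q : Set TV)) {g h : TV → ℤ} (hg : DbrLip g) (hh : DbrLip h)
    (hB : htB Q g = htB Q h) (hW : htW Q g = htW Q h) : ∃ t : ℤ, ∀ u ∈ Q, g u = h u + 4 * t := by
  rcases Q.eq_empty_or_nonempty with rfl | ⟨o, ho⟩
  · exact ⟨0, fun u hu => absurd hu (Finset.notMem_empty u)⟩
  have h0 := dbr_gray_res hB hW ho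
  refine ⟨(g o - h o) / 4, fun v hv => ?_⟩
  have key : ∀ v, TscR tscG (↑Q : Set TV) o v → g v - h v = g o - h o := by
    intro v hv
    induction hv with
    | refl => rfl
    | @tail a b _ hab ih =>
      have ha : a ∈ Q := by exact_mod_cast hab.2.1
      have hb : b ∈ Q := by exact_mod_cast hab.2.2
      have r1 := dbr_gray_res hB hW ha
      have r2 := dbr_gray_res hB hW hb
      have l1 := abs_le.1 (hg a b hab.1)
      have l2 := abs_le.1 (hh a b hab.1)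
      omega
  have := key v (hQ o (by exact_mod_cast ho) v (by exact_mod_cast hv))
  omega

theorem dbr_p4_int {K : (TV → ℤ) → ℝ} (h4 : PinP4 K) (t : ℤ) (h : TV → ℤ) : K (fun u => h u + 4 * t) = K h := by
  induction t using Int.induction_on with
  | zero => simp
  | succ i ih =>
    rw [← ih, ← h4 (fun u => h u + 4 * (i : ℤ))]
    congr 1
    funext u
    ring
  | pred i ih =>
    rw [← ih, ← h4 (fun u => h u + 4 * (-(i : ℤ) - 1))]
    congr 1
    funext u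
    ring

open Classical in
/-- the canonical representative -/
noncomputable def dbrF (Q : Finset TV) (K : (TV → ℤ) → ℝ) (ω : ClCfg TV TV) : ℝ :=
  if h : ∃ g : TV → ℤ, DbrLip g ∧ htB Q g = ω.B ∩ Q ∧ htW Q g = ω.W ∩ Q then K h.choose else 0

theorem dbr_F_loc (Q : Finset TV) (K : (TV → ℤ) → ℝ) : ClLoc Q ∅ (dbrF Q K) := by
  intro ω ω' hB hW _
  unfold dbrF
  rw [hB, hW]

theorem dbr_htB_self (Q : Finset TV) (h : TV → ℤ) : htB Q h ∩ Q = htB Q h :=
  Finset.inter_eq_left.2 (Finset.filter_subset _ _)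

theorem dbr_htW_self (Q : Finset TV) (h : TV → ℤ) : htW Q h ∩ Q = htW Q h :=
  Finset.inter_eq_left.2 (Finset.filter_subset _ _)

theorem dbr_rep_F (Q : Finset TV) (hQ : TscConn tscG (↑Q : Set TV)) (K : (TV → ℤ) → ℝ) (hK : HtLoc Q K) (h4 : PinP4 K) :
    DbrRep Q K (dbrF Q K) := by
  refine ⟨dbr_F_loc Q K, fun h hh => ?_⟩
  have hex : ∃ g : TV → ℤ, DbrLip g ∧ htB Q g = (⟨htB Q h, htW Q h, ∅⟩ : ClCfg TV TV).B ∩ Q ∧
      htW Q g = (⟨htB Q h, htW Q h, ∅⟩ : ClCfg TV TV).W ∩ Q :=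
    ⟨h, hh, (dbr_htB_self Q h).symm, (dbr_htW_self Q h).symm⟩
  unfold dbrF
  rw [dif_pos hex]
  obtain ⟨g1, g2, g3⟩ := hex.choose_spec
  obtain ⟨t, ht⟩ := dbr_gray_unique hQ g1 hh (g2.trans (dbr_htB_self Q h)) (g3.trans (dbr_htW_self Q h))
  rw [hK _ (fun u => h u + 4 * t) ht, dbr_p4_int h4]

/-- values of the canonical representative -/
theorem dbr_F_abs (Q : Finset TV) (K : (TV → ℤ) → ℝ) (c : ℝ) (hc : 0 ≤ c) (hb : ∀ h, |K h| ≤ c) (ω : ClCfg TV TV) :
    |dbrF Q K ω| ≤ c := by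
  unfold dbrF
  split_ifs
  · exact hb _
  · simpa using hc

theorem dbr_F_nonneg (Q : Finset TV) (K : (TV → ℤ) → ℝ) (hb : ∀ h, 0 ≤ K h) (ω : ClCfg TV TV) : 0 ≤ dbrF Q K ω := by
  unfold dbrF
  split_ifs
  · exact hb _
  · exact le_rfl

theorem dbr_loc_ball {Q : Finset TV} {K : (TV → ℤ) → ℝ} (hK : HtLoc Q K) : ∃ r : ℕ, 1 ≤ r ∧ Q ⊆ latBall 0 r ∧ HtLoc (latBall 0 r) K := by
  obtain ⟨r, hr, h1, _⟩ := dpl_in_ball Q ∅
  exact ⟨r, hr, h1, fun h h' hh => hK h h' fun u hu => hh u (h1 hu)⟩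

/-- a local 4-periodic observable: the limit exists WITHOUT the average and is `pinPer` -/
theorem dbr_per_lim (x : ℝ) (hx0 : 0 < x) (hx1 : x ≤ 1) (hT : DisT23 x true) (Q : Finset TV) (K : (TV → ℤ) → ℝ)
    (hK : HtLoc Q K) (h4 : PinP4 K) : Tendsto (fun R : ℕ => htE x (latBall 0 R) 0 K) atTop (𝓝 (pinPer x K)) := by
  obtain ⟨r, _, _, hK'⟩ := dbr_loc_ball hK
  have H := dbr_rep_F (latBall 0 r) (plh_ball_conn 0 r) K hK' h4
  rw [dbr_main x hx0 hx1 hT _ K _ H]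
  exact dbr_lim x hx0 hx1 hT _ K _ H

theorem dbr_grad_p4 {G : (TV → ℤ) → ℝ} (hg : HtGrad G) : PinP4 G := fun h => hg h 4

/-- `LimPl0.lim` -/
theorem dbr_pl_lim (x : ℝ) (hx0 : 0 < x) (hx1 : x ≤ 1) (hT : DisT23 x true) (Q : Finset TV) (G : (TV → ℤ) → ℝ)
    (hG : HtLoc Q G) (hg : HtGrad G) : Tendsto (fun R : ℕ => htE x (latBall 0 R) 0 G) atTop (𝓝 (htPl x G)) :=
  tendsto_nhds_limUnder ⟨_, dbr_per_lim x hx0 hx1 hT Q G hG (dbr_grad_p4 hg)⟩

/-- for local 4-periodic observables `htPl = pinPer` -/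
theorem dbr_per_pl (x : ℝ) (hx0 : 0 < x) (hx1 : x ≤ 1) (hT : DisT23 x true) (Q : Finset TV) (K : (TV → ℤ) → ℝ)
    (hK : HtLoc Q K) (h4 : PinP4 K) : htPl x K = pinPer x K :=
  (dbr_per_lim x hx0 hx1 hT Q K hK h4).limUnder_eq

/-! ### 6. a flat lower bound in small height problems -/

theorem dbr_cl_mono {F B : Finset TV} (h : F ⊆ B) : latCl F ⊆ latCl B := by
  intro u hu
  rcases lat_mem_cl.1 hu with h1 | ⟨v, hv, hvu⟩
  · exact lat_mem_cl.2 (Or.inl (h h1))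
  · exact lat_mem_cl.2 (Or.inr ⟨v, h hv, hvu⟩)

/-- the flat filling of a boundary function with values in a pair `{k, k+1}` -/
def dbrFlat (F : Finset TV) (b : TV → ℤ) (k : ℤ) (u : TV) : ℤ := if u ∈ F then k else b u

theorem dbr_mem_out {F : Finset TV} {u d : TV} (hu : u ∈ F) (hd : d ∈ latDirs) (h : u + d ∉ F) : u + d ∈ latOut F := by
  unfold latOut
  exact Finset.mem_sdiff.2 ⟨Finset.mem_biUnion.2 ⟨u, hu, lat_mem_nb.2 (lat_adj_add u hd)⟩, h⟩

theorem dbr_flat_adm {F : Finset TV} {b : TV → ℤ} {k : ℤ} (hb : ∀ u ∈ latOut F, b u = k ∨ b u = k + 1) :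
    HtAdm F b (dbrFlat F b k) := by
  refine ⟨fun u hu => if_neg hu, fun u hu d hd => ?_⟩
  unfold dbrFlat
  rw [if_pos hu]
  by_cases h : u + d ∈ F
  · rw [if_pos h]; simp
  · rw [if_neg h]
    rcases hb _ (dbr_mem_out hu hd h) with e | e <;> rw [e] <;> simp

/-- a priori bound relative to the level `k` -/
theorem dbr_adm_bound {F : Finset TV} {b h : TV → ℤ} {k : ℤ} (hb : ∀ u ∈ latOut F, b u = k ∨ b u = k + 1) (hh : HtAdm F b h)
    {u : TV} (hu : u ∈ F) : |h u - k| ≤ 2 * ((latCl F).card : ℤ) := by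
  have hadm : HtAdm F (fun u => if u ∈ F then 0 else b u - k) (fun u => h u - k) := by
    refine ⟨fun v hv => ?_, fun v hv d hd => ?_⟩
    · simp only [if_neg hv, hh.1 v hv]
    · have := hh.2 v hv d hd
      simpa using this
  have h1 := ht_adm_bound hadm hu
  have h2 : ∑ e ∈ latCl F, |(fun u => if u ∈ F then 0 else b u - k) e| ≤ ∑ e ∈ latCl F, (1 : ℤ) := by
    refine Finset.sum_le_sum fun e he => ?_
    dsimp only
    by_cases heF : e ∈ F
    · rw [if_pos heF]; simp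
    · rw [if_neg heF]
      have heO : e ∈ latOut F := by
        rcases lat_mem_cl.1 he with h3 | ⟨v, hv, hve⟩
        · exact absurd h3 heF
        · exact Finset.mem_sdiff.2 ⟨Finset.mem_biUnion.2 ⟨v, hv, lat_mem_nb.2 hve⟩, heF⟩
      rcases hb e heO with e1 | e1 <;> rw [e1] <;> simp
  rw [Finset.sum_const, nsmul_eq_mul, mul_one] at h2
  have h3 : (F.card : ℤ) ≤ (latCl F).card := by
    exact_mod_cast Finset.card_le_card fun v hv => lat_mem_cl.2 (Or.inl hv)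
  linarith

/-- number of height functions on `B` with values in `[-2 |latCl B|, 2 |latCl B|]` -/
noncomputable def dbrNum (B : Finset TV) : ℕ :=
  (Fintype.piFinset (fun _ : B => Finset.Icc (-(2 * ((latCl B).card : ℤ))) (2 * ((latCl B).card : ℤ)))).card

theorem dbr_cfg_card {F B : Finset TV} (hFB : F ⊆ B) {b : TV → ℤ} {k : ℤ} (hb : ∀ u ∈ latOut F, b u = k ∨ b u = k + 1) :
    (htCfg F b).card ≤ dbrNum B := by
  classical
  unfold dbrNum
  refine Finset.card_le_card_of_injOn (fun h (a : B) => if (a : TV) ∈ F then h a - k else 0) ?_ ?_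
  · intro h hh
    rw [Finset.mem_coe, ht_mem_cfg] at hh
    rw [Finset.mem_coe, Fintype.mem_piFinset]
    intro a
    rw [Finset.mem_Icc, ← abs_le]
    have hc : ((latCl F).card : ℤ) ≤ (latCl B).card := by exact_mod_cast Finset.card_le_card (dbr_cl_mono hFB)
    dsimp only
    by_cases ha : (a : TV) ∈ F
    · rw [if_pos ha]
      have := dbr_adm_bound hb hh ha
      linarith
    · rw [if_neg ha]
      simp
  · intro h1 hh1 h2 hh2 he
    rw [Finset.mem_coe, ht_mem_cfg] at hh1 hh2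
    funext u
    by_cases hu : u ∈ F
    · have := congr_fun he ⟨u, hFB hu⟩
      simp only [if_pos hu] at this
      linarith
    · rw [hh1.1 u hu, hh2.1 u hu]

/-- **flat lower bound**: in every height problem `F ⊆ B` with boundary values in a pair, a nonnegative observable which equals `1` at the flat filling has mean bounded below -/
theorem dbr_flat_low {x : ℝ} (hx0 : 0 < x) (hx1 : x ≤ 1) {F B : Finset TV} (hFB : F ⊆ B) {b : TV → ℤ} {k : ℤ}
    (hb : ∀ u ∈ latOut F, b u = k ∨ b u = k + 1) (φ : (TV → ℤ) → ℝ) (h0 : ∀ h, 0 ≤ φ h) (h1 : φ (dbrFlat F b k) = 1) :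
    x ^ (latE B).card / ((dbrNum B : ℝ) + 1) ≤ htE x F b φ := by
  have hadm := dbr_flat_adm hb
  have hZ := ht_Z_pos hx0 hadm
  unfold htE
  rw [le_div_iff₀ hZ]
  have hnum : x ^ (latE B).card ≤ ∑ h ∈ htCfg F b, htWt x F h * φ h := by
    have a1 : htWt x F (dbrFlat F b k) * φ (dbrFlat F b k) ≤ ∑ h ∈ htCfg F b, htWt x F h * φ h :=
      Finset.single_le_sum (f := fun h => htWt x F h * φ h) (fun h _ => mul_nonneg (ht_wt_pos hx0 F h).le (h0 h))
        (ht_mem_cfg.2 hadm)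
    rw [h1, mul_one] at a1
    refine le_trans ?_ a1
    unfold htWt
    refine pow_le_pow_of_le_one hx0.le hx1 ?_
    unfold htN
    calc _ ≤ ∑ p ∈ latE F, 1 := Finset.sum_le_sum fun p _ => by split_ifs <;> omega
      _ = (latE F).card := by simp
      _ ≤ _ := Finset.card_le_card (ht_latE_mono hFB)
  have hden : htZ x F b ≤ (dbrNum B : ℝ) + 1 := by
    unfold htZ
    calc _ ≤ ∑ h ∈ htCfg F b, (1 : ℝ) := Finset.sum_le_sum fun h _ => pow_le_one₀ hx0.le hx1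
      _ = ((htCfg F b).card : ℝ) := by simp
      _ ≤ (dbrNum B : ℝ) := by exact_mod_cast dbr_cfg_card hFB hb
      _ ≤ _ := by linarith
  have hp : 0 < x ^ (latE B).card := pow_pos hx0 _
  have hN : (0 : ℝ) < (dbrNum B : ℝ) + 1 := by positivity
  calc x ^ (latE B).card / ((dbrNum B : ℝ) + 1) * htZ x F b ≤ x ^ (latE B).card / ((dbrNum B : ℝ) + 1) * ((dbrNum B : ℝ) + 1) :=
        mul_le_mul_of_nonneg_left hden (by positivity)
    _ = x ^ (latE B).card := by field_simp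
    _ ≤ _ := hnum

/-! ### the pin events -/

theorem dbr_gr_loc {G D Q : Finset TV} (hG : G ⊆ Q) (hD : D ⊆ Q) : HtLoc Q (fun h => pinI (PinGr G D h)) := by
  intro h h' hh
  have : PinGr G D h ↔ PinGr G D h' := by
    unfold PinGr PinAbs
    refine exists_congr fun t => and_congr ?_ ?_
    · exact forall₂_congr fun u hu => by dsimp only; rw [hh u (hG hu)]
    · exact forall₂_congr fun u hu => by dsimp only; rw [hh u (hD hu)]
  simp only [this]

theorem dbr_gr_grad (G D : Finset TV) : HtGrad (fun h => pinI (PinGr G D h)) := by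
  intro h c
  have : PinGr G D (fun u => h u + c) ↔ PinGr G D h := by
    unfold PinGr
    constructor
    · rintro ⟨t, ht⟩
      refine ⟨t - c, ?_⟩
      have e : (fun u => h u - (t - c)) = fun u => h u + c - t := by funext u; ring
      rw [e]; exact ht
    · rintro ⟨t, ht⟩
      refine ⟨t + c, ?_⟩
      have e : (fun u => h u + c - (t + c)) = fun u => h u - t := by funext u; ring
      rw [e]; exact ht
  simp only [this]

theorem dbr_pinI_nonneg (p : Prop) : 0 ≤ pinI p := by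
  unfold pinI; split_ifs <;> norm_num

theorem dbr_pinI_pos {p : Prop} (h : p) : pinI p = 1 := by
  unfold pinI; exact if_pos h

theorem dbr_eqns_cite : True := by
  have := @DbrLip.eq_1
  have := @dbrRot.eq_1
  have := @dbrF.eq_1
  have := @dbrFlat.eq_1
  have := @dbrNum.eq_1
  trivial

end Claimed.Agent.R291
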