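import Claimed.Agent.R291.Dis.CutHt
import Claimed.Agent.R291.Dis.PinBr

/-!
# Row 291 (S0539), Dis/CutPin : THE STOPPED CUT AROUND A TEST IN THE PLANE LAW WITH PINS (contract `exit_dis_cut_pin`)      (owner helper16; head of the unit DIS helper146; prefix `dcp_` / `Dcp` / `dcp`)

TEX[prop:pin-moments] 05-pins l.392-412, TEX[pins:gap-closing] l.858-880, TEX[lem:cell-cut], TEX[lem:buffer-circuits].   Twin of `Dis/CutHt.lean` (helper62), which is reused verbatim.

CHAIN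
* sec. 1  the all plus, all open configuration: feasibility of every constraint made of plus pins, plus labels, equalities and plus cuts (`dcp_Z_pos`).
* sec. 2  THE HISTORY OF THE PINS: `dcpK G L` (legal: `B = +` on `G ∪ D`, equalities along the edges inside the `L l`), `dcpKL G L` (with the labels `W = +` on `D = ⋃ L l`);
          `dcp_KL_holds` (`= DcpPin G D`), label cost `2 ^ k` (`dcp_label`, from `dis_lbl`), `dcp_K_legal`, `dcp_K_clear`.
* sec. 3  ONE TERM: inside a plus cut `I` found from outside, the law does not see the history outside (`dis_cut_law`): it is the law inside the same cut in the FLAT problem on `latBall 0 M`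
          seen in the same ambient hexagon `latBall 0 (M+1)`, for which `dch_term` (62) gives the lower bound `m`.      NO second lift, NO free height law.
* sec. 4  CORE, finite FREE volume `latBall 0 (M+1)`:   `c / 2 ^ k * m * Z(pins) ≤ N(pins)(dchG φ)`      (`dch_ring`, `dis_dec`, sec. 2, sec. 3).
* sec. 5  BRIDGE (BR) of helper34 = `dbr_main` of helper267 (`pinPer x K = clPlane x f`), `dis_plane_lim`, limit `M → ∞`:   `dcp_main` = `exit_dis_cut_pin`.      no own sorry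
-/

set_option autoImplicit false
set_option linter.unusedSectionVars false
set_option linter.unusedVariables false

namespace Claimed.Agent.R291

open Claims Claims.C0467 Finset Filter Topology

/-! ## 1. The all plus, all open configuration -/

section abs

variable {V Y : Type} [DecidableEq V] [DecidableEq Y]

/-- all first spins plus, all second spins plus, all cells open -/
def dcpTop (S : ClSys V Y) : ClCfg V Y := ⟨S.A, S.A, S.C⟩

theorem dcp_top_mem (S : ClSys V Y) : dcpTop S ∈ S.cfgs := by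
  rw [cl_mem_cfgs]
  exact ⟨subset_rfl, subset_rfl, subset_rfl⟩

theorem dcp_top_wt (S : ClSys V Y) (hS : ClOk S) : 0 < S.wt (dcpTop S) := by
  refine Finset.prod_pos fun y hy => ?_
  have hb : ClConst (dcpTop S).B (S.sv y) := Or.inl (hS.sub y hy)
  have ho : y ∈ (dcpTop S).O := hy
  simp only [clCellW, ho, hb, if_true]
  exact hS.q0 y hy

theorem dcp_top_tau (S : ClSys V Y) (hS : ClOk S) {y : Y} (hy : y ∈ S.C) : clTau S (dcpTop S) y = 1 := by
  have hb : S.sv y ⊆ (dcpTop S).B := hS.sub y hy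
  have ho : y ∈ (dcpTop S).O := hy
  simp only [clTau, ho, hb, if_true]

theorem dcp_top_cut (S : ClSys V Y) (hS : ClOk S) (I : Finset V) : ClCut S true I (dcpTop S) := by
  intro y hy _
  rw [dcp_top_tau S hS hy]
  rfl

/-- a constraint satisfied by the all plus, all open configuration is feasible -/
theorem dcp_Z_pos (S : ClSys V Y) (hS : ClOk S) {P : ClCfg V Y → Prop} (hP : P (dcpTop S)) : 0 < S.Z P := by
  classical
  unfold ClSys.Z
  refine Finset.sum_pos' (fun ω _ => ?_) ⟨dcpTop S, dcp_top_mem S, by rw [if_pos hP]; exact dcp_top_wt S hS⟩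
  split_ifs
  · exact dis_wt_nonneg S hS ω
  · exact le_rfl

/-- a constrained sum as a free sum -/
theorem dcp_N_free (S : ClSys V Y) (P : ClCfg V Y → Prop) (G : ClCfg V Y → ℝ) :
    S.N (fun _ => True) (fun ω => G ω * clInd P ω) = S.N P G := by
  classical
  unfold ClSys.N
  refine Finset.sum_congr rfl fun ω _ => ?_
  beta_reduce
  by_cases h : P ω
  · rw [if_pos trivial, if_pos h, dis_ind_pos h, mul_one]
  · rw [if_pos trivial, if_neg h, dis_ind_neg h, mul_zero, mul_zero]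

theorem dcp_mem_foldr (Cs : List (Finset V)) (v : V) : v ∈ Cs.foldr (· ∪ ·) ∅ ↔ ∃ C ∈ Cs, v ∈ C := by
  induction Cs with
  | nil => simp
  | cons C Cs ih =>
    simp only [List.foldr_cons, Finset.mem_union, ih, List.mem_cons, exists_eq_or_imp]

theorem dcp_foldr_ofFn {k : ℕ} (L : Fin k → Finset V) : (List.ofFn L).foldr (· ∪ ·) ∅ = Finset.univ.biUnion L := by
  ext v
  rw [dcp_mem_foldr]
  simp only [List.mem_ofFn, Finset.mem_biUnion, Finset.mem_univ, true_and, exists_exists_eq_and]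

end abs

/-! ## 2. The history of the pins -/

/-- the spin pin event: `B = +` on `G ∪ D`, `W = +` on `D` -/
def DcpPin (G D : Finset TV) (ω : ClCfg TV TV) : Prop := G ∪ D ⊆ ω.B ∧ D ⊆ ω.W

/-- the legal history of the pins: first spin plus on `G ∪ ⋃ L l`, second spin equal along the edges inside each `L l` -/
def dcpK {k : ℕ} (G : Finset TV) (L : Fin k → Finset TV) : ClCon TV TV :=
  ⟨G ∪ Finset.univ.biUnion L, ∅, Finset.univ.biUnion (fun l => ((L l) ×ˢ (L l)).filter (fun e => triAdj e.1 e.2)), ∅, ∅, ∅, ∅, ∅⟩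

/-- the same history with the labels: second spin plus on every `L l` -/
def dcpKL {k : ℕ} (G : Finset TV) (L : Fin k → Finset TV) : ClCon TV TV :=
  { dcpK G L with Wp := (dcpK G L).Wp ∪ (List.ofFn L).foldr (· ∪ ·) ∅ }

theorem dcp_eqns_cite : True := by
  have := @dcpTop.eq_1
  have := @DcpPin.eq_1
  have := @dcpK.eq_1
  have := @dcpKL.eq_1
  trivial

theorem dcp_mem_Eq {k : ℕ} {G : Finset TV} {L : Fin k → Finset TV} {e : TV × TV} :
    e ∈ (dcpK G L).Eq ↔ ∃ l, e.1 ∈ L l ∧ e.2 ∈ L l ∧ triAdj e.1 e.2 := by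
  simp only [dcpK, Finset.mem_biUnion, Finset.mem_univ, true_and, Finset.mem_filter, Finset.mem_product]
  constructor
  · rintro ⟨l, ⟨h1, h2⟩, h3⟩; exact ⟨l, h1, h2, h3⟩
  · rintro ⟨l, h1, h2, h3⟩; exact ⟨l, ⟨h1, h2⟩, h3⟩

theorem dcp_KL_holds {k : ℕ} (S : ClSys TV TV) (G : Finset TV) (L : Fin k → Finset TV) (ω : ClCfg TV TV) :
    (dcpKL G L).Holds S ω ↔ DcpPin G (Finset.univ.biUnion L) ω := by
  have hW : (dcpKL G L).Wp = Finset.univ.biUnion L := by
    show (∅ : Finset TV) ∪ (List.ofFn L).foldr (· ∪ ·) ∅ = _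
    rw [Finset.empty_union, dcp_foldr_ofFn]
  constructor
  · intro h
    refine ⟨h.1, ?_⟩
    have := h.2.2.2.2.2.2.1
    rwa [hW] at this
  · rintro ⟨h1, h2⟩
    refine ⟨h1, by simp [dcpKL, dcpK], ?_, by simp [dcpKL, dcpK], by simp [dcpKL, dcpK], by simp [dcpKL, dcpK], ?_,
      by simp [dcpKL, dcpK]⟩
    · intro e he
      obtain ⟨l, a1, a2, _⟩ := (dcp_mem_Eq (G := G)).1 he
      have b1 : e.1 ∈ ω.W := h2 (Finset.mem_biUnion.2 ⟨l, Finset.mem_univ _, a1⟩)
      have b2 : e.2 ∈ ω.W := h2 (Finset.mem_biUnion.2 ⟨l, Finset.mem_univ _, a2⟩)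
      exact ⟨fun _ => b2, fun _ => b1⟩
    · rw [hW]; exact h2

theorem dcp_KL_K {k : ℕ} (S : ClSys TV TV) (G : Finset TV) (L : Fin k → Finset TV) (ω : ClCfg TV TV)
    (h : (dcpKL G L).Holds S ω) : (dcpK G L).Holds S ω :=
  ⟨h.1, h.2.1, h.2.2.1, h.2.2.2.1, h.2.2.2.2.1, h.2.2.2.2.2.1, by simp [dcpK], h.2.2.2.2.2.2.2⟩

theorem dcp_K_legal {k : ℕ} (x : ℝ) (V G : Finset TV) (L : Fin k → Finset TV) (hL : ∀ l, L l ⊆ V) :
    ClLegal (clAmb x V) (dcpK G L) where
  wp := rfl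
  wm := rfl
  full := by
    intro y _ hy
    simp [dcpK] at hy
  eq := by
    intro e he
    obtain ⟨l, h1, h2, h3⟩ := dcp_mem_Eq.1 he
    obtain ⟨y, hy1, hy2⟩ := pcp_adj_cell h3
    exact ⟨y, lat_mem_cells.2 ⟨e.1, hy1, hL l h1⟩, Finset.mem_inter.2 ⟨hy1, hL l h1⟩, Finset.mem_inter.2 ⟨hy2, hL l h2⟩⟩

theorem dcp_K_clear {k : ℕ} (x : ℝ) (V G T : Finset TV) (L : Fin k → Finset TV) (hL : ∀ l, Disjoint (L l) T) :
    ClClear (clAmb x V) true (dcpK G L) T where
  pin := by simp [dcpK]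
  obs := by
    intro y _ hy
    simp [dcpK] at hy
  eq := by
    intro e he
    obtain ⟨l, h1, h2, _⟩ := dcp_mem_Eq.1 he
    exact ⟨fun h => Finset.disjoint_left.1 (hL l) h1 h, fun h => Finset.disjoint_left.1 (hL l) h2 h⟩

/-- label cost `2 ^ k`: an observable which does not read `W` -/
theorem dcp_label {k : ℕ} {x : ℝ} (hx0 : 0 < x) (hx1 : x ≤ 1) (V G : Finset TV) (L : Fin k → Finset TV) (hLV : ∀ l, L l ⊆ V)
    (hL : ∀ l, TscConn tscG (↑(L l) : Set TV))
    (F : ClCfg TV TV → ℝ) (hF0 : ∀ ω, 0 ≤ F ω) (hFW : ∀ ω ω' : ClCfg TV TV, ω.B = ω'.B → ω.O = ω'.O → F ω = F ω') :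
    (clAmb x V).N ((dcpK G L).Holds (clAmb x V)) F ≤ 2 ^ k * (clAmb x V).N ((dcpKL G L).Holds (clAmb x V)) F := by
  have h := dis_lbl (clAmb x V) (dam_pl_ok hx0 hx1 V) (dcpK G L) (fun e he => by
      obtain ⟨l, a1, a2, _⟩ := dcp_mem_Eq.1 he
      exact ⟨hLV l a1, hLV l a2⟩) (List.ofFn L) (fun C hC => by
      obtain ⟨l, rfl⟩ := List.mem_ofFn.1 hC
      refine ⟨hLV l, fun u hu v hv => ?_⟩
      have this : Relation.ReflTransGen (TscStep tscG (↑(L l) : Set TV)) u v :=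
        hL l u (by exact_mod_cast hu) v (by exact_mod_cast hv)
      refine Relation.ReflTransGen.mono ?_ u v this
      intro a b hab
      exact Or.inl (dcp_mem_Eq.2 ⟨l, by exact_mod_cast hab.2.1, by exact_mod_cast hab.2.2, hab.1⟩)) rfl F hF0 hFW
  rw [List.length_ofFn] at h
  exact h

/-! ## 3. One term of the decomposition -/

/-- the flat reference problem `latBall 0 M` in the ambient hexagon `latBall 0 (M+1)` -/
theorem dcp_ref (M : ℕ) : latCl (latBall 0 M) ⊆ latBall 0 (M + 1) ∧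
    TscConn tscG (↑(latBall 0 (M + 1) \ latBall 0 M) : Set TV) ∧ (latBall 0 (M + 1) \ latBall 0 M).Nonempty := by
  refine ⟨?_, ?_, ?_⟩
  · intro u hu
    rcases lat_mem_cl.1 hu with h | ⟨v, hv, hvu⟩
    · exact plh_ball_mono 0 (by omega) h
    · rw [lat_mem_ball, sub_zero] at hv ⊢
      have := plh_N_adj hvu
      omega
  · have e : (↑(latBall 0 (M + 1) \ latBall 0 M) : Set TV) = {u : TV | latN (u - 0) = M + 1} := by
      ext u
      simp only [Finset.coe_sdiff, Set.mem_sdiff, Finset.mem_coe, lat_mem_ball, Set.mem_ofPred_eq]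
      omega
    rw [e]
    exact plh_sphere_conn 0 (M + 1)
  · refine ⟨(((M + 1 : ℕ) : ℤ), 0), ?_⟩
    rw [Finset.mem_sdiff, lat_mem_ball, lat_mem_ball, sub_zero, plh_N_hor, Int.natAbs_natCast]
    omega

/-- **one term**: inside a plus cut found from outside, the pins are not seen and the expectation of `φ` is at least `m` -/
theorem dcp_term {k : ℕ} {x : ℝ} (hx0 : 0 < x) (hx1 : x ≤ 1) {M : ℕ} {G I : Finset TV} {L : Fin k → Finset TV} {z0 : TV} {ρ : ℕ}
    (hball : latBall z0 (2 * ρ) ⊆ latBall 0 M) (hG : Disjoint G (latBall z0 (2 * ρ))) (hL : ∀ l, Disjoint (L l) (latBall z0 (2 * ρ)))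
    (hGV : G ⊆ latBall 0 (M + 1)) (hLV : ∀ l, L l ⊆ latBall 0 (M + 1))
    (hA : latBall z0 (ρ + 1) ⊆ I) (hI : I ⊆ latBall z0 (2 * ρ))
    (hinv : DchInv (latBall 0 (M + 1)) (latBall 0 (M + 1) \ latBall z0 (2 * ρ)) I)
    {φ : (TV → ℤ) → ℝ} {m : ℝ} (hloc : HtLoc (latBall z0 ρ) φ) (hgr : HtGrad φ)
    (hm : ∀ (F : Finset TV) (b : TV → ℤ) (j : ℤ), MomCo F → latBall z0 ρ ⊆ F → F ⊆ latBall z0 (2 * ρ) →
      (htCfg F b).Nonempty → (∀ u ∈ latOut F, b u = j ∨ b u = j + 1) → m ≤ htE x F b φ) :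
    m ≤ (clAmb x (latBall 0 (M + 1))).E
      (fun ω => (dcpKL G L).Holds (clAmb x (latBall 0 (M + 1))) ω ∧ ClCut (clAmb x (latBall 0 (M + 1))) true I ω)
      (dchG (latBall z0 ρ) φ) := by
  set V := latBall 0 (M + 1) with hVdef
  set F0 := latBall 0 M with hF0def
  set S := clAmb x V with hSdef
  have hS : ClOk S := dam_pl_ok hx0 hx1 V
  obtain ⟨hF, hsk, hne⟩ := dcp_ref M
  have hV : DisAmb V := dis_amb_ball 0 _
  have hSA : S.A = V := rfl
  have hIF : I ⊆ F0 := hI.trans hball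
  have hD : ∀ v ∈ I, v ∉ Finset.univ.biUnion L := by
    intro v hv h
    obtain ⟨l, _, hl⟩ := Finset.mem_biUnion.1 h
    exact Finset.disjoint_left.1 (hL l) hl (hI hv)
  have hGI : ∀ v ∈ I, v ∉ G := fun v hv h => Finset.disjoint_left.1 hG h (hI hv)
  have hsk' : ∀ v ∈ I, v ∉ V \ F0 := fun v hv h => (Finset.mem_sdiff.1 h).2 (hIF hv)
  have hW : (dcpKL G L).Wp = Finset.univ.biUnion L := by
    show (∅ : Finset TV) ∪ (List.ofFn L).foldr (· ∪ ·) ∅ = _
    rw [Finset.empty_union, dcp_foldr_ofFn]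
  have hW' : (dchKL V F0).Wp = V \ F0 := by
    show (∅ : Finset TV) ∪ (V \ F0) = _
    rw [Finset.empty_union]
  have hE1 : ∀ e ∈ (dcpKL G L).Eq, e.1 ∉ I ∧ e.2 ∉ I := by
    intro e he
    obtain ⟨l, a1, a2, _⟩ := (dcp_mem_Eq (G := G)).1 he
    exact ⟨fun h => hD _ h (Finset.mem_biUnion.2 ⟨l, Finset.mem_univ _, a1⟩),
      fun h => hD _ h (Finset.mem_biUnion.2 ⟨l, Finset.mem_univ _, a2⟩)⟩
  have hE2 : ∀ e ∈ (dchKL V F0).Eq, e.1 ∉ I ∧ e.2 ∉ I := by
    intro e he
    have he' := Finset.mem_product.1 (Finset.mem_filter.1 he).1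
    exact ⟨fun h => hsk' _ h he'.1, fun h => hsk' _ h he'.2⟩
  have hin : ClAgreeIn S (dcpKL G L) (dchKL V F0) I := by
    refine ⟨fun v hv => ?_, fun v _ => Iff.rfl, fun v hv => ?_, fun v _ => Iff.rfl, fun y _ => Iff.rfl, fun y _ => Iff.rfl,
      fun y _ => Iff.rfl, fun e h1 _ => ?_⟩
    · constructor
      · intro h
        rcases Finset.mem_union.1 h with h | h
        · exact absurd h (hGI v hv)
        · exact absurd h (hD v hv)
      · intro h
        exact absurd h (hsk' v hv)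
    · rw [hW, hW']
      exact ⟨fun h => absurd h (hD v hv), fun h => absurd h (hsk' v hv)⟩
    · exact ⟨fun h => absurd h1 (hE1 e h).1, fun h => absurd h1 (hE2 e h).1⟩
  have hf : 0 < S.Z (fun ω => (dcpKL G L).Holds S ω ∧ ClCut S true I ω) := by
    refine dcp_Z_pos S hS ⟨(dcp_KL_holds S G L _).2 ⟨?_, ?_⟩, dcp_top_cut S hS I⟩
    · refine Finset.union_subset hGV ?_
      exact Finset.biUnion_subset.2 fun l _ => hLV l
    · exact Finset.biUnion_subset.2 fun l _ => hLV l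
  have hf' : 0 < S.Z (fun ω => (dchKL V F0).Holds S ω ∧ ClCut S true I ω) :=
    dcp_Z_pos S hS ⟨(dch_KL_holds S V F0 _).2 ⟨Finset.sdiff_subset, Finset.sdiff_subset⟩, dcp_top_cut S hS I⟩
  have hFl : ClLoc I (S.cin I) (dchG (latBall z0 ρ) φ) :=
    dde_loc_mono ((plh_ball_mono z0 (by omega)).trans hA) (Finset.empty_subset _) (dch_G_loc _ φ)
  rw [dis_cut_law S hS true I (dcpKL G L) (dchKL V F0)
    (fun e he => ⟨fun h => absurd h (hE1 e he).1, fun h => absurd h (hE1 e he).2⟩)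
    (fun e he => ⟨fun h => absurd h (hE2 e he).1, fun h => absurd h (hE2 e he).2⟩) hin hf hf' _ hFl]
  have ht := dch_term hx0 hx1 hV hF hsk hne hball hA hI hinv hloc hgr hm
  rw [dis_E_eq, le_div_iff₀ hf', dis_Z_eq]
  exact ht

/-! ## 4. The core: finite free volume -/

/-- **CORE**: in the free ambient law of the hexagon `latBall 0 (M+1)`, conditioned on the pins -/
theorem dcp_core {x : ℝ} (hx0 : 0 < x) (hx1 : x ≤ 1) {c : ℝ} {ρ0 : ℕ} (hc : 0 < c)
    (hring : ∀ (V : Finset TV), DisAmb V → ∀ K : ClCon TV TV, ClLegal (clAmb x V) K →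
      0 < (clAmb x V).Z (K.Holds (clAmb x V)) → ∀ (z0 : TV) (ρ : ℕ), ρ0 ≤ ρ → latBall z0 (2 * ρ + 2) ⊆ V →
      ClClear (clAmb x V) true K (latBall z0 (2 * ρ + 2)) →
      c ≤ (clAmb x V).P (K.Holds (clAmb x V))
        (fun ω => ClSep (clAmb x V) true K.Eq ω (V \ latBall z0 (2 * ρ)) (latBall z0 (ρ + 1))))
    {k : ℕ} (G : Finset TV) (L : Fin k → Finset TV) (z0 : TV) (ρ : ℕ) (φ : (TV → ℤ) → ℝ) (m : ℝ)
    (hLc : ∀ l, TscConn tscG (↑(L l) : Set TV)) (hρ0 : ρ0 ≤ ρ) (hρ2 : 2 ≤ ρ)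
    (hG : Disjoint G (latBall z0 (3 * ρ))) (hL : ∀ l, Disjoint (L l) (latBall z0 (3 * ρ)))
    (hφ0 : ∀ h, 0 ≤ φ h) (hloc : HtLoc (latBall z0 ρ) φ) (hgr : HtGrad φ)
    (hm : ∀ (F : Finset TV) (b : TV → ℤ) (j : ℤ), MomCo F → latBall z0 ρ ⊆ F → F ⊆ latBall z0 (2 * ρ) →
      (htCfg F b).Nonempty → (∀ u ∈ latOut F, b u = j ∨ b u = j + 1) → m ≤ htE x F b φ)
    (M : ℕ) (hM : latBall z0 (3 * ρ) ⊆ latBall 0 M) (hGM : G ⊆ latBall 0 M) (hLM : ∀ l, L l ⊆ latBall 0 M) :
    c / 2 ^ k * m * (clAmb x (latBall 0 (M + 1))).Z (DcpPin G (Finset.univ.biUnion L)) ≤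
      (clAmb x (latBall 0 (M + 1))).N (DcpPin G (Finset.univ.biUnion L)) (dchG (latBall z0 ρ) φ) := by
  classical
  set V := latBall 0 (M + 1) with hVdef
  set S := clAmb x V with hSdef
  have hS : ClOk S := dam_pl_ok hx0 hx1 V
  have hV : DisAmb V := dis_amb_ball 0 _
  have hMV : latBall 0 M ⊆ V := plh_ball_mono 0 (by omega)
  have hGV : G ⊆ V := hGM.trans hMV
  have hLV : ∀ l, L l ⊆ V := fun l => (hLM l).trans hMV
  have hpin : DcpPin G (Finset.univ.biUnion L) = (dcpKL G L).Holds S := by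
    funext ω
    exact propext (dcp_KL_holds S G L ω).symm
  rw [hpin]
  set KL := dcpKL G L with hKL
  set K' := dcpK G L with hK'
  set O := V \ latBall z0 (2 * ρ) with hO
  set A := latBall z0 (ρ + 1) with hA
  set Gφ := dchG (latBall z0 ρ) φ with hGφ
  have hc2 : 0 < c / 2 ^ k := by positivity
  have hZ0 : 0 ≤ S.Z (KL.Holds S) := dis_Z_nonneg S hS _
  rcases le_or_gt m 0 with hm0 | hm0
  · have h1 : c / 2 ^ k * m * S.Z (KL.Holds S) ≤ 0 :=
      mul_nonpos_of_nonpos_of_nonneg (mul_nonpos_of_nonneg_of_nonpos hc2.le hm0) hZ0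
    exact h1.trans (dis_N_nonneg S hS _ fun ω => dch_G_nonneg _ hφ0 ω)
  have hb3 : latBall z0 (2 * ρ + 2) ⊆ latBall z0 (3 * ρ) := plh_ball_mono z0 (by omega)
  have hb2 : latBall z0 (2 * ρ) ⊆ latBall z0 (3 * ρ) := plh_ball_mono z0 (by omega)
  have hb1 : latBall z0 (2 * ρ) ⊆ latBall 0 M := hb2.trans hM
  have hEq : KL.Eq = K'.Eq := rfl
  have hAV : A ⊆ S.A := ((plh_ball_mono z0 (by omega)).trans hb1).trans hMV
  have hOV : O ⊆ S.A := Finset.sdiff_subset
  -- step 2: restriction to the separation event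
  have s2 : S.N (KL.Holds S) (fun ω => if ClSep S true KL.Eq ω O A then 1 * Gφ ω else 0) ≤ S.N (KL.Holds S) Gφ := by
    refine dis_N_mono S hS _ fun ω _ _ => ?_
    split_ifs
    · rw [one_mul]
    · exact dch_G_nonneg _ hφ0 ω
  -- step 3: decomposition
  have hl1 : ClLoc O (S.cin O) (fun _ : ClCfg TV TV => (1 : ℝ)) := fun _ _ _ _ _ => rfl
  have hl2 : ClLoc A (S.cin A) (fun _ : ClCfg TV TV => (1 : ℝ)) := fun _ _ _ _ _ => rfl
  have hl3 : ClLoc A (S.cin A) Gφ := dde_loc_mono (plh_ball_mono z0 (by omega)) (Finset.empty_subset _) (dch_G_loc _ φ)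
  have d1 := dis_dec S hS true KL O A hOV hAV (fun _ => 1) Gφ hl1 hl3
  have d2 := dis_dec S hS true KL O A hOV hAV (fun _ => 1) (fun _ => 1) hl1 hl2
  have s3 : m * S.N (KL.Holds S) (fun ω => if ClSep S true KL.Eq ω O A then 1 * 1 else 0)
      ≤ S.N (KL.Holds S) (fun ω => if ClSep S true KL.Eq ω O A then 1 * Gφ ω else 0) := by
    rw [d1, d2, Finset.mul_sum]
    refine Finset.sum_le_sum fun I hI => ?_
    rw [Finset.mem_filter, Finset.mem_powerset] at hI
    set a := S.N (KL.Holds S) (fun ω => if clInv S true KL.Eq ω O = S.A \ I then (1 : ℝ) else 0) with ha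
    have ha0 : 0 ≤ a := dis_N_nonneg S hS _ fun ω => by split_ifs <;> norm_num
    rcases ha0.eq_or_lt with h0 | h0
    · rw [← h0]; simp
    have hIb : I ⊆ latBall z0 (2 * ρ) := by
      intro u hu
      have := hI.1 hu
      rw [hO] at this
      simp only [Finset.mem_sdiff, not_and, not_not] at this
      exact this.2 this.1
    -- a configuration realising `I`
    have hw : ∃ ω : ClCfg TV TV, clInv S true KL.Eq ω O = S.A \ I := by
      by_contra hcon
      push Not at hcon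
      have : a = 0 := by
        rw [ha]
        unfold ClSys.N
        refine Finset.sum_eq_zero fun ω _ => ?_
        beta_reduce
        rw [if_neg (hcon ω)]
        simp
      exact h0.ne' this
    obtain ⟨ω, hω⟩ := hw
    have hinv : DchInv V O I := by
      refine dch_inv_of x V true KL.Eq ?_ ω hOV (hIb.trans (hb1.trans hMV)) hω
      intro e he
      obtain ⟨l, a1, a2, a3⟩ := (dcp_mem_Eq (G := G)).1 he
      exact ⟨a3, hLV l a1, hLV l a2⟩
    have ht : m ≤ S.E (fun ω => KL.Holds S ω ∧ ClCut S true I ω) Gφ :=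
      dcp_term hx0 hx1 hb1 (Finset.disjoint_of_subset_right hb2 hG) (fun l => Finset.disjoint_of_subset_right hb2 (hL l))
        hGV hLV hI.2 hIb hinv hloc hgr hm
    have hE1 : S.E (fun ω => KL.Holds S ω ∧ ClCut S true I ω) (fun _ => 1) ≤ 1 := by
      rw [dis_E_eq, ← dis_Z_eq]
      exact div_self_le_one _
    calc m * (a * S.E (fun ω => KL.Holds S ω ∧ ClCut S true I ω) (fun _ => 1))
        ≤ m * (a * 1) := mul_le_mul_of_nonneg_left (mul_le_mul_of_nonneg_left hE1 ha0) hm0.le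
      _ = a * m := by ring
      _ ≤ a * S.E (fun ω => KL.Holds S ω ∧ ClCut S true I ω) Gφ := mul_le_mul_of_nonneg_left ht ha0
  -- step 4: probability of the separation event
  have hleg : ClLegal S K' := dcp_K_legal x V G L hLV
  have hZle : S.Z (KL.Holds S) ≤ S.Z (K'.Holds S) := by
    unfold ClSys.Z
    refine Finset.sum_le_sum fun ω _ => ?_
    by_cases h1 : KL.Holds S ω
    · rw [if_pos h1, if_pos (dcp_KL_K S G L ω h1)]
    · rw [if_neg h1]
      split_ifs
      · exact dis_wt_nonneg S hS ω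
      · exact le_rfl
  have hZ : 0 < S.Z (KL.Holds S) := by
    refine dcp_Z_pos S hS ((dcp_KL_holds S G L _).2 ⟨?_, ?_⟩)
    · exact Finset.union_subset hGV (Finset.biUnion_subset.2 fun l _ => hLV l)
    · exact Finset.biUnion_subset.2 fun l _ => hLV l
  have hZ' : 0 < S.Z (K'.Holds S) := hZ.trans_le hZle
  have r1 := hring V hV K' hleg hZ' z0 ρ hρ0 ((hb3.trans hM).trans hMV)
    (dcp_K_clear x V G _ L fun l => Finset.disjoint_of_subset_right hb3 (hL l))
  have r2 : c * S.Z (K'.Holds S) ≤ S.N (K'.Holds S) (clInd fun ω => ClSep S true K'.Eq ω O A) := by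
    rw [dis_P_eq, le_div_iff₀ hZ'] at r1
    exact r1
  have r3 := dcp_label hx0 hx1 V G L hLV hLc (clInd fun ω => ClSep S true K'.Eq ω O A) (dis_ind_nonneg _) (by
    intro ω ω' h1 h2
    have e : ClSep S true K'.Eq ω O A ↔ ClSep S true K'.Eq ω' O A := by
      refine dis_sep_congr A fun y _ _ => ?_
      unfold clTau
      rw [h1, h2]
    unfold clInd
    simp only [e])
  have r4 : S.N (KL.Holds S) (fun ω => if ClSep S true KL.Eq ω O A then 1 * 1 else 0)
      = S.N (KL.Holds S) (clInd fun ω => ClSep S true K'.Eq ω O A) := by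
    refine dis_N_congr S _ fun ω _ _ => ?_
    unfold clInd
    rw [hEq, mul_one]
  -- conclusion
  have h2k : (0 : ℝ) < 2 ^ k := by positivity
  have fin1 : c / 2 ^ k * S.Z (KL.Holds S) ≤ S.N (KL.Holds S) (clInd fun ω => ClSep S true K'.Eq ω O A) := by
    have h1 : c * S.Z (KL.Holds S) ≤ c * S.Z (K'.Holds S) := mul_le_mul_of_nonneg_left hZle hc.le
    have h2 : c * S.Z (KL.Holds S) ≤ 2 ^ k * S.N (KL.Holds S) (clInd fun ω => ClSep S true K'.Eq ω O A) :=
      h1.trans (r2.trans r3)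
    rw [div_mul_eq_mul_div, div_le_iff₀ h2k, mul_comm _ ((2 : ℝ) ^ k)]
    exact h2
  calc c / 2 ^ k * m * S.Z (KL.Holds S) = m * (c / 2 ^ k * S.Z (KL.Holds S)) := by ring
    _ ≤ m * S.N (KL.Holds S) (clInd fun ω => ClSep S true K'.Eq ω O A) := mul_le_mul_of_nonneg_left fin1 hm0.le
    _ = m * S.N (KL.Holds S) (fun ω => if ClSep S true KL.Eq ω O A then 1 * 1 else 0) := by rw [r4]
    _ ≤ _ := s3.trans s2

/-! ## 5. The bridge and the limit -/

/-- **(BR)** of helper34 (PIN ruling 2), PROVIDED by helper267 (`dbr_main` of `Dis/PinBr.lean`): a 4-periodic local observable of the heights under the plane pair law `pinPer` = its Gray form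
under the free plane law of the cells. -/
theorem dcp_br (x : ℝ) (hx1 : 1 / Real.sqrt 2 ≤ x) (hx2 : x ≤ 1) (T : Finset TV) (K : (TV → ℤ) → ℝ) (f : ClCfg TV TV → ℝ)
    (hf : ClLoc T ∅ f)
    (hfK : ∀ h : TV → ℤ, (∀ u v, triAdj u v → |h v - h u| ≤ 1) → f ⟨htB T h, htW T h, ∅⟩ = K h) :
    pinPer x K = clPlane x f :=
  dbr_main x (lt_of_lt_of_le (by positivity) hx1) hx2 (exit_t23 x hx1 hx2) T K f ⟨hf, hfK⟩

/-- the spin pin event of the Gray code of a height function -/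
theorem dcp_pin_gray {G D T : Finset TV} (hG : G ⊆ T) (hD : D ⊆ T) (h : TV → ℤ) :
    DcpPin G D ⟨htB T h, htW T h, ∅⟩ ↔ PinSp G D h := by
  unfold DcpPin PinSp momB htB htW
  constructor
  · rintro ⟨h1, h2⟩
    refine ⟨fun u hu => (Finset.mem_filter.1 (h1 (Finset.mem_union_left _ hu))).2, fun u hu => ?_⟩
    have a := (Finset.mem_filter.1 (h1 (Finset.mem_union_right _ hu))).2
    have b := (Finset.mem_filter.1 (h2 hu)).2
    omega
  · rintro ⟨h1, h2⟩
    refine ⟨fun u hu => ?_, fun u hu => Finset.mem_filter.2 ⟨hD hu, Or.inl (h2 u hu)⟩⟩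
    rcases Finset.mem_union.1 hu with hu | hu
    · exact Finset.mem_filter.2 ⟨hG hu, h1 u hu⟩
    · exact Finset.mem_filter.2 ⟨hD hu, Or.inl (h2 u hu)⟩

theorem dcp_pin_loc {G D T : Finset TV} (hG : G ⊆ T) (hD : D ⊆ T) : ClLoc T ∅ (clInd (DcpPin G D)) := by
  intro ω ω' h1 h2 _
  have key : ∀ (P P' X : Finset TV), X ⊆ T → P ∩ T = P' ∩ T → X ⊆ P → X ⊆ P' := by
    intro P P' X hX he hs u hu
    have : u ∈ P ∩ T := Finset.mem_inter.2 ⟨hs hu, hX hu⟩
    rw [he] at this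
    exact (Finset.mem_inter.1 this).1
  have hGD : G ∪ D ⊆ T := Finset.union_subset hG hD
  have hiff : DcpPin G D ω ↔ DcpPin G D ω' :=
    ⟨fun h => ⟨key _ _ _ hGD h1 h.1, key _ _ _ hD h2 h.2⟩, fun h => ⟨key _ _ _ hGD h1.symm h.1, key _ _ _ hD h2.symm h.2⟩⟩
  by_cases hp : DcpPin G D ω
  · rw [dis_ind_pos hp, dis_ind_pos (hiff.1 hp)]
  · rw [dis_ind_neg hp, dis_ind_neg fun h => hp (hiff.2 h)]

theorem dcp_sp_loc {G D T : Finset TV} (hG : G ⊆ T) (hD : D ⊆ T) : HtLoc T (fun h => pinI (PinSp G D h)) := by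
  intro h h' hh
  have : PinSp G D h ↔ PinSp G D h' := by
    unfold PinSp
    constructor
    · rintro ⟨a, b⟩
      exact ⟨fun u hu => by rw [← hh u (hG hu)]; exact a u hu, fun u hu => by rw [← hh u (hD hu)]; exact b u hu⟩
    · rintro ⟨a, b⟩
      exact ⟨fun u hu => by rw [hh u (hG hu)]; exact a u hu, fun u hu => by rw [hh u (hD hu)]; exact b u hu⟩
  show pinI (PinSp G D h) = pinI (PinSp G D h')
  rw [propext this]

theorem dcp_sp_per (G D : Finset TV) (h : TV → ℤ) : PinSp G D (fun u => h u + 4) ↔ PinSp G D h := by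
  unfold PinSp momB
  constructor
  · rintro ⟨a, b⟩
    exact ⟨fun u hu => by have := a u hu; beta_reduce at this; omega, fun u hu => by have := b u hu; beta_reduce at this; omega⟩
  · rintro ⟨a, b⟩
    exact ⟨fun u hu => by have := a u hu; beta_reduce; omega, fun u hu => by have := b u hu; beta_reduce; omega⟩

theorem dcp_ind_pinI (p : Prop) (P : ClCfg TV TV → Prop) (ω : ClCfg TV TV) (h : P ω ↔ p) : clInd P ω = pinI p := by
  unfold clInd pinI
  by_cases hp : p
  · rw [if_pos (h.2 hp), if_pos hp]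
  · rw [if_neg (fun a => hp (h.1 a)), if_neg hp]

/-- **`exit_dis_cut_pin`** -/
theorem dcp_main (x : ℝ) (hx1 : 1 / Real.sqrt 2 ≤ x) (hx2 : x ≤ 1) :
    ∃ L1 ρ0 : ℕ, ∀ k : ℕ, ∃ c1 : ℝ, 0 < c1 ∧ ∀ (G : Finset TV) (L : Fin k → Finset TV) (z0 : TV) (ρ : ℕ) (φ : (TV → ℤ) → ℝ) (m : ℝ),
      (∀ l, TscConn tscG (L l : Set TV)) → ρ0 ≤ ρ → Disjoint G (latBall z0 (L1 * ρ)) → (∀ l, Disjoint (L l) (latBall z0 (L1 * ρ))) →
      (∀ h, 0 ≤ φ h) → HtLoc (latBall z0 ρ) φ → HtGrad φ →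
      (∀ (F : Finset TV) (b : TV → ℤ) (j : ℤ), MomCo F → latBall z0 ρ ⊆ F → F ⊆ latBall z0 (2 * ρ) →
        (htCfg F b).Nonempty → (∀ u ∈ latOut F, b u = j ∨ b u = j + 1) → m ≤ htE x F b φ) →
      c1 * m * (pinPer x fun h => pinI (PinSp G (Finset.univ.biUnion L) h)) ≤ pinPer x fun h => φ h * pinI (PinSp G (Finset.univ.biUnion L) h) := by
  have hx0 : 0 < x := lt_of_lt_of_le (by positivity) hx1
  have hT := exit_t23 x hx1 hx2
  obtain ⟨c, ρ0, hc, hring⟩ := dch_ring x hx0 hx2 true hT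
  refine ⟨3, max ρ0 2, fun k => ⟨c / 2 ^ k, by positivity, ?_⟩⟩
  intro G L z0 ρ φ m hLc hρ hG hL hφ0 hloc hgr hm
  have hρ0 : ρ0 ≤ ρ := le_trans (le_max_left _ _) hρ
  have hρ2 : 2 ≤ ρ := le_trans (le_max_right _ _) hρ
  set D := Finset.univ.biUnion L with hD
  set B0 := latBall z0 ρ with hB0
  set T := latBall z0 (3 * ρ) ∪ G ∪ D with hTdef
  have hGT : G ⊆ T := fun u hu => Finset.mem_union_left _ (Finset.mem_union_right _ hu)
  have hDT : D ⊆ T := fun u hu => Finset.mem_union_right _ hu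
  have hBT : B0 ⊆ T := fun u hu => Finset.mem_union_left _ (Finset.mem_union_left _ (plh_ball_mono z0 (by omega) hu))
  -- the two bridges
  have lf0 : ClLoc T ∅ (clInd (DcpPin G D)) := dcp_pin_loc hGT hDT
  have lf1 : ClLoc T ∅ (fun ω => dchG B0 φ ω * clInd (DcpPin G D) ω) := by
    intro ω ω' h1 h2 h3
    show dchG B0 φ ω * clInd (DcpPin G D) ω = dchG B0 φ ω' * clInd (DcpPin G D) ω'
    rw [lf0 ω ω' h1 h2 h3, dde_loc_mono hBT (Finset.empty_subset _) (dch_G_loc B0 φ) ω ω' h1 h2 h3]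
  have e0 : (pinPer x fun h => pinI (PinSp G D h)) = clPlane x (clInd (DcpPin G D)) := by
    refine dcp_br x hx1 hx2 T _ _ lf0 ?_
    intro h _
    exact dcp_ind_pinI _ _ _ (dcp_pin_gray hGT hDT h)
  have e1 : (pinPer x fun h => φ h * pinI (PinSp G D h)) = clPlane x (fun ω => dchG B0 φ ω * clInd (DcpPin G D) ω) := by
    refine dcp_br x hx1 hx2 T _ _ lf1 ?_
    intro h hl
    show dchG B0 φ ⟨htB T h, htW T h, ∅⟩ * clInd (DcpPin G D) ⟨htB T h, htW T h, ∅⟩ = φ h * pinI (PinSp G D h)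
    have hg := dch_gray_inter hBT h
    rw [dcp_ind_pinI _ _ _ (dcp_pin_gray hGT hDT h),
      dch_G_eq (plh_ball_conn z0 ρ) hloc hgr (g := h) (fun u _ v _ huv => hl u v huv) hg.1 hg.2]
  rw [e0, e1]
  -- the limits
  have l0 := dis_plane_lim x hx0 hx2 hT T ∅ _ lf0
  have l1 := dis_plane_lim x hx0 hx2 hT T ∅ _ lf1
  refine le_of_tendsto_of_tendsto (l0.const_mul (c / 2 ^ k * m)) l1 ?_
  have ev : ∀ᶠ N : ℕ in atTop, T ⊆ latBall 0 (N - 1) := (tendsto_sub_atTop_nat 1).eventually (dsy_sub_ball T)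
  filter_upwards [ev, eventually_ge_atTop 1] with N hN hN1
  obtain ⟨M, rfl⟩ : ∃ M, N = M + 1 := ⟨N - 1, by omega⟩
  rw [Nat.add_sub_cancel] at hN
  have hcore := dcp_core hx0 hx2 hc hring G L z0 ρ φ m hLc hρ0 hρ2 hG hL hφ0 hloc hgr hm M
    (fun u hu => hN (Finset.mem_union_left _ (Finset.mem_union_left _ hu))) (hGT.trans hN)
    (fun l u hu => hN (hDT (Finset.mem_biUnion.2 ⟨l, Finset.mem_univ _, hu⟩)))
  set S := clAmb x (latBall 0 (M + 1)) with hS
  have hSok : ClOk S := dam_pl_ok hx0 hx2 _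
  have a0 : S.N (fun _ => True) (clInd (DcpPin G D)) = S.Z (DcpPin G D) := by
    rw [dis_Z_eq, ← dcp_N_free S (DcpPin G D) (fun _ => 1)]
    congr 1
    funext ω
    rw [one_mul]
  rw [dis_E_eq, dis_E_eq, a0, dcp_N_free, ← mul_div_assoc]
  exact div_le_div_of_nonneg_right hcore (dis_Z_nonneg S hSok _)

end Claimed.Agent.R291
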