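import Claimed.Agent.R291.Exit.T23
import Claimed.Agent.R291.Defs.Pin
import Claimed.Agent.R291.Pl.Ball
import Claimed.Agent.R291.Dis.PinBr

/-!
# Row 291 (S0539), Dis/Fill : ADDING FAVOURABLE PINS IN A SMALL BALL      (owner helper182; prefix `dfi_`, defs `dfi…`/`Dfi…`)

TEX[pins:gap-closing] (pins:increment-tv), TEX[prop:local-mixing] second half.   PRODUCES `dfi_main` = the body of `exit_dis_fill` (Exit/DisFill.lean).
CONSUMES `dis_match` (M), `dis_lbl` (LBL), `dis_feas`, `dis_stack` (STACK), `dis_plane_lim` (PLANE), `exit_t23`, the bridge (BR) `pinPer ↔ clPlane` (267).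
ROUTE  (A) abstract: two ordered legal histories which agree off `O`, labels on `m` sets inside `A`, `F` local in `A`:
           `|N₂[F lab] N₁[lab] - N₁[F lab] N₂[lab]| ≤ 2^m 4 p N₁[lab] N₂[lab]`, `p ≥ P₁(not Sep_+(O, A))`;
       (B) planar instance in the FREE ambient law of a large hexagon (no boundary condition), `p` from STACK;
       (C) the spin version of a 4-periodic height observable which reads `T` off the ball: lift on a concentric annulus (connected), by choice;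
       (D) limit of large hexagons, bridge.
-/

set_option autoImplicit false
set_option linter.unusedSectionVars false
set_option linter.unusedVariables false

namespace Claimed.Agent.R291

open Relation Claims Claims.C0467 Filter Topology

section abstract

variable {V Y : Type} [DecidableEq V] [DecidableEq Y]

/-! ### (A) the abstract inequality -/

/-- indicator of the label event `W = +` on `D` -/
def dfiLab (D : Finset V) (ω : ClCfg V Y) : ℝ := if D ⊆ ω.W then 1 else 0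

theorem dfi_lab_nonneg (D : Finset V) (ω : ClCfg V Y) : 0 ≤ dfiLab D ω := by
  unfold dfiLab; split_ifs <;> norm_num

theorem dfi_lab_le (D : Finset V) (ω : ClCfg V Y) : dfiLab D ω ≤ 1 := by
  unfold dfiLab; split_ifs <;> norm_num

theorem dfi_lab_loc (D A : Finset V) (A' : Finset Y) (hD : D ⊆ A) : ClLoc A A' (dfiLab (Y := Y) D) := by
  intro ω ω' _ hW _
  have e : D ⊆ ω.W ↔ D ⊆ ω'.W := by
    constructor
    · intro h v hv
      exact (Finset.mem_inter.1 ((Finset.ext_iff.1 hW v).1 (Finset.mem_inter.2 ⟨h hv, hD hv⟩))).1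
    · intro h v hv
      exact (Finset.mem_inter.1 ((Finset.ext_iff.1 hW v).2 (Finset.mem_inter.2 ⟨h hv, hD hv⟩))).1
  unfold dfiLab
  simp only [e]

theorem dfi_sep_symm (S : ClSys V Y) (s : Bool) (E : Finset (V × V)) (ω : ClCfg V Y) (O A : Finset V) :
    ClSep S s E ω O A ↔ ClSep S s E ω A O := by
  have hs : ∀ a b, clStep S s E ω a b → clStep S s E ω b a := by
    rintro a b (⟨y, hy, h1, h2, h3⟩ | h | h)
    · exact Or.inl ⟨y, hy, h2, h1, h3⟩
    · exact Or.inr (Or.inr h)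
    · exact Or.inr (Or.inl h)
  have hs' : ∀ a b, ReflTransGen (clStep S s E ω) a b → ReflTransGen (clStep S s E ω) b a := by
    intro a b h
    induction h with
    | refl => exact ReflTransGen.refl
    | tail _ hbc ih => exact ReflTransGen.head (hs _ _ hbc) ih
  exact ⟨fun h u hu v hv hr => h v hv u hu (hs' _ _ hr), fun h u hu v hv hr => h v hv u hu (hs' _ _ hr)⟩

/-- a labelled constraint = the constraint and the label event -/
theorem dfi_N_lab (S : ClSys V Y) (K : ClCon V Y) (hw : K.Wp = ∅) (D : Finset V) (X : ClCfg V Y → ℝ) :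
    S.N (({ K with Wp := K.Wp ∪ D } : ClCon V Y).Holds S) X = S.N (K.Holds S) (fun ω => X ω * dfiLab D ω) := by
  classical
  unfold ClSys.N
  refine Finset.sum_congr rfl fun ω _ => ?_
  have e : (({ K with Wp := K.Wp ∪ D } : ClCon V Y).Holds S ω) ↔ (K.Holds S ω ∧ D ⊆ ω.W) := by
    simp only [ClCon.Holds, hw, Finset.empty_union, Finset.empty_subset, true_and]
    tauto
  by_cases h1 : K.Holds S ω
  · by_cases h2 : D ⊆ ω.W
    · have hl : dfiLab D ω = 1 := if_pos h2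
      rw [if_pos (e.2 ⟨h1, h2⟩), if_pos h1]
      show S.wt ω * X ω = S.wt ω * (X ω * dfiLab D ω)
      rw [hl, mul_one]
    · have hl : dfiLab D ω = 0 := if_neg h2
      rw [if_neg (fun h => h2 (e.1 h).2), if_pos h1]
      show 0 = S.wt ω * (X ω * dfiLab D ω)
      rw [hl]; ring
  · rw [if_neg (fun h => h1 (e.1 h).1), if_neg h1]

theorem dfi_abs (S : ClSys V Y) (hS : ClDisk S) (K₁ K₂ : ClCon V Y) (h₁ : ClLegal S K₁) (h₂ : ClLegal S K₂)
    (hle : ClLe K₁ K₂) (f₁ : 0 < S.Z (K₁.Holds S)) (f₂ : 0 < S.Z (K₂.Holds S))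
    (O A : Finset V) (hO : O ⊆ S.A) (hA : A ⊆ S.A) (hag : ClAgree S K₁ K₂ O)
    (Cs : List (Finset V)) (D : Finset V) (hD : D = Cs.foldr (· ∪ ·) ∅) (hDA : D ⊆ A)
    (hC : ∀ C ∈ Cs, ∀ u ∈ C, ∀ v ∈ C, ReflTransGen (fun a b => (a, b) ∈ K₂.Eq ∨ (b, a) ∈ K₂.Eq) u v)
    (F : ClCfg V Y → ℝ) (hF : ClLoc A (S.cin A) F) (hb : ∀ ω, |F ω| ≤ 1) (p : ℝ)
    (hp : S.P (K₁.Holds S) (fun ω => ¬ ClSep S true K₁.Eq ω O A) ≤ p) :
    |S.N (K₂.Holds S) (fun ω => F ω * dfiLab D ω) * S.N (K₁.Holds S) (dfiLab D) -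
        S.N (K₁.Holds S) (fun ω => F ω * dfiLab D ω) * S.N (K₂.Holds S) (dfiLab D)| ≤
      2 ^ Cs.length * (4 * p) * (S.N (K₁.Holds S) (dfiLab D) * S.N (K₂.Holds S) (dfiLab D)) := by
  classical
  have hok : ClOk S := hS.toClOk
  have hlab : ClLoc A (S.cin A) (dfiLab (Y := Y) D) := dfi_lab_loc D A _ hDA
  have hFl : ClLoc A (S.cin A) (fun ω => F ω * dfiLab D ω) := fun ω ω' a b c => by
    show F ω * dfiLab D ω = F ω' * dfiLab D ω'
    rw [hF ω ω' a b c, hlab ω ω' a b c]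
  have hbl : ∀ ω : ClCfg V Y, |dfiLab D ω| ≤ 1 := fun ω => by
    rw [abs_of_nonneg (dfi_lab_nonneg D ω)]; exact dfi_lab_le D ω
  have hbFl : ∀ ω : ClCfg V Y, |F ω * dfiLab D ω| ≤ 1 := fun ω => by
    rw [abs_mul]
    calc |F ω| * |dfiLab D ω| ≤ 1 * 1 := mul_le_mul (hb ω) (hbl ω) (abs_nonneg _) zero_le_one
      _ = 1 := one_mul 1
  have m1 := dis_match S hS K₁ K₂ h₁ h₂ hle f₁ f₂ O A hO hA hag _ hFl hbFl
  have m2 := dis_match S hS K₁ K₂ h₁ h₂ hle f₁ f₂ O A hO hA hag _ hlab hbl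
  rw [dis_E_eq, dis_E_eq] at m1 m2
  -- the label cost
  have hE : ∀ e ∈ K₂.Eq, e.1 ∈ S.A ∧ e.2 ∈ S.A := by
    intro e he
    obtain ⟨y, hy, a, b⟩ := h₂.eq e he
    exact ⟨hok.sub y hy a, hok.sub y hy b⟩
  have hCs : ∀ C ∈ Cs, C ⊆ D := by
    rw [hD]
    intro C hC'
    clear hC hD
    induction Cs with
    | nil => simp at hC'
    | cons C' Cs ih =>
      rcases List.mem_cons.1 hC' with rfl | h
      · exact Finset.subset_union_left
      · exact (ih h).trans Finset.subset_union_right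
  have l2 := dis_lbl S hok K₂ hE Cs (fun C hC' => ⟨((hCs C hC').trans hDA).trans hA, hC C hC'⟩) h₂.wm
    (fun _ => 1) (fun _ => zero_le_one) (fun _ _ _ _ => rfl)
  rw [← hD, dfi_N_lab S K₂ h₂.wp D, ← dis_Z_eq] at l2
  simp only [one_mul] at l2
  set a₁ := S.N (K₁.Holds S) (fun ω => F ω * dfiLab D ω)
  set a₂ := S.N (K₂.Holds S) (fun ω => F ω * dfiLab D ω)
  set b₁ := S.N (K₁.Holds S) (dfiLab D)
  set b₂ := S.N (K₂.Holds S) (dfiLab D)
  set z₁ := S.Z (K₁.Holds S)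
  set z₂ := S.Z (K₂.Holds S)
  set P := S.P (K₁.Holds S) (fun ω => ¬ ClSep S true K₁.Eq ω O A)
  have hb₁ : |a₁| ≤ b₁ := by
    rw [abs_le]
    constructor
    · have : S.N (K₁.Holds S) (fun ω => (-1) * dfiLab D ω) ≤ a₁ := by
        refine dmt_N_mono S hok _ fun ω _ => ?_
        have h1 := (abs_le.1 (hb ω)).1
        have h2 := dfi_lab_nonneg D ω
        nlinarith
      rw [dmt_N_smul] at this
      linarith
    · refine dmt_N_mono S hok _ fun ω _ => ?_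
      have h1 := (abs_le.1 (hb ω)).2
      have h2 := dfi_lab_nonneg D ω
      nlinarith
  have hb₁0 : 0 ≤ b₁ := (abs_nonneg _).trans hb₁
  have hp0 : 0 ≤ p := by
    have := (abs_nonneg _).trans m1
    linarith
  have hz : 0 < z₁ * z₂ := mul_pos f₁ f₂
  have n1 : |a₁ * z₂ - a₂ * z₁| ≤ 2 * p * (z₁ * z₂) := by
    have e : a₁ / z₁ - a₂ / z₂ = (a₁ * z₂ - a₂ * z₁) / (z₁ * z₂) := by field_simp
    rw [e, abs_div, abs_of_pos hz, div_le_iff₀ hz] at m1
    nlinarith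
  have n2 : |b₁ * z₂ - b₂ * z₁| ≤ 2 * p * (z₁ * z₂) := by
    have e : b₁ / z₁ - b₂ / z₂ = (b₁ * z₂ - b₂ * z₁) / (z₁ * z₂) := by field_simp
    rw [e, abs_div, abs_of_pos hz, div_le_iff₀ hz] at m2
    nlinarith
  have key : z₁ * |a₂ * b₁ - a₁ * b₂| ≤ z₁ * (4 * p * b₁ * z₂) := by
    have e : z₁ * (a₂ * b₁ - a₁ * b₂) = - (b₁ * (a₁ * z₂ - a₂ * z₁)) + a₁ * (b₁ * z₂ - b₂ * z₁) := by ring
    rw [← abs_of_pos f₁, ← abs_mul, e, abs_of_pos f₁]
    calc |-(b₁ * (a₁ * z₂ - a₂ * z₁)) + a₁ * (b₁ * z₂ - b₂ * z₁)|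
        ≤ |-(b₁ * (a₁ * z₂ - a₂ * z₁))| + |a₁ * (b₁ * z₂ - b₂ * z₁)| := abs_add_le _ _
      _ = b₁ * |a₁ * z₂ - a₂ * z₁| + |a₁| * |b₁ * z₂ - b₂ * z₁| := by
          rw [abs_neg, abs_mul, abs_mul, abs_of_nonneg hb₁0]
      _ ≤ b₁ * (2 * p * (z₁ * z₂)) + b₁ * (2 * p * (z₁ * z₂)) :=
          add_le_add (mul_le_mul_of_nonneg_left n1 hb₁0)
            (mul_le_mul hb₁ n2 (abs_nonneg _) hb₁0)
      _ = z₁ * (4 * p * b₁ * z₂) := by ring
  have key' := le_of_mul_le_mul_left key f₁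
  calc |a₂ * b₁ - a₁ * b₂| ≤ 4 * p * b₁ * z₂ := key'
    _ ≤ 4 * p * b₁ * (2 ^ Cs.length * b₂) := mul_le_mul_of_nonneg_left l2 (by positivity)
    _ = 2 ^ Cs.length * (4 * p) * (b₁ * b₂) := by ring

end abstract

/-! ### (B) the planar instance, finite volume, free ambient law -/

/-- the history of the spin pins: `B = +` on `G ∪ D`, equalities along the edges inside `D` -/
noncomputable def dfiK (G D : Finset TV) : ClCon TV TV :=
  ⟨G ∪ D, ∅, (D ×ˢ D).filter (fun e => triAdj e.1 e.2), ∅, ∅, ∅, ∅, ∅⟩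

/-- indicator of the spin pin event `B = +` on `G ∪ D`, `W = +` on `D` -/
def dfiPin (G D : Finset TV) (ω : ClCfg TV TV) : ℝ := if G ∪ D ⊆ ω.B ∧ D ⊆ ω.W then 1 else 0

theorem dfi_mem_Eq {G D : Finset TV} {e : TV × TV} : e ∈ (dfiK G D).Eq ↔ e.1 ∈ D ∧ e.2 ∈ D ∧ triAdj e.1 e.2 := by
  simp only [dfiK, Finset.mem_filter, Finset.mem_product]
  tauto

theorem dfi_K_legal (x : ℝ) (V G D : Finset TV) (hD : D ⊆ V) : ClLegal (clAmb x V) (dfiK G D) where
  wp := rfl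
  wm := rfl
  full := by
    intro y _ hy
    simp [dfiK] at hy
  eq := by
    intro e he
    obtain ⟨h1, h2, h3⟩ := dfi_mem_Eq.1 he
    obtain ⟨y, hy1, hy2⟩ := pcp_adj_cell h3
    exact ⟨y, lat_mem_cells.2 ⟨e.1, hy1, hD h1⟩, Finset.mem_inter.2 ⟨hy1, hD h1⟩, Finset.mem_inter.2 ⟨hy2, hD h2⟩⟩

theorem dfi_K_feas (x : ℝ) (V G D : Finset TV) (hG : G ∪ D ⊆ V) : ClFeas (clAmb x V) (dfiK G D) where
  bpA := hG
  dis := by simp [dfiK]
  opC := by simp [dfiK]
  omC := by simp [dfiK]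
  op := by simp [dfiK]
  om := by simp [dfiK]
  cl := by simp [dfiK]
  d1 := by simp [dfiK]
  d2 := by simp [dfiK]
  d3 := by simp [dfiK]

theorem dfi_K_clear (x : ℝ) (V G D T : Finset TV) (hD : Disjoint D T) : ClClear (clAmb x V) true (dfiK G D) T where
  pin := by simp [dfiK]
  obs := by
    intro y _ hy
    simp [dfiK] at hy
  eq := by
    intro e he
    obtain ⟨h1, h2, _⟩ := dfi_mem_Eq.1 he
    exact ⟨Finset.disjoint_left.1 hD h1, Finset.disjoint_left.1 hD h2⟩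

theorem dfi_K_conn {G D C : Finset TV} (hC : C ⊆ D) (h : TscConn tscG (↑C : Set TV)) :
    ∀ u ∈ C, ∀ v ∈ C, ReflTransGen (fun a b => (a, b) ∈ (dfiK G D).Eq ∨ (b, a) ∈ (dfiK G D).Eq) u v := by
  intro u hu v hv
  have this : ReflTransGen (TscStep tscG (↑C : Set TV)) u v := h u (by exact_mod_cast hu) v (by exact_mod_cast hv)
  refine ReflTransGen.mono ?_ u v this
  intro a b hab
  exact Or.inl (dfi_mem_Eq.2 ⟨hC (by exact_mod_cast hab.2.1), hC (by exact_mod_cast hab.2.2), hab.1⟩)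

theorem dfi_N_pin (S : ClSys TV TV) (G D : Finset TV) (X : ClCfg TV TV → ℝ) :
    S.N (fun _ => True) (fun ω => X ω * dfiPin G D ω) = S.N ((dfiK G D).Holds S) (fun ω => X ω * dfiLab D ω) := by
  classical
  unfold ClSys.N
  refine Finset.sum_congr rfl fun ω _ => ?_
  rw [if_pos trivial]
  by_cases h2 : D ⊆ ω.W
  · have hl : dfiLab D ω = 1 := if_pos h2
    by_cases h1 : G ∪ D ⊆ ω.B
    · have hp : dfiPin G D ω = 1 := if_pos ⟨h1, h2⟩
      have hh : (dfiK G D).Holds S ω := by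
        refine ⟨h1, by simp [dfiK], ?_, by simp [dfiK], by simp [dfiK], by simp [dfiK], by simp [dfiK], by simp [dfiK]⟩
        intro e he
        obtain ⟨a1, a2, _⟩ := dfi_mem_Eq.1 he
        exact ⟨fun _ => h2 a2, fun _ => h2 a1⟩
      rw [if_pos hh]
      show S.wt ω * (X ω * dfiPin G D ω) = S.wt ω * (X ω * dfiLab D ω)
      rw [hp, hl]
    · have hp : dfiPin G D ω = 0 := if_neg fun h => h1 h.1
      rw [if_neg (fun h : (dfiK G D).Holds S ω => h1 h.1)]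
      show S.wt ω * (X ω * dfiPin G D ω) = 0
      rw [hp]; ring
  · have hl : dfiLab D ω = 0 := if_neg h2
    have hp : dfiPin G D ω = 0 := if_neg fun h => h2 h.2
    show S.wt ω * (X ω * dfiPin G D ω) = if (dfiK G D).Holds S ω then S.wt ω * (X ω * dfiLab D ω) else 0
    rw [hp, hl]
    split_ifs <;> ring

theorem dfi_mem_foldr {V : Type} [DecidableEq V] (Cs : List (Finset V)) (v : V) :
    v ∈ Cs.foldr (· ∪ ·) ∅ ↔ ∃ C ∈ Cs, v ∈ C := by
  induction Cs with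
  | nil => simp
  | cons C Cs ih =>
    simp only [List.foldr_cons, Finset.mem_union, ih, List.mem_cons, exists_eq_or_imp]

theorem dfi_P_congr {V Y : Type} [DecidableEq V] [DecidableEq Y] (S : ClSys V Y) (K : ClCfg V Y → Prop)
    {L L' : ClCfg V Y → Prop} (h : ∀ ω, L ω ↔ L' ω) : S.P K L = S.P K L' := by
  have : L = L' := funext fun ω => propext (h ω)
  rw [this]

/-- the body of `dis_stack` for plus circuits -/
def DfiStack (x C α : ℝ) : Prop :=
  ∀ (V : Finset TV), DisAmb V → ∀ K : ClCon TV TV, ClLegal (clAmb x V) K →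
      0 < (clAmb x V).Z (K.Holds (clAmb x V)) → ∀ (z : TV) (r L : ℕ), 1 ≤ r → r ≤ L → latBall z (L + 2) ⊆ V →
      ClClear (clAmb x V) true K (latBall z (L + 2) \ latBall z r) →
      (clAmb x V).P (K.Holds (clAmb x V))
        (fun ω => ¬ ClSep (clAmb x V) true K.Eq ω (V \ latBall z L) (latBall z r)) ≤ C * ((r : ℝ) / L) ^ α

/-- the constant of the finite volume inequality -/
noncomputable def dfiC (C α : ℝ) (k : ℕ) : ℝ := 2 ^ k * (4 * (C * 3 ^ α)) + 2 * 2 ^ α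

theorem dfi_fin_N (x : ℝ) (hx0 : 0 < x) (hx1 : x ≤ 1) {C α : ℝ} (hC : 0 < C) (hα : 0 < α) (H : DfiStack x C α)
    (k : ℕ) (G E : Finset TV) (L : Fin k → Finset TV) (z : TV) (r1 r2 : ℕ)
    (hconn : ∀ l, TscConn tscG (L l : Set TV)) (h1 : 1 ≤ r1) (h12 : r1 ≤ r2) (hE : E ⊆ latBall z r1)
    (hL : ∀ l, Disjoint (L l) (latBall z r2))
    (V : Finset TV) (hV : DisAmb V) (hsub : latBall z r2 ⊆ V) (hG : G ∪ E ∪ Finset.univ.biUnion L ⊆ V)
    (F : ClCfg TV TV → ℝ) (hF : ClLoc (V \ latBall z r2) ∅ F) (hb : ∀ ω, |F ω| ≤ 1) :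
    |(clAmb x V).N (fun _ => True) (fun ω => F ω * dfiPin (G ∪ E) (Finset.univ.biUnion L) ω) *
          (clAmb x V).N (fun _ => True) (fun ω => 1 * dfiPin G (Finset.univ.biUnion L) ω) -
        (clAmb x V).N (fun _ => True) (fun ω => F ω * dfiPin G (Finset.univ.biUnion L) ω) *
          (clAmb x V).N (fun _ => True) (fun ω => 1 * dfiPin (G ∪ E) (Finset.univ.biUnion L) ω)| ≤
      dfiC C α k * ((r1 : ℝ) / r2) ^ α *
        ((clAmb x V).N (fun _ => True) (fun ω => 1 * dfiPin G (Finset.univ.biUnion L) ω) *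
          (clAmb x V).N (fun _ => True) (fun ω => 1 * dfiPin (G ∪ E) (Finset.univ.biUnion L) ω)) := by
  classical
  set D := Finset.univ.biUnion L with hDdef
  set S := clAmb x V with hSdef
  have hS : ClDisk S := dis_amb_disk x hx0 hx1 V hV
  have hok : ClOk S := hS.toClOk
  rw [dfi_N_pin, dfi_N_pin, dfi_N_pin, dfi_N_pin]
  simp only [one_mul]
  have hDV : D ⊆ V := Finset.subset_union_right.trans hG
  have hGV : G ∪ D ⊆ V := Finset.union_subset ((Finset.subset_union_left.trans Finset.subset_union_left).trans hG) hDV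
  have hGEV : (G ∪ E) ∪ D ⊆ V := hG
  have hDdis : Disjoint D (latBall z r2) := by
    rw [hDdef, Finset.disjoint_biUnion_left]
    exact fun l _ => hL l
  set K₁ := dfiK G D with hK₁
  set K₂ := dfiK (G ∪ E) D with hK₂
  have l₁ : ClLegal S K₁ := dfi_K_legal x V G D hDV
  have l₂ : ClLegal S K₂ := dfi_K_legal x V (G ∪ E) D hDV
  have f₁ : 0 < S.Z (K₁.Holds S) := dis_feas S hok K₁ l₁ (dfi_K_feas x V G D hGV)
  have f₂ : 0 < S.Z (K₂.Holds S) := dis_feas S hok K₂ l₂ (dfi_K_feas x V (G ∪ E) D hGEV)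
  set a₁ := S.N (K₁.Holds S) (fun ω => F ω * dfiLab D ω) with ha₁
  set a₂ := S.N (K₂.Holds S) (fun ω => F ω * dfiLab D ω) with ha₂
  set b₁ := S.N (K₁.Holds S) (dfiLab D) with hb₁
  set b₂ := S.N (K₂.Holds S) (dfiLab D) with hb₂
  have bound : ∀ K : ClCon TV TV, |S.N (K.Holds S) (fun ω => F ω * dfiLab D ω)| ≤ S.N (K.Holds S) (dfiLab D) := by
    intro K
    rw [abs_le]
    constructor
    · have : S.N (K.Holds S) (fun ω => (-1) * dfiLab D ω) ≤ S.N (K.Holds S) (fun ω => F ω * dfiLab D ω) := by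
        refine dmt_N_mono S hok _ fun ω _ => ?_
        have h1 := (abs_le.1 (hb ω)).1
        have h2 := dfi_lab_nonneg D ω
        nlinarith
      rw [dmt_N_smul] at this
      linarith
    · refine dmt_N_mono S hok _ fun ω _ => ?_
      have h1 := (abs_le.1 (hb ω)).2
      have h2 := dfi_lab_nonneg D ω
      nlinarith
  have B₁ : |a₁| ≤ b₁ := bound K₁
  have B₂ : |a₂| ≤ b₂ := bound K₂
  have b₁0 : 0 ≤ b₁ := (abs_nonneg _).trans B₁
  have b₂0 : 0 ≤ b₂ := (abs_nonneg _).trans B₂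
  have hr1 : (0 : ℝ) < r1 := by exact_mod_cast h1
  have hr2 : (0 : ℝ) < r2 := by exact_mod_cast (lt_of_lt_of_le h1 h12)
  have hq0 : 0 ≤ ((r1 : ℝ) / r2) ^ α := Real.rpow_nonneg (div_pos hr1 hr2).le _
  have h3α : (0 : ℝ) < 3 ^ α := Real.rpow_pos_of_pos (by norm_num) _
  have h2α : (0 : ℝ) < 2 ^ α := Real.rpow_pos_of_pos (by norm_num) _
  by_cases hcase : r2 < r1 + 2
  · -- trivial case
    have t1 : |a₂ * b₁ - a₁ * b₂| ≤ 2 * (b₁ * b₂) := by
      calc |a₂ * b₁ - a₁ * b₂| ≤ |a₂ * b₁| + |a₁ * b₂| := abs_sub _ _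
        _ = |a₂| * b₁ + |a₁| * b₂ := by rw [abs_mul, abs_mul, abs_of_nonneg b₁0, abs_of_nonneg b₂0]
        _ ≤ b₂ * b₁ + b₁ * b₂ := add_le_add (mul_le_mul_of_nonneg_right B₂ b₁0) (mul_le_mul_of_nonneg_right B₁ b₂0)
        _ = 2 * (b₁ * b₂) := by ring
    have t2 : 1 ≤ 2 ^ α * ((r1 : ℝ) / r2) ^ α := by
      rw [← Real.mul_rpow (by norm_num) (div_pos hr1 hr2).le]
      refine Real.one_le_rpow ?_ hα.le
      rw [mul_div_assoc', le_div_iff₀ hr2]
      have : (r2 : ℝ) ≤ r1 + 1 := by exact_mod_cast Nat.lt_succ_iff.1 hcase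
      have : (1 : ℝ) ≤ r1 := by exact_mod_cast h1
      linarith
    have t3 : 2 * (b₁ * b₂) ≤ dfiC C α k * ((r1 : ℝ) / r2) ^ α * (b₁ * b₂) := by
      refine mul_le_mul_of_nonneg_right ?_ (mul_nonneg b₁0 b₂0)
      unfold dfiC
      have : 0 ≤ 2 ^ k * (4 * (C * 3 ^ α)) * ((r1 : ℝ) / r2) ^ α := by positivity
      nlinarith
    exact t1.trans t3
  · -- the stack
    push Not at hcase
    obtain ⟨Lr, hLr⟩ : ∃ Lr, r2 = Lr + 2 := ⟨r2 - 2, by omega⟩
    have hr1L : r1 ≤ Lr := by omega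
    have hLpos : (0 : ℝ) < Lr := by exact_mod_cast (lt_of_lt_of_le h1 hr1L)
    have st := H V hV K₁ l₁ f₁ z r1 Lr h1 hr1L (hLr ▸ hsub)
      (dfi_K_clear x V G D _ (Finset.disjoint_of_subset_right (Finset.sdiff_subset) (hLr ▸ hDdis)))
    have hballs : latBall z Lr ⊆ latBall z r2 := plh_ball_mono z (by omega)
    have hp : S.P (K₁.Holds S) (fun ω => ¬ ClSep S true K₁.Eq ω (latBall z r1) (V \ latBall z Lr)) ≤
        C * 3 ^ α * ((r1 : ℝ) / r2) ^ α := by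
      rw [dfi_P_congr S _ (fun ω => not_congr (dfi_sep_symm S true K₁.Eq ω (latBall z r1) (V \ latBall z Lr)))]
      refine st.trans ?_
      rw [mul_assoc, ← Real.mul_rpow (by norm_num) (div_pos hr1 hr2).le]
      refine mul_le_mul_of_nonneg_left (Real.rpow_le_rpow (div_pos hr1 hLpos).le ?_ hα.le) hC.le
      rw [div_le_iff₀ hLpos, mul_div_assoc', div_mul_eq_mul_div, le_div_iff₀ hr2]
      have e : (r2 : ℝ) = Lr + 2 := by exact_mod_cast hLr
      have : (1 : ℝ) ≤ Lr := by exact_mod_cast (le_trans h1 hr1L)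
      rw [e]
      nlinarith
    have hle : ClLe K₁ K₂ :=
      ⟨Finset.union_subset_union_left Finset.subset_union_left, subset_rfl, subset_rfl, subset_rfl,
        by simp [hK₁, dfiK], by simp [hK₂, dfiK], rfl⟩
    have hag : ClAgree S K₁ K₂ (latBall z r1) := by
      refine ⟨fun v hv => ?_, fun _ _ => Iff.rfl, fun _ _ _ => Iff.rfl, fun _ _ _ => Iff.rfl, fun _ _ _ => Iff.rfl⟩
      have hvE : v ∉ E := fun h => hv (hE h)
      simp only [hK₁, hK₂, dfiK, Finset.mem_union]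
      tauto
    have hDA : D ⊆ V \ latBall z Lr := fun v hv =>
      Finset.mem_sdiff.2 ⟨hDV hv, fun h => Finset.disjoint_left.1 hDdis hv (hballs h)⟩
    have hDl : D = (List.ofFn L).foldr (· ∪ ·) ∅ := by
      ext v
      rw [dfi_mem_foldr, hDdef, Finset.mem_biUnion]
      constructor
      · rintro ⟨l, _, hl⟩; exact ⟨L l, List.mem_ofFn.2 ⟨l, rfl⟩, hl⟩
      · rintro ⟨Cc, hCc, hv⟩
        obtain ⟨l, rfl⟩ := List.mem_ofFn.1 hCc
        exact ⟨l, Finset.mem_univ _, hv⟩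
    have main := dfi_abs S hS K₁ K₂ l₁ l₂ hle f₁ f₂ (latBall z r1) (V \ latBall z Lr)
      ((plh_ball_mono z h12).trans hsub) Finset.sdiff_subset hag (List.ofFn L) D hDl hDA
      (by
        intro Cc hCc
        obtain ⟨l, rfl⟩ := List.mem_ofFn.1 hCc
        exact dfi_K_conn (Finset.subset_biUnion_of_mem L (Finset.mem_univ l)) (hconn l))
      F (dde_loc_mono (Finset.sdiff_subset_sdiff subset_rfl hballs) (Finset.empty_subset _) hF) hb _ hp
    rw [List.length_ofFn] at main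
    refine main.trans ?_
    refine mul_le_mul_of_nonneg_right ?_ (mul_nonneg b₁0 b₂0)
    unfold dfiC
    have : 0 ≤ 2 * 2 ^ α * ((r1 : ℝ) / r2) ^ α := by positivity
    nlinarith

/-! ### (C) the spin version of a 4-periodic height observable -/

/-- `h` is a lift of the spins of `ω` on `Q` -/
def DfiLift (Q : Finset TV) (ω : ClCfg TV TV) (h : TV → ℤ) : Prop :=
  (∀ u ∈ Q, (u ∈ ω.B ↔ (h u % 4 = 0 ∨ h u % 4 = 1)) ∧ (u ∈ ω.W ↔ (h u % 4 = 0 ∨ h u % 4 = 3))) ∧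
  ∀ u ∈ Q, ∀ v ∈ Q, triAdj u v → |h u - h v| ≤ 1

open Classical in
/-- the value of `Ψ` at a lift of the spins on `Q` (`0` if there is none) -/
noncomputable def dfiObs (Q : Finset TV) (Ψ : (TV → ℤ) → ℝ) (ω : ClCfg TV TV) : ℝ :=
  if h : ∃ g, DfiLift Q ω g then Ψ h.choose else 0

theorem dfi_lift_congr (Q : Finset TV) {ω ω' : ClCfg TV TV} (hB : ω.B ∩ Q = ω'.B ∩ Q) (hW : ω.W ∩ Q = ω'.W ∩ Q) :
    DfiLift Q ω = DfiLift Q ω' := by
  funext g
  have eB : ∀ u ∈ Q, (u ∈ ω.B ↔ u ∈ ω'.B) := fun u hu => by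
    have := Finset.ext_iff.1 hB u
    simp only [Finset.mem_inter, hu, and_true] at this
    exact this
  have eW : ∀ u ∈ Q, (u ∈ ω.W ↔ u ∈ ω'.W) := fun u hu => by
    have := Finset.ext_iff.1 hW u
    simp only [Finset.mem_inter, hu, and_true] at this
    exact this
  unfold DfiLift
  refine propext (and_congr (forall₂_congr fun u hu => ?_) Iff.rfl)
  rw [eB u hu, eW u hu]

theorem dfi_obs_loc (Q : Finset TV) (Ψ : (TV → ℤ) → ℝ) : ClLoc Q ∅ (dfiObs Q Ψ) := by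
  intro ω ω' hB hW _
  unfold dfiObs
  rw [dfi_lift_congr Q hB hW]

theorem dfi_obs_abs (Q : Finset TV) (Ψ : (TV → ℤ) → ℝ) (hb : ∀ h, |Ψ h| ≤ 1) (ω : ClCfg TV TV) :
    |dfiObs Q Ψ ω| ≤ 1 := by
  unfold dfiObs
  split_ifs
  · exact hb _
  · simp

/-- two lifts on a connected set differ by a constant in `4ℤ` -/
theorem dfi_lift_unique {Q : Finset TV} (hQ : TscConn tscG (↑Q : Set TV)) {ω : ClCfg TV TV} {g g' : TV → ℤ}
    (h : DfiLift Q ω g) (h' : DfiLift Q ω g') : ∃ t : ℤ, ∀ u ∈ Q, g' u = g u + 4 * t := by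
  have hres : ∀ u ∈ Q, g' u % 4 = g u % 4 := by
    intro u hu
    have a1 := (h.1 u hu).1.symm.trans (h'.1 u hu).1
    have a2 := (h.1 u hu).2.symm.trans (h'.1 u hu).2
    omega
  rcases Q.eq_empty_or_nonempty with rfl | ⟨u₀, hu₀⟩
  · exact ⟨0, fun u hu => absurd hu (by simp)⟩
  refine ⟨(g' u₀ - g u₀) / 4, fun u hu => ?_⟩
  have h0 := hres u₀ hu₀
  have e0 : 4 * ((g' u₀ - g u₀) / 4) = g' u₀ - g u₀ := by omega
  rw [e0]
  have key : g' u₀ - g u₀ = g' u - g u := by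
    refine tsc_R_const (G := tscG) (s := (↑Q : Set TV)) (fun v => g' v - g v) ?_ (hQ u₀ (by exact_mod_cast hu₀) u (by exact_mod_cast hu))
    intro a b hab
    have ha : a ∈ Q := by exact_mod_cast hab.2.1
    have hb : b ∈ Q := by exact_mod_cast hab.2.2
    have l1 := abs_le.1 (h.2 a ha b hb hab.1)
    have l2 := abs_le.1 (h'.2 a ha b hb hab.1)
    have r1 := hres a ha
    have r2 := hres b hb
    show g' a - g a = g' b - g b
    omega
  omega

theorem dfi_per {Ψ : (TV → ℤ) → ℝ} (hP : PinP4 Ψ) (h : TV → ℤ) (t : ℤ) : Ψ (fun u => h u + 4 * t) = Ψ h := by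
  induction t using Int.induction_on with
  | zero => simp
  | succ n ih =>
    rw [← ih, ← hP (fun u => h u + 4 * (n : ℤ))]
    congr 1
    funext u
    ring
  | pred n ih =>
    rw [← ih, ← hP (fun u => h u + 4 * (-(n : ℤ) - 1))]
    congr 1
    funext u
    ring

/-- the value of the spin version at the Gray spins of a height function -/
theorem dfi_obs_gray {Q Q₀ T : Finset TV} (hQ : TscConn tscG (↑Q : Set TV)) (hQQ : Q ⊆ Q₀) (hT : T ⊆ Q)
    {Ψ : (TV → ℤ) → ℝ} (hloc : HtLoc T Ψ) (hP : PinP4 Ψ) (h : TV → ℤ)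
    (hl : ∀ u ∈ Q₀, ∀ v ∈ Q₀, triAdj u v → |h u - h v| ≤ 1) (O : Finset TV) :
    dfiObs Q Ψ ⟨htB Q₀ h, htW Q₀ h, O⟩ = Ψ h := by
  have hlift : DfiLift Q ⟨htB Q₀ h, htW Q₀ h, O⟩ h := by
    refine ⟨fun u hu => ⟨?_, ?_⟩, fun u hu v hv => hl u (hQQ hu) v (hQQ hv)⟩
    · simp only [htB, Finset.mem_filter, hQQ hu, true_and]
    · simp only [htW, Finset.mem_filter, hQQ hu, true_and]
  have hex : ∃ g, DfiLift Q ⟨htB Q₀ h, htW Q₀ h, O⟩ g := ⟨h, hlift⟩
  unfold dfiObs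
  rw [dif_pos hex]
  obtain ⟨t, ht⟩ := dfi_lift_unique hQ hlift hex.choose_spec
  rw [← dfi_per hP h t]
  exact hloc _ _ fun u hu => ht u (hT hu)

/-- a concentric annulus is connected -/
theorem dfi_ann_conn (z : TV) (r M : ℕ) : TscConn tscG (↑(latBall z M \ latBall z r) : Set TV) := by
  have hmem : ∀ u : TV, u ∈ (↑(latBall z M \ latBall z r) : Set TV) ↔ r < latN (u - z) ∧ latN (u - z) ≤ M := by
    intro u
    rw [Finset.mem_coe, Finset.mem_sdiff, lat_mem_ball, lat_mem_ball]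
    omega
  -- every site of the annulus is joined to the outer sphere
  have up : ∀ (n : ℕ) (u : TV), r < latN (u - z) → latN (u - z) + n = M →
      ∃ w, latN (w - z) = M ∧ TscR tscG (↑(latBall z M \ latBall z r) : Set TV) u w := by
    intro n
    induction n with
    | zero => intro u _ h; exact ⟨u, by omega, tsc_R_refl u⟩
    | succ n ih =>
      intro u hu h
      obtain ⟨d, hd, hN⟩ := plh_asc (u - z)
      have e : u + d - z = u - z + d := by abel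
      obtain ⟨w, hw, hr⟩ := ih (u + d) (by rw [e]; omega) (by rw [e]; omega)
      refine ⟨w, hw, tsc_R_trans (tsc_R_step ?_ ((hmem u).2 ⟨hu, by omega⟩) ((hmem _).2 ⟨by rw [e]; omega, by rw [e]; omega⟩)) hr⟩
      show triAdj u (u + d)
      rw [lat_adj_iff]
      simpa using hd
  intro u hu v hv
  obtain ⟨hu1, hu2⟩ := (hmem u).1 hu
  obtain ⟨hv1, hv2⟩ := (hmem v).1 hv
  obtain ⟨w, hw, hr⟩ := up (M - latN (u - z)) u hu1 (by omega)
  obtain ⟨w', hw', hr'⟩ := up (M - latN (v - z)) v hv1 (by omega)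
  have hs : TscR tscG (↑(latBall z M \ latBall z r) : Set TV) w w' := by
    refine tsc_R_mono ?_ (plh_sphere_conn z M w hw w' hw')
    intro a ha
    have ha' : latN (a - z) = M := ha
    exact (hmem a).2 ⟨by omega, by omega⟩
  exact tsc_R_trans hr (tsc_R_trans hs (tsc_R_symm hr'))

/-! ### (D) the plane, the bridge -/

theorem dfi_pin_loc (G D Q : Finset TV) (hQ : G ∪ D ⊆ Q) : ClLoc Q ∅ (dfiPin G D) := by
  intro ω ω' hB hW _
  have a : ∀ (X P P' : Finset TV), X ⊆ Q → P ∩ Q = P' ∩ Q → (X ⊆ P ↔ X ⊆ P') := by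
    intro X P P' hX h
    constructor
    · intro h1 v hv
      exact (Finset.mem_inter.1 ((Finset.ext_iff.1 h v).1 (Finset.mem_inter.2 ⟨h1 hv, hX hv⟩))).1
    · intro h1 v hv
      exact (Finset.mem_inter.1 ((Finset.ext_iff.1 h v).2 (Finset.mem_inter.2 ⟨h1 hv, hX hv⟩))).1
  unfold dfiPin
  simp only [a _ _ _ hQ hB, a _ _ _ (Finset.subset_union_right.trans hQ) hW]

theorem dfi_mul_loc {Q : Finset TV} {F F' : ClCfg TV TV → ℝ} (h : ClLoc Q ∅ F) (h' : ClLoc Q ∅ F') :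
    ClLoc Q ∅ (fun ω => F ω * F' ω) := fun ω ω' a b c => by
  show F ω * F' ω = F ω' * F' ω'
  rw [h ω ω' a b c, h' ω ω' a b c]

theorem dfi_plane (x : ℝ) (hx0 : 0 < x) (hx1 : x ≤ 1) (hT : DisT23 x true) {C α : ℝ} (hC : 0 < C) (hα : 0 < α)
    (H : DfiStack x C α) (k : ℕ) (G E : Finset TV) (L : Fin k → Finset TV) (z : TV) (r1 r2 : ℕ)
    (hconn : ∀ l, TscConn tscG (L l : Set TV)) (h1 : 1 ≤ r1) (h12 : r1 ≤ r2) (hE : E ⊆ latBall z r1)
    (hL : ∀ l, Disjoint (L l) (latBall z r2)) (M : ℕ)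
    (F : ClCfg TV TV → ℝ) (hF : ClLoc (latBall z M \ latBall z r2) ∅ F) (hb : ∀ ω, |F ω| ≤ 1) :
    |clPlane x (fun ω => F ω * dfiPin (G ∪ E) (Finset.univ.biUnion L) ω) *
          clPlane x (fun ω => 1 * dfiPin G (Finset.univ.biUnion L) ω) -
        clPlane x (fun ω => F ω * dfiPin G (Finset.univ.biUnion L) ω) *
          clPlane x (fun ω => 1 * dfiPin (G ∪ E) (Finset.univ.biUnion L) ω)| ≤
      dfiC C α k * ((r1 : ℝ) / r2) ^ α *
        (clPlane x (fun ω => 1 * dfiPin G (Finset.univ.biUnion L) ω) *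
          clPlane x (fun ω => 1 * dfiPin (G ∪ E) (Finset.univ.biUnion L) ω)) := by
  set D := Finset.univ.biUnion L with hD
  set Q : Finset TV := latBall z M ∪ latBall z r2 ∪ (G ∪ E ∪ D) with hQ
  have hFQ : ClLoc Q ∅ F :=
    dde_loc_mono (Finset.sdiff_subset.trans (Finset.subset_union_left.trans Finset.subset_union_left)) subset_rfl hF
  have h1Q : ClLoc Q ∅ (fun _ : ClCfg TV TV => (1 : ℝ)) := fun _ _ _ _ _ => rfl
  have hp1 : ClLoc Q ∅ (dfiPin G D) := dfi_pin_loc G D Q (by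
    refine Finset.Subset.trans ?_ Finset.subset_union_right
    exact Finset.union_subset_union_left Finset.subset_union_left)
  have hp2 : ClLoc Q ∅ (dfiPin (G ∪ E) D) := dfi_pin_loc (G ∪ E) D Q Finset.subset_union_right
  have lim := fun (X : ClCfg TV TV → ℝ) (hX : ClLoc Q ∅ X) => dis_plane_lim x hx0 hx1 hT Q ∅ X hX
  have t1 := lim _ (dfi_mul_loc hFQ hp2)
  have t2 := lim _ (dfi_mul_loc h1Q hp1)
  have t3 := lim _ (dfi_mul_loc hFQ hp1)
  have t4 := lim _ (dfi_mul_loc h1Q hp2)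
  refine le_of_tendsto_of_tendsto ((t1.mul t2).sub (t3.mul t4)).abs ((t2.mul t4).const_mul _) ?_
  filter_upwards [dsy_sub_ball Q] with N hN
  have hsub : latBall z r2 ⊆ latBall 0 N := (Finset.subset_union_right.trans Finset.subset_union_left).trans hN
  have hMs : latBall z M ⊆ latBall 0 N := (Finset.subset_union_left.trans Finset.subset_union_left).trans hN
  have fin := dfi_fin_N x hx0 hx1 hC hα H k G E L z r1 r2 hconn h1 h12 hE hL (latBall 0 N) (dis_amb_ball 0 N) hsub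
    (Finset.subset_union_right.trans hN) F
    (dde_loc_mono (Finset.sdiff_subset_sdiff hMs subset_rfl) subset_rfl hF) hb
  simp only [dis_E_eq]
  set S := clAmb x (latBall 0 N)
  set Z := S.Z (fun _ => True)
  set A₂ := S.N (fun _ => True) (fun ω => F ω * dfiPin (G ∪ E) D ω)
  set A₁ := S.N (fun _ => True) (fun ω => F ω * dfiPin G D ω)
  set B₁ := S.N (fun _ => True) (fun ω => 1 * dfiPin G D ω)
  set B₂ := S.N (fun _ => True) (fun ω => 1 * dfiPin (G ∪ E) D ω)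
  have e1 : A₂ / Z * (B₁ / Z) - A₁ / Z * (B₂ / Z) = (A₂ * B₁ - A₁ * B₂) / (Z * Z) := by ring
  have e2 : dfiC C α k * ((r1 : ℝ) / r2) ^ α * (B₁ / Z * (B₂ / Z)) =
      dfiC C α k * ((r1 : ℝ) / r2) ^ α * (B₁ * B₂) / (Z * Z) := by ring
  rw [e1, e2, abs_div, abs_of_nonneg (mul_self_nonneg Z)]
  exact div_le_div_of_nonneg_right fin (mul_self_nonneg Z)

/-- `KK` is a spin version on `Q` of the height observable `K` -/
def DfiRep (Q : Finset TV) (K : (TV → ℤ) → ℝ) (KK : ClCfg TV TV → ℝ) : Prop :=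
  ClLoc Q ∅ KK ∧ ∀ h : TV → ℤ, (∀ u ∈ Q, ∀ v ∈ Q, triAdj u v → |h u - h v| ≤ 1) → KK ⟨htB Q h, htW Q h, ∅⟩ = K h

/-- (BR) THE BRIDGE `pinPer ↔ clPlane` = `dbr_main` of helper267 (Dis/PinBr.lean) -/
theorem dfi_br (x : ℝ) (hx1 : 1 / Real.sqrt 2 ≤ x) (hx2 : x ≤ 1) (Q : Finset TV) (K : (TV → ℤ) → ℝ)
    (KK : ClCfg TV TV → ℝ) (h : DfiRep Q K KK) : pinPer x K = clPlane x KK :=
  dbr_main x (lt_of_lt_of_le (by positivity) hx1) hx2 (exit_t23 x hx1 hx2) Q K KK (dbr_rep_of_loc h.1 h.2)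

theorem dfi_pin_gray (G D Q : Finset TV) (hQ : G ∪ D ⊆ Q) (h : TV → ℤ) (O : Finset TV) :
    dfiPin G D ⟨htB Q h, htW Q h, O⟩ = pinI (PinSp G D h) := by
  have e : (G ∪ D ⊆ htB Q h ∧ D ⊆ htW Q h) ↔ PinSp G D h := by
    unfold PinSp momB
    constructor
    · rintro ⟨a, b⟩
      refine ⟨fun u hu => (Finset.mem_filter.1 (a (Finset.mem_union_left _ hu))).2, fun u hu => ?_⟩
      have a1 := (Finset.mem_filter.1 (a (Finset.mem_union_right _ hu))).2
      have a2 := (Finset.mem_filter.1 (b hu)).2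
      omega
    · rintro ⟨a, b⟩
      refine ⟨fun u hu => Finset.mem_filter.2 ⟨hQ hu, ?_⟩,
        fun u hu => Finset.mem_filter.2 ⟨hQ (Finset.mem_union_right _ hu), Or.inl (b u hu)⟩⟩
      rcases Finset.mem_union.1 hu with hu | hu
      · exact a u hu
      · exact Or.inl (b u hu)
  unfold dfiPin pinI
  by_cases hc : PinSp G D h
  · rw [if_pos (e.2 hc), if_pos hc]
  · rw [if_neg (fun h' => hc (e.1 h')), if_neg hc]

theorem dfi_main (x : ℝ) (hx1 : 1 / Real.sqrt 2 ≤ x) (hx2 : x ≤ 1) :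
    ∃ α : ℝ, 0 < α ∧ ∀ k : ℕ, ∃ C : ℝ, 0 < C ∧ ∀ (G E T : Finset TV) (L : Fin k → Finset TV) (z : TV) (r1 r2 : ℕ) (Ψ : (TV → ℤ) → ℝ),
      (∀ l, TscConn tscG (L l : Set TV)) → 1 ≤ r1 → r1 ≤ r2 → E ⊆ latBall z r1 → (∀ l, Disjoint (L l) (latBall z r2)) → Disjoint T (latBall z r2) →
      HtLoc T Ψ → PinP4 Ψ → (∀ h, |Ψ h| ≤ 1) →
      |(pinPer x fun h => Ψ h * pinI (PinSp (G ∪ E) (Finset.univ.biUnion L) h)) * (pinPer x fun h => pinI (PinSp G (Finset.univ.biUnion L) h)) -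
          (pinPer x fun h => Ψ h * pinI (PinSp G (Finset.univ.biUnion L) h)) * (pinPer x fun h => pinI (PinSp (G ∪ E) (Finset.univ.biUnion L) h))| ≤
        C * ((r1 : ℝ) / r2) ^ α * ((pinPer x fun h => pinI (PinSp G (Finset.univ.biUnion L) h)) * pinPer x fun h => pinI (PinSp (G ∪ E) (Finset.univ.biUnion L) h)) := by
  have hx0 : 0 < x := lt_of_lt_of_le (by positivity) hx1
  have hT := exit_t23 x hx1 hx2
  obtain ⟨C, α, hC, hα, H⟩ := dis_stack x hx0 hx2 true hT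
  refine ⟨α, hα, fun k => ⟨dfiC C α k, by unfold dfiC; positivity, ?_⟩⟩
  intro G E T L z r1 r2 Ψ hconn h1 h12 hE hL hTd hloc hP hb
  set D := Finset.univ.biUnion L with hD
  -- a large concentric ball
  obtain ⟨M, hM⟩ : ∃ M : ℕ, T ∪ (G ∪ E ∪ D) ⊆ latBall z M := by
    refine ⟨(T ∪ (G ∪ E ∪ D)).sup (fun u => latN (u - z)), fun u hu => ?_⟩
    rw [lat_mem_ball]
    exact Finset.le_sup (f := fun u => latN (u - z)) hu
  set Q₀ := latBall z M with hQ₀
  set Q := latBall z M \ latBall z r2 with hQ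
  have hQc : TscConn tscG (↑Q : Set TV) := dfi_ann_conn z r2 M
  have hTQ : T ⊆ Q := fun u hu =>
    Finset.mem_sdiff.2 ⟨hM (Finset.mem_union_left _ hu), Finset.disjoint_left.1 hTd hu⟩
  have hG1 : G ∪ D ⊆ Q₀ := by
    refine Finset.Subset.trans ?_ (Finset.subset_union_right.trans hM)
    exact Finset.union_subset_union_left Finset.subset_union_left
  have hG2 : (G ∪ E) ∪ D ⊆ Q₀ := Finset.subset_union_right.trans hM
  set F := dfiObs Q Ψ with hF
  have hFloc : ClLoc Q ∅ F := dfi_obs_loc Q Ψ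
  have hFQ₀ : ClLoc Q₀ ∅ F := dde_loc_mono Finset.sdiff_subset subset_rfl hFloc
  have rep : ∀ G' : Finset TV, G' ∪ D ⊆ Q₀ →
      DfiRep Q₀ (fun h => Ψ h * pinI (PinSp G' D h)) (fun ω => F ω * dfiPin G' D ω) ∧
      DfiRep Q₀ (fun h => pinI (PinSp G' D h)) (fun ω => 1 * dfiPin G' D ω) := by
    intro G' hG'
    refine ⟨⟨dfi_mul_loc hFQ₀ (dfi_pin_loc G' D Q₀ hG'), fun h hl => ?_⟩,
      ⟨dfi_mul_loc (fun _ _ _ _ _ => rfl) (dfi_pin_loc G' D Q₀ hG'), fun h hl => ?_⟩⟩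
    · show F _ * dfiPin G' D _ = _
      rw [dfi_pin_gray G' D Q₀ hG', hF, dfi_obs_gray hQc Finset.sdiff_subset hTQ hloc hP h hl]
    · show 1 * dfiPin G' D _ = _
      rw [dfi_pin_gray G' D Q₀ hG', one_mul]
  rw [dfi_br x hx1 hx2 Q₀ _ _ (rep G hG1).1, dfi_br x hx1 hx2 Q₀ _ _ (rep G hG1).2,
    dfi_br x hx1 hx2 Q₀ _ _ (rep (G ∪ E) hG2).1, dfi_br x hx1 hx2 Q₀ _ _ (rep (G ∪ E) hG2).2]
  exact dfi_plane x hx0 hx2 hT hC hα H k G E L z r1 r2 hconn h1 h12 hE hL M F hFloc (dfi_obs_abs Q Ψ hb)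

end Claimed.Agent.R291
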