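import Claimed.Agent.R291.Dis.Buffer

/-!
# Row 291 (S0539), Dis/Rare : MULTIPLICATIVE COMPARISON FOR RARE PINS      (owner helper13, unit LBL + RARE of DIS; prefix `drr_`, exits `dis_rare*`)

TEX[prop:rare-pins]      02-discrete.tex l.758-860.   Design: `origin/helper146:notes/R291/sec2_146.md` (RARE1, RARE), consumer: PIN (P3 of `origin/helper34:notes/R291/sec5_34.md`).
-/

set_option autoImplicit false
set_option linter.unusedSectionVars false

namespace Claimed.Agent.R291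

open Claims Claims.C0467

section abstract

variable {V Y : Type} [DecidableEq V] [DecidableEq Y]

/-! ### 1. adding pins, prescribing a cut -/

/-- add first-spin pins of sign `s` on `P` -/
def ClCon.addB (K : ClCon V Y) (s : Bool) (P : Finset V) : ClCon V Y :=
  if s then { K with Bp := K.Bp ∪ P } else { K with Bm := K.Bm ∪ P }

/-- prescribe the cut of sign `s` along `I`: the crossing cells are open of sign `s`, their sites are pinned -/
def ClCon.cutAt (K : ClCon V Y) (S : ClSys V Y) (s : Bool) (I : Finset V) : ClCon V Y :=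
  if s then { K with Bp := K.Bp ∪ (S.cx I).biUnion S.sv, Op := K.Op ∪ S.cx I }
  else { K with Bm := K.Bm ∪ (S.cx I).biUnion S.sv, Om := K.Om ∪ S.cx I }

theorem drr_holds_addB (S : ClSys V Y) (K : ClCon V Y) (s : Bool) (P : Finset V) (ω : ClCfg V Y) :
    (K.addB s P).Holds S ω ↔ K.Holds S ω ∧ ClSgn s ω.B P := by
  cases s
  · simp only [ClCon.addB, ClCon.Holds, ClSgn, Bool.false_eq_true, if_false, Finset.mem_union]
    constructor
    · rintro ⟨a, b, c⟩
      exact ⟨⟨a, fun v hv => b v (Or.inl hv), c⟩, fun v hv => b v (Or.inr hv)⟩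
    · rintro ⟨⟨a, b, c⟩, d⟩
      exact ⟨a, fun v hv => hv.elim (b v) (d v), c⟩
  · simp only [ClCon.addB, ClCon.Holds, ClSgn, if_true, Finset.union_subset_iff]
    tauto

theorem drr_tau_one (S : ClSys V Y) (ω : ClCfg V Y) (y : Y) : clTau S ω y = 1 ↔ y ∈ ω.O ∧ S.sv y ⊆ ω.B := by
  unfold clTau
  by_cases h1 : y ∈ ω.O <;> by_cases h2 : S.sv y ⊆ ω.B <;> simp [h1, h2]

theorem drr_tau_neg (S : ClSys V Y) (ω : ClCfg V Y) (y : Y) : clTau S ω y = -1 ↔ y ∈ ω.O ∧ ¬ S.sv y ⊆ ω.B := by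
  unfold clTau
  by_cases h1 : y ∈ ω.O <;> by_cases h2 : S.sv y ⊆ ω.B <;> simp [h1, h2]

theorem drr_holds_cutAt' (S : ClSys V Y) (K : ClCon V Y) (s : Bool) (I : Finset V) (ω : ClCfg V Y) :
    (K.cutAt S s I).Holds S ω ↔ K.Holds S ω ∧ ClOpenOn S (S.cx I) s ω := by
  cases s
  · simp only [ClCon.cutAt, ClCon.Holds, ClOpenOn, ClSgn, Bool.false_eq_true, if_false, Finset.mem_union,
      Finset.mem_biUnion]
    constructor
    · rintro ⟨a, b, c, d, e, f⟩
      refine ⟨⟨a, fun v hv => b v (Or.inl hv), c, d, fun y hy => e y (Or.inl hy), f⟩, fun y hy => ?_⟩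
      exact ⟨((drr_tau_neg S ω y).1 (e y (Or.inr hy))).1, fun v hv => b v (Or.inr ⟨y, hy, hv⟩)⟩
    · rintro ⟨⟨a, b, c, d, e, f⟩, g⟩
      refine ⟨a, fun v hv => ?_, c, d, fun y hy => ?_, f⟩
      · rcases hv with hv | ⟨y, hy, hv⟩
        · exact b v hv
        · exact (g y hy).2 v hv
      · rcases hy with hy | hy
        · exact e y hy
        · obtain ⟨u, hu, _⟩ := (Finset.mem_filter.1 hy).2.1
          exact (drr_tau_neg S ω y).2 ⟨(g y hy).1, fun hsub => (g y hy).2 u hu (hsub hu)⟩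
  · simp only [ClCon.cutAt, ClCon.Holds, ClOpenOn, ClSgn, if_true, Finset.mem_union, Finset.union_subset_iff,
      Finset.biUnion_subset]
    constructor
    · rintro ⟨⟨a, a'⟩, b, c, d, e⟩
      exact ⟨⟨a, b, c, fun y hy => d y (Or.inl hy), e⟩, fun y hy => ⟨((drr_tau_one S ω y).1 (d y (Or.inr hy))).1, a' y hy⟩⟩
    · rintro ⟨⟨a, b, c, d, e⟩, g⟩
      refine ⟨⟨a, fun y hy => (g y hy).2⟩, b, c, fun y hy => ?_, e⟩
      rcases hy with hy | hy
      · exact d y hy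
      · exact (drr_tau_one S ω y).2 (g y hy)

theorem drr_holds_cutAt (S : ClSys V Y) (K : ClCon V Y) (s : Bool) (I : Finset V) {ω : ClCfg V Y} (hw : S.wt ω ≠ 0) :
    (K.cutAt S s I).Holds S ω ↔ K.Holds S ω ∧ ClCut S s I ω := by
  rw [drr_holds_cutAt', dcu_cut_iff S s I hw]

theorem drr_N_cutAt (S : ClSys V Y) (K : ClCon V Y) (s : Bool) (I : Finset V) (G : ClCfg V Y → ℝ) :
    S.N ((K.cutAt S s I).Holds S) G = S.N (fun ω => K.Holds S ω ∧ ClCut S s I ω) G :=
  dcu_N_congr' S G fun _ _ hw => drr_holds_cutAt S K s I hw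

theorem drr_Z_cutAt (S : ClSys V Y) (K : ClCon V Y) (s : Bool) (I : Finset V) :
    S.Z ((K.cutAt S s I).Holds S) = S.Z (fun ω => K.Holds S ω ∧ ClCut S s I ω) := by
  rw [dis_Z_eq, dis_Z_eq, drr_N_cutAt]

theorem drr_legal_addB {S : ClSys V Y} {K : ClCon V Y} (h : ClLegal S K) (s : Bool) (P : Finset V) :
    ClLegal S (K.addB s P) := by
  obtain ⟨a, b, c, d⟩ := h
  cases s
  · exact ⟨a, b, fun y hy ho => (c y hy ho).trans (Finset.union_subset_union_right Finset.subset_union_left), d⟩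
  · exact ⟨a, b, fun y hy ho => (c y hy ho).trans (Finset.union_subset_union_left Finset.subset_union_left), d⟩

theorem drr_legal_cutAt {S : ClSys V Y} {K : ClCon V Y} (h : ClLegal S K) (s : Bool) (I : Finset V) :
    ClLegal S (K.cutAt S s I) := by
  obtain ⟨a, b, c, d⟩ := h
  cases s
  · refine ⟨a, b, fun y hy ho => ?_, d⟩
    simp only [ClCon.cutAt, Bool.false_eq_true, if_false, Finset.mem_union] at ho ⊢
    by_cases hx : y ∈ S.cx I
    · intro v hv
      exact Finset.mem_union_right _ (Finset.mem_union_right _ (Finset.mem_biUnion.2 ⟨y, hx, hv⟩))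
    · have : y ∈ K.Op ∪ K.Om ∪ K.Cl := by
        simp only [Finset.mem_union]; tauto
      exact (c y hy this).trans (Finset.union_subset_union_right Finset.subset_union_left)
  · refine ⟨a, b, fun y hy ho => ?_, d⟩
    simp only [ClCon.cutAt, if_true, Finset.mem_union] at ho ⊢
    by_cases hx : y ∈ S.cx I
    · intro v hv
      exact Finset.mem_union_left _ (Finset.mem_union_right _ (Finset.mem_biUnion.2 ⟨y, hx, hv⟩))
    · have : y ∈ K.Op ∪ K.Om ∪ K.Cl := by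
        simp only [Finset.mem_union]; tauto
      exact (c y hy this).trans (Finset.union_subset_union_left Finset.subset_union_left)

theorem drr_le_refl (K : ClCon V Y) : ClLe K K :=
  ⟨subset_rfl, subset_rfl, subset_rfl, subset_rfl, Finset.subset_union_left, Finset.subset_union_left, rfl⟩

theorem drr_leS_cutAt (S : ClSys V Y) (K : ClCon V Y) (s : Bool) (I : Finset V) : ClLeS s K (K.cutAt S s I) := by
  cases s
  · refine ⟨fun h => absurd h (by simp), fun _ => ?_⟩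
    exact ⟨subset_rfl, Finset.subset_union_left, subset_rfl, Finset.subset_union_left, Finset.subset_union_left,
      Finset.subset_union_left, rfl⟩
  · refine ⟨fun _ => ?_, fun h => absurd h (by simp)⟩
    exact ⟨Finset.subset_union_left, subset_rfl, Finset.subset_union_left, subset_rfl, Finset.subset_union_left,
      Finset.subset_union_left, rfl⟩

theorem drr_up_sgn (S : ClSys V Y) (s : Bool) (P : Finset V) : ClUp S s (fun ω => ClSgn s ω.B P) := by
  intro ω ω' hB _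
  cases s
  · refine ⟨fun h => absurd h (by simp), fun _ h => ?_⟩
    exact dcu_sgn_false.2 fun v hv hm => dcu_sgn_false.1 h v hv (hB hm)
  · refine ⟨fun _ h => ?_, fun h => absurd h (by simp)⟩
    exact dcu_sgn_true.2 ((dcu_sgn_true.1 h).trans hB)

theorem drr_loc_sgn (s : Bool) {P T : Finset V} (T' : Finset Y) (h : P ⊆ T) :
    ClLoc T T' (clInd fun ω : ClCfg V Y => ClSgn s ω.B P) := by
  intro ω ω' hB _ _
  have key : ∀ v ∈ P, (v ∈ ω.B ↔ v ∈ ω'.B) := fun v hv => dcu_mem_of_inter hB (h hv)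
  have e : ClSgn s ω.B P ↔ ClSgn s ω'.B P := by
    cases s
    · rw [dcu_sgn_false, dcu_sgn_false]
      exact ⟨fun a v hv hm => a v hv ((key v hv).2 hm), fun a v hv hm => a v hv ((key v hv).1 hm)⟩
    · rw [dcu_sgn_true, dcu_sgn_true]
      exact ⟨fun a v hv => (key v hv).1 (a hv), fun a v hv => (key v hv).2 (a hv)⟩
  unfold clInd
  by_cases h1 : ClSgn s ω.B P
  · rw [if_pos h1, if_pos (e.1 h1)]
  · rw [if_neg h1, if_neg fun h2 => h1 (e.2 h2)]

/-! ### 2. two cuts of the same sign are compatible -/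

theorem drr_feas_two (S : ClSys V Y) (hS : ClOk S) (K : ClCon V Y) (hK : ClLegal S K) (s : Bool) (I J : Finset V)
    (h1 : 0 < S.Z ((K.cutAt S s I).Holds S)) (h2 : 0 < S.Z ((K.cutAt S s J).Holds S)) :
    0 < S.Z (((K.cutAt S s J).cutAt S s I).Holds S) := by
  have f1 := dis_feas_conv S hS _ (drr_legal_cutAt hK s I) h1
  have f2 := dis_feas_conv S hS _ (drr_legal_cutAt hK s J) h2
  refine dis_feas S hS _ (drr_legal_cutAt (drr_legal_cutAt hK s J) s I) ?_
  cases s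
  · obtain ⟨a1, b1, c1, d1, e1, g1, i1, j1, k1, l1⟩ := f1
    obtain ⟨a2, b2, c2, d2, e2, g2, i2, j2, k2, l2⟩ := f2
    simp only [ClCon.cutAt, Bool.false_eq_true, if_false] at a1 b1 c1 d1 e1 g1 i1 j1 k1 l1 a2 b2 c2 d2 e2 g2 i2 j2 k2 l2
    have hdis : Disjoint K.Bp (K.Bm ∪ (S.cx J).biUnion S.sv ∪ (S.cx I).biUnion S.sv) := by
      rw [Finset.disjoint_union_right]
      exact ⟨b2, (Finset.disjoint_union_right.1 b1).2⟩
    refine ⟨a1, hdis, c1, ?_, e1, ?_, ?_, ?_, k1, ?_⟩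
    · exact Finset.union_subset d2 ((Finset.union_subset_iff.1 d1).2)
    · intro y hy
      rcases Finset.mem_union.1 hy with hy | hy
      · exact (g2 y hy).trans Finset.subset_union_left
      · exact (g1 y (Finset.mem_union_right _ hy)).trans
          (Finset.union_subset_union_left Finset.subset_union_left)
    · intro y hy hC hor
      rcases hor with h | h
      · exact i1 y hy hC (Or.inl h)
      · refine i1 y hy hC (Or.inr ?_)
        intro v hv
        have h3 := hK.full y hC (Finset.mem_union_right _ hy) hv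
        rcases Finset.mem_union.1 h3 with h4 | h4
        · exact absurd (h hv) (Finset.disjoint_left.1 hdis h4)
        · exact Finset.mem_union_left _ h4
    · exact Finset.disjoint_union_right.2 ⟨j2, (Finset.disjoint_union_right.1 j1).2⟩
    · exact Finset.disjoint_union_left.2 ⟨l2, (Finset.disjoint_union_left.1 l1).2⟩
  · obtain ⟨a1, b1, c1, d1, e1, g1, i1, j1, k1, l1⟩ := f1
    obtain ⟨a2, b2, c2, d2, e2, g2, i2, j2, k2, l2⟩ := f2
    simp only [ClCon.cutAt, if_true] at a1 b1 c1 d1 e1 g1 i1 j1 k1 l1 a2 b2 c2 d2 e2 g2 i2 j2 k2 l2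
    have hdis : Disjoint (K.Bp ∪ (S.cx J).biUnion S.sv ∪ (S.cx I).biUnion S.sv) K.Bm := by
      rw [Finset.disjoint_union_left]
      exact ⟨b2, (Finset.disjoint_union_left.1 b1).2⟩
    refine ⟨?_, hdis, ?_, d1, ?_, g1, ?_, ?_, ?_, l1⟩
    · exact Finset.union_subset a2 ((Finset.union_subset_iff.1 a1).2)
    · exact Finset.union_subset c2 ((Finset.union_subset_iff.1 c1).2)
    · intro y hy
      rcases Finset.mem_union.1 hy with hy | hy
      · exact (e2 y hy).trans Finset.subset_union_left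
      · exact (e1 y (Finset.mem_union_right _ hy)).trans
          (Finset.union_subset_union_left Finset.subset_union_left)
    · intro y hy hC hor
      rcases hor with h | h
      · refine i1 y hy hC (Or.inl ?_)
        intro v hv
        have h3 := hK.full y hC (Finset.mem_union_right _ hy) hv
        rcases Finset.mem_union.1 h3 with h4 | h4
        · exact Finset.mem_union_left _ h4
        · exact absurd h4 (Finset.disjoint_left.1 hdis (h hv))
      · exact i1 y hy hC (Or.inr h)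
    · exact Finset.disjoint_union_left.2 ⟨j2, (Finset.disjoint_union_left.1 j1).2⟩
    · exact Finset.disjoint_union_left.2 ⟨k2, (Finset.disjoint_union_left.1 k1).2⟩

/-! ### 3. (RARE1) the single-sign comparison -/

theorem drr_N_ne_wit (S : ClSys V Y) (K : ClCfg V Y → Prop) (G : ClCfg V Y → ℝ) (h : S.N K G ≠ 0) :
    ∃ ω ∈ S.cfgs, K ω ∧ S.wt ω ≠ 0 ∧ G ω ≠ 0 := by
  classical
  by_contra hcon
  apply h
  unfold ClSys.N
  refine Finset.sum_eq_zero fun ω hω => ?_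
  by_cases hK : K ω
  · rw [if_pos hK]
    by_contra h0
    exact hcon ⟨ω, hω, hK, fun hw => h0 (by rw [hw, zero_mul]), fun hg => h0 (by rw [hg, mul_zero])⟩
  · rw [if_neg hK]

theorem drr_Z_pos_of_wit (S : ClSys V Y) (hS : ClOk S) (K : ClCfg V Y → Prop) {ω : ClCfg V Y} (hω : ω ∈ S.cfgs)
    (hK : K ω) (hw : S.wt ω ≠ 0) : 0 < S.Z K := by
  classical
  unfold ClSys.Z
  refine Finset.sum_pos' (fun ω' _ => ?_) ⟨ω, hω, ?_⟩
  · split_ifs
    · exact dis_wt_nonneg S hS ω'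
    · exact le_rfl
  · rw [if_pos hK]
    exact lt_of_le_of_ne (dis_wt_nonneg S hS ω) (Ne.symm hw)

/-- geometry of one obstacle `Ko` with its collars: a cell crossing `U2` does not touch `U1` -/
structure ClCollar (S : ClSys V Y) (Ko U1 U2 : Finset V) : Prop where
  h01 : Ko ⊆ U1
  h12 : U1 ⊆ U2
  h2A : U2 ⊆ S.A
  gap : ∀ y ∈ S.C, clCross S U2 y → Disjoint (S.sv y) U1

theorem drr_cutAt_eq (S : ClSys V Y) (K : ClCon V Y) (s : Bool) (I : Finset V) : (K.cutAt S s I).Eq = K.Eq := by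
  cases s <;> rfl

/-- the prescription of the outer cut is not seen inside `I ⊆ U1` -/
theorem drr_agree_cutAt {S : ClSys V Y} {Ko U1 U2 : Finset V} (hg : ClCollar S Ko U1 U2) (K : ClCon V Y) (s : Bool)
    {I : Finset V} (hI : I ⊆ U1) : ClAgreeIn S (K.cutAt S s U2) K I := by
  have hL : ∀ v ∈ I, v ∉ (S.cx U2).biUnion S.sv := by
    intro v hv hm
    obtain ⟨y, hy, hvy⟩ := Finset.mem_biUnion.1 hm
    obtain ⟨hyC, hcr⟩ := Finset.mem_filter.1 hy
    exact Finset.disjoint_left.1 (hg.gap y hyC hcr) hvy (hI hv)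
  have hX : ∀ y ∈ S.cin I, y ∉ S.cx U2 := by
    intro y hy hm
    obtain ⟨_, hsub⟩ := Finset.mem_filter.1 hy
    obtain ⟨_, _, v, hv, hvn⟩ := Finset.mem_filter.1 hm
    exact hvn (hg.h12 (hI (hsub hv)))
  cases s
  · refine ⟨fun _ _ => Iff.rfl, fun v hv => ?_, fun _ _ => Iff.rfl, fun _ _ => Iff.rfl, fun _ _ => Iff.rfl, fun y hy => ?_,
      fun _ _ => Iff.rfl, fun _ _ _ => Iff.rfl⟩
    · simp only [ClCon.cutAt, Bool.false_eq_true, if_false, Finset.mem_union]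
      exact ⟨fun h => h.resolve_right (hL v hv), Or.inl⟩
    · simp only [ClCon.cutAt, Bool.false_eq_true, if_false, Finset.mem_union]
      exact ⟨fun h => h.resolve_right (hX y hy), Or.inl⟩
  · refine ⟨fun v hv => ?_, fun _ _ => Iff.rfl, fun _ _ => Iff.rfl, fun _ _ => Iff.rfl, fun y hy => ?_, fun _ _ => Iff.rfl,
      fun _ _ => Iff.rfl, fun _ _ _ => Iff.rfl⟩
    · simp only [ClCon.cutAt, if_true, Finset.mem_union]
      exact ⟨fun h => h.resolve_right (hL v hv), Or.inl⟩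
    · simp only [ClCon.cutAt, if_true, Finset.mem_union]
      exact ⟨fun h => h.resolve_right (hX y hy), Or.inl⟩

/-- (RARE1), upper bound (discrete:pstar): prescribing a favourable cut increases the probability of favourable pins -/
theorem dis_rare1_up (S : ClSys V Y) (hS : ClDisk S) (s : Bool) (K : ClCon V Y) (hK : ClLegal S K) (P I : Finset V) :
    S.N (K.Holds S) (clInd fun ω => ClSgn s ω.B P) * S.Z ((K.cutAt S s I).Holds S)
      ≤ S.Z (K.Holds S) * S.N ((K.cutAt S s I).Holds S) (clInd fun ω => ClSgn s ω.B P) :=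
  dis_order_up S hS s K (K.cutAt S s I) hK (drr_legal_cutAt hK s I) (drr_leS_cutAt S K s I) (drr_up_sgn S s P)

/-- inside a closer cut `I` the pins are at least as likely as under the outer cut `U2` -/
theorem drr_inner_ge (S : ClSys V Y) (hS : ClDisk S) (s : Bool) (K : ClCon V Y) (hK : ClLegal S K)
    {P Ko U1 U2 : Finset V} (hg : ClCollar S Ko U1 U2) (hP : P ⊆ Ko)
    (hf2 : 0 < S.Z ((K.cutAt S s U2).Holds S)) {I : Finset V} (hKI : Ko ⊆ I) (hI : I ⊆ U1)
    (hx : ∀ e ∈ K.Eq, (e.1 ∈ I ↔ e.2 ∈ I)) (hfI : 0 < S.Z (fun ω => K.Holds S ω ∧ ClCut S s I ω)) :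
    S.N ((K.cutAt S s U2).Holds S) (clInd fun ω => ClSgn s ω.B P)
      ≤ S.E (fun ω => K.Holds S ω ∧ ClCut S s I ω) (clInd fun ω => ClSgn s ω.B P) * S.Z ((K.cutAt S s U2).Holds S) := by
  set K2 := K.cutAt S s U2 with hK2
  have hK2l : ClLegal S K2 := drr_legal_cutAt hK s U2
  have hfI' : 0 < S.Z ((K.cutAt S s I).Holds S) := by rw [drr_Z_cutAt]; exact hfI
  have hf2I : 0 < S.Z ((K2.cutAt S s I).Holds S) := drr_feas_two S hS.toClOk K hK s I U2 hfI' hf2
  have hord := dis_rare1_up S hS s K2 hK2l P I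
  have hf2I' : 0 < S.Z (fun ω => K2.Holds S ω ∧ ClCut S s I ω) := by rw [← drr_Z_cutAt]; exact hf2I
  have hlaw := dis_cut_law S hS.toClOk s I K2 K (by rw [hK2, drr_cutAt_eq]; exact hx) hx (drr_agree_cutAt hg K s hI)
    hf2I' hfI (clInd fun ω => ClSgn s ω.B P) (drr_loc_sgn s _ (hP.trans hKI))
  rw [← hlaw, dis_E_eq, ← drr_N_cutAt, ← drr_Z_cutAt, div_mul_eq_mul_div, le_div_iff₀ hf2I]
  calc _ ≤ _ := hord
    _ = _ := by ring

/-- (RARE1), lower bound (discrete:single-sign) -/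
theorem dis_rare1_low (S : ClSys V Y) (hS : ClDisk S) (s : Bool) (K : ClCon V Y) (hK : ClLegal S K)
    {P Ko U1 U2 : Finset V} (hg : ClCollar S Ko U1 U2) (hP : P ⊆ Ko)
    (hf2 : 0 < S.Z ((K.cutAt S s U2).Holds S)) :
    S.N (K.Holds S) (clInd fun ω => ClSep S s K.Eq ω (S.A \ U1) Ko)
        * S.N ((K.cutAt S s U2).Holds S) (clInd fun ω => ClSgn s ω.B P)
      ≤ S.N (K.Holds S) (clInd fun ω => ClSgn s ω.B P) * S.Z ((K.cutAt S s U2).Holds S) := by
  classical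
  have hOk := hS.toClOk
  set A : ClCfg V Y → ℝ := clInd fun ω => ClSgn s ω.B P with hA
  set p := S.N ((K.cutAt S s U2).Holds S) A with hp
  set z := S.Z ((K.cutAt S s U2).Holds S) with hz
  have hKoA : Ko ⊆ S.A := hg.h01.trans (hg.h12.trans hg.h2A)
  have hA0 : ∀ ω, 0 ≤ A ω := fun ω => dis_ind_nonneg _ ω
  have hp0 : 0 ≤ p := dis_N_nonneg S hOk _ hA0
  have hloc1 : ∀ (T : Finset V) (T' : Finset Y), ClLoc T T' (fun _ : ClCfg V Y => (1 : ℝ)) := fun _ _ _ _ _ _ _ => rfl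
  have d1 := dis_dec S hOk s K (S.A \ U1) Ko Finset.sdiff_subset hKoA (fun _ => 1) A (hloc1 _ _) (drr_loc_sgn s _ hP)
  have d2 := dis_dec S hOk s K (S.A \ U1) Ko Finset.sdiff_subset hKoA (fun _ => 1) (fun _ => 1) (hloc1 _ _) (hloc1 _ _)
  have e2 : S.N (K.Holds S) (clInd fun ω => ClSep S s K.Eq ω (S.A \ U1) Ko)
      = S.N (K.Holds S) (fun ω => if ClSep S s K.Eq ω (S.A \ U1) Ko then (1 : ℝ) * 1 else 0) := by
    refine dis_N_congr S _ fun ω _ _ => ?_
    unfold clInd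
    rw [mul_one]
  have e1 : S.N (K.Holds S) (fun ω => if ClSep S s K.Eq ω (S.A \ U1) Ko then 1 * A ω else 0) ≤ S.N (K.Holds S) A := by
    refine dis_N_mono S hOk _ fun ω _ _ => ?_
    split_ifs
    · rw [one_mul]
    · exact hA0 ω
  rw [e2, d2, Finset.sum_mul]
  refine le_trans ?_ (mul_le_mul_of_nonneg_right e1 hf2.le)
  rw [d1, Finset.sum_mul]
  refine Finset.sum_le_sum fun I hI => ?_
  rw [Finset.mem_filter, Finset.mem_powerset] at hI
  obtain ⟨hIs, hKI⟩ := hI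
  have hIA : I ⊆ S.A := hIs.trans Finset.sdiff_subset
  have hIU : I ⊆ U1 := by
    intro v hv
    have h1 := Finset.mem_sdiff.1 (hIs hv)
    by_contra hn
    exact h1.2 (Finset.mem_sdiff.2 ⟨h1.1, hn⟩)
  set n := S.N (K.Holds S) (fun ω => if clInv S s K.Eq ω (S.A \ U1) = S.A \ I then (1 : ℝ) else 0) with hn
  have hn0 : 0 ≤ n := dis_N_nonneg S hOk _ fun ω => by split_ifs <;> norm_num
  by_cases hnz : n = 0
  · rw [hnz]; simp
  obtain ⟨ω, hω, hKω, hw, hG⟩ := drr_N_ne_wit S _ _ hnz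
  have hinv : clInv S s K.Eq ω (S.A \ U1) = S.A \ I := by
    by_contra hne
    exact hG (if_neg hne)
  have hcut : ClCut S s I ω := ((dde_inv_iff S hOk s K.Eq (S.A \ U1) I hIA ω hω).1 hinv).1
  have hfI : 0 < S.Z (fun ω => K.Holds S ω ∧ ClCut S s I ω) := drr_Z_pos_of_wit S hOk _ hω ⟨hKω, hcut⟩ hw
  have hnoX := dde_inv_noX S s K.Eq (S.A \ U1) I hIA ω hinv
  have hx : ∀ e ∈ K.Eq, (e.1 ∈ I ↔ e.2 ∈ I) := by
    intro e he
    obtain ⟨y, hy, h1, h2⟩ := hK.eq e he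
    have a1 := hOk.sub y hy h1
    have a2 := hOk.sub y hy h2
    constructor
    · intro h
      by_contra hc
      exact (hnoX e he).1 ⟨h, Finset.mem_sdiff.2 ⟨a2, hc⟩⟩
    · intro h
      by_contra hc
      exact (hnoX e he).2 ⟨h, Finset.mem_sdiff.2 ⟨a1, hc⟩⟩
  have hin := drr_inner_ge S hS s K hK hg hP hf2 hKI hIU hx hfI
  have hE1 : S.E (fun ω => K.Holds S ω ∧ ClCut S s I ω) (fun _ => 1) = 1 := by
    rw [dis_E_eq, ← dis_Z_eq, div_self hfI.ne']
  rw [hE1, mul_one, mul_assoc]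
  exact mul_le_mul_of_nonneg_left hin hn0

/-! ### 4. (RARE2) two histories which coincide inside the outer collar -/

theorem drr_N_ind (S : ClSys V Y) (K L : ClCfg V Y → Prop) : S.N K (clInd L) = S.Z (fun ω => K ω ∧ L ω) := by
  classical
  unfold ClSys.N ClSys.Z clInd
  refine Finset.sum_congr rfl fun ω _ => ?_
  by_cases h1 : K ω <;> by_cases h2 : L ω <;> simp [h1, h2]

theorem drr_Z_addB (S : ClSys V Y) (K : ClCon V Y) (s : Bool) (P : Finset V) :
    S.Z ((K.addB s P).Holds S) = S.N (K.Holds S) (clInd fun ω => ClSgn s ω.B P) := by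
  rw [drr_N_ind]
  have h : (K.addB s P).Holds S = fun ω => K.Holds S ω ∧ ClSgn s ω.B P := by
    funext ω
    exact propext (drr_holds_addB S K s P ω)
  rw [h]

/-- (RARE2): the conditional probability of favourable pins in the obstacle does not depend on the remote constraints, up to the probability of the collar -/
theorem dis_rare2 (S : ClSys V Y) (hS : ClDisk S) (s : Bool) (K K' : ClCon V Y) (hK : ClLegal S K) (hK' : ClLegal S K')
    {P Ko U1 U2 : Finset V} (hg : ClCollar S Ko U1 U2) (hP : P ⊆ Ko) (hin : ClAgreeIn S K K' U2)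
    (hx : ∀ e ∈ K.Eq, (e.1 ∈ U2 ↔ e.2 ∈ U2)) (hx' : ∀ e ∈ K'.Eq, (e.1 ∈ U2 ↔ e.2 ∈ U2))
    (hf : 0 < S.Z ((K.cutAt S s U2).Holds S)) (hf' : 0 < S.Z ((K'.cutAt S s U2).Holds S)) :
    S.N (K.Holds S) (clInd fun ω => ClSep S s K.Eq ω (S.A \ U1) Ko) * S.Z ((K'.addB s P).Holds S)
      ≤ S.Z (K'.Holds S) * S.Z ((K.addB s P).Holds S) := by
  have hOk := hS.toClOk
  rw [drr_Z_addB, drr_Z_addB]
  set A : ClCfg V Y → ℝ := clInd fun ω => ClSgn s ω.B P with hA
  have hup := dis_rare1_up S hS s K' hK' P U2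
  have hlow := dis_rare1_low S hS s K hK hg hP hf
  have hlaw := dis_cut_law S hOk s U2 K K' hx hx' hin (by rw [← drr_Z_cutAt]; exact hf) (by rw [← drr_Z_cutAt]; exact hf') A
    (drr_loc_sgn s _ (hP.trans (hg.h01.trans hg.h12)))
  rw [dis_E_eq, dis_E_eq, ← drr_N_cutAt, ← drr_N_cutAt, ← drr_Z_cutAt, ← drr_Z_cutAt, div_eq_div_iff hf.ne' hf'.ne'] at hlaw
  set σ := S.N (K.Holds S) (clInd fun ω => ClSep S s K.Eq ω (S.A \ U1) Ko) with hσ
  have hσ0 : 0 ≤ σ := dis_N_nonneg S hOk _ fun ω => dis_ind_nonneg _ ω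
  have hz'0 : 0 ≤ S.Z (K'.Holds S) := dis_Z_nonneg S hOk _
  set a := S.N (K.Holds S) A
  set a' := S.N (K'.Holds S) A
  set z' := S.Z (K'.Holds S)
  set p := S.N ((K.cutAt S s U2).Holds S) A
  set q := S.Z ((K.cutAt S s U2).Holds S)
  set p' := S.N ((K'.cutAt S s U2).Holds S) A
  set q' := S.Z ((K'.cutAt S s U2).Holds S)
  -- `a' q' ≤ z' p'`, `σ p ≤ a q`, `p q' = p' q`
  have h1 : (σ * a') * (q' * q) ≤ (z' * a) * (q' * q) := by
    calc (σ * a') * (q' * q) = σ * q * (a' * q') := by ring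
      _ ≤ σ * q * (z' * p') := mul_le_mul_of_nonneg_left hup (mul_nonneg hσ0 hf.le)
      _ = z' * σ * (p' * q) := by ring
      _ = z' * σ * (p * q') := by rw [hlaw]
      _ = z' * q' * (σ * p) := by ring
      _ ≤ z' * q' * (a * q) := mul_le_mul_of_nonneg_left hlow (mul_nonneg hz'0 hf'.le)
      _ = (z' * a) * (q' * q) := by ring
  exact le_of_mul_le_mul_right h1 (mul_pos hf' hf)

/-! ### 5. histories living on a family of obstacles -/

section family

variable {ι : Type} [DecidableEq ι]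

/-- geometry of a family of obstacles: supports `Ko i`, inner collars `U1 i`, outer collars `U2 i` (pairwise disjoint) -/
structure ClFam (S : ClSys V Y) (Ko U1 U2 : ι → Finset V) : Prop where
  col : ∀ i, ClCollar S (Ko i) (U1 i) (U2 i)
  dj : ∀ i j, i ≠ j → Disjoint (U2 i) (U2 j)

/-- a history which lives on the obstacles: pins and equality edges in the supports, no observed cell -/
structure ClOn (S : ClSys V Y) (Ko : ι → Finset V) (K : ClCon V Y) : Prop extends ClLegal S K where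
  bp : ∀ v ∈ K.Bp, ∃ i, v ∈ Ko i
  bm : ∀ v ∈ K.Bm, ∃ i, v ∈ Ko i
  eqo : ∀ e ∈ K.Eq, ∃ i, e.1 ∈ Ko i ∧ e.2 ∈ Ko i
  op : K.Op = ∅
  om : K.Om = ∅
  cl : K.Cl = ∅
  dj : Disjoint K.Bp K.Bm

/-- THE BUFFER HYPOTHESIS (TEX l.786-788: "an exterior search finds a closer good cut in a strictly inner collar with probability at least `c₀`,
uniformly over all existing constraints") -/
def ClBuf (S : ClSys V Y) (Ko U1 : ι → Finset V) (c0 : ℝ) : Prop :=
  ∀ (i : ι) (s : Bool) (K : ClCon V Y), ClOn S Ko K →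
    c0 * S.Z (K.Holds S) ≤ S.N (K.Holds S) (clInd fun ω => ClSep S s K.Eq ω (S.A \ U1 i) (Ko i))

theorem drr_ko_sub {S : ClSys V Y} {Ko U1 U2 : ι → Finset V} (hF : ClFam S Ko U1 U2) (i : ι) : Ko i ⊆ U2 i :=
  (hF.col i).h01.trans (hF.col i).h12

theorem drr_cross_avoid {S : ClSys V Y} {Ko U1 U2 : ι → Finset V} (hF : ClFam S Ko U1 U2) (i j : ι) {y : Y} (hy : y ∈ S.C)
    (hc : clCross S (U2 i) y) : Disjoint (S.sv y) (Ko j) := by
  by_cases hij : i = j
  · subst hij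
    exact Finset.disjoint_of_subset_right (hF.col i).h01 ((hF.col i).gap y hy hc)
  · rw [Finset.disjoint_left]
    intro w hw hwj
    obtain ⟨⟨u, hu, hui⟩, _⟩ := hc
    have huj : u ∉ U2 j := fun h => (Finset.disjoint_left.1 (hF.dj i j hij)) hui h
    have hcj : clCross S (U2 j) y := ⟨⟨w, hw, drr_ko_sub hF j hwj⟩, ⟨u, hu, huj⟩⟩
    exact (Finset.disjoint_left.1 ((hF.col j).gap y hy hcj)) hw ((hF.col j).h01 hwj)

theorem drr_on_pos {S : ClSys V Y} (hS : ClOk S) {Ko U1 U2 : ι → Finset V} (hF : ClFam S Ko U1 U2) {K : ClCon V Y}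
    (hK : ClOn S Ko K) : 0 < S.Z (K.Holds S) := by
  refine dis_feas S hS K hK.toClLegal ⟨?_, hK.dj, ?_, ?_, ?_, ?_, ?_, ?_, ?_, ?_⟩
  · intro v hv
    obtain ⟨i, hi⟩ := hK.bp v hv
    exact (hF.col i).h2A (drr_ko_sub hF i hi)
  all_goals simp [hK.op, hK.om, hK.cl]

theorem drr_on_cut_pos {S : ClSys V Y} (hS : ClOk S) {Ko U1 U2 : ι → Finset V} (hF : ClFam S Ko U1 U2) {K : ClCon V Y}
    (hK : ClOn S Ko K) (i : ι) (s : Bool) : 0 < S.Z ((K.cutAt S s (U2 i)).Holds S) := by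
  have hA : K.Bp ⊆ S.A := by
    intro v hv
    obtain ⟨j, hj⟩ := hK.bp v hv
    exact (hF.col j).h2A (drr_ko_sub hF j hj)
  have hcx : ∀ y ∈ S.cx (U2 i), y ∈ S.C ∧ clCross S (U2 i) y := fun y hy => Finset.mem_filter.1 hy
  have hav : ∀ v ∈ (S.cx (U2 i)).biUnion S.sv, ∀ j, v ∉ Ko j := by
    intro v hv j hj
    obtain ⟨y, hy, hvy⟩ := Finset.mem_biUnion.1 hv
    exact (Finset.disjoint_left.1 (drr_cross_avoid hF i j (hcx y hy).1 (hcx y hy).2)) hvy hj
  refine dis_feas S hS _ (drr_legal_cutAt hK.toClLegal s _) ?_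
  cases s
  · simp only [ClCon.cutAt, Bool.false_eq_true, if_false]
    refine ⟨hA, ?_, ?_, ?_, ?_, ?_, ?_, ?_, ?_, ?_⟩
    · rw [Finset.disjoint_union_right]
      refine ⟨hK.dj, ?_⟩
      rw [Finset.disjoint_left]
      intro v hv hv'
      obtain ⟨j, hj⟩ := hK.bp v hv
      exact hav v hv' j hj
    · simp [hK.op]
    · rw [hK.om]
      intro y hy
      exact (hcx y (by simpa using hy)).1
    · simp [hK.op]
    · rw [hK.om]
      intro y hy
      exact (Finset.subset_biUnion_of_mem S.sv (by simpa using hy)).trans Finset.subset_union_right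
    · simp [hK.cl]
    · simp [hK.op]
    · simp [hK.op]
    · simp [hK.cl]
  · simp only [ClCon.cutAt, if_true]
    refine ⟨?_, ?_, ?_, ?_, ?_, ?_, ?_, ?_, ?_, ?_⟩
    · refine Finset.union_subset hA ?_
      intro v hv
      obtain ⟨y, hy, hvy⟩ := Finset.mem_biUnion.1 hv
      exact hS.sub y (hcx y hy).1 hvy
    · rw [Finset.disjoint_union_left]
      refine ⟨hK.dj, ?_⟩
      rw [Finset.disjoint_left]
      intro v hv' hv
      obtain ⟨j, hj⟩ := hK.bm v hv
      exact hav v hv' j hj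
    · rw [hK.op]
      intro y hy
      exact (hcx y (by simpa using hy)).1
    · simp [hK.om]
    · rw [hK.op]
      intro y hy
      exact (Finset.subset_biUnion_of_mem S.sv (by simpa using hy)).trans Finset.subset_union_right
    · simp [hK.om]
    · simp [hK.cl]
    · simp [hK.om]
    · simp [hK.cl]
    · simp [hK.om]

theorem drr_on_x {S : ClSys V Y} {Ko U1 U2 : ι → Finset V} (hF : ClFam S Ko U1 U2) {K : ClCon V Y} (hK : ClOn S Ko K) (i : ι) :
    ∀ e ∈ K.Eq, (e.1 ∈ U2 i ↔ e.2 ∈ U2 i) := by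
  intro e he
  obtain ⟨j, h1, h2⟩ := hK.eqo e he
  by_cases hij : i = j
  · subst hij
    exact ⟨fun _ => drr_ko_sub hF i h2, fun _ => drr_ko_sub hF i h1⟩
  · have hd := Finset.disjoint_left.1 (hF.dj i j hij)
    exact ⟨fun h => absurd (drr_ko_sub hF j h1) (hd h), fun h => absurd (drr_ko_sub hF j h2) (hd h)⟩

/-- (discrete:single-sign), cross-multiplied: the conditional probability of a block of favourable pins in the obstacle `i` is the same, up to `c₀`,
under two histories which coincide in `U2 i` -/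
theorem drr_star {S : ClSys V Y} (hS : ClDisk S) {Ko U1 U2 : ι → Finset V} (hF : ClFam S Ko U1 U2) {c0 : ℝ}
    (hB : ClBuf S Ko U1 c0) {K K' : ClCon V Y} (hK : ClOn S Ko K) (hK' : ClOn S Ko K') (i : ι) (s : Bool)
    (hin : ClAgreeIn S K K' (U2 i)) {P : Finset V} (hP : P ⊆ Ko i) :
    c0 * S.Z (K.Holds S) * S.Z ((K'.addB s P).Holds S) ≤ S.Z (K'.Holds S) * S.Z ((K.addB s P).Holds S) := by
  have hOk := hS.toClOk
  have h2 := dis_rare2 S hS s K K' hK.toClLegal hK'.toClLegal (hF.col i) hP hin (drr_on_x hF hK i) (drr_on_x hF hK' i)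
    (drr_on_cut_pos hOk hF hK i s) (drr_on_cut_pos hOk hF hK' i s)
  exact (mul_le_mul_of_nonneg_right (hB i s K hK) (dis_Z_nonneg S hOk _)).trans h2

/-! ### 5b. blocks -/

/-- the constraint with pins `P` (plus), `M` (minus), equality edges `E`, plus labels `W` -/
def drrC (P M : Finset V) (E : Finset (V × V)) (W : Finset V) : ClCon V Y := ⟨P, M, E, ∅, ∅, ∅, W, ∅⟩

theorem drr_holds_C (S : ClSys V Y) (P M : Finset V) (E : Finset (V × V)) (W : Finset V) (ω : ClCfg V Y) :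
    (drrC P M E W).Holds S ω ↔ P ⊆ ω.B ∧ (∀ v ∈ M, v ∉ ω.B) ∧ (∀ e ∈ E, (e.1 ∈ ω.W ↔ e.2 ∈ ω.W)) ∧ W ⊆ ω.W := by
  simp [drrC, ClCon.Holds]

/-- block data: in the obstacle `i` a plus block `Bp i`, a minus block `Bm i`, equality edges `Eq i` -/
structure DrrBlk (S : ClSys V Y) (Ko Bp Bm : ι → Finset V) (Eq : ι → Finset (V × V)) : Prop where
  bp : ∀ i, Bp i ⊆ Ko i
  bm : ∀ i, Bm i ⊆ Ko i
  dj : ∀ i, Disjoint (Bp i) (Bm i)
  eqo : ∀ i, ∀ e ∈ Eq i, e.1 ∈ Ko i ∧ e.2 ∈ Ko i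
  eqc : ∀ i, ∀ e ∈ Eq i, ∃ y ∈ S.C, e.1 ∈ S.sv y ∧ e.2 ∈ S.sv y

/-- plus blocks of `J`, minus blocks of `J'`, equality edges of `T` -/
def drrK (Bp Bm : ι → Finset V) (Eq : ι → Finset (V × V)) (J J' T : Finset ι) : ClCon V Y :=
  drrC (J.biUnion Bp) (J'.biUnion Bm) (T.biUnion Eq) ∅

theorem drr_K_addp (Bp Bm : ι → Finset V) (Eq : ι → Finset (V × V)) (J J' T : Finset ι) (i : ι) :
    ((drrK Bp Bm Eq J J' T : ClCon V Y).addB true (Bp i)) = drrK Bp Bm Eq (insert i J) J' T := by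
  simp only [drrK, drrC, ClCon.addB, if_true, Finset.biUnion_insert, ClCon.mk.injEq, and_true, true_and]
  exact Finset.union_comm _ _

theorem drr_K_addm (Bp Bm : ι → Finset V) (Eq : ι → Finset (V × V)) (J J' T : Finset ι) (i : ι) :
    ((drrK Bp Bm Eq J J' T : ClCon V Y).addB false (Bm i)) = drrK Bp Bm Eq J (insert i J') T := by
  simp only [drrK, drrC, ClCon.addB, Bool.false_eq_true, if_false, Finset.biUnion_insert, ClCon.mk.injEq, and_true, true_and]
  exact Finset.union_comm _ _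

theorem drr_K_on {S : ClSys V Y} {Ko U1 U2 Bp Bm : ι → Finset V} {Eq : ι → Finset (V × V)} (hF : ClFam S Ko U1 U2)
    (hD : DrrBlk S Ko Bp Bm Eq) (J J' T : Finset ι) : ClOn S Ko (drrK Bp Bm Eq J J' T) := by
  refine ⟨⟨rfl, rfl, ?_, ?_⟩, ?_, ?_, ?_, rfl, rfl, rfl, ?_⟩
  · intro y _ hy
    simp [drrK, drrC] at hy
  · intro e he
    obtain ⟨i, _, hi⟩ := Finset.mem_biUnion.1 he
    exact hD.eqc i e hi
  · intro v hv
    obtain ⟨i, _, hi⟩ := Finset.mem_biUnion.1 hv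
    exact ⟨i, hD.bp i hi⟩
  · intro v hv
    obtain ⟨i, _, hi⟩ := Finset.mem_biUnion.1 hv
    exact ⟨i, hD.bm i hi⟩
  · intro e he
    obtain ⟨i, _, hi⟩ := Finset.mem_biUnion.1 he
    exact ⟨i, hD.eqo i e hi⟩
  · rw [Finset.disjoint_left]
    intro v hv hv'
    obtain ⟨i, _, hi⟩ := Finset.mem_biUnion.1 hv
    obtain ⟨j, _, hj⟩ := Finset.mem_biUnion.1 hv'
    by_cases hij : i = j
    · subst hij
      exact (Finset.disjoint_left.1 (hD.dj i)) hi hj
    · exact (Finset.disjoint_left.1 (hF.dj i j hij)) (drr_ko_sub hF i (hD.bp i hi)) (drr_ko_sub hF j (hD.bm j hj))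

theorem drr_mem_bi {S : ClSys V Y} {Ko U1 U2 : ι → Finset V} (hF : ClFam S Ko U1 U2) {G : ι → Finset V} (hG : ∀ i, G i ⊆ Ko i)
    (J : Finset ι) {i : ι} {v : V} (hv : v ∈ U2 i) : v ∈ J.biUnion G ↔ i ∈ J ∧ v ∈ G i := by
  rw [Finset.mem_biUnion]
  constructor
  · rintro ⟨j, hj, hvj⟩
    have : i = j := by
      by_contra hij
      exact (Finset.disjoint_left.1 (hF.dj i j hij)) hv (drr_ko_sub hF j (hG j hvj))
    subst this
    exact ⟨hj, hvj⟩
  · rintro ⟨h1, h2⟩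
    exact ⟨i, h1, h2⟩

theorem drr_K_agree {S : ClSys V Y} {Ko U1 U2 Bp Bm : ι → Finset V} {Eq : ι → Finset (V × V)} (hF : ClFam S Ko U1 U2)
    (hD : DrrBlk S Ko Bp Bm Eq) {J J' T J1 J1' T1 : Finset ι} {i : ι} (h : i ∈ J ↔ i ∈ J1) (h' : i ∈ J' ↔ i ∈ J1')
    (hT : i ∈ T ↔ i ∈ T1) : ClAgreeIn S (drrK Bp Bm Eq J J' T) (drrK Bp Bm Eq J1 J1' T1) (U2 i) := by
  refine ⟨?_, ?_, fun _ _ => Iff.rfl, fun _ _ => Iff.rfl, fun _ _ => Iff.rfl, fun _ _ => Iff.rfl, fun _ _ => Iff.rfl, ?_⟩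
  · intro v hv
    show v ∈ J.biUnion Bp ↔ v ∈ J1.biUnion Bp
    rw [drr_mem_bi hF hD.bp J hv, drr_mem_bi hF hD.bp J1 hv, h]
  · intro v hv
    show v ∈ J'.biUnion Bm ↔ v ∈ J1'.biUnion Bm
    rw [drr_mem_bi hF hD.bm J' hv, drr_mem_bi hF hD.bm J1' hv, h']
  · intro e he _
    show e ∈ T.biUnion Eq ↔ e ∈ T1.biUnion Eq
    have key : ∀ T' : Finset ι, e ∈ T'.biUnion Eq ↔ i ∈ T' ∧ e ∈ Eq i := by
      intro T'
      rw [Finset.mem_biUnion]
      constructor
      · rintro ⟨j, hj, hej⟩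
        have : i = j := by
          by_contra hij
          exact (Finset.disjoint_left.1 (hF.dj i j hij)) he (drr_ko_sub hF j (hD.eqo j e hej).1)
        subst this
        exact ⟨hj, hej⟩
      · rintro ⟨h1, h2⟩
        exact ⟨i, h1, h2⟩
    rw [key, key, hT]

/-- arithmetic of two consecutive blocks -/
theorem drr_two {c a0 a1 a2 b0 b1 b2 : ℝ} (hc : 0 ≤ c) (ha0 : 0 ≤ a0) (ha1 : 0 < a1) (hb1 : 0 < b1) (hb2 : 0 ≤ b2)
    (h1 : c * a0 * b1 ≤ b0 * a1) (h2 : c * a1 * b2 ≤ b1 * a2) : c ^ 2 * a0 * b2 ≤ b0 * a2 := by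
  have hb0 : 0 ≤ b0 := by
    by_contra hn
    have : b0 * a1 < 0 := mul_neg_of_neg_of_pos (not_le.1 hn) ha1
    have h3 : 0 ≤ c * a0 * b1 := by positivity
    linarith
  have h : (c ^ 2 * a0 * b2) * (a1 * b1) ≤ (b0 * a2) * (a1 * b1) := by
    calc (c ^ 2 * a0 * b2) * (a1 * b1) = (c * a0 * b1) * (c * a1 * b2) := by ring
      _ ≤ (b0 * a1) * (c * a1 * b2) := mul_le_mul_of_nonneg_right h1 (by positivity)
      _ ≤ (b0 * a1) * (b1 * a2) := mul_le_mul_of_nonneg_left h2 (by positivity)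
      _ = (b0 * a2) * (a1 * b1) := by ring
  exact le_of_mul_le_mul_right h (mul_pos ha1 hb1)

/-- one obstacle (two sign blocks) is added -/
theorem drr_step {S : ClSys V Y} (hS : ClDisk S) {Ko U1 U2 Bp Bm : ι → Finset V} {Eq : ι → Finset (V × V)}
    (hF : ClFam S Ko U1 U2) (hD : DrrBlk S Ko Bp Bm Eq) {c0 : ℝ} (hc0 : 0 ≤ c0) (hB : ClBuf S Ko U1 c0)
    {J T : Finset ι} {i : ι} (hi : i ∉ J) (hT : i ∈ T) :
    c0 ^ 2 * S.Z ((drrK Bp Bm Eq J J T).Holds S) * S.Z ((drrK Bp Bm Eq {i} {i} {i}).Holds S)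
        ≤ S.Z ((drrK Bp Bm Eq ∅ ∅ {i}).Holds S) * S.Z ((drrK Bp Bm Eq (insert i J) (insert i J) T).Holds S) ∧
      c0 ^ 2 * S.Z ((drrK Bp Bm Eq ∅ ∅ {i}).Holds S) * S.Z ((drrK Bp Bm Eq (insert i J) (insert i J) T).Holds S)
        ≤ S.Z ((drrK Bp Bm Eq J J T).Holds S) * S.Z ((drrK Bp Bm Eq {i} {i} {i}).Holds S) := by
  have hOk := hS.toClOk
  have hon := fun J J' T => drr_K_on (S := S) hF hD J J' T
  have hpos := fun J J' T => drr_on_pos hOk hF (hon J J' T)
  have e0 : (insert i (∅ : Finset ι)) = {i} := rfl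
  have n0 : i ∉ (∅ : Finset ι) := by simp
  have m0 : i ∈ ({i} : Finset ι) := by simp
  have mi : i ∈ insert i J := Finset.mem_insert_self _ _
  have g1 : ClAgreeIn S (drrK Bp Bm Eq J J T) (drrK Bp Bm Eq ∅ ∅ {i}) (U2 i) :=
    drr_K_agree hF hD (by simp [hi]) (by simp [hi]) (by simp [hT])
  have g1' : ClAgreeIn S (drrK Bp Bm Eq ∅ ∅ {i}) (drrK Bp Bm Eq J J T) (U2 i) :=
    drr_K_agree hF hD (by simp [hi]) (by simp [hi]) (by simp [hT])
  have g2 : ClAgreeIn S (drrK Bp Bm Eq (insert i J) J T) (drrK Bp Bm Eq {i} ∅ {i}) (U2 i) :=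
    drr_K_agree hF hD (by simp) (by simp [hi]) (by simp [hT])
  have g2' : ClAgreeIn S (drrK Bp Bm Eq {i} ∅ {i}) (drrK Bp Bm Eq (insert i J) J T) (U2 i) :=
    drr_K_agree hF hD (by simp) (by simp [hi]) (by simp [hT])
  have s1 := drr_star hS hF hB (hon J J T) (hon ∅ ∅ {i}) i true g1 (hD.bp i)
  have s1' := drr_star hS hF hB (hon ∅ ∅ {i}) (hon J J T) i true g1' (hD.bp i)
  have s2 := drr_star hS hF hB (hon (insert i J) J T) (hon {i} ∅ {i}) i false g2 (hD.bm i)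
  have s2' := drr_star hS hF hB (hon {i} ∅ {i}) (hon (insert i J) J T) i false g2' (hD.bm i)
  rw [drr_K_addp, drr_K_addp, e0] at s1 s1'
  rw [drr_K_addm, drr_K_addm, e0] at s2 s2'
  exact ⟨drr_two hc0 (hpos _ _ _).le (hpos _ _ _) (hpos _ _ _) (hpos _ _ _).le s1 s2,
    drr_two hc0 (hpos _ _ _).le (hpos _ _ _) (hpos _ _ _) (hpos _ _ _).le s1' s2'⟩

/-- **the block comparison**: `Z(J, T) / Z(∅, T) ≍ ∏_{i ∈ J} Z({i}, {i}) / Z(∅, {i})` up to `c₀ ^ (2 |J|)` -/
theorem drr_blocks {S : ClSys V Y} (hS : ClDisk S) {Ko U1 U2 Bp Bm : ι → Finset V} {Eq : ι → Finset (V × V)}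
    (hF : ClFam S Ko U1 U2) (hD : DrrBlk S Ko Bp Bm Eq) {c0 : ℝ} (hc0 : 0 ≤ c0) (hB : ClBuf S Ko U1 c0)
    (T J : Finset ι) (hJ : J ⊆ T) :
    c0 ^ (2 * J.card) * (S.Z ((drrK Bp Bm Eq ∅ ∅ T).Holds S) *
        ∏ i ∈ J, S.Z ((drrK Bp Bm Eq {i} {i} {i}).Holds S) / S.Z ((drrK Bp Bm Eq ∅ ∅ {i}).Holds S))
        ≤ S.Z ((drrK Bp Bm Eq J J T).Holds S) ∧
      c0 ^ (2 * J.card) * S.Z ((drrK Bp Bm Eq J J T).Holds S) ≤ S.Z ((drrK Bp Bm Eq ∅ ∅ T).Holds S) *
        ∏ i ∈ J, S.Z ((drrK Bp Bm Eq {i} {i} {i}).Holds S) / S.Z ((drrK Bp Bm Eq ∅ ∅ {i}).Holds S) := by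
  have hOk := hS.toClOk
  have hon := fun J J' T => drr_K_on (S := S) hF hD J J' T
  have hpos := fun J J' T => drr_on_pos hOk hF (hon J J' T)
  induction J using Finset.induction_on with
  | empty => simp
  | insert i J hi ih =>
    obtain ⟨ih1, ih2⟩ := ih fun j hj => hJ (Finset.mem_insert_of_mem hj)
    obtain ⟨st1, st2⟩ := drr_step hS hF hD hc0 hB hi (hJ (Finset.mem_insert_self _ _))
    rw [Finset.prod_insert hi, Finset.card_insert_of_notMem hi]
    set zT := S.Z ((drrK Bp Bm Eq ∅ ∅ T).Holds S)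
    set pr := ∏ i ∈ J, S.Z ((drrK Bp Bm Eq {i} {i} {i}).Holds S) / S.Z ((drrK Bp Bm Eq ∅ ∅ {i}).Holds S)
    set a := S.Z ((drrK Bp Bm Eq {i} {i} {i}).Holds S)
    set b := S.Z ((drrK Bp Bm Eq ∅ ∅ {i}).Holds S)
    set zJ := S.Z ((drrK Bp Bm Eq J J T).Holds S)
    set zI := S.Z ((drrK Bp Bm Eq (insert i J) (insert i J) T).Holds S)
    have hb : 0 < b := hpos _ _ _
    have ha : 0 < a := hpos _ _ _
    constructor
    · calc c0 ^ (2 * (J.card + 1)) * (zT * (a / b * pr)) = (c0 ^ 2 * (a / b)) * (c0 ^ (2 * J.card) * (zT * pr)) := by ring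
        _ ≤ (c0 ^ 2 * (a / b)) * zJ := mul_le_mul_of_nonneg_left ih1 (by positivity)
        _ = (c0 ^ 2 * zJ * a) / b := by ring
        _ ≤ zI := by rw [div_le_iff₀ hb]; linarith
    · calc c0 ^ (2 * (J.card + 1)) * zI = c0 ^ (2 * J.card) * ((c0 ^ 2 * b * zI) / b) := by field_simp; ring
        _ ≤ c0 ^ (2 * J.card) * ((zJ * a) / b) := by gcongr
        _ = (a / b) * (c0 ^ (2 * J.card) * zJ) := by ring
        _ ≤ (a / b) * (zT * pr) := mul_le_mul_of_nonneg_left ih2 (by positivity)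
        _ = zT * (a / b * pr) := by ring

/-! ### 6. obstacles, pin events, THE ABSTRACT EXIT -/

/-- an obstacle with its pin event: support, two collars, first-spin pins of both signs, second-spin plus sets -/
structure ClObs (V : Type) where
  /-- support -/
  Ko : Finset V
  /-- inner collar -/
  U1 : Finset V
  /-- outer collar -/
  U2 : Finset V
  /-- first spin prescribed plus -/
  Bp : Finset V
  /-- first spin prescribed minus -/
  Bm : Finset V
  /-- the connected sets on which the second spin is prescribed plus -/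
  Cs : List (Finset V)

/-- the sites with a second-spin label -/
def ClObs.Q (o : ClObs V) : Finset V := o.Cs.foldr (· ∪ ·) ∅

/-- THE PIN EVENT `P_i` of TEX[prop:rare-pins] -/
def ClObs.Ev (o : ClObs V) (ω : ClCfg V Y) : Prop := o.Bp ⊆ ω.B ∧ (∀ v ∈ o.Bm, v ∉ ω.B) ∧ o.Q ⊆ ω.W

/-- admissible obstacle: everything in the support; the labelled sets are connected through cells -/
structure ClObs.Ok (o : ClObs V) (S : ClSys V Y) : Prop where
  bp : o.Bp ⊆ o.Ko
  bm : o.Bm ⊆ o.Ko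
  dj : Disjoint o.Bp o.Bm
  cs : ∀ C ∈ o.Cs, C ⊆ o.Ko
  cn : ∀ C ∈ o.Cs, ∀ u ∈ C, ∀ v ∈ C,
    Relation.ReflTransGen (fun a b => a ∈ C ∧ b ∈ C ∧ ∃ y ∈ S.C, a ∈ S.sv y ∧ b ∈ S.sv y) u v

/-! #### sums over the statuses, exchange of the colours -/

theorem drr_Z_mono (S : ClSys V Y) (hS : ClOk S) {K K' : ClCfg V Y → Prop} (h : ∀ ω, K ω → K' ω) : S.Z K ≤ S.Z K' := by
  classical
  unfold ClSys.Z
  refine Finset.sum_le_sum fun ω _ => ?_
  by_cases h1 : K ω
  · rw [if_pos h1, if_pos (h ω h1)]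
  · rw [if_neg h1]
    split_ifs
    · exact dis_wt_nonneg S hS ω
    · exact le_rfl

theorem drr_Z_congr (S : ClSys V Y) {K K' : ClCfg V Y → Prop} (h : ∀ ω, K ω ↔ K' ω) : S.Z K = S.Z K' := by
  have : K = K' := funext fun ω => propext (h ω)
  rw [this]

/-- the statuses summed out -/
theorem drr_status (S : ClSys V Y) (B W : Finset V) : ∑ O ∈ S.C.powerset, S.wt ⟨B, W, O⟩ = S.wtP B W := by
  unfold ClSys.wt ClSys.wtP
  have h1 : ∀ y ∈ S.C, (if ClConst B (S.sv y) then (if ClConst W (S.sv y) then (1 : ℝ) else S.q y)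
      else (if ClConst W (S.sv y) then S.q y else 0))
      = (if ClConst B (S.sv y) then S.q y else 0)
        + (if ClConst W (S.sv y) then (if ClConst B (S.sv y) then 1 - S.q y else S.q y) else 0) := by
    intro y _
    split_ifs <;> ring
  rw [Finset.prod_congr rfl h1, Finset.prod_add]
  refine Finset.sum_congr rfl fun O hO => ?_
  rw [Finset.mem_powerset] at hO
  simp only [clCellW]
  rw [Finset.prod_ite]
  congr 1
  · refine Finset.prod_congr ?_ fun _ _ => rfl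
    ext y; simp only [Finset.mem_filter]; exact ⟨fun h => h.2, fun h => ⟨hO h, h⟩⟩
  · refine Finset.prod_congr ?_ fun _ _ => rfl
    ext y; simp only [Finset.mem_filter, Finset.mem_sdiff]

theorem drr_wtP_comm (S : ClSys V Y) (B W : Finset V) : S.wtP B W = S.wtP W B := by
  unfold ClSys.wtP
  refine Finset.prod_congr rfl fun y _ => ?_
  split_ifs <;> rfl

/-- exchange of the two colours (pair law) -/
theorem drr_Z_swap (S : ClSys V Y) (p : Finset V → Prop) : S.Z (fun ω => p ω.W) = S.Z (fun ω => p ω.B) := by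
  classical
  unfold ClSys.Z
  rw [cl_sum_cfgs, cl_sum_cfgs, Finset.sum_comm]
  refine Finset.sum_congr rfl fun W _ => Finset.sum_congr rfl fun B _ => ?_
  by_cases h : p W
  · simp only [h, if_true]
    rw [drr_status, drr_status, drr_wtP_comm]
  · simp [h]

/-! #### labels -/

theorem drr_mem_foldr (Cs : List (Finset V)) (v : V) : v ∈ Cs.foldr (· ∪ ·) ∅ ↔ ∃ C ∈ Cs, v ∈ C := by
  induction Cs with
  | nil => simp
  | cons C Cs ih => simp [ih]

theorem drr_mem_Q (o : ClObs V) (v : V) : v ∈ o.Q ↔ ∃ C ∈ o.Cs, v ∈ C := drr_mem_foldr _ _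

/-- the equality edges of an obstacle: pairs of sites of a labelled set in a common cell -/
def ClObs.Eq (o : ClObs V) (S : ClSys V Y) : Finset (V × V) :=
  (o.Q ×ˢ o.Q).filter (fun e => (∃ C ∈ o.Cs, e.1 ∈ C ∧ e.2 ∈ C) ∧ ∃ y ∈ S.C, e.1 ∈ S.sv y ∧ e.2 ∈ S.sv y)

theorem drr_mem_Eq (o : ClObs V) (S : ClSys V Y) (e : V × V) :
    e ∈ o.Eq S ↔ (∃ C ∈ o.Cs, e.1 ∈ C ∧ e.2 ∈ C) ∧ ∃ y ∈ S.C, e.1 ∈ S.sv y ∧ e.2 ∈ S.sv y := by
  unfold ClObs.Eq
  rw [Finset.mem_filter, Finset.mem_product, drr_mem_Q, drr_mem_Q]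
  constructor
  · exact fun h => h.2
  · rintro ⟨⟨C, hC, h1, h2⟩, h3⟩
    exact ⟨⟨⟨C, hC, h1⟩, ⟨C, hC, h2⟩⟩, ⟨C, hC, h1, h2⟩, h3⟩

/-- plus labels imply the equalities -/
theorem drr_lab_drop (S : ClSys V Y) (o : ι → ClObs V) (P M : Finset V) (J : Finset ι) :
    S.Z ((drrC P M (J.biUnion fun i => (o i).Eq S) (J.biUnion fun i => (o i).Q)).Holds S)
      = S.Z ((drrC P M ∅ (J.biUnion fun i => (o i).Q)).Holds S) := by
  refine drr_Z_congr S fun ω => ?_
  rw [drr_holds_C, drr_holds_C]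
  constructor
  · rintro ⟨a, b, _, d⟩
    exact ⟨a, b, by simp, d⟩
  · rintro ⟨a, b, _, d⟩
    refine ⟨a, b, ?_, d⟩
    intro e he
    obtain ⟨i, hi, hei⟩ := Finset.mem_biUnion.1 he
    obtain ⟨⟨C, hC, h1, h2⟩, _⟩ := (drr_mem_Eq _ _ _).1 hei
    exact ⟨fun _ => d (Finset.mem_biUnion.2 ⟨i, hi, (drr_mem_Q _ _).2 ⟨C, hC, h2⟩⟩),
      fun _ => d (Finset.mem_biUnion.2 ⟨i, hi, (drr_mem_Q _ _).2 ⟨C, hC, h1⟩⟩)⟩

theorem drr_lab_le (S : ClSys V Y) (hS : ClOk S) (P M : Finset V) (E : Finset (V × V)) (W : Finset V) :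
    S.Z ((drrC P M E W).Holds S) ≤ S.Z ((drrC P M E ∅).Holds S) := by
  refine drr_Z_mono S hS fun ω => ?_
  rw [drr_holds_C, drr_holds_C]
  rintro ⟨a, b, c, _⟩
  exact ⟨a, b, c, by simp⟩

/-- (LBL) for the obstacles of `J` -/
theorem drr_lab_ge (S : ClSys V Y) (hS : ClOk S) (o : ι → ClObs V) (hO : ∀ i, (o i).Ok S) (hA : ∀ i, (o i).Ko ⊆ S.A)
    (P M : Finset V) (J J' : Finset ι) (hJ : J' ⊆ J) :
    S.Z ((drrC P M (J.biUnion fun i => (o i).Eq S) ∅).Holds S) ≤ 2 ^ (∑ i ∈ J', (o i).Cs.length) *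
      S.Z ((drrC P M (J.biUnion fun i => (o i).Eq S) (J'.biUnion fun i => (o i).Q)).Holds S) := by
  induction J' using Finset.induction_on with
  | empty => simp
  | insert i J' hi ih =>
    have ih' := ih fun j hj => hJ (Finset.mem_insert_of_mem hj)
    have hiJ : i ∈ J := hJ (Finset.mem_insert_self _ _)
    set E := J.biUnion fun i => (o i).Eq S with hE
    have hEA : ∀ e ∈ E, e.1 ∈ S.A ∧ e.2 ∈ S.A := by
      intro e he
      obtain ⟨j, _, hej⟩ := Finset.mem_biUnion.1 he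
      obtain ⟨⟨C, hC, h1, h2⟩, _⟩ := (drr_mem_Eq _ _ _).1 hej
      exact ⟨hA j ((hO j).cs C hC h1), hA j ((hO j).cs C hC h2)⟩
    have h1 := dis_lbl S hS (drrC P M E (J'.biUnion fun i => (o i).Q)) hEA (o i).Cs (by
      intro C hC
      refine ⟨((hO i).cs C hC).trans (hA i), fun u hu v hv => ?_⟩
      refine Relation.ReflTransGen.mono ?_ u v ((hO i).cn C hC u hu v hv)
      rintro a b ⟨ha, hb, hy⟩
      exact Or.inl (Finset.mem_biUnion.2 ⟨i, hiJ, (drr_mem_Eq _ _ _).2 ⟨⟨C, hC, ha, hb⟩, hy⟩⟩)) rfl (fun _ => 1)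
      (fun _ => zero_le_one) (fun _ _ _ _ => rfl)
    rw [← dis_Z_eq, ← dis_Z_eq] at h1
    have e : ({ (drrC P M E (J'.biUnion fun i => (o i).Q) : ClCon V Y) with
        Wp := (drrC P M E (J'.biUnion fun i => (o i).Q) : ClCon V Y).Wp ∪ (o i).Cs.foldr (· ∪ ·) ∅ } : ClCon V Y)
        = drrC P M E ((insert i J').biUnion fun i => (o i).Q) := by
      simp only [drrC, Finset.biUnion_insert, ClCon.mk.injEq, and_true, true_and]
      exact Finset.union_comm _ _
    rw [e] at h1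
    rw [Finset.sum_insert hi, pow_add, mul_comm (2 ^ (o i).Cs.length), mul_assoc]
    exact ih'.trans (mul_le_mul_of_nonneg_left h1 (by positivity))

/-- (LBL), both directions -/
theorem drr_lab (S : ClSys V Y) (hS : ClOk S) (o : ι → ClObs V) (hO : ∀ i, (o i).Ok S) (hA : ∀ i, (o i).Ko ⊆ S.A)
    (P M : Finset V) (J : Finset ι) :
    S.Z ((drrC P M ∅ (J.biUnion fun i => (o i).Q)).Holds S) ≤ S.Z ((drrC P M (J.biUnion fun i => (o i).Eq S) ∅).Holds S) ∧
      S.Z ((drrC P M (J.biUnion fun i => (o i).Eq S) ∅).Holds S) ≤ 2 ^ (∑ i ∈ J, (o i).Cs.length) *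
        S.Z ((drrC P M ∅ (J.biUnion fun i => (o i).Q)).Holds S) := by
  rw [← drr_lab_drop]
  exact ⟨drr_lab_le S hS _ _ _ _, drr_lab_ge S hS o hO hA P M J J (Finset.Subset.refl _)⟩

/-- the arithmetic of the proof of TEX[prop:rare-pins] -/
theorem drr_arith {κ : Type} (T : Finset κ) (γ : ℝ) (hγ : 0 < γ) (mi : κ → ℕ) (zf zAL zAE zE zL : ℝ) (aL aE e l : κ → ℝ)
    (hzf : 0 < zf) (hl : ∀ i ∈ T, 0 < l i) (haL : ∀ i ∈ T, 0 ≤ aL i)
    (h1 : zAL ≤ zAE) (h1' : zAE ≤ 2 ^ (∑ i ∈ T, mi i) * zAL)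
    (h2 : γ * (zE * ∏ i ∈ T, aE i / e i) ≤ zAE) (h2' : γ * zAE ≤ zE * ∏ i ∈ T, aE i / e i)
    (h3 : zL ≤ zE) (h3' : zE ≤ 2 ^ (∑ i ∈ T, mi i) * zL)
    (h4 : γ * (zf * ∏ i ∈ T, l i / zf) ≤ zL) (h4' : γ * zL ≤ zf * ∏ i ∈ T, l i / zf)
    (h5 : ∀ i ∈ T, l i ≤ e i) (h5' : ∀ i ∈ T, e i ≤ 2 ^ mi i * l i)
    (h6 : ∀ i ∈ T, aL i ≤ aE i) (h6' : ∀ i ∈ T, aE i ≤ 2 ^ mi i * aL i) :
    γ ^ 2 / 4 ^ (∑ i ∈ T, mi i) * ∏ i ∈ T, aL i / zf ≤ zAL / zf ∧
      zAL / zf ≤ 4 ^ (∑ i ∈ T, mi i) / γ ^ 2 * ∏ i ∈ T, aL i / zf := by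
  set M : ℝ := 2 ^ (∑ i ∈ T, mi i) with hM
  have hM0 : 0 < M := by positivity
  have h4M : (4 : ℝ) ^ (∑ i ∈ T, mi i) = M ^ 2 := by
    rw [hM, ← pow_mul, mul_comm, pow_mul]; norm_num
  have hMp : M = ∏ i ∈ T, (2 : ℝ) ^ mi i := by rw [hM, Finset.prod_pow_eq_pow_sum]
  set PA := ∏ i ∈ T, aE i / e i with hPA
  set PL := ∏ i ∈ T, l i / zf with hPL
  set PR := ∏ i ∈ T, aL i / zf with hPR
  have he : ∀ i ∈ T, 0 < e i := fun i hi => (hl i hi).trans_le (h5 i hi)
  have haE : ∀ i ∈ T, 0 ≤ aE i := fun i hi => (haL i hi).trans (h6 i hi)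
  have hPA0 : 0 ≤ PA := Finset.prod_nonneg fun i hi => div_nonneg (haE i hi) (he i hi).le
  have hPL0 : 0 ≤ PL := Finset.prod_nonneg fun i hi => div_nonneg (hl i hi).le hzf.le
  have hPR0 : 0 ≤ PR := Finset.prod_nonneg fun i hi => div_nonneg (haL i hi) hzf.le
  have p1 : PR ≤ M * (PL * PA) := by
    rw [hMp, hPL, hPA, ← Finset.prod_mul_distrib, ← Finset.prod_mul_distrib]
    refine Finset.prod_le_prod (fun i hi => div_nonneg (haL i hi) hzf.le) fun i hi => ?_
    have hei := he i hi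
    have : aL i * e i ≤ 2 ^ mi i * l i * aE i := by
      calc aL i * e i ≤ aE i * e i := mul_le_mul_of_nonneg_right (h6 i hi) hei.le
        _ ≤ aE i * (2 ^ mi i * l i) := mul_le_mul_of_nonneg_left (h5' i hi) (haE i hi)
        _ = 2 ^ mi i * l i * aE i := by ring
    rw [show (2 : ℝ) ^ mi i * (l i / zf * (aE i / e i)) = (2 ^ mi i * l i * aE i) / (zf * e i) by field_simp,
      div_le_div_iff₀ hzf (mul_pos hzf hei)]
    calc aL i * (zf * e i) = (aL i * e i) * zf := by ring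
      _ ≤ (2 ^ mi i * l i * aE i) * zf := mul_le_mul_of_nonneg_right this hzf.le
  have p2 : PL * PA ≤ M * PR := by
    rw [hMp, hPL, hPA, hPR, ← Finset.prod_mul_distrib, ← Finset.prod_mul_distrib]
    refine Finset.prod_le_prod (fun i hi => mul_nonneg (div_nonneg (hl i hi).le hzf.le) (div_nonneg (haE i hi) (he i hi).le))
      fun i hi => ?_
    have hei := he i hi
    have : l i * aE i ≤ 2 ^ mi i * aL i * e i := by
      calc l i * aE i ≤ e i * aE i := mul_le_mul_of_nonneg_right (h5 i hi) (haE i hi)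
        _ ≤ e i * (2 ^ mi i * aL i) := mul_le_mul_of_nonneg_left (h6' i hi) hei.le
        _ = 2 ^ mi i * aL i * e i := by ring
    rw [show l i / zf * (aE i / e i) = (l i * aE i) / (zf * e i) by field_simp,
      show (2 : ℝ) ^ mi i * (aL i / zf) = (2 ^ mi i * aL i * e i) / (zf * e i) by field_simp]
    exact div_le_div_of_nonneg_right this (mul_pos hzf hei).le
  have lo : γ ^ 2 * zf * PR ≤ M ^ 2 * zAL := by
    calc γ ^ 2 * zf * PR ≤ γ ^ 2 * zf * (M * (PL * PA)) := mul_le_mul_of_nonneg_left p1 (by positivity)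
      _ = M * γ * PA * (γ * (zf * PL)) := by ring
      _ ≤ M * γ * PA * zL := mul_le_mul_of_nonneg_left h4 (by positivity)
      _ ≤ M * γ * PA * zE := mul_le_mul_of_nonneg_left h3 (by positivity)
      _ = M * (γ * (zE * PA)) := by ring
      _ ≤ M * zAE := mul_le_mul_of_nonneg_left h2 hM0.le
      _ ≤ M * (M * zAL) := mul_le_mul_of_nonneg_left h1' hM0.le
      _ = M ^ 2 * zAL := by ring
  have up : γ ^ 2 * zAL ≤ M ^ 2 * zf * PR := by
    calc γ ^ 2 * zAL ≤ γ ^ 2 * zAE := mul_le_mul_of_nonneg_left h1 (by positivity)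
      _ = γ * (γ * zAE) := by ring
      _ ≤ γ * (zE * PA) := mul_le_mul_of_nonneg_left h2' hγ.le
      _ ≤ γ * ((M * zL) * PA) := by gcongr
      _ = M * PA * (γ * zL) := by ring
      _ ≤ M * PA * (zf * PL) := mul_le_mul_of_nonneg_left h4' (by positivity)
      _ = M * zf * (PL * PA) := by ring
      _ ≤ M * zf * (M * PR) := mul_le_mul_of_nonneg_left p2 (by positivity)
      _ = M ^ 2 * zf * PR := by ring
  rw [h4M]
  constructor
  · rw [le_div_iff₀ hzf, div_mul_eq_mul_div, div_mul_eq_mul_div, div_le_iff₀ (by positivity)]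
    linarith
  · rw [div_le_iff₀ hzf, div_mul_eq_mul_div, div_mul_eq_mul_div, le_div_iff₀ (by positivity)]
    linarith

/-- **(RARE), abstract form** TEX[prop:rare-pins] (discrete:rare-pins) in a finite system.   OWNER 13.
The ONLY probabilistic input is `ClBuf` (a favourable cut of either sign in the inner collar of every obstacle, with probability `≥ c₀` under every history living on the
supports): planar layer = PRIM + necklace + FKG. -/
theorem dis_rare_abs (S : ClSys V Y) (hS : ClDisk S) [Fintype ι] (o : ι → ClObs V) (hO : ∀ i, (o i).Ok S)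
    (hF : ClFam S (fun i => (o i).Ko) (fun i => (o i).U1) (fun i => (o i).U2)) (c0 : ℝ) (hc0 : 0 < c0)
    (hB : ClBuf S (fun i => (o i).Ko) (fun i => (o i).U1) c0) :
    c0 ^ (4 * Fintype.card ι) / 4 ^ (∑ i, (o i).Cs.length) * ∏ i, S.P (fun _ => True) (o i).Ev
        ≤ S.P (fun _ => True) (fun ω => ∀ i, (o i).Ev ω) ∧
      S.P (fun _ => True) (fun ω => ∀ i, (o i).Ev ω)
        ≤ 4 ^ (∑ i, (o i).Cs.length) / c0 ^ (4 * Fintype.card ι) * ∏ i, S.P (fun _ => True) (o i).Ev := by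
  classical
  have hOk := hS.toClOk
  have hA : ∀ i, (o i).Ko ⊆ S.A := fun i => (drr_ko_sub hF i).trans (hF.col i).h2A
  have hQ : ∀ i, (o i).Q ⊆ (o i).Ko := by
    intro i v hv
    obtain ⟨C, hC, hvC⟩ := (drr_mem_Q _ _).1 hv
    exact (hO i).cs C hC hvC
  have hD2 : DrrBlk S (fun i => (o i).Ko) (fun i => (o i).Bp) (fun i => (o i).Bm) (fun i => (o i).Eq S) := by
    refine ⟨fun i => (hO i).bp, fun i => (hO i).bm, fun i => (hO i).dj, ?_, ?_⟩
    · intro i e he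
      obtain ⟨⟨C, hC, h1, h2⟩, _⟩ := (drr_mem_Eq _ _ _).1 he
      exact ⟨(hO i).cs C hC h1, (hO i).cs C hC h2⟩
    · intro i e he
      exact ((drr_mem_Eq _ _ _).1 he).2
  have hD1 : DrrBlk S (fun i => (o i).Ko) (fun i => (o i).Q) (fun _ => ∅) (fun _ => ∅) :=
    ⟨hQ, fun i => by simp, fun i => by simp, fun i e he => by simp at he, fun i e he => by simp at he⟩
  obtain ⟨b2, b2'⟩ := drr_blocks hS hF hD2 hc0.le hB Finset.univ Finset.univ (Finset.Subset.refl _)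
  obtain ⟨b1, b1'⟩ := drr_blocks hS hF hD1 hc0.le hB Finset.univ Finset.univ (Finset.Subset.refl _)
  -- the first colour blocks `Q` are the labels, after the exchange of the colours
  have hsw : ∀ J J' T : Finset ι, S.Z ((drrK (fun i => (o i).Q) (fun _ => ∅) (fun _ => ∅) J J' T).Holds S)
      = S.Z ((drrC ∅ ∅ ∅ (J.biUnion fun i => (o i).Q)).Holds S) := by
    intro J J' T
    have e1 : S.Z ((drrK (fun i => (o i).Q) (fun _ => ∅) (fun _ => ∅) J J' T).Holds S)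
        = S.Z (fun ω => (J.biUnion fun i => (o i).Q) ⊆ ω.B) := by
      refine drr_Z_congr S fun ω => ?_
      unfold drrK
      rw [drr_holds_C]
      simp
    have e2 : S.Z ((drrC ∅ ∅ ∅ (J.biUnion fun i => (o i).Q)).Holds S)
        = S.Z (fun ω => (J.biUnion fun i => (o i).Q) ⊆ ω.W) := by
      refine drr_Z_congr S fun ω => ?_
      rw [drr_holds_C]
      simp
    rw [e1, e2, drr_Z_swap S fun X => (J.biUnion fun i => (o i).Q) ⊆ X]
  have hfree : S.Z ((drrC ∅ ∅ ∅ ∅).Holds S) = S.Z (fun _ => True) := by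
    refine drr_Z_congr S fun ω => ?_
    rw [drr_holds_C]
    simp
  simp only [hsw, Finset.biUnion_empty, Finset.singleton_biUnion, hfree] at b1 b1'
  simp only [drrK, Finset.biUnion_empty, Finset.singleton_biUnion] at b2 b2'
  have hP : ∀ L : ClCfg V Y → Prop, S.P (fun _ => True) L = S.Z L / S.Z (fun _ => True) := by
    intro L
    rw [dis_P_eq, drr_N_ind]
    congr 1
    exact drr_Z_congr S fun ω => by simp
  have hall : S.Z (fun ω => ∀ i, (o i).Ev ω)
      = S.Z ((drrC (Finset.univ.biUnion fun i => (o i).Bp) (Finset.univ.biUnion fun i => (o i).Bm) ∅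
          (Finset.univ.biUnion fun i => (o i).Q)).Holds S) := by
    refine drr_Z_congr S fun ω => ?_
    rw [drr_holds_C]
    simp only [ClObs.Ev, Finset.biUnion_subset, Finset.mem_univ, true_implies, Finset.mem_biUnion, true_and]
    constructor
    · intro h
      exact ⟨fun i => (h i).1, fun v ⟨i, hi⟩ => (h i).2.1 v hi, by simp, fun i => (h i).2.2⟩
    · rintro ⟨a, b, _, d⟩ i
      exact ⟨a i, fun v hv => b v ⟨i, hv⟩, d i⟩
  have hone : ∀ i, S.Z (o i).Ev = S.Z ((drrC (o i).Bp (o i).Bm ∅ (o i).Q).Holds S) := by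
    intro i
    refine drr_Z_congr S fun ω => ?_
    rw [drr_holds_C]
    simp [ClObs.Ev]
  have hzf : 0 < S.Z (fun _ => True) := by
    rw [← hfree]
    have := drr_on_pos hOk hF (drr_K_on (S := S) hF hD2 ∅ ∅ ∅)
    simpa [drrK] using this
  have hl : ∀ i, 0 < S.Z ((drrC ∅ ∅ ∅ (o i).Q).Holds S) := by
    intro i
    have := drr_on_pos hOk hF (drr_K_on (S := S) hF hD1 {i} ∅ ∅)
    rw [hsw] at this
    simpa using this
  have L1 := drr_lab S hOk o hO hA (Finset.univ.biUnion fun i => (o i).Bp) (Finset.univ.biUnion fun i => (o i).Bm) Finset.univ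
  have L3 := drr_lab S hOk o hO hA ∅ ∅ Finset.univ
  have L5 := fun i => drr_lab S hOk o hO hA ∅ ∅ {i}
  have L6 := fun i => drr_lab S hOk o hO hA (o i).Bp (o i).Bm {i}
  simp only [Finset.singleton_biUnion, Finset.sum_singleton] at L5 L6
  have hγ : (c0 ^ (2 * (Finset.univ : Finset ι).card)) ^ 2 = c0 ^ (4 * Fintype.card ι) := by
    rw [← pow_mul, Finset.card_univ]
    congr 1
    ring
  have key := drr_arith (Finset.univ : Finset ι) (c0 ^ (2 * (Finset.univ : Finset ι).card)) (by positivity)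
    (fun i => (o i).Cs.length) (S.Z (fun _ => True)) _ _ _ _ (fun i => S.Z ((drrC (o i).Bp (o i).Bm ∅ (o i).Q).Holds S))
    (fun i => S.Z ((drrC (o i).Bp (o i).Bm ((o i).Eq S) ∅).Holds S)) (fun i => S.Z ((drrC ∅ ∅ ((o i).Eq S) ∅).Holds S))
    (fun i => S.Z ((drrC ∅ ∅ ∅ (o i).Q).Holds S)) hzf (fun i _ => hl i) (fun i _ => dis_Z_nonneg S hOk _)
    L1.1 L1.2 b2 b2' L3.1 L3.2 b1 b1' (fun i _ => (L5 i).1) (fun i _ => (L5 i).2) (fun i _ => (L6 i).1) (fun i _ => (L6 i).2)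
  rw [hγ] at key
  simp only [hP, hall, hone]
  exact key

/-! ### 7. the buffer hypothesis from a shell of small separations (abstract form of (K4) of `sec5_34`) -/

/-- a path which starts in `X` stays in `X` or meets the shell `Sh` -/
theorem drr_block_path {R : V → V → Prop} {X Sh : Finset V} (hstep : ∀ a ∈ X, ∀ b, R a b → b ∈ X ∨ b ∈ Sh) {u v : V}
    (hu : u ∈ X) (h : Relation.ReflTransGen R u v) : v ∈ X ∨ ∃ w ∈ Sh, Relation.ReflTransGen R u w := by
  induction h with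
  | refl => exact Or.inl hu
  | @tail b c hp hst ih =>
    rcases ih with hb | hw
    · rcases hstep b hb c hst with hc | hc
      · exact Or.inl hc
      · exact Or.inr ⟨c, hc, hp.tail hst⟩
    · exact Or.inr hw

/-- deterministic part: small separations along a shell give the separation of the support from the outside of the inner collar.
`X` = outer region (contains `O`, misses `A`); a cell which meets `X` lies in `X ∪ ⋃ Ai`. -/
theorem drr_shell_sep (S : ClSys V Y) (s : Bool) (E : Finset (V × V)) (hE : ∀ e ∈ E, ∃ y ∈ S.C, e.1 ∈ S.sv y ∧ e.2 ∈ S.sv y)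
    (ω : ClCfg V Y) (O A X : Finset V) {κ : Type} [DecidableEq κ] (T : Finset κ) (Oi Ai : κ → Finset V) (hOX : O ⊆ X) (hAX : Disjoint A X)
    (hstep : ∀ y ∈ S.C, ∀ a ∈ S.sv y, a ∈ X → ∀ b ∈ S.sv y, b ∈ X ∨ ∃ j ∈ T, b ∈ Ai j)
    (hOi : ∀ j ∈ T, O ⊆ Oi j) (hsep : ∀ j ∈ T, ClSep S s E ω (Oi j) (Ai j)) : ClSep S s E ω O A := by
  intro u hu v hv huv
  have hst : ∀ a ∈ X, ∀ b, clStep S s E ω a b → b ∈ X ∨ b ∈ T.biUnion Ai := by
    intro a ha b hab
    have key : ∃ y ∈ S.C, a ∈ S.sv y ∧ b ∈ S.sv y := by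
      rcases hab with ⟨y, hy, h1, h2, _⟩ | he | he
      · exact ⟨y, hy, h1, h2⟩
      · exact hE _ he
      · obtain ⟨y, hy, h1, h2⟩ := hE _ he
        exact ⟨y, hy, h2, h1⟩
    obtain ⟨y, hy, h1, h2⟩ := key
    rcases hstep y hy a h1 ha b h2 with h | ⟨j, hj, hbj⟩
    · exact Or.inl h
    · exact Or.inr (Finset.mem_biUnion.2 ⟨j, hj, hbj⟩)
  rcases drr_block_path hst (hOX hu) huv with h | ⟨w, hw, hp⟩
  · exact (Finset.disjoint_left.1 hAX) hv h
  · obtain ⟨j, hj, hwj⟩ := Finset.mem_biUnion.1 hw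
    exact hsep j hj u (hOi j hj hu) w hwj hp

/-- **(SHELL ⟹ BUFFER)**: if every small separation `Sep_s(Oi i j, Ai i j)` of the shell of the obstacle `i` has probability `≥ c` under every history living on the supports (planar
layer: PRIM), then `ClBuf` holds with `c ^ N` (association). -/
theorem dis_rare_buf (S : ClSys V Y) (hS : ClDisk S) {Ko U1 U2 : ι → Finset V} (hF : ClFam S Ko U1 U2) {c : ℝ} (hc : 0 ≤ c)
    (hc1 : c ≤ 1) (N : ℕ) {κ : Type} [DecidableEq κ] (T : ι → Finset κ) (hN : ∀ i, (T i).card ≤ N) (Oi Ai : ι → κ → Finset V)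
    (X : ι → Finset V) (hOX : ∀ i, S.A \ U1 i ⊆ X i) (hAX : ∀ i, Disjoint (Ko i) (X i))
    (hstep : ∀ i, ∀ y ∈ S.C, ∀ a ∈ S.sv y, a ∈ X i → ∀ b ∈ S.sv y, b ∈ X i ∨ ∃ j ∈ T i, b ∈ Ai i j)
    (hOi : ∀ i, ∀ j ∈ T i, S.A \ U1 i ⊆ Oi i j)
    (hprim : ∀ i, ∀ j ∈ T i, ∀ (s : Bool) (K : ClCon V Y), ClOn S Ko K →
      c * S.Z (K.Holds S) ≤ S.N (K.Holds S) (clInd fun ω => ClSep S s K.Eq ω (Oi i j) (Ai i j))) :
    ClBuf S Ko U1 (c ^ N) := by
  intro i s K hK
  have hOk := hS.toClOk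
  have hZ := drr_on_pos hOk hF hK
  have h1 := dis_fkg_fin S hS K hK.toClLegal hZ s (T i) (L := fun j ω => ClSep S s K.Eq ω (Oi i j) (Ai i j))
    (fun j _ => dis_sep_up S s K.Eq _ _) hc (fun j hj => hprim i j hj s K hK)
  have h2 : S.N (K.Holds S) (clInd fun ω => ∀ j ∈ T i, ClSep S s K.Eq ω (Oi i j) (Ai i j))
      ≤ S.N (K.Holds S) (clInd fun ω => ClSep S s K.Eq ω (S.A \ U1 i) (Ko i)) := by
    refine dis_N_mono S hOk _ fun ω _ _ => dis_ind_mono fun h => ?_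
    exact drr_shell_sep S s K.Eq hK.eq ω _ _ (X i) (T i) (Oi i) (Ai i) (hOX i) (hAX i) (hstep i) (hOi i) h
  have h3 : c ^ N ≤ c ^ (T i).card := pow_le_pow_of_le_one hc hc1 (hN i)
  exact (mul_le_mul_of_nonneg_right h3 hZ.le).trans (h1.trans h2)

end family

end abstract

end Claimed.Agent.R291
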