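import Claimed.Agent.R291.Dis.Planar
import Claimed.Agent.R291.Dis.Rare
import Claimed.Agent.R291.Defs.Mom
import Claimed.Agent.R291.Pl.Ball
import Claimed.Agent.R291.Pl.CellPath
import Claimed.Agent.R291.Tool.TriSCEdge

/-!
# Row 291 (S0539), Dis/ObstrCell : THE OBSTRUCTION (D3), CELL SIDE      (owner helper133; prefix `dob_`, defs `Dob…`/`dob…`)      no own sorry

TEX[lem:shell-moments] l.48-112.   PRODUCES `dob_cell`; the height side (`dob_level`, `dob_lift`, glue of `exit_dis_obstr`) is `Dis/Obstr.lean` (helper164).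
CONSUMES `dis_prim` (141), `dis_fkg_fin`, `dis_order_up`, `dis_sep_up` (141), `dde_term`, `dis_cut_law`, `dis_inv_cut` (50), `ClCon.cutAt` kit (13), Timar edge form (147), balls (110).
ROUTE (no chain of circuits, no CONN, no outermost filled union; `MomCo D` is not used):
* §1 ARM (deterministic): a wall domain `D' ⊇ latBall z r` inside a hole-free `F`, `p ∉ F`: all end points of the edges between the component `C` of `z` in `D'` and the component of `p` off `C`
  lie in ONE cluster of the invasion (each such edge is a B-wall, so its up-cell is not open; Timar chains the edges); the cluster has a point `q ∈ latBall z R` and a point `q' ∉ latBall q r`.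
* §2 a FIXED number of balls `latBall (dobC z m j) n` covers `latBall z (5 r)`.
* §3 abstract chain `dob_abs`: partition over the set `I` found by the invasion of sign `s` from the skeleton, `dde_term`, `dis_cut_law` (skeleton constraint -> free), cut = history `cutAt`,
  `dis_order_up` (free below the cut history): an inside event disjoint from a favourable event of free probability `≥ c` has probability `≤ 1 - c`.
* §4 planar instance: the outer W-wall with `B = s` is a cut of sign `s` (`dob_bad_in`), the inner B-wall is an arm which kills one of the separations (`dob_in_arm`), `dis_prim` + `dis_fkg_fin`.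
-/

set_option autoImplicit false
set_option linter.unusedVariables false
set_option linter.unusedSectionVars false

namespace Claimed.Agent.R291

open Relation Claims Claims.C0467

/-! ### 0. the events, for arbitrary colourings -/

/-- every edge leaving `D` is a wall of the colouring `P` -/
def DobBW (P : TV → Prop) (D : Finset TV) : Prop :=
  ∀ u ∈ D, ∀ v, v ∉ D → triAdj u v → ¬ (P u ↔ P v)

/-- every edge leaving `D` is a wall of the colouring `Q`, with `P = s` on both sides -/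
def DobWW (s : Bool) (P Q : TV → Prop) (D : Finset TV) : Prop :=
  ∀ u ∈ D, ∀ v, v ∉ D → triAdj u v → (P u ↔ s = true) ∧ (P v ↔ s = true) ∧ ¬ (Q u ↔ Q v)

/-- a `P`-wall domain around `latBall z r` inside `F` -/
def DobBad1 (P : TV → Prop) (F : Finset TV) (z : TV) (r : ℕ) : Prop :=
  ∃ D' : Finset TV, latBall z r ⊆ D' ∧ D' ⊆ F ∧ DobBW P D'

/-- the ordered pair of walls -/
def DobBad (s : Bool) (P Q : TV → Prop) (F : Finset TV) (z : TV) (r : ℕ) : Prop :=
  ∃ D : Finset TV, D ⊆ F ∧ DobWW s P Q D ∧ DobBad1 P D z r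

/-! ### 1. geometry: a wall around a ball is a long arm -/

theorem dob_chain {C E : Set TV} {St : TV → TV → Prop}
    (hSt : ∀ u ∈ C, ∀ v ∈ E, triAdj u v → St u v ∧ St v u) {e e' : TV × TV}
    (h : ReflTransGen (TscEStep tscG C E) e e') : ReflTransGen St e.2 e'.2 := by
  induction h with
  | refl => exact ReflTransGen.refl
  | @tail b c _ hbc ih =>
    rcases hbc.2.2 with h | h
    · have h1 := hSt b.1 hbc.1.1 b.2 hbc.1.2.1 hbc.1.2.2
      have h2 := hSt c.1 hbc.2.1.1 c.2 hbc.2.1.2.1 hbc.2.1.2.2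
      refine (ih.tail h1.2).tail ?_
      rw [h.1]
      exact h2.1
    · rw [← h.1]
      exact ih

/-- **ARM**: `D' ⊆ F` contains `latBall z r`, `F` has no hole, `p ∉ F`: the end points of the edges leaving `D'` which are seen from `p` form ONE cluster of every relation `St`
which joins the two ends of every edge leaving `D'`; this cluster has a point `q` in `latBall z R ∋ p` and a point `q'` off `latBall q r`. -/
theorem dob_arm {F D' : Finset TV} {z p : TV} {r R : ℕ} (hF : MomCo F) (hD : D' ⊆ F) (hB : latBall z r ⊆ D')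
    (hp : p ∉ F) (hpR : p ∈ latBall z R) {St : TV → TV → Prop}
    (hSt : ∀ u ∈ D', ∀ v, v ∉ D' → triAdj u v → St u v ∧ St v u) :
    ∃ q q' : TV, q ∈ latBall z R ∧ q' ∉ latBall q r ∧ q' ∈ latCl D' ∧ ReflTransGen St q' q := by
  set C : Set TV := tscComp tscG (↑D' : Set TV) z with hC
  have hzB : z ∈ (↑(latBall z r) : Set TV) := by exact_mod_cast plh_ball_self z r
  have hBD : (↑(latBall z r) : Set TV) ⊆ (↑D' : Set TV) := by exact_mod_cast hB
  have hBC : (↑(latBall z r) : Set TV) ⊆ C :=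
    plh_conn_sub_comp (plh_ball_conn z r) hBD hzB (tsc_comp_self (hBD hzB))
  have hCD : C ⊆ (↑D' : Set TV) := tsc_comp_sub z
  have hCconn : TscConn tscG C := tsc_comp_conn z
  have hzC : z ∈ C := hBC hzB
  have hFC : (↑F : Set TV)ᶜ ⊆ Cᶜ := by
    refine Set.compl_subset_compl.2 fun c hc => ?_
    have : c ∈ D' := by exact_mod_cast hCD hc
    exact_mod_cast hD this
  have hpF : p ∈ (↑F : Set TV)ᶜ := fun h => hp (by exact_mod_cast h)
  set E : Set TV := tscComp tscG Cᶜ p with hE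
  have hpE : p ∈ E := tsc_comp_self (hFC hpF)
  -- edges from `C` to `E` leave `D'`
  have hSt' : ∀ u ∈ C, ∀ v ∈ E, triAdj u v → St u v ∧ St v u := by
    intro u hu v hv huv
    refine hSt u (by exact_mod_cast hCD hu) v (fun hvD => ?_) huv
    exact hv.1 (tsc_comp_adj hu (by exact_mod_cast hvD) huv)
  -- the first point
  have hpz : TscR tscG (↑(latBall z R) : Set TV) p z :=
    plh_ball_conn z R p (by exact_mod_cast hpR) z (by exact_mod_cast plh_ball_self z R)
  obtain ⟨q, hqR, hqE, c, hc, hcq⟩ := tsc_plane_meets hpE hzC hpz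
  have hqr : z ∉ latBall q r := by
    intro h
    rw [lat_mem_ball, plh_N_sub_comm] at h
    exact hqE.1 (hBC (plh_mem_ball.2 h))
  -- a far point
  obtain ⟨w, hw⟩ := Infinite.exists_notMem_finset (F ∪ latBall q r)
  rw [Finset.mem_union, not_or] at hw
  have hwF : w ∈ (↑F : Set TV)ᶜ := fun h => hw.1 (by exact_mod_cast h)
  have hwE : w ∈ E := ⟨hFC hwF, tsc_R_mono hFC (hF p hpF w hwF)⟩
  have hwz : TscR tscG (↑(latBall q r) : Set TV)ᶜ w z :=
    plh_ball_compl_conn q r w (fun h => hw.2 (by exact_mod_cast h)) z (fun h => hqr (by exact_mod_cast h))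
  obtain ⟨q', hq'r, hq'E, c', hc', hcq'⟩ := tsc_plane_meets hwE hzC hwz
  refine ⟨q, q', by exact_mod_cast hqR, fun h => hq'r (by exact_mod_cast h), ?_, ?_⟩
  · exact lat_mem_cl.2 (Or.inr ⟨c', by exact_mod_cast hCD hc', hcq'⟩)
  · exact dob_chain hSt' (tsc_plane_timar_edge hCconn p (e := (c', q')) (e' := (c, q)) ⟨hc', hq'E, hcq'⟩ ⟨hc, hqE, hcq⟩)

/-! ### 2. a fixed number of small balls covers the big ball -/

/-- the centres -/
def dobC (z : TV) (m : ℕ) (j : ℤ × ℤ) : TV := z + ((m : ℤ) * j.1, (m : ℤ) * j.2)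

theorem dob_cover {z q : TV} {R m n : ℕ} {K : ℤ} (hm : 0 < m) (hmn : 2 * m ≤ n + 2) (hR : (R : ℤ) < K * m)
    (hq : q ∈ latBall z R) :
    ∃ j ∈ Finset.Icc (-K) K ×ˢ Finset.Icc (-K) K, q ∈ latBall (dobC z m j) n := by
  rw [lat_mem_ball] at hq
  have h1 := plh_N_fst (q - z)
  have h2 := plh_N_snd (q - z)
  have hm' : (0 : ℤ) < m := by exact_mod_cast hm
  set a := (q - z).1 with ha
  set b := (q - z).2 with hb
  refine ⟨(a / m, b / m), ?_, ?_⟩
  · rw [Finset.mem_product, Finset.mem_Icc, Finset.mem_Icc]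
    have e1 : a < K * m := by omega
    have e2 : b < K * m := by omega
    have e3 : -K * m ≤ a := by
      have : -K * m = -(K * m) := by ring
      omega
    have e4 : -K * m ≤ b := by
      have : -K * m = -(K * m) := by ring
      omega
    exact ⟨⟨Int.le_ediv_of_mul_le hm' e3, (Int.ediv_lt_of_lt_mul hm' e1).le⟩,
      ⟨Int.le_ediv_of_mul_le hm' e4, (Int.ediv_lt_of_lt_mul hm' e2).le⟩⟩
  · rw [lat_mem_ball]
    have e : q - dobC z m (a / m, b / m) = (a % m, b % m) := by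
      have ea := Int.emod_add_mul_ediv a m
      have eb := Int.emod_add_mul_ediv b m
      ext
      · simp only [dobC, Prod.fst_sub, Prod.fst_add]
        simp only [ha, Prod.fst_sub] at ea ⊢
        linarith
      · simp only [dobC, Prod.snd_sub, Prod.snd_add]
        simp only [hb, Prod.snd_sub] at eb ⊢
        linarith
    rw [e]
    have a0 := Int.emod_nonneg a hm'.ne'
    have a1 := Int.emod_lt_of_pos a hm'
    have b0 := Int.emod_nonneg b hm'.ne'
    have b1 := Int.emod_lt_of_pos b hm'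
    unfold latN
    simp only
    omega

theorem dob_centre_N (z : TV) (m : ℕ) {K : ℤ} {j : ℤ × ℤ} (hj : j ∈ Finset.Icc (-K) K ×ˢ Finset.Icc (-K) K) :
    (latN (dobC z m j - z) : ℤ) ≤ 2 * K * m := by
  rw [Finset.mem_product, Finset.mem_Icc, Finset.mem_Icc] at hj
  have e : dobC z m j - z = ((m : ℤ) * j.1, (m : ℤ) * j.2) := by
    unfold dobC
    abel
  rw [e]
  have h := plh_N_le_sup ((m : ℤ) * j.1, (m : ℤ) * j.2)
  have hm : (0 : ℤ) ≤ m := Int.natCast_nonneg m
  have a1 : |(m : ℤ) * j.1| ≤ K * m := by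
    rw [abs_le]
    constructor <;> nlinarith [hj.1.1, hj.1.2]
  have a2 : |(m : ℤ) * j.2| ≤ K * m := by
    rw [abs_le]
    constructor <;> nlinarith [hj.2.1, hj.2.2]
  have h' : (latN ((m : ℤ) * j.1, (m : ℤ) * j.2) : ℤ) ≤ |(m : ℤ) * j.1| + |(m : ℤ) * j.2| := by
    have := h
    simp only at this
    zify at this
    exact this
  linarith

/-! ### 3. the abstract chain -/

section abstract

variable {V Y : Type} [DecidableEq V] [DecidableEq Y]

theorem dob_N_mono (S : ClSys V Y) (hS : ClOk S) (K : ClCfg V Y → Prop) {G G' : ClCfg V Y → ℝ}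
    (h : ∀ ω ∈ S.cfgs, S.wt ω ≠ 0 → K ω → G ω ≤ G' ω) : S.N K G ≤ S.N K G' := by
  classical
  unfold ClSys.N
  refine Finset.sum_le_sum fun ω hω => ?_
  by_cases hK : K ω
  · rw [if_pos hK, if_pos hK]
    by_cases hw : S.wt ω = 0
    · rw [hw, zero_mul, zero_mul]
    · exact mul_le_mul_of_nonneg_left (h ω hω hw hK) (dis_wt_nonneg S hS ω)
  · rw [if_neg hK, if_neg hK]

open Classical in
/-- partition according to the invaded set -/
theorem dob_part (S : ClSys V Y) (s : Bool) (E : Finset (V × V)) (K : ClCfg V Y → Prop) (O : Finset V)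
    (X : ClCfg V Y → ℝ) :
    S.N K X = ∑ I ∈ (S.A \ O).powerset, S.N K (fun ω => if clInv S s E ω O = S.A \ I then X ω else 0) := by
  unfold ClSys.N
  rw [Finset.sum_comm]
  refine Finset.sum_congr rfl fun ω _ => ?_
  by_cases hK : K ω
  · simp only [if_pos hK]
    rw [← Finset.mul_sum]
    congr 1
    have hInvA : clInv S s E ω O ⊆ S.A := fun v hv => ((dde_mem_inv S s E ω O v).1 hv).1
    rw [Finset.sum_eq_single (S.A \ clInv S s E ω O)]
    · rw [if_pos (Finset.sdiff_sdiff_eq_self hInvA).symm]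
    · intro I hI hne
      rw [Finset.mem_powerset] at hI
      rw [if_neg]
      intro h
      apply hne
      rw [h, Finset.sdiff_sdiff_eq_self (hI.trans Finset.sdiff_subset)]
    · intro hn
      exfalso
      apply hn
      rw [Finset.mem_powerset]
      intro v hv
      rw [Finset.mem_sdiff] at hv ⊢
      refine ⟨hv.1, fun hvO => hv.2 ?_⟩
      exact (dde_mem_inv S s E ω O v).2 ⟨hv.1, v, hvO, Relation.ReflTransGen.refl⟩
  · simp only [if_neg hK]
    simp

/-- the invasion does not enter a cut set -/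
theorem dob_cut_inv (S : ClSys V Y) (s : Bool) (ω : ClCfg V Y) (O D : Finset V) (hc : ClCut S s D ω)
    (hOD : ∀ u ∈ O, u ∉ D) : ∀ v ∈ clInv S s ∅ ω O, v ∉ D := by
  intro v hv
  obtain ⟨-, u, hu, hr⟩ := (dde_mem_inv S s ∅ ω O v).1 hv
  clear hv
  induction hr with
  | refl => exact hOD u hu
  | @tail a b _ hab ih =>
    intro hb
    rcases hab with ⟨y, hy, ha, hby, hne⟩ | h | h
    · exact hne (hc y hy ⟨⟨b, hby, hb⟩, a, ha, ih⟩)
    · simp at h
    · simp at h

/-- pins and labels `(+,+)` on the skeleton `O` -/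
def dobK0 (O : Finset V) : ClCon V Y := ⟨O, ∅, ∅, ∅, ∅, ∅, O, ∅⟩

theorem dob_K0_holds (S : ClSys V Y) (O : Finset V) (ω : ClCfg V Y) :
    (dobK0 O : ClCon V Y).Holds S ω ↔ O ⊆ ω.B ∧ O ⊆ ω.W := by
  simp [dobK0, ClCon.Holds]

theorem dob_free_holds (S : ClSys V Y) (ω : ClCfg V Y) : (clFree : ClCon V Y).Holds S ω := by
  simp [clFree, ClCon.Holds]

theorem dob_free_legal (S : ClSys V Y) : ClLegal S (clFree : ClCon V Y) where
  wp := rfl
  wm := rfl
  full := by
    intro y _ hy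
    simp [clFree] at hy
  eq := by
    intro e he
    simp [clFree] at he

/-- inside a cut of sign `s`, under the free outside: an event disjoint from a favourable event of free probability `≥ c` has probability `≤ 1 - c` -/
theorem dob_in_cut (S : ClSys V Y) (hS : ClDisk S) (s : Bool) (I : Finset V) (L Inc : ClCfg V Y → Prop)
    (hinc : ClUp S s Inc) (hdis : ∀ ω ∈ S.cfgs, S.wt ω ≠ 0 → L ω → ¬ Inc ω) (c : ℝ)
    (hc : c * S.Z ((clFree : ClCon V Y).Holds S) ≤ S.N ((clFree : ClCon V Y).Holds S) (clInd Inc))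
    (hZ : 0 < S.Z (fun ω => (clFree : ClCon V Y).Holds S ω ∧ ClCut S s I ω)) :
    S.N (fun ω => (clFree : ClCon V Y).Holds S ω ∧ ClCut S s I ω) (clInd L) ≤
      (1 - c) * S.Z (fun ω => (clFree : ClCon V Y).Holds S ω ∧ ClCut S s I ω) := by
  have hOk := hS.toClOk
  rw [← drr_N_cutAt, ← drr_Z_cutAt] at *
  set KI : ClCon V Y := (clFree : ClCon V Y).cutAt S s I with hKI
  have hleg : ClLegal S KI := drr_legal_cutAt (dob_free_legal S) s I
  have hord := dis_order_up S hS s clFree KI (dob_free_legal S) hleg (drr_leS_cutAt S clFree s I) hinc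
  have hZf : 0 < S.Z ((clFree : ClCon V Y).Holds S) := by
    obtain ⟨ω, hω, _, hw⟩ := dis_Z_pos_wit S _ hZ
    exact drr_Z_pos_of_wit S hOk _ hω (dob_free_holds S ω) hw
  have h1 : c * S.Z (KI.Holds S) ≤ S.N (KI.Holds S) (clInd Inc) := by
    have h2 : S.Z ((clFree : ClCon V Y).Holds S) * (c * S.Z (KI.Holds S))
        ≤ S.Z ((clFree : ClCon V Y).Holds S) * S.N (KI.Holds S) (clInd Inc) := by
      calc _ = (c * S.Z ((clFree : ClCon V Y).Holds S)) * S.Z (KI.Holds S) := by ring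
        _ ≤ S.N ((clFree : ClCon V Y).Holds S) (clInd Inc) * S.Z (KI.Holds S) :=
            mul_le_mul_of_nonneg_right hc hZ.le
        _ ≤ _ := hord
    exact le_of_mul_le_mul_left h2 hZf
  have h3 : S.N (KI.Holds S) (clInd L) + S.N (KI.Holds S) (clInd Inc) ≤ S.Z (KI.Holds S) := by
    rw [← dis_N_add, dis_Z_eq]
    refine dob_N_mono S hOk _ fun ω hω hw _ => ?_
    by_cases hL : L ω
    · rw [dis_ind_pos hL, dis_ind_neg (hdis ω hω hw hL)]
      norm_num
    · rw [dis_ind_neg hL]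
      have := dis_ind_le_one Inc ω
      linarith
  linarith

open Classical in
/-- **THE ABSTRACT CHAIN** -/
theorem dob_abs (S : ClSys V Y) (hS : ClDisk S) (s : Bool) (O : Finset V) (hO : O ⊆ S.A)
    (Bad : ClCfg V Y → Prop) (Bad1 : Finset V → ClCfg V Y → Prop) (Inc : ClCfg V Y → Prop)
    (hloc : ∀ I, ClLoc I (S.cin I) (clInd (Bad1 I)))
    (hbad : ∀ ω ∈ S.cfgs, S.wt ω ≠ 0 → Bad ω → Bad1 (S.A \ clInv S s ∅ ω O) ω)
    (hinc : ClUp S s Inc) (hdis : ∀ I, ∀ ω ∈ S.cfgs, S.wt ω ≠ 0 → Bad1 I ω → ¬ Inc ω) (c : ℝ) (hc1 : c ≤ 1)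
    (hc : c * S.Z ((clFree : ClCon V Y).Holds S) ≤ S.N ((clFree : ClCon V Y).Holds S) (clInd Inc)) :
    S.N ((dobK0 O : ClCon V Y).Holds S) (clInd Bad) ≤ (1 - c) * S.Z ((dobK0 O : ClCon V Y).Holds S) := by
  have hOk := hS.toClOk
  set K₀ : ClCon V Y := dobK0 O with hK₀
  have hEq : K₀.Eq = ∅ := rfl
  rw [dob_part S s ∅ (K₀.Holds S) O (clInd Bad), dis_Z_eq, dob_part S s ∅ (K₀.Holds S) O (fun _ => 1), Finset.mul_sum]
  refine Finset.sum_le_sum fun I hI => ?_
  rw [Finset.mem_powerset] at hI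
  have hIA : I ⊆ S.A := hI.trans Finset.sdiff_subset
  have h1 : S.N (K₀.Holds S) (fun ω => if clInv S s ∅ ω O = S.A \ I then clInd Bad ω else 0) ≤
      S.N (K₀.Holds S) (fun ω => if clInv S s K₀.Eq ω O = S.A \ I then (fun _ => (1:ℝ)) ω * clInd (Bad1 I) ω else 0) := by
    refine dob_N_mono S hOk _ fun ω hω hw _ => ?_
    rw [hEq]
    by_cases hi : clInv S s ∅ ω O = S.A \ I
    · rw [if_pos hi, if_pos hi, one_mul]
      refine dis_ind_mono fun hb => ?_
      have := hbad ω hω hw hb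
      rwa [hi, Finset.sdiff_sdiff_eq_self hIA] at this
    · rw [if_neg hi, if_neg hi]
  have h2 := dde_term S hOk s K₀ O I I hI hO subset_rfl (fun _ => 1) (clInd (Bad1 I))
    (fun _ _ _ _ _ => rfl) (hloc I)
  rw [h2, hEq] at h1
  refine h1.trans ?_
  set a := S.N (K₀.Holds S) (fun ω => if clInv S s ∅ ω O = S.A \ I then (1:ℝ) else 0) with ha
  have ha0 : 0 ≤ a := dis_N_nonneg S hOk _ fun ω => by split_ifs <;> norm_num
  rw [mul_comm (1 - c) a]
  rcases ha0.eq_or_lt with h0 | h0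
  · rw [← h0, zero_mul, zero_mul]
  refine mul_le_mul_of_nonneg_left ?_ ha0
  -- feasibility
  obtain ⟨ω, hω, hK, hw, hne⟩ := drr_N_ne_wit S _ _ h0.ne'
  have hi : clInv S s ∅ ω O = S.A \ I := by
    by_contra hcon
    exact hne (if_neg hcon)
  have hcut : ClCut S s I ω := by
    have := dis_inv_cut S hOk s ∅ ω O
    rwa [hi, Finset.sdiff_sdiff_eq_self hIA] at this
  have hZ0 : 0 < S.Z (fun ω => K₀.Holds S ω ∧ ClCut S s I ω) := drr_Z_pos_of_wit S hOk _ hω ⟨hK, hcut⟩ hw
  have hZ1 : 0 < S.Z (fun ω => (clFree : ClCon V Y).Holds S ω ∧ ClCut S s I ω) :=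
    drr_Z_pos_of_wit S hOk _ hω ⟨dob_free_holds S ω, hcut⟩ hw
  have hIO : ∀ v ∈ I, v ∉ O := fun v hv => (Finset.mem_sdiff.1 (hI hv)).2
  have hag : ClAgreeIn S K₀ clFree I :=
    ⟨fun v hv => ⟨fun h => absurd h (hIO v hv), fun h => by simp [clFree] at h⟩, fun v hv => Iff.rfl,
      fun v hv => ⟨fun h => absurd h (hIO v hv), fun h => by simp [clFree] at h⟩, fun v hv => Iff.rfl,
      fun y hy => Iff.rfl, fun y hy => Iff.rfl, fun y hy => Iff.rfl, fun e _ _ => Iff.rfl⟩
  rw [dis_cut_law S hOk s I K₀ clFree (fun e he => by simp [hEq] at he) (fun e he => by simp [clFree] at he) hag hZ0 hZ1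
    (clInd (Bad1 I)) (hloc I), dis_E_eq, div_le_iff₀ hZ1]
  exact dob_in_cut S hS s I (Bad1 I) Inc hinc (hdis I) c hc hZ1

end abstract

/-! ### 4. the planar instance -/

theorem dob_edge_cell (x : ℝ) (V : Finset TV) {u v : TV} (hu : u ∈ V) (hv : v ∈ V) (h : triAdj u v) :
    ∃ y ∈ (clAmb x V).C, u ∈ (clAmb x V).sv y ∧ v ∈ (clAmb x V).sv y := by
  obtain ⟨y, hy1, hy2⟩ := pcp_adj_cell h
  exact ⟨y, lat_mem_cells.2 ⟨u, hy1, hu⟩, Finset.mem_inter.2 ⟨hy1, hu⟩, Finset.mem_inter.2 ⟨hy2, hv⟩⟩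

theorem dob_tau_const {V Y : Type} [DecidableEq V] [DecidableEq Y] (S : ClSys V Y) {ω : ClCfg V Y} (hw : S.wt ω ≠ 0)
    {y : Y} (hy : y ∈ S.C) {s : Bool} (ht : clTau S ω y = clSg s) : ClConst ω.B (S.sv y) := by
  refine dis_wt_open hw hy ?_
  by_contra ho
  have := (dis_tau_zero S ω y).2 ho
  rw [this] at ht
  cases s <;> simp [clSg] at ht

/-- the inner event, read inside `I` -/
def DobIn (F : Finset TV) (z : TV) (r : ℕ) (I : Finset TV) (ω : ClCfg TV TV) : Prop :=
  I ⊆ F ∧ DobBad1 (· ∈ ω.B) (latInt I) z r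

theorem dob_in_loc (F : Finset TV) (z : TV) (r : ℕ) (I T' : Finset TV) : ClLoc I T' (clInd (DobIn F z r I)) := by
  have key : ∀ ω ω' : ClCfg TV TV, ω.B ∩ I = ω'.B ∩ I → DobIn F z r I ω → DobIn F z r I ω' := by
    rintro ω ω' hB ⟨hI, D', h1, h2, h3⟩
    refine ⟨hI, D', h1, h2, fun u hu v hv huv => ?_⟩
    have huI := lat_mem_int.1 (h2 hu)
    have e1 : u ∈ ω.B ↔ u ∈ ω'.B := dcu_mem_of_inter hB huI.1
    have e2 : v ∈ ω.B ↔ v ∈ ω'.B := dcu_mem_of_inter hB (huI.2 v huv)
    have := h3 u hu v hv huv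
    simp only at this ⊢
    rw [← e1, ← e2]
    exact this
  intro ω ω' hB _ _
  by_cases h : DobIn F z r I ω
  · rw [dis_ind_pos h, dis_ind_pos (key ω ω' hB h)]
  · rw [dis_ind_neg h, dis_ind_neg (fun h' => h (key ω' ω hB.symm h'))]

/-- the outer wall is a cut, hence the inner wall domain lies inside the set found by the invasion -/
theorem dob_bad_in (x : ℝ) (hx0 : 0 < x) (hx1 : x ≤ 1) (s : Bool) (V F : Finset TV) (z : TV) (r : ℕ) (hcl : latCl F ⊆ V)
    (ω : ClCfg TV TV) (hw : (clAmb x V).wt ω ≠ 0) (hb : DobBad s (· ∈ ω.B) (· ∈ ω.W) F z r) :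
    DobIn F z r ((clAmb x V).A \ clInv (clAmb x V) s ∅ ω (V \ F)) ω := by
  obtain ⟨D, hDF, hWW, D', hB, hD'D, hBW⟩ := hb
  have hOk := pcp_amb_ok x hx0 hx1 V
  have hFV : F ⊆ V := fun u hu => hcl (lat_mem_cl.2 (Or.inl hu))
  set S := clAmb x V with hS
  have hcut : ClCut S s D ω := by
    rintro y hy ⟨⟨u, hu, huD⟩, v, hv, hvD⟩
    have huv : triAdj u v :=
      pcp_cell_adj (Finset.mem_inter.1 hu).1 (Finset.mem_inter.1 hv).1 (fun h => hvD (h ▸ huD))
    obtain ⟨h1, h2, h3⟩ := hWW u huD v hvD huv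
    have ho : y ∈ ω.O := by
      by_contra ho
      exact h3 (dis_const_iff (dis_lbl_closed S hw hy ho) hu hv)
    have hc := dis_wt_open hw hy ho
    cases s
    · refine dis_tau_neg.2 ⟨ho, fun hsub => ?_⟩
      have := h1.1 (hsub hu)
      simp at this
    · refine dis_tau_one.2 ⟨ho, ?_⟩
      rcases hc with hc | hc
      · exact hc
      · exact absurd (h1.2 rfl) (hc u hu)
  have hinv := dob_cut_inv S s ω (V \ F) D hcut (fun u hu huD => (Finset.mem_sdiff.1 hu).2 (hDF huD))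
  set I := S.A \ clInv S s ∅ ω (V \ F) with hI
  have hDI : D ⊆ I := fun u hu => Finset.mem_sdiff.2 ⟨hFV (hDF hu), fun h => hinv u h hu⟩
  have hIF : I ⊆ F := by
    intro v hv
    by_contra hvF
    obtain ⟨hvV, hvI⟩ := Finset.mem_sdiff.1 hv
    exact hvI ((dde_mem_inv S s ∅ ω (V \ F) v).2 ⟨hvV, v, Finset.mem_sdiff.2 ⟨hvV, hvF⟩, ReflTransGen.refl⟩)
  refine ⟨hIF, D', hB, fun u hu => ?_, hBW⟩
  have huI : u ∈ I := hDI (hD'D hu)
  refine lat_mem_int.2 ⟨huI, fun v huv => ?_⟩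
  by_contra hvI
  have hvD' : v ∉ D' := fun h => hvI (hDI (hD'D h))
  have huV : u ∈ V := hFV (hIF huI)
  have hvV : v ∈ V := hcl (lat_mem_cl.2 (Or.inr ⟨u, hIF huI, huv⟩))
  obtain ⟨y, hy, huy, hvy⟩ := dob_edge_cell x V huV hvV huv
  have ht := dis_inv_cut S hOk s ∅ ω (V \ F) y hy ⟨⟨u, huy, huI⟩, v, hvy, hvI⟩
  exact hBW u hu v hvD' huv (dis_const_iff (dob_tau_const S hw hy ht) huy hvy)

/-- the inner wall is an arm: it is incompatible with the separations -/
theorem dob_in_arm (x : ℝ) (s : Bool) (V F : Finset TV) (z : TV) (r n m κ : ℕ) (K : ℤ) (hcl : latCl F ⊆ V) (hF : MomCo F)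
    (hnF : ¬ latBall z (5 * r) ⊆ F) (hm : 0 < m) (hmn : 2 * m ≤ n + 2) (hR : ((5 * r : ℕ) : ℤ) < K * m)
    (hn : (κ + 1) * n ≤ r) (I : Finset TV) (ω : ClCfg TV TV) (hw : (clAmb x V).wt ω ≠ 0) (hb : DobIn F z r I ω) :
    ¬ ∀ j ∈ Finset.Icc (-K) K ×ˢ Finset.Icc (-K) K,
      ClSep (clAmb x V) s ∅ ω (V \ latBall (dobC z m j) (κ * n)) (latBall (dobC z m j) n) := by
  intro hsep
  obtain ⟨hIF, D', hB, hD'I, hBW⟩ := hb
  have hD'F : D' ⊆ F := fun u hu => hIF (lat_int_sub I (hD'I hu))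
  have hFV : F ⊆ V := fun u hu => hcl (lat_mem_cl.2 (Or.inl hu))
  obtain ⟨p, hpR, hpF⟩ := Finset.not_subset.1 hnF
  set S := clAmb x V with hS
  have hSt : ∀ u ∈ D', ∀ v, v ∉ D' → triAdj u v → clStep S s ∅ ω u v ∧ clStep S s ∅ ω v u := by
    intro u hu v hv huv
    have huV : u ∈ V := hFV (hD'F hu)
    have hvV : v ∈ V := hcl (lat_mem_cl.2 (Or.inr ⟨u, hD'F hu, huv⟩))
    obtain ⟨y, hy, huy, hvy⟩ := dob_edge_cell x V huV hvV huv
    have hne : clTau S ω y ≠ clSg s := fun ht =>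
      hBW u hu v hv huv (dis_const_iff (dob_tau_const S hw hy ht) huy hvy)
    exact ⟨Or.inl ⟨y, hy, huy, hvy, hne⟩, Or.inl ⟨y, hy, hvy, huy, hne⟩⟩
  obtain ⟨q, q', hq, hq', hq'cl, hpath⟩ := dob_arm hF hD'F hB hpF hpR hSt
  obtain ⟨j, hj, hqj⟩ := dob_cover hm hmn hR hq
  have hq'V : q' ∈ V := by
    rcases lat_mem_cl.1 hq'cl with h | ⟨c, hc, hcq⟩
    · exact hFV (hD'F h)
    · exact hcl (lat_mem_cl.2 (Or.inr ⟨c, hD'F hc, hcq⟩))
  refine hsep j hj q' (Finset.mem_sdiff.2 ⟨hq'V, fun h => hq' ?_⟩) q hqj hpath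
  rw [lat_mem_ball] at h hqj ⊢
  have h1 := plh_N_tri q' (dobC z m j) q
  rw [plh_N_sub_comm (dobC z m j) q] at h1
  have h2 : (κ + 1) * n = κ * n + n := by ring
  omega

theorem dob_free_feas {V Y : Type} [DecidableEq V] [DecidableEq Y] (S : ClSys V Y) : ClFeas S (clFree : ClCon V Y) where
  bpA := by simp [clFree]
  dis := by simp [clFree]
  opC := by simp [clFree]
  omC := by simp [clFree]
  op := by simp [clFree]
  om := by simp [clFree]
  cl := by simp [clFree]
  d1 := by simp [clFree]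
  d2 := by simp [clFree]
  d3 := by simp [clFree]

theorem dob_free_clear {V Y : Type} [DecidableEq V] [DecidableEq Y] (S : ClSys V Y) (s : Bool) (T : Finset V) :
    ClClear S s (clFree : ClCon V Y) T where
  pin := by simp [clFree]
  obs := by
    intro y _ hy
    simp [clFree] at hy
  eq := by simp [clFree]

/-- **(D3), cell form** -/
theorem dob_cell (x : ℝ) (hx0 : 0 < x) (hx1 : x ≤ 1) (s : Bool) (hT : DisT23 x s) :
    ∃ (κ₀ : ℝ) (r0 Cv : ℕ), 0 < κ₀ ∧ κ₀ ≤ 1 ∧ ∀ (V F : Finset TV) (z : TV) (r : ℕ), DisAmb V → latCl F ⊆ V → MomCo F →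
      latBall z (Cv * r + 2) ⊆ V → r0 ≤ r → ¬ latBall z (5 * r) ⊆ F →
      (clAmb x V).P (fun ω => V \ F ⊆ ω.B ∧ V \ F ⊆ ω.W) (fun ω => DobBad s (· ∈ ω.B) (· ∈ ω.W) F z r) ≤ 1 - κ₀ := by
  obtain ⟨κ, n₀, c, hκ, hc, H⟩ := dis_prim x hx0 hx1 s hT
  set K : ℤ := ((20 * (κ + 1) : ℕ) : ℤ) with hK
  set T : Finset (ℤ × ℤ) := Finset.Icc (-K) K ×ˢ Finset.Icc (-K) K with hTdef
  set c' : ℝ := min c 1 with hc'
  have hc'0 : 0 < c' := lt_min hc one_pos
  have hc'1 : c' ≤ 1 := min_le_right _ _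
  refine ⟨c' ^ T.card, (κ + 1) * (n₀ + 2), κ + 40 * (κ + 1), pow_pos hc'0 _, pow_le_one₀ hc'0.le hc'1, ?_⟩
  intro V F z r hV hcl hF hball hr hnF
  have hD : ClDisk (clAmb x V) := dis_amb_disk x hx0 hx1 V hV
  have hOk : ClOk (clAmb x V) := hD.toClOk
  -- the scales
  set n := r / (κ + 1) with hn
  set m := n / 2 with hm
  have hκ1 : 0 < κ + 1 := Nat.succ_pos κ
  have n1 : n₀ + 2 ≤ n := (Nat.le_div_iff_mul_le hκ1).2 (by rw [mul_comm]; exact hr)
  have n2 : (κ + 1) * n ≤ r := Nat.mul_div_le r (κ + 1)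
  have n3 : r < (κ + 1) * (n + 1) := Nat.lt_mul_div_succ r hκ1
  have m1 : 0 < m := by omega
  have m2 : 2 * m ≤ n := by omega
  have m3 : n + 1 ≤ 4 * m := by omega
  have hR : ((5 * r : ℕ) : ℤ) < K * m := by
    have h3 : (κ + 1) * (n + 1) ≤ (κ + 1) * (4 * m) := Nat.mul_le_mul_left _ m3
    have h4 : 5 * r < 20 * (κ + 1) * m := by
      calc 5 * r < 5 * ((κ + 1) * (4 * m)) := by omega
        _ = 20 * (κ + 1) * m := by ring
    rw [hK]
    exact_mod_cast h4
  have hnr : n ≤ r := by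
    calc n = 1 * n := (one_mul n).symm
      _ ≤ (κ + 1) * n := Nat.mul_le_mul_right _ (by omega)
      _ ≤ r := n2
  -- free law
  have hZf : 0 < (clAmb x V).Z ((clFree : ClCon TV TV).Holds (clAmb x V)) :=
    dis_feas _ hOk _ (dob_free_legal _) (dob_free_feas _)
  have hprim : ∀ j ∈ T, c' * (clAmb x V).Z ((clFree : ClCon TV TV).Holds (clAmb x V)) ≤
      (clAmb x V).N ((clFree : ClCon TV TV).Holds (clAmb x V))
        (clInd fun ω => ClSep (clAmb x V) s ∅ ω (V \ latBall (dobC z m j) (κ * n)) (latBall (dobC z m j) n)) := by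
    intro j hj
    have hsub : latBall (dobC z m j) (κ * n + 2) ⊆ V := by
      refine (plh_ball_sub_ball ?_).trans hball
      have h1 := dob_centre_N z m hj
      have h2 : latN (dobC z m j - z) ≤ 2 * (20 * (κ + 1)) * m := by
        rw [hK] at h1
        exact_mod_cast h1
      have h3 : 2 * (20 * (κ + 1)) * m ≤ 2 * (20 * (κ + 1)) * r := Nat.mul_le_mul_left _ (by omega)
      have h4 : κ * n ≤ κ * r := Nat.mul_le_mul_left _ hnr
      have h5 : (κ + 40 * (κ + 1)) * r = κ * r + 2 * (20 * (κ + 1)) * r := by ring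
      omega
    have h := H V hV clFree (dob_free_legal _) hZf (dobC z m j) n (by omega) hsub (dob_free_clear _ s _)
    rw [dis_P_eq, le_div_iff₀ hZf] at h
    refine le_trans (mul_le_mul_of_nonneg_right (min_le_left _ _) hZf.le) h
  have hfkg := dis_fkg_fin (clAmb x V) hD clFree (dob_free_legal _) hZf s T
    (L := fun j ω => ClSep (clAmb x V) s ∅ ω (V \ latBall (dobC z m j) (κ * n)) (latBall (dobC z m j) n))
    (fun j _ => dis_sep_up _ s ∅ _ _) hc'0.le hprim
  have habs := dob_abs (clAmb x V) hD s (V \ F) Finset.sdiff_subset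
    (fun ω => DobBad s (· ∈ ω.B) (· ∈ ω.W) F z r) (DobIn F z r)
    (fun ω => ∀ j ∈ T, ClSep (clAmb x V) s ∅ ω (V \ latBall (dobC z m j) (κ * n)) (latBall (dobC z m j) n))
    (fun I => dob_in_loc F z r I _)
    (fun ω _ hw hb => dob_bad_in x hx0 hx1 s V F z r hcl ω hw hb)
    (dis_up_all T fun j _ => dis_sep_up _ s ∅ _ _)
    (fun I ω _ hw hb => dob_in_arm x s V F z r n m κ K hcl hF hnF m1 (by omega) hR n2 I ω hw hb)
    (c' ^ T.card) (pow_le_one₀ hc'0.le hc'1) hfkg
  have e : (fun ω : ClCfg TV TV => V \ F ⊆ ω.B ∧ V \ F ⊆ ω.W) = (dobK0 (V \ F) : ClCon TV TV).Holds (clAmb x V) := by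
    funext ω
    exact propext (dob_K0_holds _ _ ω).symm
  rw [e, dis_P_eq]
  rcases (dis_Z_nonneg (clAmb x V) hOk ((dobK0 (V \ F) : ClCon TV TV).Holds (clAmb x V))).eq_or_lt with h0 | h0
  · rw [← h0, div_zero]
    have := pow_le_one₀ hc'0.le hc'1 (n := T.card)
    linarith
  · rw [div_le_iff₀ h0]
    exact habs

/-- the equation lemmas of the definitions of this file are generated HERE -/
theorem dob_defs_eqns_cite : True := by
  have := @DobBW.eq_1
  have := @DobWW.eq_1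
  have := @DobBad1.eq_1
  have := @DobBad.eq_1
  have := @dobC.eq_1
  have := @dobK0.eq_1
  have := @DobIn.eq_1
  trivial

end Claimed.Agent.R291
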