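import Claimed.Agent.R291.Dis.RarePl
import Claimed.Agent.R291.Dis.PinBr

/-!
# Row 291 (S0539), Dis/RareHt : SEPARATED RARE PINS, HEIGHT-ONLY FORM      (owner helper90, with helper130; prefix `drh_`, defs `Drh…`/`drh…`)

TEX[prop:rare-pins] (discrete:rare-pins), as consumed by PIN at TEX (pins:multiplicative).   Product: `drh_main` = body of `exit_dis_rare` (contract of helper34, Exit/DisRare.lean).
INPUTS: `dis_rare` (130, Dis/RarePl: cell form, plus labels), `drr_lab` (13: label cost), `dis_plane_flipB/flipW/swap`, `dis_plane_lim` (146), the bridge `dbr_pl`, `dbr_main` (267, Dis/PinBr).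

PROOF.   `ν := clPlane x`.   For `c : Fin 4` let `DrhEv c G D` = the Gray rotation by `c` of the spin event `B = +` on `G`, `W = +` on `D`  (heights `≡ c, c+1` on `G`, `≡ c` on `D`):
   `c = 0`: `B = +` on `G`, `W = +` on `D`;   `c = 1`: `B = +` on `D`, `W = -` on `G`;   `c = 2`: `B = -` on `G`, `W = -` on `D`;   `c = 3`: `B = -` on `D`, `W = +` on `G`.
(H) heights:  for a Lipschitz `h` and a pinned group (`PinOb`):  `PinLoc G D (h - c) ↔ DrhEv c G D (Gray h)`;   `1{∀ i, PinGr_i} = ∑_{κ : Fin k → Fin 4} 1{∀ i, PinLoc_i (h - κ i)}`.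
(C1) labels of mixed signs:  `ν(∀ i, DrhEv (κ i)) ≤ 2^k ν(∀ i, DrpEv (Bp, Bm, Q)(κ i))`   (the same pins, ALL labels plus): `W` constant on the connected `Q i`, then `drr_lab`; finite volume, then `dis_plane_lim`.
(C2) symmetries:  `ν(DrhEv c G D) = ν(DrpEv (Bp, Bm, Q) c) = ν(DrpEv G ∅ D)`.
(up)  `htPl 1{∀ i PinGr_i} = ∑_κ ν(∀ i DrhEv (κ i)) ≤ 4^k 2^k C ∏ ν(P_i)`, `htPl 1{PinGr_i} = 4 ν(P_i)`.      (lo)  `pinPer 1{∀ i PinLoc_i} = ν(∀ i P_i) ≥ c ∏ ν(P_i)`.
-/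

set_option autoImplicit false
set_option linter.unusedSectionVars false

namespace Claimed.Agent.R291

open Claims Claims.C0467 Filter Topology

/-! ### 1. the rotated events -/

/-- first spin plus -/
def drhBp (c : Fin 4) (G D : Finset TV) : Finset TV := if c.val = 0 then G else if c.val = 1 then D else ∅

/-- first spin minus -/
def drhBm (c : Fin 4) (G D : Finset TV) : Finset TV := if c.val = 2 then G else if c.val = 3 then D else ∅

/-- the labelled set -/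
def drhQ (c : Fin 4) (G D : Finset TV) : Finset TV := if c.val = 0 ∨ c.val = 2 then D else G

/-- the Gray rotation by `c` of the spin event `B = +` on `G`, `W = +` on `D` -/
def DrhEv (c : Fin 4) (G D : Finset TV) (ω : ClCfg TV TV) : Prop :=
  drhBp c G D ⊆ ω.B ∧ (∀ v ∈ drhBm c G D, v ∉ ω.B) ∧
    if c.val = 0 ∨ c.val = 3 then drhQ c G D ⊆ ω.W else ∀ v ∈ drhQ c G D, v ∉ ω.W

/-- the same pins with a PLUS label -/
def DrhEp (c : Fin 4) (G D : Finset TV) (ω : ClCfg TV TV) : Prop := DrpEv (drhBp c G D) (drhBm c G D) (drhQ c G D) ω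

theorem drh_eqns_cite : True := by
  have := @drhBp.eq_1
  have := @drhBm.eq_1
  have := @drhQ.eq_1
  have := @DrhEv.eq_1
  have := @DrhEp.eq_1
  trivial

/-! explicit forms (90) -/

theorem drh_ev_zero (G D : Finset TV) (ω : ClCfg TV TV) : DrhEv 0 G D ω ↔ G ⊆ ω.B ∧ D ⊆ ω.W := by
  simp [DrhEv, drhBp, drhBm, drhQ, -Prod.forall]

theorem drh_ev_one (G D : Finset TV) (ω : ClCfg TV TV) : DrhEv 1 G D ω ↔ D ⊆ ω.B ∧ ∀ v ∈ G, v ∉ ω.W := by
  simp [DrhEv, drhBp, drhBm, drhQ, -Prod.forall]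

theorem drh_ev_two (G D : Finset TV) (ω : ClCfg TV TV) : DrhEv 2 G D ω ↔ (∀ v ∈ G, v ∉ ω.B) ∧ ∀ v ∈ D, v ∉ ω.W := by
  simp [DrhEv, drhBp, drhBm, drhQ, -Prod.forall]

theorem drh_ev_three (G D : Finset TV) (ω : ClCfg TV TV) : DrhEv 3 G D ω ↔ (∀ v ∈ D, v ∉ ω.B) ∧ G ⊆ ω.W := by
  simp [DrhEv, drhBp, drhBm, drhQ, -Prod.forall]

theorem drh_ep_zero (G D : Finset TV) (ω : ClCfg TV TV) : DrhEp 0 G D ω ↔ G ⊆ ω.B ∧ D ⊆ ω.W := by
  simp [DrhEp, DrpEv, drhBp, drhBm, drhQ, -Prod.forall]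

theorem drh_ep_one (G D : Finset TV) (ω : ClCfg TV TV) : DrhEp 1 G D ω ↔ D ⊆ ω.B ∧ G ⊆ ω.W := by
  simp [DrhEp, DrpEv, drhBp, drhBm, drhQ, -Prod.forall]

theorem drh_ep_two (G D : Finset TV) (ω : ClCfg TV TV) : DrhEp 2 G D ω ↔ (∀ v ∈ G, v ∉ ω.B) ∧ D ⊆ ω.W := by
  simp [DrhEp, DrpEv, drhBp, drhBm, drhQ, -Prod.forall]

theorem drh_ep_three (G D : Finset TV) (ω : ClCfg TV TV) : DrhEp 3 G D ω ↔ (∀ v ∈ D, v ∉ ω.B) ∧ G ⊆ ω.W := by
  simp [DrhEp, DrpEv, drhBp, drhBm, drhQ, -Prod.forall]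

/-! ### 2. CELL SIDE   (130) -/

theorem drh_Bp_sub {G D : Finset TV} (hs : D ⊆ G) (c : Fin 4) : drhBp c G D ⊆ G := by
  unfold drhBp
  split_ifs <;> simp [hs]

theorem drh_Bm_sub {G D : Finset TV} (hs : D ⊆ G) (c : Fin 4) : drhBm c G D ⊆ G := by
  unfold drhBm
  split_ifs <;> simp [hs]

theorem drh_Q_sub {G D : Finset TV} (hs : D ⊆ G) (c : Fin 4) : drhQ c G D ⊆ G := by
  unfold drhQ
  split_ifs <;> simp [hs]

theorem drh_Q_conn {G D : Finset TV} (h : PinOb G D) (c : Fin 4) : TscConn tscG (↑(drhQ c G D) : Set TV) := by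
  unfold drhQ
  split_ifs
  · exact h.connD
  · exact h.connG

theorem drh_B_disj (c : Fin 4) (G D : Finset TV) : Disjoint (drhBp c G D) (drhBm c G D) := by
  unfold drhBp drhBm
  split_ifs <;> first | omega | simp

/-- the pins of the rotated event are admissible -/
theorem drh_pin {G D : Finset TV} (h : PinOb G D) (c : Fin 4) : DrpPin G (drhBp c G D) (drhBm c G D) (drhQ c G D) 1 :=
  ⟨drh_Bp_sub h.sub c, drh_Bm_sub h.sub c, [drhQ c G D], le_rfl, fun C hC => by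
    rw [List.mem_singleton] at hC
    subst hC
    exact ⟨drh_Q_sub h.sub c, drh_Q_conn h c⟩, by simp⟩

/-- the rotated events read the spins on the group only -/
theorem drh_ev_congr {G D T : Finset TV} (hG : G ⊆ T) (hs : D ⊆ G) (c : Fin 4) {ω ω' : ClCfg TV TV} (hB : ω.B ∩ T = ω'.B ∩ T)
    (hW : ω.W ∩ T = ω'.W ∩ T) : DrhEv c G D ω ↔ DrhEv c G D ω' := by
  have mB : ∀ v ∈ G, (v ∈ ω.B ↔ v ∈ ω'.B) := fun v hv => dcu_mem_of_inter hB (hG hv)
  have mW : ∀ v ∈ G, (v ∈ ω.W ↔ v ∈ ω'.W) := fun v hv => dcu_mem_of_inter hW (hG hv)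
  have s1 : ∀ A : Finset TV, A ⊆ G → (A ⊆ ω.B ↔ A ⊆ ω'.B) := fun A hA =>
    ⟨fun h v hv => (mB v (hA hv)).1 (h hv), fun h v hv => (mB v (hA hv)).2 (h hv)⟩
  have s2 : ∀ A : Finset TV, A ⊆ G → (A ⊆ ω.W ↔ A ⊆ ω'.W) := fun A hA =>
    ⟨fun h v hv => (mW v (hA hv)).1 (h hv), fun h v hv => (mW v (hA hv)).2 (h hv)⟩
  have n1 : ∀ A : Finset TV, A ⊆ G → ((∀ v ∈ A, v ∉ ω.B) ↔ ∀ v ∈ A, v ∉ ω'.B) := fun A hA =>
    ⟨fun h v hv hm => h v hv ((mB v (hA hv)).2 hm), fun h v hv hm => h v hv ((mB v (hA hv)).1 hm)⟩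
  have n2 : ∀ A : Finset TV, A ⊆ G → ((∀ v ∈ A, v ∉ ω.W) ↔ ∀ v ∈ A, v ∉ ω'.W) := fun A hA =>
    ⟨fun h v hv hm => h v hv ((mW v (hA hv)).2 hm), fun h v hv hm => h v hv ((mW v (hA hv)).1 hm)⟩
  unfold DrhEv
  rw [s1 _ (drh_Bp_sub hs c), n1 _ (drh_Bm_sub hs c), s2 _ (drh_Q_sub hs c), n2 _ (drh_Q_sub hs c)]

theorem drh_ev_loc1 {G D : Finset TV} (hs : D ⊆ G) (c : Fin 4) : ClLoc G (∅ : Finset TV) (clInd (DrhEv c G D)) :=
  fun _ _ hB hW _ => drp_ind_congr (drh_ev_congr subset_rfl hs c hB hW)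

/-- the rotated events are local -/
theorem drh_ev_loc {k : ℕ} (G D : Fin k → Finset TV) (hs : ∀ i, D i ⊆ G i) (κ : Fin k → Fin 4) :
    ClLoc (Finset.univ.biUnion G) (∅ : Finset TV) (clInd fun ω => ∀ i, DrhEv (κ i) (G i) (D i) ω) :=
  fun _ _ hB hW _ => drp_ind_congr (forall_congr' fun i =>
    drh_ev_congr (Finset.subset_biUnion_of_mem G (Finset.mem_univ i)) (hs i) (κ i) hB hW)

/-- the rotated event: `W` is constant on the labelled set -/
theorem drh_ev_const {c : Fin 4} {G D : Finset TV} {ω : ClCfg TV TV} (h : DrhEv c G D ω) {u v : TV} (hu : u ∈ drhQ c G D)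
    (hv : v ∈ drhQ c G D) : u ∈ ω.W ↔ v ∈ ω.W := by
  have h3 := h.2.2
  split_ifs at h3
  · exact ⟨fun _ => h3 hv, fun _ => h3 hu⟩
  · exact ⟨fun h4 => absurd h4 (h3 u hu), fun h4 => absurd h4 (h3 v hv)⟩

/-- (C1), finite volume: labels of mixed signs cost at most `2^k`.   PLAN: `drr_Z_mono` to `drrC P M (⋃ Eq) ∅` (`W` is constant on `Q i`), then `drr_lab` with `o i = ⟨G i, G i, G i, Bp, Bm, [Q]⟩` (`drp_conn`). -/
theorem drh_lab_fin (x : ℝ) (hx0 : 0 < x) (hx1 : x ≤ 1) {k : ℕ} (G D : Fin k → Finset TV) (hob : ∀ i, PinOb (G i) (D i))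
    (κ : Fin k → Fin 4) (V : Finset TV) (hV : ∀ i, G i ⊆ V) :
    (clAmb x V).E (fun _ => True) (clInd fun ω => ∀ i, DrhEv (κ i) (G i) (D i) ω)
      ≤ 2 ^ k * (clAmb x V).E (fun _ => True) (clInd fun ω => ∀ i, DrhEp (κ i) (G i) (D i) ω) := by
  classical
  set S := clAmb x V with hS
  have hOk : ClOk S := pcp_amb_ok x hx0 hx1 V
  set o : Fin k → ClObs TV := fun i => ⟨G i, G i, G i, drhBp (κ i) (G i) (D i), drhBm (κ i) (G i) (D i), [drhQ (κ i) (G i) (D i)]⟩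
    with ho
  have hQ : ∀ i, (o i).Q = drhQ (κ i) (G i) (D i) := fun i => by simp [ClObs.Q, ho]
  have hO : ∀ i, (o i).Ok S := fun i =>
    ⟨drh_Bp_sub (hob i).sub _, drh_Bm_sub (hob i).sub _, drh_B_disj _ _ _, fun C hC => by
      rw [List.mem_singleton.1 hC]
      exact drh_Q_sub (hob i).sub _, fun C hC => by
      rw [List.mem_singleton.1 hC]
      exact drp_conn x ((drh_Q_sub (hob i).sub _).trans (hV i)) (drh_Q_conn (hob i) _)⟩
  have hA : ∀ i, (o i).Ko ⊆ S.A := fun i => hV i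
  set P := Finset.univ.biUnion fun i => drhBp (κ i) (G i) (D i) with hP
  set M := Finset.univ.biUnion fun i => drhBm (κ i) (G i) (D i) with hM
  have hlab := (drr_lab S hOk o hO hA P M Finset.univ).2
  have hlen : ∑ i ∈ (Finset.univ : Finset (Fin k)), (o i).Cs.length = k := by simp [ho]
  rw [hlen] at hlab
  have h1 : S.Z (fun ω => True ∧ ∀ i, DrhEv (κ i) (G i) (D i) ω)
      ≤ S.Z ((drrC P M (Finset.univ.biUnion fun i => (o i).Eq S) ∅).Holds S) := by
    refine drr_Z_mono S hOk fun ω hω => ?_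
    rw [drr_holds_C]
    refine ⟨fun v hv => ?_, fun v hv => ?_, fun e he => ?_, Finset.empty_subset _⟩
    · obtain ⟨i, _, hi⟩ := Finset.mem_biUnion.1 hv
      exact (hω.2 i).1 hi
    · obtain ⟨i, _, hi⟩ := Finset.mem_biUnion.1 hv
      exact (hω.2 i).2.1 v hi
    · obtain ⟨i, _, hi⟩ := Finset.mem_biUnion.1 he
      obtain ⟨⟨C, hC, a, b⟩, _⟩ := (drr_mem_Eq _ _ _).1 hi
      have hC' : C = drhQ (κ i) (G i) (D i) := List.mem_singleton.1 hC
      rw [hC'] at a b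
      exact drh_ev_const (hω.2 i) a b
  have h2 : S.Z ((drrC P M ∅ (Finset.univ.biUnion fun i => (o i).Q)).Holds S)
      = S.Z (fun ω => True ∧ ∀ i, DrhEp (κ i) (G i) (D i) ω) := by
    refine drr_Z_congr S fun ω => ?_
    rw [drr_holds_C]
    constructor
    · rintro ⟨a, b, _, d⟩
      refine ⟨trivial, fun i => ⟨fun v hv => a (Finset.mem_biUnion.2 ⟨i, Finset.mem_univ _, hv⟩),
        fun v hv => b v (Finset.mem_biUnion.2 ⟨i, Finset.mem_univ _, hv⟩),
        fun v hv => d (Finset.mem_biUnion.2 ⟨i, Finset.mem_univ _, by rw [hQ]; exact hv⟩)⟩⟩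
    · rintro ⟨_, h⟩
      refine ⟨fun v hv => ?_, fun v hv => ?_, by simp, fun v hv => ?_⟩
      · obtain ⟨i, _, hi⟩ := Finset.mem_biUnion.1 hv
        exact (h i).1 hi
      · obtain ⟨i, _, hi⟩ := Finset.mem_biUnion.1 hv
        exact (h i).2.1 v hi
      · obtain ⟨i, _, hi⟩ := Finset.mem_biUnion.1 hv
        rw [hQ] at hi
        exact (h i).2.2 hi
  rw [dis_E_eq, dis_E_eq, drr_N_ind, drr_N_ind, ← mul_div_assoc]
  refine div_le_div_of_nonneg_right ?_ (dis_Z_nonneg S hOk _)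
  rw [← h2]
  exact h1.trans hlab

theorem drh_ep_all_loc {k : ℕ} (G D : Fin k → Finset TV) (hs : ∀ i, D i ⊆ G i) (κ : Fin k → Fin 4) :
    ClLoc (Finset.univ.biUnion G) (∅ : Finset TV) (clInd fun ω => ∀ i, DrhEp (κ i) (G i) (D i) ω) := by
  refine drp_all_loc (fun i => ?_) ∅
  have h1 : G i ⊆ Finset.univ.biUnion G := Finset.subset_biUnion_of_mem G (Finset.mem_univ i)
  exact Finset.union_subset (Finset.union_subset ((drh_Bp_sub (hs i) _).trans h1) ((drh_Bm_sub (hs i) _).trans h1))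
    ((drh_Q_sub (hs i) _).trans h1)

/-- (C1), plane -/
theorem drh_lab (x : ℝ) (hx0 : 0 < x) (hx1 : x ≤ 1) (hT : DisT23 x true) {k : ℕ} (G D : Fin k → Finset TV)
    (hob : ∀ i, PinOb (G i) (D i)) (κ : Fin k → Fin 4) :
    clPlane x (clInd fun ω => ∀ i, DrhEv (κ i) (G i) (D i) ω) ≤ 2 ^ k * clPlane x (clInd fun ω => ∀ i, DrhEp (κ i) (G i) (D i) ω) := by
  have t1 := dis_plane_lim x hx0 hx1 hT _ ∅ _ (drh_ev_loc G D (fun i => (hob i).sub) κ)
  have t2 := (dis_plane_lim x hx0 hx1 hT _ ∅ _ (drh_ep_all_loc G D (fun i => (hob i).sub) κ)).const_mul (2 ^ k)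
  refine le_of_tendsto_of_tendsto t1 t2 ((dsy_sub_ball (Finset.univ.biUnion G)).mono fun R hR => ?_)
  exact drh_lab_fin x hx0 hx1 G D hob κ _ fun i => (Finset.subset_biUnion_of_mem G (Finset.mem_univ i)).trans hR

/-- the plus-labelled rotated pins read the spins on the group only -/
theorem drh_ep_loc {G D : Finset TV} (hs : D ⊆ G) (c : Fin 4) : ClLoc G (∅ : Finset TV) (clInd (DrhEp c G D)) := by
  refine drp_ev_loc ?_ ∅
  unfold drhBp drhBm drhQ
  split_ifs <;> simp [hs, Finset.union_subset_iff]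

theorem drh_ind_congr2 {L L' : ClCfg TV TV → Prop} {ω ω' : ClCfg TV TV} (h : L ω ↔ L' ω') : clInd L ω = clInd L' ω' := by
  by_cases h1 : L ω
  · rw [dis_ind_pos h1, dis_ind_pos (h.1 h1)]
  · rw [dis_ind_neg h1, dis_ind_neg fun h2 => h1 (h.2 h2)]

theorem drh_plane_congr (x : ℝ) {L L' : ClCfg TV TV → Prop} (h : ∀ ω, L ω ↔ L' ω) :
    clPlane x (clInd L) = clPlane x (clInd L') := by
  have : clInd L = clInd L' := funext fun ω => drh_ind_congr2 (h ω)
  rw [this]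

theorem drh_sub_sdiff {A G X : Finset TV} (h : A ⊆ G) : A ⊆ G \ X ↔ ∀ v ∈ A, v ∉ X := by
  constructor
  · intro h1 v hv
    exact (Finset.mem_sdiff.1 (h1 hv)).2
  · intro h1 v hv
    exact Finset.mem_sdiff.2 ⟨h hv, h1 v hv⟩

theorem drh_sym_p1 (x : ℝ) (hx0 : 0 < x) (hx1 : x ≤ 1) (hT : DisT23 x true) {G D : Finset TV} (hs : D ⊆ G) :
    clPlane x (clInd (DrhEp 1 G D)) = clPlane x (clInd (DrhEp 0 G D)) := by
  rw [← dis_plane_swap x hx0 hx1 hT G _ (drh_ep_loc hs 0)]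
  have : (fun ω : ClCfg TV TV => clInd (DrhEp 0 G D) ⟨ω.W, ω.B, ∅⟩) = clInd (DrhEp 1 G D) := by
    funext ω
    refine drh_ind_congr2 ?_
    rw [drh_ep_zero, drh_ep_one]
    exact and_comm
  rw [this]

/-- (C2) the plus-labelled rotated pins have the probability of the original pin.   PLAN: `dis_plane_swap`, `dis_plane_flipB` with `T = G`. -/
theorem drh_sym_p (x : ℝ) (hx0 : 0 < x) (hx1 : x ≤ 1) (hT : DisT23 x true) {G D : Finset TV} (hs : D ⊆ G) (c : Fin 4) :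
    clPlane x (clInd (DrhEp c G D)) = clPlane x (clInd (DrpEv G ∅ D)) := by
  have e0 : clPlane x (clInd (DrhEp 0 G D)) = clPlane x (clInd (DrpEv G ∅ D)) := by
    refine drh_plane_congr x fun ω => ?_
    rw [drh_ep_zero]
    simp [DrpEv, -Prod.forall]
  fin_cases c
  · exact e0
  · exact (drh_sym_p1 x hx0 hx1 hT hs).trans e0
  · show clPlane x (clInd (DrhEp 2 G D)) = _
    rw [← e0, ← dis_plane_flipB x hx0 hx1 hT G ∅ _ (drh_ep_loc hs 0)]
    have : (fun ω : ClCfg TV TV => clInd (DrhEp 0 G D) ⟨G \ ω.B, ω.W, ω.O⟩) = clInd (DrhEp 2 G D) := by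
      funext ω
      refine drh_ind_congr2 ?_
      rw [drh_ep_zero, drh_ep_two, drh_sub_sdiff subset_rfl]
    rw [this]
  · show clPlane x (clInd (DrhEp 3 G D)) = _
    rw [← e0, ← drh_sym_p1 x hx0 hx1 hT hs, ← dis_plane_flipB x hx0 hx1 hT G ∅ _ (drh_ep_loc hs 1)]
    have : (fun ω : ClCfg TV TV => clInd (DrhEp 1 G D) ⟨G \ ω.B, ω.W, ω.O⟩) = clInd (DrhEp 3 G D) := by
      funext ω
      refine drh_ind_congr2 ?_
      rw [drh_ep_one, drh_ep_three, drh_sub_sdiff hs]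
    rw [this]

/-- (C2) the rotated events have the probability of the original pin.   PLAN: `dis_plane_flipW` with `T = G` on `drh_sym_p`. -/
theorem drh_sym (x : ℝ) (hx0 : 0 < x) (hx1 : x ≤ 1) (hT : DisT23 x true) {G D : Finset TV} (hs : D ⊆ G) (c : Fin 4) :
    clPlane x (clInd (DrhEv c G D)) = clPlane x (clInd (DrpEv G ∅ D)) := by
  rw [← drh_sym_p x hx0 hx1 hT hs c]
  fin_cases c
  · refine drh_plane_congr x fun ω => ?_
    show DrhEv 0 G D ω ↔ DrhEp 0 G D ω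
    rw [drh_ev_zero, drh_ep_zero]
  · show clPlane x (clInd (DrhEv 1 G D)) = clPlane x (clInd (DrhEp 1 G D))
    rw [← dis_plane_flipW x hx0 hx1 hT G ∅ _ (drh_ep_loc hs 1)]
    have : (fun ω : ClCfg TV TV => clInd (DrhEp 1 G D) ⟨ω.B, G \ ω.W, ω.O⟩) = clInd (DrhEv 1 G D) := by
      funext ω
      refine drh_ind_congr2 ?_
      rw [drh_ep_one, drh_ev_one, drh_sub_sdiff subset_rfl]
    rw [this]
  · show clPlane x (clInd (DrhEv 2 G D)) = clPlane x (clInd (DrhEp 2 G D))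
    rw [← dis_plane_flipW x hx0 hx1 hT G ∅ _ (drh_ep_loc hs 2)]
    have : (fun ω : ClCfg TV TV => clInd (DrhEp 2 G D) ⟨ω.B, G \ ω.W, ω.O⟩) = clInd (DrhEv 2 G D) := by
      funext ω
      refine drh_ind_congr2 ?_
      rw [drh_ep_two, drh_ev_two, drh_sub_sdiff hs]
    rw [this]
  · refine drh_plane_congr x fun ω => ?_
    show DrhEv 3 G D ω ↔ DrhEp 3 G D ω
    rw [drh_ev_three, drh_ep_three]

theorem drh_E_sum {α : Type} (S : ClSys TV TV) (K : ClCfg TV TV → Prop) (s : Finset α) (F : α → ClCfg TV TV → ℝ) :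
    S.E K (fun ω => ∑ a ∈ s, F a ω) = ∑ a ∈ s, S.E K (F a) := by
  classical
  simp only [dis_E_eq]
  rw [← Finset.sum_div]
  congr 1
  induction s using Finset.induction_on with
  | empty =>
    simp only [Finset.sum_empty]
    unfold ClSys.N
    simp
  | insert a s ha ih =>
    simp only [Finset.sum_insert ha]
    rw [dis_N_add, ih]

/-- the plane law is additive on finite sums of local observables -/
theorem drh_plane_sum (x : ℝ) (hx0 : 0 < x) (hx1 : x ≤ 1) (hT : DisT23 x true) {α : Type} (s : Finset α) (T : Finset TV)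
    (F : α → ClCfg TV TV → ℝ) (hF : ∀ a ∈ s, ClLoc T ∅ (F a)) :
    clPlane x (fun ω => ∑ a ∈ s, F a ω) = ∑ a ∈ s, clPlane x (F a) := by
  refine dpl_plane_eq ?_
  simp only [drh_E_sum]
  exact tendsto_finsetSum _ fun a ha => dis_plane_lim x hx0 hx1 hT T ∅ (F a) (hF a ha)

/-! ### 3. HEIGHT SIDE   (90) -/

/-- the Gray code of a height: membership -/
theorem drh_mem_B {Q : Finset TV} {h : TV → ℤ} {u : TV} (hu : u ∈ Q) : u ∈ htB Q h ↔ h u % 4 = 0 ∨ h u % 4 = 1 := by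
  simp [htB, hu]

theorem drh_mem_W {Q : Finset TV} {h : TV → ℤ} {u : TV} (hu : u ∈ Q) : u ∈ htW Q h ↔ h u % 4 = 0 ∨ h u % 4 = 3 := by
  simp [htW, hu]

/-- the rotated event on a Gray code, in residues -/
theorem drh_ev_res {Q G D : Finset TV} (hG : G ⊆ Q) (hs : D ⊆ G) (c : Fin 4) (h : TV → ℤ) :
    DrhEv c G D ⟨htB Q h, htW Q h, ∅⟩ ↔
      (∀ u ∈ G, (h u - (c.val : ℤ)) % 4 = 0 ∨ (h u - (c.val : ℤ)) % 4 = 1) ∧ ∀ u ∈ D, (h u - (c.val : ℤ)) % 4 = 0 := by
  have mB : ∀ u ∈ G, (u ∈ htB Q h ↔ h u % 4 = 0 ∨ h u % 4 = 1) := fun u hu => drh_mem_B (hG hu)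
  have mW : ∀ u ∈ G, (u ∈ htW Q h ↔ h u % 4 = 0 ∨ h u % 4 = 3) := fun u hu => drh_mem_W (hG hu)
  fin_cases c
  · show DrhEv 0 G D _ ↔ (∀ u ∈ G, (h u - ((0 : ℕ) : ℤ)) % 4 = 0 ∨ (h u - ((0 : ℕ) : ℤ)) % 4 = 1) ∧
      ∀ u ∈ D, (h u - ((0 : ℕ) : ℤ)) % 4 = 0
    rw [drh_ev_zero]
    constructor
    · rintro ⟨a, b⟩
      refine ⟨fun u hu => ?_, fun u hu => ?_⟩
      · have h1 := (mB u hu).1 (a hu)
        omega
      · have h1 := (mB u (hs hu)).1 (a (hs hu))
        have h2 := (mW u (hs hu)).1 (b hu)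
        omega
    · rintro ⟨a, b⟩
      refine ⟨fun u hu => (mB u hu).2 ?_, fun u hu => (mW u (hs hu)).2 ?_⟩
      · have := a u hu
        omega
      · have := b u hu
        omega
  · show DrhEv 1 G D _ ↔ (∀ u ∈ G, (h u - ((1 : ℕ) : ℤ)) % 4 = 0 ∨ (h u - ((1 : ℕ) : ℤ)) % 4 = 1) ∧
      ∀ u ∈ D, (h u - ((1 : ℕ) : ℤ)) % 4 = 0
    rw [drh_ev_one]
    constructor
    · rintro ⟨a, b⟩
      refine ⟨fun u hu => ?_, fun u hu => ?_⟩
      · have h2 : ¬ (h u % 4 = 0 ∨ h u % 4 = 3) := fun hh => b u hu ((mW u hu).2 hh)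
        omega
      · have h1 := (mB u (hs hu)).1 (a hu)
        have h2 : ¬ (h u % 4 = 0 ∨ h u % 4 = 3) := fun hh => b u (hs hu) ((mW u (hs hu)).2 hh)
        omega
    · rintro ⟨a, b⟩
      refine ⟨fun u hu => (mB u (hs hu)).2 ?_, fun u hu hh => ?_⟩
      · have := b u hu
        omega
      · have h1 := (mW u hu).1 hh
        have := a u hu
        omega
  · show DrhEv 2 G D _ ↔ (∀ u ∈ G, (h u - ((2 : ℕ) : ℤ)) % 4 = 0 ∨ (h u - ((2 : ℕ) : ℤ)) % 4 = 1) ∧
      ∀ u ∈ D, (h u - ((2 : ℕ) : ℤ)) % 4 = 0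
    rw [drh_ev_two]
    constructor
    · rintro ⟨a, b⟩
      refine ⟨fun u hu => ?_, fun u hu => ?_⟩
      · have h2 : ¬ (h u % 4 = 0 ∨ h u % 4 = 1) := fun hh => a u hu ((mB u hu).2 hh)
        omega
      · have h1 : ¬ (h u % 4 = 0 ∨ h u % 4 = 1) := fun hh => a u (hs hu) ((mB u (hs hu)).2 hh)
        have h2 : ¬ (h u % 4 = 0 ∨ h u % 4 = 3) := fun hh => b u hu ((mW u (hs hu)).2 hh)
        omega
    · rintro ⟨a, b⟩
      refine ⟨fun u hu hh => ?_, fun u hu hh => ?_⟩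
      · have h1 := (mB u hu).1 hh
        have := a u hu
        omega
      · have h1 := (mW u (hs hu)).1 hh
        have := b u hu
        omega
  · show DrhEv 3 G D _ ↔ (∀ u ∈ G, (h u - ((3 : ℕ) : ℤ)) % 4 = 0 ∨ (h u - ((3 : ℕ) : ℤ)) % 4 = 1) ∧
      ∀ u ∈ D, (h u - ((3 : ℕ) : ℤ)) % 4 = 0
    rw [drh_ev_three]
    constructor
    · rintro ⟨a, b⟩
      refine ⟨fun u hu => ?_, fun u hu => ?_⟩
      · have h2 := (mW u hu).1 (b hu)
        omega
      · have h1 : ¬ (h u % 4 = 0 ∨ h u % 4 = 1) := fun hh => a u hu ((mB u (hs hu)).2 hh)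
        have h2 := (mW u (hs hu)).1 (b (hs hu))
        omega
    · rintro ⟨a, b⟩
      refine ⟨fun u hu hh => ?_, fun u hu => (mW u hu).2 ?_⟩
      · have h1 := (mB u (hs hu)).1 hh
        have := b u hu
        omega
      · have := a u hu
        omega

/-- on a connected group a Lipschitz height with the residues of the pin is pinned up to a shift in `4ℤ` -/
theorem drh_loc_res {G D : Finset TV} (hob : PinOb G D) {h : TV → ℤ} (hh : DbrLip h) (c : ℤ) :
    PinLoc G D (fun u => h u - c) ↔ (∀ u ∈ G, (h u - c) % 4 = 0 ∨ (h u - c) % 4 = 1) ∧ ∀ u ∈ D, (h u - c) % 4 = 0 := by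
  constructor
  · rintro ⟨t, a, b⟩
    refine ⟨fun u hu => ?_, fun u hu => ?_⟩
    · have := a u hu
      simp only at this
      omega
    · have := b u hu
      simp only at this
      omega
  · rintro ⟨a, b⟩
    obtain ⟨d, hd⟩ := hob.ne
    have hdG : d ∈ G := hob.sub hd
    have hd0 := b d hd
    set t : ℤ := (h d - c) / 4 with ht
    have key : ∀ u, TscR tscG (↑G : Set TV) d u → h u - c - 4 * t = 0 ∨ h u - c - 4 * t = 1 := by
      intro u hu
      induction hu with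
      | refl => left; omega
      | @tail p q _ hst ih =>
        obtain ⟨hadj, _, hq⟩ := hst
        have hq' : q ∈ G := hq
        have h1 := abs_le.1 (hh p q hadj)
        have h2 := a q hq'
        omega
    refine ⟨t, fun u hu => key u (hob.connG d hdG u hu), fun u hu => ?_⟩
    have h1 := key u (hob.connG d hdG u (hob.sub hu))
    have h2 := b u hu
    simp only
    omega

theorem drh_gr_iff (G D : Finset TV) (h : TV → ℤ) : PinGr G D h ↔ ∃ c : Fin 4, PinLoc G D (fun u => h u - (c.val : ℤ)) := by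
  constructor
  · rintro ⟨t, ht⟩
    refine ⟨⟨(t % 4).toNat, by omega⟩, t / 4, ?_⟩
    have e : ∀ u, h u - (((⟨(t % 4).toNat, by omega⟩ : Fin 4).val : ℕ) : ℤ) - 4 * (t / 4) = h u - t := by
      intro u
      simp only
      omega
    simp only [e]
    exact ht
  · rintro ⟨c, t, ht⟩
    refine ⟨(c.val : ℤ) + 4 * t, ?_⟩
    have e : ∀ u, h u - ((c.val : ℤ) + 4 * t) = h u - (c.val : ℤ) - 4 * t := fun u => by ring
    simp only [e]
    exact ht

theorem drh_loc_unique {G D : Finset TV} (hne : D.Nonempty) {h : TV → ℤ} {c c' : Fin 4}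
    (h1 : PinLoc G D (fun u => h u - (c.val : ℤ))) (h2 : PinLoc G D (fun u => h u - (c'.val : ℤ))) : c = c' := by
  obtain ⟨d, hd⟩ := hne
  obtain ⟨t, _, b⟩ := h1
  obtain ⟨t', _, b'⟩ := h2
  have e1 := b d hd
  have e2 := b' d hd
  simp only at e1 e2
  have := c.isLt
  have := c'.isLt
  ext
  omega

theorem drh_I_pos {p : Prop} (h : p) : pinI p = 1 := by
  unfold pinI
  rw [if_pos h]

theorem drh_I_neg {p : Prop} (h : ¬ p) : pinI p = 0 := by
  unfold pinI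
  rw [if_neg h]

theorem drh_ind_I {L : ClCfg TV TV → Prop} {ω : ClCfg TV TV} {p : Prop} (h : L ω ↔ p) : clInd L ω = pinI p := by
  by_cases hp : p
  · rw [dis_ind_pos (h.2 hp), drh_I_pos hp]
  · rw [dis_ind_neg (fun hl => hp (h.1 hl)), drh_I_neg hp]

/-- the gradient pin event is the disjoint union of the `4^k` residue classes -/
theorem drh_gr_sum {k : ℕ} (G D : Fin k → Finset TV) (hne : ∀ i, (D i).Nonempty) (h : TV → ℤ) :
    pinI (∀ i, PinGr (G i) (D i) h) = ∑ κ : Fin k → Fin 4, pinI (∀ i, PinLoc (G i) (D i) (fun u => h u - ((κ i).val : ℤ))) := by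
  by_cases hall : ∀ i, PinGr (G i) (D i) h
  · choose κ0 hκ0 using fun i => (drh_gr_iff _ _ _).1 (hall i)
    rw [Finset.sum_eq_single κ0, drh_I_pos hall, drh_I_pos hκ0]
    · intro κ _ hκ
      refine drh_I_neg fun hl => hκ ?_
      funext i
      exact drh_loc_unique (hne i) (hl i) (hκ0 i)
    · intro hn
      exact absurd (Finset.mem_univ _) hn
  · rw [drh_I_neg hall]
    refine (Finset.sum_eq_zero fun κ _ => drh_I_neg fun hl => hall fun i => ?_).symm
    exact (drh_gr_iff _ _ _).2 ⟨κ i, hl i⟩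

/-- the rotated event on the Gray code of a Lipschitz height -/
theorem drh_ev_loc_iff {Q G D : Finset TV} (hG : G ⊆ Q) (hob : PinOb G D) (c : Fin 4) {h : TV → ℤ} (hh : DbrLip h) :
    DrhEv c G D ⟨htB Q h, htW Q h, ∅⟩ ↔ PinLoc G D (fun u => h u - (c.val : ℤ)) := by
  rw [drh_ev_res hG hob.sub, drh_loc_res hob hh]

/-- representation of the gradient pin event -/
theorem drh_rep_gr {k : ℕ} (G D : Fin k → Finset TV) (hob : ∀ i, PinOb (G i) (D i)) :
    DbrRep (Finset.univ.biUnion G) (fun h => pinI (∀ i, PinGr (G i) (D i) h))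
      (fun ω => ∑ κ : Fin k → Fin 4, clInd (fun ω => ∀ i, DrhEv (κ i) (G i) (D i) ω) ω) := by
  refine ⟨fun ω ω' hB hW hO => Finset.sum_congr rfl fun κ _ => drh_ev_loc G D (fun i => (hob i).sub) κ ω ω' hB hW hO,
    fun h hh => ?_⟩
  rw [drh_gr_sum G D (fun i => (hob i).ne) h]
  refine Finset.sum_congr rfl fun κ _ => drh_ind_I (forall_congr' fun i => ?_)
  exact drh_ev_loc_iff (Finset.subset_biUnion_of_mem G (Finset.mem_univ i)) (hob i) (κ i) hh

/-- representation of the periodic pin event -/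
theorem drh_rep_loc {k : ℕ} (G D : Fin k → Finset TV) (hob : ∀ i, PinOb (G i) (D i)) :
    DbrRep (Finset.univ.biUnion G) (fun h => pinI (∀ i, PinLoc (G i) (D i) h))
      (clInd fun ω => ∀ i, DrpEv (G i) ∅ (D i) ω) := by
  refine ⟨drp_all_loc (fun i => ?_) ∅, fun h hh => drh_ind_I (forall_congr' fun i => ?_)⟩
  · have h1 : G i ⊆ Finset.univ.biUnion G := Finset.subset_biUnion_of_mem G (Finset.mem_univ i)
    exact Finset.union_subset (Finset.union_subset h1 (Finset.empty_subset _)) ((hob i).sub.trans h1)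
  · have h1 := drh_ev_loc_iff (Finset.subset_biUnion_of_mem G (Finset.mem_univ i)) (hob i) 0 hh
    rw [drh_ev_zero] at h1
    have e : (fun u => h u - (((0 : Fin 4).val : ℕ) : ℤ)) = h := by
      funext u
      simp
    rw [e] at h1
    rw [← h1]
    simp [DrpEv, -Prod.forall]

/-- representation of one gradient pin event -/
theorem drh_rep_one {G D : Finset TV} (hob : PinOb G D) :
    DbrRep G (fun h => pinI (PinGr G D h)) (fun ω => ∑ c : Fin 4, clInd (DrhEv c G D) ω) := by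
  refine ⟨fun ω ω' hB hW hO => Finset.sum_congr rfl fun c _ => drh_ev_loc1 hob.sub c ω ω' hB hW hO, fun h hh => ?_⟩
  have e : ∀ c : Fin 4, clInd (DrhEv c G D) ⟨htB G h, htW G h, ∅⟩ = pinI (PinLoc G D (fun u => h u - (c.val : ℤ))) :=
    fun c => drh_ind_I (drh_ev_loc_iff subset_rfl hob c hh)
  simp only [e]
  by_cases hg : PinGr G D h
  · obtain ⟨c0, hc0⟩ := (drh_gr_iff _ _ _).1 hg
    rw [Finset.sum_eq_single c0, drh_I_pos hg, drh_I_pos hc0]
    · intro c _ hc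
      exact drh_I_neg fun hl => hc (drh_loc_unique hob.ne hl hc0)
    · intro hn
      exact absurd (Finset.mem_univ _) hn
  · rw [drh_I_neg hg]
    exact Finset.sum_eq_zero fun c _ => drh_I_neg fun hl => hg ((drh_gr_iff _ _ _).2 ⟨c, hl⟩)

/-! ### 4. assembly   (90) -/

/-- `htPl 1{PinGr} = 4 ν(P)` -/
theorem drh_one (x : ℝ) (hx0 : 0 < x) (hx1 : x ≤ 1) (hT : DisT23 x true) {G D : Finset TV} (hob : PinOb G D) :
    (htPl x fun h => pinI (PinGr G D h)) = 4 * clPlane x (clInd (DrpEv G ∅ D)) := by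
  rw [dbr_pl x hx0 hx1 hT _ _ _ (drh_rep_one hob),
    drh_plane_sum x hx0 hx1 hT Finset.univ G _ (fun c _ => drh_ev_loc1 hob.sub c)]
  simp only [drh_sym x hx0 hx1 hT hob.sub]
  rw [Finset.sum_const, Finset.card_univ, Fintype.card_fin, nsmul_eq_mul]
  norm_num

/-- **separated rare pins, height-only form** -/
theorem drh_main (x : ℝ) (hx0 : 0 < x) (hx1 : x ≤ 1) (hT : DisT23 x true) :
    ∃ κ n0 : ℕ, ∀ k N : ℕ, ∃ c C : ℝ, 0 < c ∧ 0 < C ∧ ∀ G D U : Fin k → Finset TV, PinFam κ n0 N G D U →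
      ((htPl x fun h => pinI (∀ i, PinGr (G i) (D i) h)) ≤ C * ∏ i, (htPl x fun h => pinI (PinGr (G i) (D i) h))) ∧
      c * ∏ i, (htPl x fun h => pinI (PinGr (G i) (D i) h)) ≤ pinPer x fun h => pinI (∀ i, PinLoc (G i) (D i) h) := by
  obtain ⟨κ, n₀, _, H⟩ := dis_rare x hx0 hx1 hT
  refine ⟨κ, n₀, fun k N => ?_⟩
  obtain ⟨c, C, hc, hC, H'⟩ := H k k N
  refine ⟨c / 4 ^ k, 2 ^ k * C, by positivity, by positivity, fun G D U hfam => ?_⟩
  have hob := hfam.ob
  have hs : ∀ i, D i ⊆ G i := fun i => (hob i).sub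
  set P : Fin k → ℝ := fun i => clPlane x (clInd (DrpEv (G i) ∅ (D i))) with hP
  have hone : ∀ i, (htPl x fun h => pinI (PinGr (G i) (D i) h)) = 4 * P i := fun i => drh_one x hx0 hx1 hT (hob i)
  have hprod : ∏ i, (htPl x fun h => pinI (PinGr (G i) (D i) h)) = 4 ^ k * ∏ i, P i := by
    simp only [hone]
    rw [Finset.prod_mul_distrib, Finset.prod_const, Finset.card_univ, Fintype.card_fin]
  rw [hprod]
  constructor
  · -- upper bound
    rw [dbr_pl x hx0 hx1 hT _ _ _ (drh_rep_gr G D hob),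
      drh_plane_sum x hx0 hx1 hT Finset.univ (Finset.univ.biUnion G) _ (fun κ' _ => drh_ev_loc G D hs κ')]
    have hterm : ∀ κ' : Fin k → Fin 4,
        clPlane x (clInd fun ω => ∀ i, DrhEv (κ' i) (G i) (D i) ω) ≤ 2 ^ k * C * ∏ i, P i := by
      intro κ'
      have h1 := drh_lab x hx0 hx1 hT G D hob κ'
      simp only [DrhEp] at h1
      refine h1.trans ?_
      have harr : DrpArr κ n₀ N G U (fun i => drhBp (κ' i) (G i) (D i)) (fun i => drhBm (κ' i) (G i) (D i))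
          (fun i => drhQ (κ' i) (G i) (D i)) (fun _ => 1) := drp_arr_of_fam hfam fun i => drh_pin (hob i) (κ' i)
      have h2 := (H' (Fin k) G U _ _ _ (fun _ => 1) (by simp) (by simp) harr).2.2
      have e : ∀ i, clPlane x (clInd (DrpEv (drhBp (κ' i) (G i) (D i)) (drhBm (κ' i) (G i) (D i))
          (drhQ (κ' i) (G i) (D i)))) = P i := fun i => drh_sym_p x hx0 hx1 hT (hs i) (κ' i)
      simp only [e] at h2
      rw [mul_assoc]
      exact mul_le_mul_of_nonneg_left h2 (by positivity)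
    calc ∑ κ' : Fin k → Fin 4, clPlane x (clInd fun ω => ∀ i, DrhEv (κ' i) (G i) (D i) ω)
        ≤ ∑ _κ' : Fin k → Fin 4, 2 ^ k * C * ∏ i, P i := Finset.sum_le_sum fun κ' _ => hterm κ'
      _ = 2 ^ k * C * (4 ^ k * ∏ i, P i) := by
          rw [Finset.sum_const, Finset.card_univ, Fintype.card_fun, Fintype.card_fin, Fintype.card_fin, nsmul_eq_mul]
          push_cast
          ring
  · -- lower bound
    rw [dbr_main x hx0 hx1 hT _ _ _ (drh_rep_loc G D hob)]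
    have harr : DrpArr κ n₀ N G U G (fun _ => ∅) D (fun _ => 1) := drp_arr_of_fam hfam fun i => drp_pin_of_ob (hob i)
    have h1 := (H' (Fin k) G U G (fun _ => ∅) D (fun _ => 1) (by simp) (by simp) harr).2.1
    calc c / 4 ^ k * (4 ^ k * ∏ i, P i) = c * ∏ i, P i := by field_simp
      _ ≤ _ := h1

end Claimed.Agent.R291
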