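import Claimed.Agent.R291.Dis.Rare
import Claimed.Agent.R291.Dis.Planar
import Claimed.Agent.R291.Defs.Pin

/-!
# Row 291 (S0539), Dis/RarePl : MULTIPLICATIVE COMPARISON FOR RARE PINS, PLANAR LAYER      (owner helper130, unit RARE of DIS with helper13; prefix `drp_`, defs `Drp…`)

TEX[prop:rare-pins]      02-discrete.tex l.734-835.   Abstract layer: `Dis/Rare.lean` (13: `dis_rare_abs`, the only probabilistic input is `ClBuf`).   Consumer: PIN, (P3) of `origin/helper34:notes/R291/sec5_34.md`,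
(P3') of `origin/helper48:notes/R291/sec5b_48.md`.   ALL geometry is in the hypotheses, in LATTICE form; the constants come BEFORE the geometry.

* SHELL of an obstacle = `PinNeck κ n₀ N Ko U1` of `Defs/Pin` (34's (K4)), VERBATIM: at most `N` balls `(z, n)`, `n ≥ n₀`; the balls of radius `κ n + 2` lie in `U1 \ Ko`;
  every lattice path from `Ko` to the complement of `U1` meets one of the small balls.   NO connectivity of `Ko`, `U1`.
* `DrpEv Bp Bm D ω` : THE PIN EVENT `P_i` (first spin plus on `Bp`, minus on `Bm`, second spin plus on `D`);   `DrpPin Ko Bp Bm D m` : everything in the support, `D` = union of at most `m` connected sets.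
* `drp_prim` : (PRIM) of 141 with ONE triple `(κ, n₀, c)` for both signs (PRIM is monotone in `κ`).
* `drp_neck` : deterministic necklace in blocking form.      `drp_collar`, `drp_fam` : `U2 := latCl U1` is an outer collar.      `drp_buf` : shells ⟹ `ClBuf` with `c₀ = c ^ N` (PRIM + FKG + necklace).
* **`dis_rare_pl`** : finite ambient form.      **`dis_rare_plane`** : the free plane law.      The exit with the range of `x` is `exit_dis_rare_cl` in `Exit/DisRareCl.lean` (the height-only contract of 34 is `Exit/DisRare.lean`).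
-/

set_option autoImplicit false
set_option linter.unusedSectionVars false

namespace Claimed.Agent.R291

open Claims Claims.C0467 Filter Topology

/-! ### 1. definitions -/

/-- THE PIN EVENT `P_i` of TEX[prop:rare-pins] -/
def DrpEv (Bp Bm D : Finset TV) (ω : ClCfg TV TV) : Prop := Bp ⊆ ω.B ∧ (∀ v ∈ Bm, v ∉ ω.B) ∧ D ⊆ ω.W

/-- admissible pins: everything in the support, the second-spin plus set is a union of at most `m` connected sets -/
structure DrpPin (Ko Bp Bm D : Finset TV) (m : ℕ) : Prop where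
  bp : Bp ⊆ Ko
  bm : Bm ⊆ Ko
  d : ∃ Cs : List (Finset TV), Cs.length ≤ m ∧ (∀ C ∈ Cs, C ⊆ Ko ∧ TscConn tscG (↑C : Set TV)) ∧ D = Cs.foldr (· ∪ ·) ∅

/-- an ARRANGEMENT of obstacles with their pins: shells of at most `N` balls of radius `≥ n₀`, pairwise disjoint closed regions.   Nothing else: any placement, any mesh. -/
structure DrpArr (κ n₀ N : ℕ) {ι : Type} (Ko U1 Bp Bm D : ι → Finset TV) (μ : ι → ℕ) : Prop where
  sh : ∀ i, PinNeck κ n₀ N (Ko i) (U1 i)
  dj : ∀ i j, i ≠ j → Disjoint (latCl (U1 i)) (latCl (U1 j))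
  pin : ∀ i, DrpPin (Ko i) (Bp i) (Bm i) (D i) (μ i)

/-- the equation lemmas of the definitions of this file are generated HERE -/
theorem drp_eqns_cite : True := by
  have := @DrpEv.eq_1
  trivial

/-! ### 2. (PRIM) for both signs -/

/-- (PRIM) with one triple of constants for both signs, cross-multiplied.   TEX[lem:buffer-circuits] -/
theorem drp_prim (x : ℝ) (hx0 : 0 < x) (hx1 : x ≤ 1) (hT : DisT23 x true) :
    ∃ (κ n₀ : ℕ) (c : ℝ), 2 ≤ κ ∧ 0 < c ∧ c ≤ 1 ∧ ∀ (s : Bool) (V : Finset TV), DisAmb V → ∀ K : ClCon TV TV,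
      ClLegal (clAmb x V) K → 0 < (clAmb x V).Z (K.Holds (clAmb x V)) → ∀ (z : TV) (n : ℕ), n₀ ≤ n →
      latBall z (κ * n + 2) ⊆ V → ClClear (clAmb x V) s K (latBall z (κ * n + 2)) →
      c * (clAmb x V).Z (K.Holds (clAmb x V)) ≤ (clAmb x V).N (K.Holds (clAmb x V))
        (clInd fun ω => ClSep (clAmb x V) s K.Eq ω (V \ latBall z (κ * n)) (latBall z n)) := by
  obtain ⟨κ1, n1, c1, hκ1, hc1, H1⟩ := dis_prim x hx0 hx1 true hT
  obtain ⟨κ2, n2, c2, hκ2, hc2, H2⟩ := dis_prim x hx0 hx1 false (dis_t23_flip x hx0 hx1 hT)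
  refine ⟨max κ1 κ2, max n1 n2, min (min c1 c2) 1, hκ1.trans (le_max_left _ _), lt_min (lt_min hc1 hc2) one_pos,
    min_le_right _ _, ?_⟩
  intro s V hV K hK hZ z n hn hball hclear
  have hOk : ClOk (clAmb x V) := pcp_amb_ok x hx0 hx1 V
  -- the common step: PRIM with a smaller ratio
  have key : ∀ (κ' : ℕ) (c' : ℝ), κ' ≤ max κ1 κ2 → min (min c1 c2) 1 ≤ c' →
      c' ≤ (clAmb x V).P (K.Holds (clAmb x V))
        (fun ω => ClSep (clAmb x V) s K.Eq ω (V \ latBall z (κ' * n)) (latBall z n)) →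
      min (min c1 c2) 1 * (clAmb x V).Z (K.Holds (clAmb x V)) ≤ (clAmb x V).N (K.Holds (clAmb x V))
        (clInd fun ω => ClSep (clAmb x V) s K.Eq ω (V \ latBall z (max κ1 κ2 * n)) (latBall z n)) := by
    intro κ' c' hκ' hc' hP
    rw [dis_P_eq, le_div_iff₀ hZ] at hP
    refine (mul_le_mul_of_nonneg_right hc' hZ.le).trans (hP.trans ?_)
    refine dis_N_mono _ hOk _ fun ω _ _ => dis_ind_mono fun h => ?_
    refine dis_sep_sub ?_ subset_rfl h
    exact Finset.sdiff_subset_sdiff subset_rfl (plh_ball_mono z (Nat.mul_le_mul_right n hκ'))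
  cases s
  · have hk : κ2 * n + 2 ≤ max κ1 κ2 * n + 2 := Nat.add_le_add_right (Nat.mul_le_mul_right n (le_max_right _ _)) 2
    exact key κ2 c2 (le_max_right _ _) ((min_le_left _ _).trans (min_le_right _ _))
      (H2 V hV K hK hZ z n ((le_max_right _ _).trans hn) ((plh_ball_mono z hk).trans hball)
        (dis_clear_mono hclear (plh_ball_mono z hk)))
  · have hk : κ1 * n + 2 ≤ max κ1 κ2 * n + 2 := Nat.add_le_add_right (Nat.mul_le_mul_right n (le_max_left _ _)) 2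
    exact key κ1 c1 (le_max_left _ _) ((min_le_left _ _).trans (min_le_left _ _))
      (H1 V hV K hK hZ z n ((le_max_left _ _).trans hn) ((plh_ball_mono z hk).trans hball)
        (dis_clear_mono hclear (plh_ball_mono z hk)))

/-! ### 3. the necklace, blocking form -/

/-- a step of the invasion joins two sites which are equal or adjacent -/
theorem drp_step_adj (x : ℝ) (V : Finset TV) (s : Bool) (E : Finset (TV × TV))
    (hE : ∀ e ∈ E, e.1 = e.2 ∨ triAdj e.1 e.2) (ω : ClCfg TV TV) {a b : TV} (h : clStep (clAmb x V) s E ω a b) :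
    a = b ∨ triAdj a b := by
  rcases h with ⟨y, _, ha, hb, _⟩ | he | he
  · by_cases hab : a = b
    · exact Or.inl hab
    · exact Or.inr (pcp_cell_adj (Finset.mem_inter.1 ha).1 (Finset.mem_inter.1 hb).1 hab)
  · exact hE _ he
  · rcases hE _ he with h | h
    · exact Or.inl h.symm
    · exact Or.inr (lat_adj_symm h)

/-- the support of a necklace lies in its region -/
theorem drp_neck_sub {κ n₀ N : ℕ} {Ko U1 : Finset TV} (h : PinNeck κ n₀ N Ko U1) : Ko ⊆ U1 := by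
  obtain ⟨J, _, _, hbl⟩ := h
  intro a ha
  by_contra hn
  obtain ⟨p, _, w, hw, _⟩ := hbl ∅ a a ha hn (tsc_R_refl a)
  exact hw

/-- **deterministic necklace**, blocking form.      TEX[lem:buffer-circuits] "a closed chain gives a surrounding circuit" -/
theorem drp_neck (x : ℝ) (V : Finset TV) (s : Bool) (E : Finset (TV × TV)) (hE : ∀ e ∈ E, e.1 = e.2 ∨ triAdj e.1 e.2)
    (ω : ClCfg TV TV) (Ko U1 : Finset TV) (J : Finset (TV × ℕ)) (κ : ℕ) (hball : ∀ p ∈ J, latBall p.1 (κ * p.2) ⊆ U1)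
    (hblock : ∀ (Q : Set TV) (a b : TV), a ∈ Ko → b ∉ U1 → TscR tscG Q a b → ∃ p ∈ J, (Q ∩ ↑(latBall p.1 p.2)).Nonempty)
    (hsep : ∀ p ∈ J, ClSep (clAmb x V) s E ω (V \ latBall p.1 (κ * p.2)) (latBall p.1 p.2)) :
    ClSep (clAmb x V) s E ω (V \ U1) Ko := by
  intro u hu v hv huv
  obtain ⟨huV, huU⟩ := Finset.mem_sdiff.1 hu
  set Q : Set TV := {w | Relation.ReflTransGen (clStep (clAmb x V) s E ω) u w} with hQ
  have hpath : ∀ w, Relation.ReflTransGen (clStep (clAmb x V) s E ω) u w → TscR tscG Q u w := by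
    intro w hw
    induction hw with
    | refl => exact tsc_R_refl _
    | @tail b c hb hbc ih =>
      rcases drp_step_adj x V s E hE ω hbc with h | h
      · rw [← h]; exact ih
      · exact ih.tail ⟨h, hb, hb.tail hbc⟩
  obtain ⟨p, hp, w, hwQ, hw⟩ := hblock Q v u hv huU (tsc_R_symm (hpath v huv))
  exact hsep p hp u (Finset.mem_sdiff.2 ⟨huV, fun h => huU (hball p hp h)⟩) w (Finset.mem_coe.1 hw) hwQ

/-! ### 4. collars -/

/-- `latCl U1` is an outer collar of `U1` -/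
theorem drp_collar (x : ℝ) {V Ko U1 : Finset TV} (h01 : Ko ⊆ U1) (hV : latCl U1 ⊆ V) :
    ClCollar (clAmb x V) Ko U1 (latCl U1) where
  h01 := h01
  h12 := fun v hv => lat_mem_cl.2 (Or.inl hv)
  h2A := hV
  gap := by
    rintro y _ ⟨_, v, hv, hvn⟩
    rw [Finset.disjoint_left]
    intro w hw hwU
    apply hvn
    by_cases hwv : w = v
    · rw [← hwv]; exact lat_mem_cl.2 (Or.inl hwU)
    · exact lat_mem_cl.2 (Or.inr ⟨w, hwU, pcp_cell_adj (Finset.mem_inter.1 hw).1 (Finset.mem_inter.1 hv).1 hwv⟩)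

theorem drp_fam (x : ℝ) {ι : Type} {V : Finset TV} {Ko U1 : ι → Finset TV} (h01 : ∀ i, Ko i ⊆ U1 i)
    (hV : ∀ i, latCl (U1 i) ⊆ V) (hd : ∀ i j, i ≠ j → Disjoint (latCl (U1 i)) (latCl (U1 j))) :
    ClFam (clAmb x V) Ko U1 (fun i => latCl (U1 i)) :=
  ⟨fun i => drp_collar x (h01 i) (hV i), hd⟩

/-- a site of `latCl U` is within distance `1` of `U` -/
theorem drp_cl_near {U : Finset TV} {w : TV} (h : w ∈ latCl U) : ∃ u ∈ U, latN (w - u) ≤ 1 := by
  rcases lat_mem_cl.1 h with h | ⟨u, hu, huw⟩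
  · exact ⟨w, h, by simp [latN]⟩
  · exact ⟨u, hu, (plh_N_adj_iff.1 huw).le⟩

/-- regions at distance `≥ 3` have disjoint closures (`PinFam.far` gives `4`) -/
theorem drp_far_disj {U U' : Finset TV} (h : ∀ u ∈ U, ∀ v ∈ U', 3 ≤ latDist u v) : Disjoint (latCl U) (latCl U') := by
  rw [Finset.disjoint_left]
  intro w hw hw'
  obtain ⟨u, hu, h1⟩ := drp_cl_near hw
  obtain ⟨v, hv, h2⟩ := drp_cl_near hw'
  have h3 := h u hu v hv
  have h4 := plh_N_tri v w u
  have h5 : latN (v - w) = latN (w - v) := by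
    have : v - w = -(w - v) := by ring
    rw [this]
    simp only [latN, Prod.fst_neg, Prod.snd_neg, Int.natAbs_neg]
    congr 1
    rw [← Int.natAbs_neg]
    congr 1
    ring
  unfold latDist at h3
  omega

/-- a history which lives on the supports is clear in the collar of every obstacle -/
theorem drp_clear {ι : Type} {S : ClSys TV TV} {Ko U1 U2 : ι → Finset TV} (hF : ClFam S Ko U1 U2) {K : ClCon TV TV}
    (hK : ClOn S Ko K) (i : ι) (s : Bool) {T : Finset TV} (hT : T ⊆ U1 i \ Ko i) : ClClear S s K T := by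
  classical
  have hav : ∀ v ∈ T, ∀ j, v ∉ Ko j := by
    intro v hv j hj
    obtain ⟨h1, h2⟩ := Finset.mem_sdiff.1 (hT hv)
    by_cases hij : i = j
    · subst hij; exact h2 hj
    · exact Finset.disjoint_left.1 (hF.dj i j hij) ((hF.col i).h12 h1) (drr_ko_sub hF j hj)
  refine ⟨fun v hv => ⟨fun _ hm => ?_, fun _ hm => ?_⟩, fun y _ ho => ?_, fun e he => ?_⟩
  · obtain ⟨j, hj⟩ := hK.bm v hm
    exact hav v hv j hj
  · obtain ⟨j, hj⟩ := hK.bp v hm
    exact hav v hv j hj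
  · rw [hK.op, hK.om, hK.cl] at ho
    simp at ho
  · obtain ⟨j, h1, h2⟩ := hK.eqo e he
    exact ⟨fun h => hav _ h j h1, fun h => hav _ h j h2⟩

/-! ### 5. shells give the buffer hypothesis -/

/-- **shells ⟹ `ClBuf`**: PRIM in every ball, FKG, necklace.      TEX l.786-788 -/
theorem drp_buf (x : ℝ) (hx0 : 0 < x) (hx1 : x ≤ 1) {κ n₀ : ℕ} {c : ℝ} (hc0 : 0 < c) (hc1 : c ≤ 1)
    (hP : ∀ (s : Bool) (V : Finset TV), DisAmb V → ∀ K : ClCon TV TV,
      ClLegal (clAmb x V) K → 0 < (clAmb x V).Z (K.Holds (clAmb x V)) → ∀ (z : TV) (n : ℕ), n₀ ≤ n →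
      latBall z (κ * n + 2) ⊆ V → ClClear (clAmb x V) s K (latBall z (κ * n + 2)) →
      c * (clAmb x V).Z (K.Holds (clAmb x V)) ≤ (clAmb x V).N (K.Holds (clAmb x V))
        (clInd fun ω => ClSep (clAmb x V) s K.Eq ω (V \ latBall z (κ * n)) (latBall z n)))
    {V : Finset TV} (hV : DisAmb V) {ι : Type} {Ko U1 : ι → Finset TV} {N : ℕ}
    (hsh : ∀ i, PinNeck κ n₀ N (Ko i) (U1 i)) (hUV : ∀ i, latCl (U1 i) ⊆ V)
    (hd : ∀ i j, i ≠ j → Disjoint (latCl (U1 i)) (latCl (U1 j))) :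
    ClBuf (clAmb x V) Ko U1 (c ^ N) := by
  classical
  intro i s K hK
  have hF := drp_fam x (fun i => drp_neck_sub (hsh i)) hUV hd
  have hD : ClDisk (clAmb x V) := dis_amb_disk x hx0 hx1 V hV
  have hOk : ClOk (clAmb x V) := hD.toClOk
  have hZ : 0 < (clAmb x V).Z (K.Holds (clAmb x V)) := drr_on_pos hOk hF hK
  obtain ⟨J, hJN, hJb, hblock⟩ := hsh i
  have hU1V : U1 i ⊆ V := fun v hv => hUV i (lat_mem_cl.2 (Or.inl hv))
  have h1 : ∀ p ∈ J, c * (clAmb x V).Z (K.Holds (clAmb x V)) ≤ (clAmb x V).N (K.Holds (clAmb x V))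
      (clInd fun ω => ClSep (clAmb x V) s K.Eq ω (V \ latBall p.1 (κ * p.2)) (latBall p.1 p.2)) := fun p hp =>
    hP s V hV K hK.toClLegal hZ p.1 p.2 (hJb p hp).1 (((hJb p hp).2.trans Finset.sdiff_subset).trans hU1V)
      (drp_clear hF hK i s (hJb p hp).2)
  have h2 := dis_fkg_fin (clAmb x V) hD K hK.toClLegal hZ s J
    (L := fun p ω => ClSep (clAmb x V) s K.Eq ω (V \ latBall p.1 (κ * p.2)) (latBall p.1 p.2))
    (fun p _ => dis_sep_up _ s K.Eq _ _) hc0.le h1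
  have h3 : c ^ N ≤ c ^ J.card := pow_le_pow_of_le_one hc0.le hc1 hJN
  refine (mul_le_mul_of_nonneg_right h3 hZ.le).trans (h2.trans ?_)
  refine dis_N_mono _ hOk _ fun ω _ _ => dis_ind_mono fun h => ?_
  have hE : ∀ e ∈ K.Eq, e.1 = e.2 ∨ triAdj e.1 e.2 := by
    intro e he
    obtain ⟨y, _, h1, h2⟩ := hK.toClLegal.eq e he
    by_cases h12 : e.1 = e.2
    · exact Or.inl h12
    · exact Or.inr (pcp_cell_adj (Finset.mem_inter.1 h1).1 (Finset.mem_inter.1 h2).1 h12)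
  exact drp_neck x V s K.Eq hE ω (Ko i) (U1 i) J κ
    (fun p hp => ((plh_ball_mono p.1 (Nat.le_add_right _ 2)).trans (hJb p hp).2).trans Finset.sdiff_subset) hblock h

/-! ### 6. the finite ambient form -/

theorem drp_P_nonneg {S : ClSys TV TV} (hS : ClOk S) (K L : ClCfg TV TV → Prop) : 0 ≤ S.P K L := by
  rw [dis_P_eq]
  exact div_nonneg (dis_N_nonneg S hS K fun ω => dis_ind_nonneg _ ω) (dis_Z_nonneg S hS K)

/-- an impossible event has probability zero -/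
theorem drp_P_false (S : ClSys TV TV) (K L : ClCfg TV TV → Prop) (h : ∀ ω, ¬ L ω) : S.P K L = 0 := by
  rw [dis_P_eq]
  have : S.N K (clInd L) = 0 := by
    classical
    unfold ClSys.N
    refine Finset.sum_eq_zero fun ω _ => ?_
    rw [dis_ind_neg (h ω)]
    simp
  rw [this, zero_div]

/-- connected for `triAdj` inside `V` ⟹ connected through the cells of the ambient system -/
theorem drp_conn (x : ℝ) {V C : Finset TV} (hCV : C ⊆ V) (hC : TscConn tscG (↑C : Set TV)) :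
    ∀ u ∈ C, ∀ v ∈ C, Relation.ReflTransGen
      (fun a b => a ∈ C ∧ b ∈ C ∧ ∃ y ∈ (clAmb x V).C, a ∈ (clAmb x V).sv y ∧ b ∈ (clAmb x V).sv y) u v := by
  intro u hu v hv
  refine Relation.ReflTransGen.mono ?_ _ _ (hC u (Finset.mem_coe.2 hu) v (Finset.mem_coe.2 hv))
  rintro a b ⟨hab, ha, hb⟩
  have ha' : a ∈ C := Finset.mem_coe.1 ha
  have hb' : b ∈ C := Finset.mem_coe.1 hb
  obtain ⟨y, h1, h2⟩ := pcp_adj_cell hab
  exact ⟨ha', hb', y, lat_mem_cells.2 ⟨a, h1, hCV ha'⟩, Finset.mem_inter.2 ⟨h1, hCV ha'⟩, Finset.mem_inter.2 ⟨h2, hCV hb'⟩⟩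

/-- **(RARE), finite ambient form.**   TEX[prop:rare-pins] (discrete:rare-pins) "The comparison also holds in finite free ambient volumes containing all the required comparison collars".
`κ, n₀` depend on `x` only; `c, C` on `(x, k, m, N)` only. -/
theorem dis_rare_pl (x : ℝ) (hx0 : 0 < x) (hx1 : x ≤ 1) (hT : DisT23 x true) :
    ∃ (κ n₀ : ℕ), 2 ≤ κ ∧ ∀ (k m N : ℕ), ∃ (c C : ℝ), 0 < c ∧ 0 < C ∧
      ∀ (V : Finset TV), DisAmb V → ∀ (ι : Type) [Fintype ι] [DecidableEq ι] (Ko U1 Bp Bm D : ι → Finset TV) (μ : ι → ℕ),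
      Fintype.card ι ≤ k → ∑ i, μ i ≤ m → DrpArr κ n₀ N Ko U1 Bp Bm D μ → (∀ i, latCl (U1 i) ⊆ V) →
      c * ∏ i, (clAmb x V).P (fun _ => True) (DrpEv (Bp i) (Bm i) (D i))
          ≤ (clAmb x V).P (fun _ => True) (fun ω => ∀ i, DrpEv (Bp i) (Bm i) (D i) ω) ∧
        (clAmb x V).P (fun _ => True) (fun ω => ∀ i, DrpEv (Bp i) (Bm i) (D i) ω)
          ≤ C * ∏ i, (clAmb x V).P (fun _ => True) (DrpEv (Bp i) (Bm i) (D i)) := by
  obtain ⟨κ, n₀, cp, hκ, hcp0, hcp1, hP⟩ := drp_prim x hx0 hx1 hT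
  refine ⟨κ, n₀, hκ, fun k m N => ?_⟩
  set c0 : ℝ := cp ^ N with hc0
  have hc00 : 0 < c0 := pow_pos hcp0 N
  have hc01 : c0 ≤ 1 := pow_le_one₀ hcp0.le hcp1
  refine ⟨c0 ^ (4 * k) / 4 ^ m, 4 ^ m / c0 ^ (4 * k), by positivity, by positivity, ?_⟩
  intro V hV ι _ _ Ko U1 Bp Bm D μ hk hm harr hUV
  have hsh := harr.sh
  have hd := harr.dj
  have hpin := harr.pin
  have hDk : ClDisk (clAmb x V) := dis_amb_disk x hx0 hx1 V hV
  have hOk : ClOk (clAmb x V) := hDk.toClOk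
  have hprod0 : 0 ≤ ∏ i, (clAmb x V).P (fun _ => True) (DrpEv (Bp i) (Bm i) (D i)) :=
    Finset.prod_nonneg fun i _ => drp_P_nonneg hOk _ _
  by_cases hdeg : ∃ i, ¬ Disjoint (Bp i) (Bm i)
  · -- degenerate case: both sides vanish
    obtain ⟨i, hi⟩ := hdeg
    obtain ⟨v, hv1, hv2⟩ := Finset.not_disjoint_iff.1 hi
    have e1 : (clAmb x V).P (fun _ => True) (DrpEv (Bp i) (Bm i) (D i)) = 0 :=
      drp_P_false _ _ _ fun ω h => h.2.1 v hv2 (h.1 hv1)
    have e2 : (clAmb x V).P (fun _ => True) (fun ω => ∀ i, DrpEv (Bp i) (Bm i) (D i) ω) = 0 :=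
      drp_P_false _ _ _ fun ω h => (h i).2.1 v hv2 ((h i).1 hv1)
    have e3 : ∏ i, (clAmb x V).P (fun _ => True) (DrpEv (Bp i) (Bm i) (D i)) = 0 :=
      Finset.prod_eq_zero (Finset.mem_univ i) e1
    rw [e2, e3, mul_zero, mul_zero]
    exact ⟨le_rfl, le_rfl⟩
  · push Not at hdeg
    choose Cs hlen hCs hDeq using fun i => (hpin i).d
    set o : ι → ClObs TV := fun i => ⟨Ko i, U1 i, latCl (U1 i), Bp i, Bm i, Cs i⟩ with ho
    have hKoV : ∀ i, Ko i ⊆ V := fun i v hv => hUV i (lat_mem_cl.2 (Or.inl (drp_neck_sub (hsh i) hv)))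
    have hO : ∀ i, (o i).Ok (clAmb x V) := fun i =>
      ⟨(hpin i).bp, (hpin i).bm, hdeg i, fun C hC => (hCs i C hC).1,
        fun C hC => drp_conn x ((hCs i C hC).1.trans (hKoV i)) (hCs i C hC).2⟩
    have hF : ClFam (clAmb x V) (fun i => (o i).Ko) (fun i => (o i).U1) (fun i => (o i).U2) :=
      drp_fam x (fun i => drp_neck_sub (hsh i)) hUV hd
    have hB : ClBuf (clAmb x V) (fun i => (o i).Ko) (fun i => (o i).U1) c0 :=
      drp_buf x hx0 hx1 hcp0 hcp1 hP hV hsh hUV hd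
    have hev : ∀ i, (o i).Ev (Y := TV) = DrpEv (Bp i) (Bm i) (D i) := by
      intro i
      funext ω
      simp only [ClObs.Ev, ClObs.Q, DrpEv, ho, hDeq i]
    obtain ⟨A1, A2⟩ := dis_rare_abs (clAmb x V) hDk o hO hF c0 hc00 hB
    simp only [hev] at A1 A2
    have hlen' : ∑ i, (o i).Cs.length ≤ m := (Finset.sum_le_sum fun i _ => hlen i).trans hm
    have hp1 : c0 ^ (4 * k) ≤ c0 ^ (4 * Fintype.card ι) := pow_le_pow_of_le_one hc00.le hc01 (by omega)
    have hp2 : (4 : ℝ) ^ (∑ i, (o i).Cs.length) ≤ 4 ^ m := pow_le_pow_right₀ (by norm_num) hlen'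
    constructor
    · refine le_trans (mul_le_mul_of_nonneg_right ?_ hprod0) A1
      exact div_le_div₀ (by positivity) hp1 (by positivity) hp2
    · refine A2.trans (mul_le_mul_of_nonneg_right ?_ hprod0)
      exact div_le_div₀ (by positivity) hp2 (by positivity) hp1

/-- a family of 34 (`PinFam` of Defs/Pin) is an arrangement, for ANY pins in the groups whose label sets are unions of `≤ μ i` connected sets -/
theorem drp_arr_of_fam {κ n₀ N k : ℕ} {G D U : Fin k → Finset TV} (h : PinFam κ n₀ N G D U) {Bp Bm D' : Fin k → Finset TV}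
    {μ : Fin k → ℕ} (hpin : ∀ i, DrpPin (G i) (Bp i) (Bm i) (D' i) (μ i)) : DrpArr κ n₀ N G U Bp Bm D' μ :=
  ⟨h.neck, fun i j hij => drp_far_disj fun u hu v hv => le_trans (by norm_num) (h.far i j hij u hu v hv), hpin⟩

/-- the pins of the upper bracket: first spin plus on the group, second spin plus on the double pins -/
theorem drp_pin_of_ob {G D : Finset TV} (h : PinOb G D) : DrpPin G G ∅ D 1 :=
  ⟨subset_rfl, Finset.empty_subset _, [D], le_rfl, fun C hC => by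
    rw [List.mem_singleton] at hC
    subst hC
    exact ⟨h.sub, h.connD⟩, by simp⟩

/-! ### 7. the free plane law -/

theorem drp_ev_imp {Bp Bm D T : Finset TV} (hT : Bp ∪ Bm ∪ D ⊆ T) {ω ω' : ClCfg TV TV} (hB : ω.B ∩ T = ω'.B ∩ T)
    (hW : ω.W ∩ T = ω'.W ∩ T) (h : DrpEv Bp Bm D ω) : DrpEv Bp Bm D ω' := by
  refine ⟨fun v hv => ?_, fun v hv hm => ?_, fun v hv => ?_⟩
  · exact (dcu_mem_of_inter hB (hT (Finset.mem_union_left _ (Finset.mem_union_left _ hv)))).1 (h.1 hv)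
  · exact h.2.1 v hv ((dcu_mem_of_inter hB (hT (Finset.mem_union_left _ (Finset.mem_union_right _ hv)))).2 hm)
  · exact (dcu_mem_of_inter hW (hT (Finset.mem_union_right _ hv))).1 (h.2.2 hv)

theorem drp_ind_congr {L : ClCfg TV TV → Prop} {ω ω' : ClCfg TV TV} (h : L ω ↔ L ω') : clInd L ω = clInd L ω' := by
  by_cases h1 : L ω
  · rw [dis_ind_pos h1, dis_ind_pos (h.1 h1)]
  · rw [dis_ind_neg h1, dis_ind_neg fun h2 => h1 (h.2 h2)]

/-- the pin event is local -/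
theorem drp_ev_loc {Bp Bm D T : Finset TV} (hT : Bp ∪ Bm ∪ D ⊆ T) (T' : Finset TV) : ClLoc T T' (clInd (DrpEv Bp Bm D)) :=
  fun _ _ hB hW _ => drp_ind_congr ⟨drp_ev_imp hT hB hW, drp_ev_imp hT hB.symm hW.symm⟩

theorem drp_all_loc {ι : Type} {Bp Bm D : ι → Finset TV} {T : Finset TV} (hT : ∀ i, Bp i ∪ Bm i ∪ D i ⊆ T) (T' : Finset TV) :
    ClLoc T T' (clInd fun ω => ∀ i, DrpEv (Bp i) (Bm i) (D i) ω) :=
  fun _ _ hB hW _ => drp_ind_congr
    ⟨fun h i => drp_ev_imp (hT i) hB hW (h i), fun h i => drp_ev_imp (hT i) hB.symm hW.symm (h i)⟩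

/-- passage to the plane limit.      TEX l.832-834 "Every comparison was finite-volume and uniform. ... permits passage to the plane limit." -/
theorem drp_plane_of_fin (x : ℝ) (hx0 : 0 < x) (hx1 : x ≤ 1) (hT : DisT23 x true) {ι : Type} [Fintype ι]
    (Bp Bm D : ι → Finset TV) (U : Finset TV) (c C : ℝ)
    (h : ∀ R : ℕ, U ⊆ latBall 0 R →
      c * ∏ i, (clAmb x (latBall 0 R)).P (fun _ => True) (DrpEv (Bp i) (Bm i) (D i))
          ≤ (clAmb x (latBall 0 R)).P (fun _ => True) (fun ω => ∀ i, DrpEv (Bp i) (Bm i) (D i) ω) ∧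
        (clAmb x (latBall 0 R)).P (fun _ => True) (fun ω => ∀ i, DrpEv (Bp i) (Bm i) (D i) ω)
          ≤ C * ∏ i, (clAmb x (latBall 0 R)).P (fun _ => True) (DrpEv (Bp i) (Bm i) (D i))) :
    c * ∏ i, clPlane x (clInd (DrpEv (Bp i) (Bm i) (D i))) ≤ clPlane x (clInd fun ω => ∀ i, DrpEv (Bp i) (Bm i) (D i) ω) ∧
      clPlane x (clInd fun ω => ∀ i, DrpEv (Bp i) (Bm i) (D i) ω) ≤ C * ∏ i, clPlane x (clInd (DrpEv (Bp i) (Bm i) (D i))) := by
  classical
  have t1 : ∀ i, Tendsto (fun R : ℕ => (clAmb x (latBall 0 R)).P (fun _ => True) (DrpEv (Bp i) (Bm i) (D i))) atTop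
      (𝓝 (clPlane x (clInd (DrpEv (Bp i) (Bm i) (D i))))) := fun i =>
    dis_plane_lim x hx0 hx1 hT (Bp i ∪ Bm i ∪ D i) ∅ _ (drp_ev_loc subset_rfl ∅)
  have t2 : Tendsto (fun R : ℕ => (clAmb x (latBall 0 R)).P (fun _ => True) (fun ω => ∀ i, DrpEv (Bp i) (Bm i) (D i) ω)) atTop
      (𝓝 (clPlane x (clInd fun ω => ∀ i, DrpEv (Bp i) (Bm i) (D i) ω))) :=
    dis_plane_lim x hx0 hx1 hT (Finset.univ.biUnion fun i => Bp i ∪ Bm i ∪ D i) ∅ _
      (drp_all_loc (fun i => Finset.subset_biUnion_of_mem (fun i => Bp i ∪ Bm i ∪ D i) (Finset.mem_univ i)) ∅)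
  have t3 : Tendsto (fun R : ℕ => ∏ i, (clAmb x (latBall 0 R)).P (fun _ => True) (DrpEv (Bp i) (Bm i) (D i))) atTop
      (𝓝 (∏ i, clPlane x (clInd (DrpEv (Bp i) (Bm i) (D i))))) := tendsto_finsetProd _ fun i _ => t1 i
  have hev := dsy_sub_ball U
  exact ⟨le_of_tendsto_of_tendsto (t3.const_mul c) t2 (hev.mono fun R hR => (h R hR).1),
    le_of_tendsto_of_tendsto t2 (t3.const_mul C) (hev.mono fun R hR => (h R hR).2)⟩

/-- **(RARE)**, both forms with the SAME constants: finite ambient volumes and the free plane law.   TEX[prop:rare-pins] -/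
theorem dis_rare (x : ℝ) (hx0 : 0 < x) (hx1 : x ≤ 1) (hT : DisT23 x true) :
    ∃ (κ n₀ : ℕ), 2 ≤ κ ∧ ∀ (k m N : ℕ), ∃ (c C : ℝ), 0 < c ∧ 0 < C ∧
      ∀ (ι : Type) [Fintype ι] [DecidableEq ι] (Ko U1 Bp Bm D : ι → Finset TV) (μ : ι → ℕ),
      Fintype.card ι ≤ k → ∑ i, μ i ≤ m → DrpArr κ n₀ N Ko U1 Bp Bm D μ →
      (∀ (V : Finset TV), DisAmb V → (∀ i, latCl (U1 i) ⊆ V) →
        c * ∏ i, (clAmb x V).P (fun _ => True) (DrpEv (Bp i) (Bm i) (D i))
            ≤ (clAmb x V).P (fun _ => True) (fun ω => ∀ i, DrpEv (Bp i) (Bm i) (D i) ω) ∧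
          (clAmb x V).P (fun _ => True) (fun ω => ∀ i, DrpEv (Bp i) (Bm i) (D i) ω)
            ≤ C * ∏ i, (clAmb x V).P (fun _ => True) (DrpEv (Bp i) (Bm i) (D i))) ∧
      (c * ∏ i, clPlane x (clInd (DrpEv (Bp i) (Bm i) (D i))) ≤ clPlane x (clInd fun ω => ∀ i, DrpEv (Bp i) (Bm i) (D i) ω) ∧
        clPlane x (clInd fun ω => ∀ i, DrpEv (Bp i) (Bm i) (D i) ω) ≤ C * ∏ i, clPlane x (clInd (DrpEv (Bp i) (Bm i) (D i)))) := by
  obtain ⟨κ, n₀, hκ, H⟩ := dis_rare_pl x hx0 hx1 hT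
  refine ⟨κ, n₀, hκ, fun k m N => ?_⟩
  obtain ⟨c, C, hc, hC, H'⟩ := H k m N
  refine ⟨c, C, hc, hC, fun ι _ _ Ko U1 Bp Bm D μ hk hm harr => ⟨fun V hV hUV => H' V hV ι Ko U1 Bp Bm D μ hk hm harr hUV, ?_⟩⟩
  refine drp_plane_of_fin x hx0 hx1 hT Bp Bm D (Finset.univ.biUnion fun i => latCl (U1 i)) c C fun R hR => ?_
  exact H' (latBall 0 R) (dis_amb_ball 0 R) ι Ko U1 Bp Bm D μ hk hm harr
    fun i => (Finset.subset_biUnion_of_mem (fun i => latCl (U1 i)) (Finset.mem_univ i)).trans hR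

end Claimed.Agent.R291
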