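import Claimed.Agent.R291.Dis.Sw
import Claimed.Agent.R291.Dis.StackHt

/-!
# Row 291 (S0539), Dis/SwPl : THE PROTECTED SWITCH IN A FLAT HEIGHT PROBLEM      (owner helper139, unit DIS; prefix `swi_`, defs `swi…`/`Swi…`)      no sorry

TEX[lem:collar-switch] + TEX[lem:buffer-circuits], as used in TEX[lem:nondegeneracy].      PRODUCES `swi_main` = the body of `exit_dis_switch` (Exit/DisSwitch.lean).
CONSUMES `exit_t23`, `dis_t23_flip`, `dis_prim` (141, both signs), `dis_stack_step` (141), `dis_lbl_one` (13), the lift kit `dlf_*` (63), the flat history `dshV`, `dshK` (50), balls `plh_*` (110), `Dis/Sw` (abstract switch).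
ROUTE  (1) `swi_two`: two successive requests of opposite signs (the outer event reads the cells inside `P`; the inner one has conditional probability `≥ c` under every complete observation of `P`);
       (2) `swi_skel`: the part of a hexagon off a hole-free set is connected (protected exterior, skeleton);
       (3) `swiCf V h Q` = configuration of a height and a set of open cells; `swi_cf_lift` (a height is a lift of its configuration), `swi_lift_N` (LIFT with statuses, ANY observable), `swi_wt_sum`, `swi_lift_Z`;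
       (4) `swi_circ`: outer plus circuit in `latBall z (κp n') \ latBall z n'`, `n' = κm R + 4`, and inner minus circuit in `latBall z (κm R) \ latBall z R`, probability `≥ cp cm` under the flat history;
       (5) `swiM` = kernel on heights induced by the switch: nonnegative, symmetric, sub-stochastic, support, total mass;
       (6) `swi_flat`, `swi_main`.
-/

set_option autoImplicit false
set_option linter.unusedSectionVars false
set_option linter.unusedVariables false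

namespace Claimed.Agent.R291

open Claims Claims.C0467 Relation

section abstract

variable {V Y : Type} [DecidableEq V] [DecidableEq Y]

/-! ### 1. two opposite circuits, abstract -/

theorem swi_step_symm (S : ClSys V Y) (s : Bool) (E : Finset (V × V)) (ω : ClCfg V Y) {u v : V} (h : clStep S s E ω u v) :
    clStep S s E ω v u := by
  rcases h with ⟨y, hy, hu, hv, ht⟩ | h | h
  · exact Or.inl ⟨y, hy, hv, hu, ht⟩
  · exact Or.inr (Or.inr h)
  · exact Or.inr (Or.inl h)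

theorem swi_reach_symm (S : ClSys V Y) (s : Bool) (E : Finset (V × V)) (ω : ClCfg V Y) {u v : V}
    (h : ReflTransGen (clStep S s E ω) u v) : ReflTransGen (clStep S s E ω) v u := by
  induction h with
  | refl => exact ReflTransGen.refl
  | tail _ hbc ih => exact ReflTransGen.head (swi_step_symm S s E ω hbc) ih

theorem swi_sep_symm (S : ClSys V Y) (s : Bool) (E : Finset (V × V)) (ω : ClCfg V Y) (O A : Finset V) :
    ClSep S s E ω O A ↔ ClSep S s E ω A O :=
  ⟨fun h u hu v hv hr => h v hv u hu (swi_reach_symm S s E ω hr), fun h u hu v hv hr => h v hv u hu (swi_reach_symm S s E ω hr)⟩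

/-- the invaded set misses what is separated -/
theorem swi_inv_sep (S : ClSys V Y) (s : Bool) (E : Finset (V × V)) (ω : ClCfg V Y) {O A : Finset V} (h : ClSep S s E ω O A) :
    ∀ u ∈ clInv S s E ω O, u ∉ A := by
  intro u hu hA
  obtain ⟨_, o, ho, hr⟩ := (dde_mem_inv S s E ω O u).1 hu
  exact h o ho u hA hr

/-- **two successive requests**: `L` reads the statuses of the cells inside `P`, `G` has conditional probability `≥ c₂` under every complete observation of `P` -/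
theorem swi_two (S : ClSys V Y) (hS : ClOk S) (K : ClCon V Y) (P : Finset V) (L G : ClCfg V Y → Prop) {c₁ c₂ : ℝ} (hc₂ : 0 ≤ c₂)
    (hloc : ∀ ω ω' : ClCfg V Y, (∀ y ∈ S.cin P, clTau S ω y = clTau S ω' y) → (L ω ↔ L ω'))
    (h₁ : c₁ * S.Z (K.Holds S) ≤ S.N (K.Holds S) (clInd L))
    (hprim : ∀ K' : ClCon V Y, ClExt K K' P (S.cin P) → 0 < S.Z (K'.Holds S) →
      c₂ * S.Z (K'.Holds S) ≤ S.N (K'.Holds S) (clInd G)) :
    c₁ * c₂ * S.Z (K.Holds S) ≤ S.N (K.Holds S) (clInd fun ω => L ω ∧ G ω) := by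
  have h := dis_stack_step S hS K P L G hloc hprim
  have e : S.N (K.Holds S) (clInd fun ω => L ω ∧ G ω) =
      S.N (K.Holds S) (clInd L) - S.N (K.Holds S) (clInd fun ω => L ω ∧ ¬ G ω) := by
    rw [← dis_N_sub]
    refine dis_N_congr S _ fun ω _ _ => ?_
    rw [dis_ind_and, dis_ind_and, dis_ind_not]
    ring
  rw [e]
  have h2 : c₂ * (c₁ * S.Z (K.Holds S)) ≤ c₂ * S.N (K.Holds S) (clInd L) := mul_le_mul_of_nonneg_left h₁ hc₂
  linarith

/-- a sum of copies of `w` over a set in which at most one index is selected -/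
theorem swi_sum_le {α : Type*} (s : Finset α) (P : α → Prop) [DecidablePred P] {w : ℝ} (hw : 0 ≤ w)
    (huniq : ∀ a ∈ s, ∀ b ∈ s, P a → P b → a = b) : ∑ a ∈ s, (if P a then w else 0) ≤ w := by
  by_cases hex : ∃ a ∈ s, P a
  · obtain ⟨a, ha, hPa⟩ := hex
    rw [Finset.sum_eq_single_of_mem a ha (fun b hb hba => if_neg fun hPb => hba (huniq b hb a ha hPb hPa)), if_pos hPa]
  · rw [Finset.sum_eq_zero fun a ha => if_neg fun hPa => hex ⟨a, ha, hPa⟩]
    exact hw

theorem swi_sum_eq {α : Type*} (s : Finset α) (P : α → Prop) [DecidablePred P] (w : ℝ)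
    (huniq : ∀ a ∈ s, ∀ b ∈ s, P a → P b → a = b) (hex : ∃ a ∈ s, P a) : ∑ a ∈ s, (if P a then w else 0) = w := by
  obtain ⟨a, ha, hPa⟩ := hex
  rw [Finset.sum_eq_single_of_mem a ha (fun b hb hba => if_neg fun hPb => hba (huniq b hb a ha hPb hPa)), if_pos hPa]

end abstract

/-! ### 2. geometry -/

/-- the part of a hexagon off a hole-free set strictly inside is connected -/
theorem swi_skel {F : Finset TV} (hF : MomCo F) (c : TV) (N : ℕ) (hN : ∀ u ∈ F, latN (u - c) < N) :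
    TscConn tscG (↑(latBall c N \ F) : Set TV) := by
  have hmem : ∀ u : TV, u ∈ (↑(latBall c N \ F) : Set TV) ↔ latN (u - c) ≤ N ∧ u ∉ F := by
    intro u
    rw [Finset.mem_coe, Finset.mem_sdiff, lat_mem_ball]
  have hsph : ∀ u : TV, latN (u - c) = N → u ∈ (↑(latBall c N \ F) : Set TV) := by
    intro u hu
    rw [hmem]
    exact ⟨hu.le, fun h => by have := hN u h; omega⟩
  obtain ⟨w, hw⟩ : ∃ w : TV, latN (w - c) = N := ⟨c + ((N : ℤ), 0), by rw [add_sub_cancel_left, plh_N_hor, Int.natAbs_natCast]⟩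
  have hwF : w ∈ (↑F : Set TV)ᶜ := fun h => ((hmem w).1 (hsph w hw)).2 (by exact_mod_cast h)
  have key : ∀ u, TscR tscG (↑F : Set TV)ᶜ u w → latN (u - c) ≤ N →
      ∃ s, latN (s - c) = N ∧ TscR tscG (↑(latBall c N \ F) : Set TV) u s := by
    intro u hu
    induction hu using ReflTransGen.head_induction_on with
    | refl => intro _; exact ⟨w, hw, ReflTransGen.refl⟩
    | @head a b hab _ ih =>
      intro ha
      by_cases haN : latN (a - c) = N
      · exact ⟨a, haN, ReflTransGen.refl⟩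
      · have hadj : latN (b - a) = 1 := plh_N_adj_iff.1 hab.1
        have htri := plh_N_tri b a c
        have hb : latN (b - c) ≤ N := by omega
        obtain ⟨s, hs, hR⟩ := ih hb
        refine ⟨s, hs, ReflTransGen.head ⟨hab.1, (hmem a).2 ⟨ha, fun h => hab.2.1 (by exact_mod_cast h)⟩,
          (hmem b).2 ⟨hb, fun h => hab.2.2 (by exact_mod_cast h)⟩⟩ hR⟩
  have hS : TscConn tscG {u : TV | latN (u - c) = N} := plh_sphere_conn c N
  intro u hu v hv
  have hu' := (hmem u).1 hu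
  have hv' := (hmem v).1 hv
  obtain ⟨s, hs, hus⟩ := key u (hF u (fun h => hu'.2 (by exact_mod_cast h)) w hwF) hu'.1
  obtain ⟨s', hs', hvs⟩ := key v (hF v (fun h => hv'.2 (by exact_mod_cast h)) w hwF) hv'.1
  exact tsc_R_trans hus (tsc_R_trans (tsc_R_mono (fun a ha => hsph a ha) (hS s hs s' hs')) (tsc_R_symm hvs))

/-- connected in the lattice, inside `V` ⟹ connected in the graph of the ambient system -/
theorem swi_gr_conn (x : ℝ) {V T : Finset TV} (hT : T ⊆ V) (h : TscConn tscG (↑T : Set TV)) :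
    TscConn (clAmb x V).gr (↑T : Set TV) :=
  fun u hu v hv => pcp_R_congr (fun a ha b hb hab => (pcp_amb_adj x V a b).2 ⟨hab, hT ha, hT hb⟩) (h u hu v hv)

/-- two sites of a cell are at distance at most one -/
theorem swi_cell_N {y u v : TV} (hu : u ∈ cellV y) (hv : v ∈ cellV y) (z : TV) : latN (u - z) ≤ latN (v - z) + 1 := by
  by_cases huv : u = v
  · rw [huv]; omega
  · have h1 : latN (u - v) = 1 := plh_N_adj_iff.1 (pcp_cell_adj hv hu (fun h => huv h.symm))
    have := plh_N_tri u v z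
    omega

/-! ### 3. heights and configurations -/

/-- the configuration of a height and a set of open cells -/
def swiCf (V : Finset TV) (h : TV → ℤ) (O : Finset TV) : ClCfg TV TV := ⟨htB V h, htW V h, O⟩

theorem swi_cf_mem (x : ℝ) (V : Finset TV) (h : TV → ℤ) {O : Finset TV} (hO : O ∈ (clAmb x V).C.powerset) :
    swiCf V h O ∈ (clAmb x V).cfgs := by
  rw [cl_mem_cfgs]
  exact ⟨Finset.filter_subset _ _, Finset.filter_subset _ _, Finset.mem_powerset.1 hO⟩

/-- a flat height is 1-Lipschitz along every edge -/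
theorem swi_adm_lip {F : Finset TV} {h : TV → ℤ} (hh : HtAdm F 0 h) {u v : TV} (hadj : triAdj u v) : |h v - h u| ≤ 1 := by
  by_cases hA : u ∈ F ∨ v ∈ F
  · exact dlf_adm_edge hh hadj hA
  · rw [not_or] at hA
    rw [hh.1 _ hA.1, hh.1 _ hA.2]
    simp

/-- an admissible height is a lift of its configuration -/
theorem swi_cf_lift (x : ℝ) (V : Finset TV) {F : Finset TV} {h : TV → ℤ} (hh : HtAdm F 0 h) (O : Finset TV) :
    SwiLift (clAmb x V) (swiCf V h O) h where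
  res := by
    intro u hu
    have huV : u ∈ V := hu
    unfold clRes swiCf
    simp only [dlf_mem_htB, dlf_mem_htW, huV, true_and]
    unfold dlfB dlfW
    split_ifs <;> omega
  lip := by
    intro y _ u hu v hv
    have hu' : u ∈ cellV y := (Finset.mem_inter.1 hu).1
    have hv' : v ∈ cellV y := (Finset.mem_inter.1 hv).1
    by_cases huv : u = v
    · rw [huv]; simp
    · exact (abs_le.1 (swi_adm_lip hh (pcp_cell_adj hu' hv' huv))).2

open Classical in
/-- **(LIFT-N)** the pinned sums with statuses: any observable -/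
theorem swi_lift_N (x : ℝ) {F V : Finset TV} (hF : MomCo F) (hcl : latCl F ⊆ V) (G : ClCfg TV TV → ℝ) :
    (clAmb x V).N (fun ω => V \ F ⊆ ω.B ∧ V \ F ⊆ ω.W) G =
      ∑ h ∈ htCfg F 0, ∑ O ∈ (clAmb x V).C.powerset, (clAmb x V).wt (swiCf V h O) * G (swiCf V h O) := by
  have hg : DlfGeo F V Set.univ 0 := dlf_geo_plane hcl hF (fun _ _ _ _ _ => by simp)
  unfold ClSys.N
  rw [cl_sum_cfgs]
  show (∑ B ∈ V.powerset, ∑ W ∈ V.powerset, _) = _
  rw [← Finset.sum_product']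
  set Φ : Finset TV × Finset TV → ℝ := fun p =>
    ∑ O ∈ (clAmb x V).C.powerset, if V \ F ⊆ p.1 ∧ V \ F ⊆ p.2 then (clAmb x V).wt ⟨p.1, p.2, O⟩ * G ⟨p.1, p.2, O⟩ else 0 with hΦ
  set φ : (TV → ℤ) → Finset TV × Finset TV := fun h => (htB V h, htW V h) with hφ
  have h1 : ∑ p ∈ (htCfg F 0).image φ, Φ p = ∑ h ∈ htCfg F 0, Φ (φ h) := by
    refine Finset.sum_image fun h hh h' hh' e => ?_
    rw [Finset.mem_coe, ht_mem_cfg] at hh hh'
    exact dlf_inj hcl hh hh' (congrArg Prod.fst e) (congrArg Prod.snd e)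
  have h2 : ∑ p ∈ (htCfg F 0).image φ, Φ p = ∑ p ∈ V.powerset ×ˢ V.powerset, Φ p := by
    refine Finset.sum_subset ?_ ?_
    · intro p hp
      obtain ⟨h, _, rfl⟩ := Finset.mem_image.1 hp
      rw [Finset.mem_product, Finset.mem_powerset, Finset.mem_powerset]
      exact ⟨Finset.filter_subset _ _, Finset.filter_subset _ _⟩
    · intro p hp hnot
      rw [Finset.mem_product, Finset.mem_powerset, Finset.mem_powerset] at hp
      refine Finset.sum_eq_zero fun O hO => ?_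
      by_cases hpin : V \ F ⊆ p.1 ∧ V \ F ⊆ p.2
      · rw [if_pos hpin]
        by_cases hw : (clAmb x V).wt ⟨p.1, p.2, O⟩ = 0
        · rw [hw, zero_mul]
        · exfalso
          obtain ⟨h, hh, e1, e2⟩ := dlf_surj (x := x) hg (dlf_E_sub_amb hcl) (ω := ⟨p.1, p.2, O⟩)
            ((cl_mem_cfgs _ _).2 ⟨hp.1, hp.2, Finset.mem_powerset.1 hO⟩) hw ((dlf_pin_zero F V _).2 hpin)
          exact hnot (Finset.mem_image.2 ⟨h, ht_mem_cfg.2 hh, Prod.ext e1 e2⟩)
      · rw [if_neg hpin]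
  refine (Finset.sum_congr rfl fun p _ => Finset.sum_congr rfl fun O _ => ?_ :
    _ = ∑ p ∈ V.powerset ×ˢ V.powerset, Φ p).trans ?_
  · by_cases hpin : V \ F ⊆ p.1 ∧ V \ F ⊆ p.2
    · rw [if_pos hpin, if_pos hpin]
    · rw [if_neg hpin, if_neg hpin]
  rw [← h2, h1]
  refine Finset.sum_congr rfl fun h hh => ?_
  rw [ht_mem_cfg] at hh
  have hpin := (dlf_pin_zero F V _).1 (dlf_pin_gray V hh ∅)
  refine Finset.sum_congr rfl fun O _ => ?_
  exact if_pos hpin

/-- the weight of a height is the total weight of its configurations -/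
theorem swi_wt_sum (x : ℝ) {F V : Finset TV} (hcl : latCl F ⊆ V) {h : TV → ℤ} (hh : HtAdm F 0 h) :
    ∑ O ∈ (clAmb x V).C.powerset, (clAmb x V).wt (swiCf V h O) = htWt x F h :=
  dlf_wt_sum_flat x 0 (dlf_E_sub_amb hcl) hh

/-- the partition functions agree -/
theorem swi_lift_Z (x : ℝ) {F V : Finset TV} (hF : MomCo F) (hcl : latCl F ⊆ V) :
    (clAmb x V).Z (fun ω => V \ F ⊆ ω.B ∧ V \ F ⊆ ω.W) = htZ x F 0 := by
  rw [dis_Z_eq, swi_lift_N x hF hcl]
  unfold htZ
  refine Finset.sum_congr rfl fun h hh => ?_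
  rw [← swi_wt_sum x hcl (ht_mem_cfg.1 hh)]
  exact Finset.sum_congr rfl fun O _ => mul_one _

/-! ### 4. two opposite circuits in a flat problem -/

/-- the conclusion of `dis_prim` for the sign `s` with the constants `κ n₀ c` -/
def SwiPrim (x : ℝ) (s : Bool) (κ n₀ : ℕ) (c : ℝ) : Prop :=
  ∀ (V : Finset TV), DisAmb V → ∀ K : ClCon TV TV, ClLegal (clAmb x V) K →
    0 < (clAmb x V).Z (K.Holds (clAmb x V)) → ∀ (z : TV) (n : ℕ), n₀ ≤ n → latBall z (κ * n + 2) ⊆ V →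
    ClClear (clAmb x V) s K (latBall z (κ * n + 2)) →
    c ≤ (clAmb x V).P (K.Holds (clAmb x V))
      (fun ω => ClSep (clAmb x V) s K.Eq ω (V \ latBall z (κ * n)) (latBall z n))

theorem swi_K_clear (x : ℝ) (s : Bool) (V F D : Finset TV) (hD : D ⊆ F) : ClClear (clAmb x V) s (dshK V F) D where
  pin := by
    intro v hv
    refine ⟨fun _ => by simp [dshK], fun _ h => ?_⟩
    exact (Finset.mem_sdiff.1 (show v ∈ V \ F from h)).2 (hD hv)
  obs := by
    intro y _ hy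
    simp [dshK] at hy
  eq := by
    intro e he
    obtain ⟨h1, h2, _⟩ := dsh_mem_Eq.1 he
    exact ⟨fun h => (Finset.mem_sdiff.1 h1).2 (hD h), fun h => (Finset.mem_sdiff.1 h2).2 (hD h)⟩

/-- the event: an outer plus circuit and an inner minus circuit -/
def SwiEv (x : ℝ) (V F : Finset TV) (z : TV) (r₁ r₂ r₃ r₄ : ℕ) (ω : ClCfg TV TV) : Prop :=
  ClSep (clAmb x V) true (dshK V F).Eq ω (latBall z r₃) (V \ latBall z r₄) ∧
    ClSep (clAmb x V) false (dshK V F).Eq ω (V \ latBall z r₂) (latBall z r₁)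

theorem swi_circ (x : ℝ) (hx0 : 0 < x) (hx1 : x ≤ 1) {κp np κm nm : ℕ} {cp cm : ℝ} (hκp : 1 ≤ κp) (hcm : 0 ≤ cm)
    (Hp : SwiPrim x true κp np cp) (Hm : SwiPrim x false κm nm cm)
    (V F : Finset TV) (hV : DisAmb V) (hFV : F ⊆ V) (z : TV) (R : ℕ) (hR1 : nm ≤ R) (hR2 : np ≤ κm * R + 4)
    (hB : latBall z (κp * (κm * R + 4) + 2) ⊆ F) :
    cp * cm * (clAmb x V).Z ((dshK V F).Holds (clAmb x V)) ≤
      (clAmb x V).N ((dshK V F).Holds (clAmb x V)) (clInd (SwiEv x V F z R (κm * R) (κm * R + 4) (κp * (κm * R + 4)))) := by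
  have hOk : ClOk (clAmb x V) := pcp_amb_ok x hx0 hx1 V
  have hZK : 0 < (clAmb x V).Z ((dshK V F).Holds (clAmb x V)) :=
    dis_feas _ hOk _ (dsh_K_legal x V F) (dsh_K_feas x V F)
  set S := clAmb x V with hS
  set K := dshK V F with hK
  set n' := κm * R + 4 with hn'
  have hle : κm * R + 2 ≤ κp * n' + 2 := by nlinarith
  refine swi_two S hOk K (V \ latBall z (κm * R + 3)) _ _ hcm ?_ ?_ ?_
  · -- locality of the outer event
    intro ω ω' hτ
    refine dis_sep_congr _ fun y hy hv => hτ y ?_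
    obtain ⟨v, hv, hvn⟩ := hv
    unfold ClSys.cin
    rw [Finset.mem_filter]
    refine ⟨hy, fun w hw => ?_⟩
    have hw' := Finset.mem_inter.1 (show w ∈ cellV y ∩ V from hw)
    have hv' := Finset.mem_inter.1 (show v ∈ cellV y ∩ V from hv)
    rw [Finset.mem_sdiff, lat_mem_ball]
    rw [lat_mem_ball] at hvn
    have := swi_cell_N hv'.1 hw'.1 z
    exact ⟨hw'.2, by omega⟩
  · -- the outer circuit
    have h := Hp V hV K (dsh_K_legal x V F) hZK z n' hR2 (hB.trans hFV) (swi_K_clear x true V F _ hB)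
    rw [dis_P_eq, le_div_iff₀ hZK] at h
    refine h.trans (le_of_eq (dis_N_congr S _ fun ω _ _ => dis_ind_congr ?_))
    exact swi_sep_symm S true K.Eq ω _ _
  · -- the inner circuit under a complete observation of the outside
    intro K' hx hZ'
    have hQ : ∀ y ∈ S.cin (V \ latBall z (κm * R + 3)), S.sv y ⊆ V \ latBall z (κm * R + 3) := fun y hy =>
      (Finset.mem_filter.1 hy).2
    have hdisj : Disjoint (V \ latBall z (κm * R + 3)) (latBall z (κm * R + 2)) := by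
      rw [Finset.disjoint_left]
      intro u hu hu2
      exact (Finset.mem_sdiff.1 hu).2 (plh_ball_mono z (by omega) hu2)
    have hleg : ClLegal S K' := dis_legal_ext (dsh_K_legal x V F) hx hQ
    have hclear : ClClear S false K' (latBall z (κm * R + 2)) :=
      dis_clear_ext (swi_K_clear x false V F _ ((plh_ball_mono z hle).trans hB)) hx hdisj
        (fun y hy => Finset.disjoint_of_subset_left (hQ y hy) hdisj)
    have h := Hm V hV K' hleg hZ' z R hR1 (((plh_ball_mono z hle).trans hB).trans hFV) hclear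
    rw [dis_P_eq, le_div_iff₀ hZ', hx.eq] at h
    exact h

/-- on the event the two invaded sets are disjoint -/
theorem swi_ev_disj (x : ℝ) (V F : Finset TV) (z : TV) {r₁ r₂ r₃ r₄ : ℕ} (h23 : r₂ ≤ r₃) {ω : ClCfg TV TV}
    (h : SwiEv x V F z r₁ r₂ r₃ r₄ ω) :
    Disjoint (clInv (clAmb x V) true (dshK V F).Eq ω (V \ latBall z r₄)) (clInv (clAmb x V) false (dshK V F).Eq ω (latBall z r₁)) := by
  rw [Finset.disjoint_left]
  intro u hu1 hu2
  have a1 := swi_inv_sep _ _ _ _ ((swi_sep_symm _ _ _ _ _ _).1 h.1) u hu1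
  have a2 := swi_inv_sep _ _ _ _ ((swi_sep_symm _ _ _ _ _ _).1 h.2) u hu2
  have huV : u ∈ V := ((dde_mem_inv _ _ _ _ _ u).1 hu1).1
  have : u ∈ latBall z r₂ := by
    by_contra hc
    exact a2 (Finset.mem_sdiff.2 ⟨huV, hc⟩)
  exact a1 (plh_ball_mono z h23 this)

/-- the event reads `(B, statuses)` only -/
theorem swi_ev_congr (x : ℝ) (V F : Finset TV) (z : TV) (r₁ r₂ r₃ r₄ : ℕ) {ω ω' : ClCfg TV TV} (hB : ω.B = ω'.B) (hO : ω.O = ω'.O) :
    SwiEv x V F z r₁ r₂ r₃ r₄ ω ↔ SwiEv x V F z r₁ r₂ r₃ r₄ ω' := by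
  unfold SwiEv
  rw [swi_sep_congr _ true _ hB hO, swi_sep_congr _ false _ hB hO]

/-! ### 5. the kernel on heights -/

open Classical in
/-- the kernel on heights induced by a map `σ` of the configurations restricted to the event `Ev` -/
noncomputable def swiM (S : ClSys TV TV) (V F : Finset TV) (Ev : ClCfg TV TV → Prop) (σ : ClCfg TV TV → ClCfg TV TV)
    (h h' : TV → ℤ) : ℝ :=
  if h ∈ htCfg F 0 ∧ h' ∈ htCfg F 0 then
    ∑ Q ∈ S.C.powerset, if Ev (swiCf V h Q) ∧ σ (swiCf V h Q) = swiCf V h' Q then S.wt (swiCf V h Q) else 0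
  else 0

section kernel

variable (S : ClSys TV TV) (V F : Finset TV) (Ev : ClCfg TV TV → Prop) (σ : ClCfg TV TV → ClCfg TV TV)

theorem swi_M_nonneg (hS : ClOk S) (h h' : TV → ℤ) : 0 ≤ swiM S V F Ev σ h h' := by
  classical
  unfold swiM
  split_ifs
  · refine Finset.sum_nonneg fun Q _ => ?_
    split_ifs
    · exact dis_wt_nonneg S hS _
    · exact le_rfl
  · exact le_rfl

theorem swi_M_symm (hσσ : ∀ ω, σ (σ ω) = ω) (hσw : ∀ ω, S.wt (σ ω) = S.wt ω) (hσE : ∀ ω, Ev (σ ω) ↔ Ev ω) (h h' : TV → ℤ) :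
    swiM S V F Ev σ h h' = swiM S V F Ev σ h' h := by
  classical
  unfold swiM
  by_cases hm : h ∈ htCfg F 0 ∧ h' ∈ htCfg F 0
  · rw [if_pos hm, if_pos hm.symm]
    refine Finset.sum_congr rfl fun Q _ => ?_
    by_cases hc : Ev (swiCf V h Q) ∧ σ (swiCf V h Q) = swiCf V h' Q
    · have hc' : Ev (swiCf V h' Q) ∧ σ (swiCf V h' Q) = swiCf V h Q := by
        rw [← hc.2, hσσ, hσE]
        exact ⟨hc.1, rfl⟩
      rw [if_pos hc, if_pos hc', ← hc.2, hσw]
    · have hc' : ¬ (Ev (swiCf V h' Q) ∧ σ (swiCf V h' Q) = swiCf V h Q) := by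
        intro hc'
        apply hc
        rw [← hc'.2, hσσ, hσE]
        exact ⟨hc'.1, rfl⟩
      rw [if_neg hc, if_neg hc']
  · rw [if_neg hm, if_neg (fun h => hm h.symm)]

theorem swi_cf_inj {V F : Finset TV} (hcl : latCl F ⊆ V) {a b : TV → ℤ} (ha : a ∈ htCfg F 0) (hb : b ∈ htCfg F 0) {Q : Finset TV}
    (h : swiCf V a Q = swiCf V b Q) : a = b :=
  dlf_inj hcl (ht_mem_cfg.1 ha) (ht_mem_cfg.1 hb) (congrArg ClCfg.B h) (congrArg ClCfg.W h)

open Classical in
theorem swi_M_row {h : TV → ℤ} (hh : h ∈ htCfg F 0) :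
    ∑ h' ∈ htCfg F 0, swiM S V F Ev σ h h' =
      ∑ Q ∈ S.C.powerset, ∑ h' ∈ htCfg F 0,
        if Ev (swiCf V h Q) ∧ σ (swiCf V h Q) = swiCf V h' Q then S.wt (swiCf V h Q) else 0 := by
  rw [Finset.sum_comm]
  refine Finset.sum_congr rfl fun h' hh' => ?_
  unfold swiM
  rw [if_pos ⟨hh, hh'⟩]

theorem swi_M_sub (hS : ClOk S) (hcl : latCl F ⊆ V) {h : TV → ℤ} (hh : h ∈ htCfg F 0) :
    ∑ h' ∈ htCfg F 0, swiM S V F Ev σ h h' ≤ ∑ Q ∈ S.C.powerset, S.wt (swiCf V h Q) := by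
  classical
  rw [swi_M_row S V F Ev σ hh]
  refine Finset.sum_le_sum fun Q _ => ?_
  refine swi_sum_le _ _ (dis_wt_nonneg S hS _) fun a ha b hb hPa hPb => ?_
  exact swi_cf_inj hcl ha hb (hPa.2.symm.trans hPb.2)

theorem swi_M_supp {h h' : TV → ℤ} (hne : swiM S V F Ev σ h h' ≠ 0) :
    h ∈ htCfg F 0 ∧ h' ∈ htCfg F 0 ∧ ∃ Q ∈ S.C.powerset, Ev (swiCf V h Q) ∧ σ (swiCf V h Q) = swiCf V h' Q ∧ S.wt (swiCf V h Q) ≠ 0 := by
  classical
  unfold swiM at hne
  by_cases hm : h ∈ htCfg F 0 ∧ h' ∈ htCfg F 0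
  · rw [if_pos hm] at hne
    obtain ⟨Q, hQ, hQne⟩ := Finset.exists_ne_zero_of_sum_ne_zero hne
    by_cases hc : Ev (swiCf V h Q) ∧ σ (swiCf V h Q) = swiCf V h' Q
    · rw [if_pos hc] at hQne
      exact ⟨hm.1, hm.2, Q, hQ, hc.1, hc.2, hQne⟩
    · rw [if_neg hc] at hQne
      exact absurd rfl hQne
  · rw [if_neg hm] at hne
    exact absurd rfl hne

theorem swi_M_tot (hcl : latCl F ⊆ V)
    (hex : ∀ h ∈ htCfg F 0, ∀ Q ∈ S.C.powerset, Ev (swiCf V h Q) → S.wt (swiCf V h Q) ≠ 0 →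
      ∃ h' ∈ htCfg F 0, σ (swiCf V h Q) = swiCf V h' Q) :
    ∑ h ∈ htCfg F 0, ∑ h' ∈ htCfg F 0, swiM S V F Ev σ h h' =
      ∑ h ∈ htCfg F 0, ∑ Q ∈ S.C.powerset, S.wt (swiCf V h Q) * clInd Ev (swiCf V h Q) := by
  classical
  refine Finset.sum_congr rfl fun h hh => ?_
  rw [swi_M_row S V F Ev σ hh]
  refine Finset.sum_congr rfl fun Q hQ => ?_
  by_cases hE : Ev (swiCf V h Q)
  · rw [dis_ind_pos hE, mul_one]
    by_cases hw : S.wt (swiCf V h Q) = 0
    · rw [hw]
      exact Finset.sum_eq_zero fun a _ => by split_ifs <;> rfl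
    · obtain ⟨h', hh', e⟩ := hex h hh Q hQ hE hw
      exact swi_sum_eq _ _ _ (fun a ha b hb hPa hPb => swi_cf_inj hcl ha hb (hPa.2.symm.trans hPb.2)) ⟨h', hh', hE, e⟩
  · rw [dis_ind_neg hE, mul_zero]
    exact Finset.sum_eq_zero fun a _ => if_neg fun hc => hE hc.1

end kernel

/-! ### 6. the protected switch in a flat height problem -/

/-- the switch in a flat problem, from the two primitive circuit estimates -/
theorem swi_flat (x : ℝ) (hx0 : 0 < x) (hx1 : x ≤ 1) {κp np κm nm : ℕ} {cp cm : ℝ} (hκp : 1 ≤ κp) (hκm : 1 ≤ κm) (hcp : 0 ≤ cp) (hcm : 0 ≤ cm)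
    (Hp : SwiPrim x true κp np cp) (Hm : SwiPrim x false κm nm cm)
    (F : Finset TV) (hF : MomCo F) (z : TV) (R : ℕ) (hR1 : nm ≤ R) (hR2 : np ≤ κm * R + 4)
    (hB : latBall z (κp * (κm * R + 4) + 2) ⊆ F) :
    ∃ M : (TV → ℤ) → (TV → ℤ) → ℝ, (∀ h h', 0 ≤ M h h') ∧ (∀ h h', M h h' = M h' h) ∧
      (∀ h ∈ htCfg F 0, ∑ h' ∈ htCfg F 0, M h h' ≤ htWt x F h) ∧
      (∀ h h', M h h' ≠ 0 → (∀ u, u ∉ latBall z (κp * (κm * R + 4)) → h' u = h u) ∧
        ∃ k : ℤ, k % 8 = 4 ∧ ∀ u ∈ latBall z R, h' u = h u + k) ∧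
      cp * cm / 2 * htZ x F 0 ≤ ∑ h ∈ htCfg F 0, ∑ h' ∈ htCfg F 0, M h h' := by
  classical
  set r₄ := κp * (κm * R + 4) with hr₄
  have hV : DisAmb (dshV F) := dis_amb_ball 0 _
  have hcl : latCl F ⊆ dshV F := dsh_cl_sub F
  have hFV : F ⊆ dshV F := dsh_F_sub F
  have hsk : TscConn tscG (↑(dshV F \ F) : Set TV) := dsh_sk_conn F hF
  set V := dshV F with hVdef
  have hOk : ClOk (clAmb x V) := pcp_amb_ok x hx0 hx1 V
  set S := clAmb x V with hS
  set K := dshK V F with hK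
  set O := V \ latBall z r₄ with hOdef
  set A := latBall z R with hAdef
  have hR4 : R ≤ r₄ := by
    have a1 : R ≤ κm * R := Nat.le_mul_of_pos_left R hκm
    have a2 : κm * R + 4 ≤ κp * (κm * R + 4) := Nat.le_mul_of_pos_left _ hκp
    omega
  have hB4 : latBall z r₄ ⊆ F := (plh_ball_mono z (by omega)).trans hB
  have hO : O ⊆ S.A := Finset.sdiff_subset
  have hA : A ⊆ S.A := ((plh_ball_mono z hR4).trans hB4).trans hFV
  have hskO : V \ F ⊆ O := fun u hu =>
    Finset.mem_sdiff.2 ⟨(Finset.mem_sdiff.1 hu).1, fun hc => (Finset.mem_sdiff.1 hu).2 (hB4 hc)⟩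
  have hOc : TscConn S.gr (↑O : Set TV) := by
    refine swi_gr_conn x hO ?_
    refine swi_skel (F := latBall z r₄) (plh_ball_compl_conn z r₄) 0 (dshR F + 2) fun u hu => ?_
    have := dsh_R_le (hB4 hu)
    rw [sub_zero]
    omega
  have hAc : TscConn S.gr (↑A : Set TV) := swi_gr_conn x hA (plh_ball_conn z R)
  have hVc : TscConn S.gr (↑S.A : Set TV) := pcp_amb_conn x hV.conn
  have hE : ∀ e ∈ K.Eq, ∃ y ∈ S.C, e.1 ∈ S.sv y ∧ e.2 ∈ S.sv y := (dsh_K_legal x V F).eq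
  have hE' : ∀ e ∈ K.Eq, e.1 ∈ S.A ∧ e.2 ∈ S.A := fun e he => by
    obtain ⟨y, hy, h1, h2⟩ := hE e he
    exact ⟨hOk.sub y hy h1, hOk.sub y hy h2⟩
  set σ := swiSw S K.Eq O A with hσ
  set Ev := SwiEv x V F z R (κm * R) (κm * R + 4) r₄ with hEv
  have hEvc : ∀ ω ω' : ClCfg TV TV, ω.B = ω'.B → ω.O = ω'.O → (Ev ω ↔ Ev ω') := fun ω ω' h1 h2 =>
    swi_ev_congr x V F z _ _ _ _ h1 h2
  refine ⟨swiM S V F Ev σ, swi_M_nonneg S V F Ev σ hOk,
    swi_M_symm S V F Ev σ (swi_sw_sw S K.Eq O A) (swi_sw_wt S hOk K.Eq hE' O A) (fun ω => hEvc _ _ rfl rfl), ?_, ?_, ?_⟩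
  · intro h hh
    exact (swi_M_sub S V F Ev σ hOk hcl hh).trans (le_of_eq (swi_wt_sum x hcl (ht_mem_cfg.1 hh)))
  · intro h h' hne
    obtain ⟨hh, hh', Q, hQ, hE1, hE2, hw⟩ := swi_M_supp S V F Ev σ hne
    have ah := ht_mem_cfg.1 hh
    have ah' := ht_mem_cfg.1 hh'
    have hl : SwiLift S (swiCf V h Q) h := swi_cf_lift x V ah Q
    have hl' : SwiLift S (swiSw S K.Eq O A (swiCf V h Q)) h' := by
      rw [show swiSw S K.Eq O A (swiCf V h Q) = swiCf V h' Q from hE2]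
      exact swi_cf_lift x V ah' Q
    obtain ⟨o, ho⟩ := dsh_sk_ne F
    have hoF : o ∉ F := (Finset.mem_sdiff.1 ho).2
    have hoo : h' o = h o := by rw [ah.1 o hoF, ah'.1 o hoF]
    obtain ⟨s1, k, hk, s2⟩ := swi_sw_shift S hOk K.Eq hE hO hA hOc hAc hVc hw (swi_ev_disj x V F z (by omega) hE1) hl hl'
      (hskO ho) hoo
    refine ⟨fun u hu => ?_, k, hk, fun u hu => s2 u (swi_sub_inv S false K.Eq _ hA hu)⟩
    by_cases huV : u ∈ V
    · exact s1 u (swi_sub_inv S true K.Eq _ hO (Finset.mem_sdiff.2 ⟨huV, hu⟩))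
    · have huF : u ∉ F := fun hc => huV (hFV hc)
      rw [ah.1 u huF, ah'.1 u huF]
  · have hg : DlfGeo F V Set.univ 0 := dlf_geo_plane hcl hF (fun _ _ _ _ _ => by simp)
    have hex : ∀ h ∈ htCfg F 0, ∀ Q ∈ S.C.powerset, Ev (swiCf V h Q) → S.wt (swiCf V h Q) ≠ 0 →
        ∃ h' ∈ htCfg F 0, σ (swiCf V h Q) = swiCf V h' Q := by
      intro h hh Q hQ _ hw
      have ah := ht_mem_cfg.1 hh
      obtain ⟨p1, p2⟩ := (dlf_pin_zero F V _).1 (dlf_pin_gray V ah Q)
      have hmem : σ (swiCf V h Q) ∈ S.cfgs := swi_sw_mem S K.Eq O A (swi_cf_mem x V h hQ)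
      have hwt : S.wt (σ (swiCf V h Q)) ≠ 0 := by rw [hσ, swi_sw_wt S hOk K.Eq hE' O A]; exact hw
      have q2 : V \ F ⊆ (σ (swiCf V h Q)).W := by
        intro v hv
        refine (swi_sw_W S K.Eq O A _ ?_).2 (p2 hv)
        intro hc
        exact (Finset.mem_sdiff.1 hc).2 (Finset.mem_union_left _ (swi_sub_inv S true K.Eq _ hO (hskO hv)))
      obtain ⟨h', ah', e1, e2⟩ := dlf_surj (x := x) hg (dlf_E_sub_amb hcl) hmem hwt ((dlf_pin_zero F V _).2 ⟨p1, q2⟩)
      exact ⟨h', ht_mem_cfg.2 ah', ClCfg.ext e1.symm e2.symm rfl⟩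
    rw [swi_M_tot S V F Ev σ hcl hex, ← swi_lift_N x hF hcl (clInd Ev), ← swi_lift_Z x hF hcl]
    have e2 : (fun ω : ClCfg TV TV => V \ F ⊆ ω.B ∧ V \ F ⊆ ω.W) =
        ({ K with Wp := K.Wp ∪ (V \ F) } : ClCon TV TV).Holds S := by
      funext ω
      exact propext (dsh_K_lab x V F ω).symm
    rw [e2]
    have hlab := dis_lbl_one S hOk K hE' (V \ F) Finset.sdiff_subset (dsh_K_conn hsk) rfl (clInd Ev) (dis_ind_nonneg Ev)
      (fun ω ω' h1 h2 => dis_ind_congr (L₁ := Ev) (L₂ := fun _ => Ev ω') (ω := ω) (hEvc ω ω' h1 h2) |>.trans (by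
        unfold clInd; rfl))
    have hcirc := swi_circ x hx0 hx1 hκp hcm Hp Hm V F hV hFV z R hR1 hR2 hB
    have hKK' : ∀ ω, ({ K with Wp := K.Wp ∪ (V \ F) } : ClCon TV TV).Holds S ω → K.Holds S ω := by
      intro ω h
      obtain ⟨a1, a2⟩ := (dsh_K_lab x V F ω).1 h
      refine ⟨a1, by simp [hK, dshK], ?_, by simp [hK, dshK], by simp [hK, dshK], by simp [hK, dshK],
        by simp [hK, dshK], by simp [hK, dshK]⟩
      intro e he
      obtain ⟨b1, b2, _⟩ := dsh_mem_Eq.1 he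
      exact ⟨fun _ => a2 b2, fun _ => a2 b1⟩
    have hZZ : S.Z (({ K with Wp := K.Wp ∪ (V \ F) } : ClCon TV TV).Holds S) ≤ S.Z (K.Holds S) := by
      rw [dis_Z_eq, dis_Z_eq]
      exact dsh_N_mono S hOk hKK' (fun _ _ => le_rfl) (fun _ => zero_le_one)
    have hcc : 0 ≤ cp * cm := mul_nonneg hcp hcm
    have h3 : cp * cm * S.Z (({ K with Wp := K.Wp ∪ (V \ F) } : ClCon TV TV).Holds S) ≤ cp * cm * S.Z (K.Holds S) :=
      mul_le_mul_of_nonneg_left hZZ hcc
    linarith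

/-- **the body of `exit_dis_switch`** -/
theorem swi_main (x : ℝ) (hx1 : 1 / Real.sqrt 2 ≤ x) (hx2 : x ≤ 1) :
    ∃ (c2 : ℝ) (R0 C0 C1 : ℕ), 0 < c2 ∧ ∀ (F : Finset TV) (z1 : TV) (R : ℕ),
      MomCo F → R0 ≤ R → latBall z1 (C0 * R) ⊆ F →
      ∃ M : (TV → ℤ) → (TV → ℤ) → ℝ, (∀ h h', 0 ≤ M h h') ∧ (∀ h h', M h h' = M h' h) ∧
        (∀ h ∈ htCfg F 0, ∑ h' ∈ htCfg F 0, M h h' ≤ htWt x F h) ∧
        (∀ h h', M h h' ≠ 0 → (∀ u, u ∉ latBall z1 (C1 * R) → h' u = h u) ∧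
          ∃ k : ℤ, k % 8 = 4 ∧ ∀ u ∈ latBall z1 R, h' u = h u + k) ∧
        c2 * htZ x F 0 ≤ ∑ h ∈ htCfg F 0, ∑ h' ∈ htCfg F 0, M h h' := by
  have hx0 : 0 < x := lt_of_lt_of_le (by positivity) hx1
  have hT : DisT23 x true := exit_t23 x hx1 hx2
  obtain ⟨κp, np, cp, hκp, hcp, Hp⟩ := dis_prim x hx0 hx2 true hT
  obtain ⟨κm, nm, cm, hκm, hcm, Hm⟩ := dis_prim x hx0 hx2 false (dis_t23_flip x hx0 hx2 hT)
  refine ⟨cp * cm / 2, nm + np + 1, κp * (κm + 4) + 2, κp * (κm + 4), by positivity, fun F z R hF hR hB => ?_⟩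
  have hR1 : 1 ≤ R := by omega
  have h4 : κm * R + 4 ≤ (κm + 4) * R := by nlinarith
  have h5 : κp * (κm * R + 4) ≤ κp * (κm + 4) * R := by
    rw [mul_assoc]; exact Nat.mul_le_mul_left _ h4
  have h6 : κp * (κm * R + 4) + 2 ≤ (κp * (κm + 4) + 2) * R := by nlinarith
  have h7 : np ≤ κm * R + 4 := by nlinarith
  obtain ⟨M, m1, m2, m3, m4, m5⟩ := swi_flat x hx0 hx2 (by omega) (by omega) hcp.le hcm.le Hp Hm F hF z R (by omega) h7
    ((plh_ball_mono z h6).trans hB)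
  refine ⟨M, m1, m2, m3, fun h h' hne => ?_, m5⟩
  obtain ⟨a1, a2⟩ := m4 h h' hne
  exact ⟨fun u hu => a1 u (fun hc => hu (plh_ball_mono z h5 hc)), a2⟩

/-- the equation lemmas of the definitions of this file are generated HERE -/
theorem swi_pl_eqns_cite : True := by
  have := @swiCf.eq_1
  have := @SwiPrim.eq_1
  have := @SwiEv.eq_1
  have := @swiM.eq_1
  trivial

end Claimed.Agent.R291
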