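import Claimed.Agent.R291.Dis.Fill
import Claimed.Agent.R291.Dis.PinBr
import Claimed.Agent.R291.Dis.Conn

/-!
# Row 291 (S0539), Dis/Sync : SYNCHRONISATION OF TWO OFFSETS ACROSS A GAP      (owner helper217; prefix `dsn_`, defs `dsn…`)

TEX[pins:gap-closing] (pins:offset-synchronization), first paragraph of the proof.   PRODUCES `dsn_main` = the body of `exit_dis_sync` (Exit/DisSync.lean).
CONSUMES the kit `dfi_` of helper182 (`dfiK`, `dfiPin`, `dfiLab`, `dfiObs`, `DfiStack`), `dis_stack` (STACK), `dis_lbl` (LBL), `dcn_ball` (CONN, helper206), `dis_plane_lim` (PLANE), `dbr_main` (BR, helper267), `exit_t23`.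
ROUTE  (A) heights: a connected set of `B = +` sites carries ONE pair `{4t, 4t+1}` (`dsn_pair`); hence `PinSp (⋃ G) (⋃ D) ↔ ∀ l, PinLoc (G l) (D l)` for Lipschitz heights (`dsn_sp_iff`);
       (B) deterministic: on `Sep_+(V \ latBall z L, latBall z r)` the outer layer of the cut domain is connected, `B = +`, and meets the two crossing groups, so every lift of the spins
           on a ball `Q₀` puts the two groups in the same pair (`dsn_det`);
       (C) finite volume, FREE ambient law: `N[bad · pin] ≤ N_K[not Sep] ≤ C (r/L)^α Z_K ≤ 2^k C (r/L)^α N[pin]` (`dsn_fin`);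
       (D) limit of large hexagons, bridge (`dsn_plane`, `dsn_main`).
-/

set_option autoImplicit false
set_option linter.unusedSectionVars false
set_option linter.unusedVariables false

namespace Claimed.Agent.R291

open Relation Claims Claims.C0467 Filter Topology

/-! ### (A) heights -/

/-- a connected set of `B = +` sites carries one pair -/
theorem dsn_pair {X : Set TV} (hX : TscConn tscG X) {h : TV → ℤ} (hl : ∀ u ∈ X, ∀ v ∈ X, triAdj u v → |h u - h v| ≤ 1)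
    (hB : ∀ u ∈ X, momB (h u)) : ∃ t : ℤ, ∀ u ∈ X, h u = 4 * t ∨ h u = 4 * t + 1 := by
  rcases X.eq_empty_or_nonempty with rfl | ⟨u₀, hu₀⟩
  · exact ⟨0, fun u hu => absurd hu (by simp)⟩
  refine ⟨h u₀ / 4, fun u hu => ?_⟩
  have key : h u₀ / 4 = h u / 4 := by
    refine tsc_R_const (G := tscG) (s := X) (fun v => h v / 4) ?_ (hX u₀ hu₀ u hu)
    intro a b hab
    have l1 := abs_le.1 (hl a hab.2.1 b hab.2.2 hab.1)
    have b1 := hB a hab.2.1
    have b2 := hB b hab.2.2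
    unfold momB at b1 b2
    show h a / 4 = h b / 4
    omega
  have b1 := hB u hu
  unfold momB at b1
  omega

/-- the spin event of a family of pinned groups, for Lipschitz heights -/
theorem dsn_sp_iff {k : ℕ} (G D : Fin k → Finset TV) (hob : ∀ l, PinOb (G l) (D l)) (Q : Finset TV)
    (hQ : Finset.univ.biUnion G ⊆ Q) (h : TV → ℤ) (hl : ∀ u ∈ Q, ∀ v ∈ Q, triAdj u v → |h u - h v| ≤ 1) :
    PinSp (Finset.univ.biUnion G) (Finset.univ.biUnion D) h ↔ ∀ l, PinLoc (G l) (D l) h := by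
  constructor
  · rintro ⟨hB, hW⟩ l
    have hGl : G l ⊆ Finset.univ.biUnion G := Finset.subset_biUnion_of_mem G (Finset.mem_univ l)
    have hDl : D l ⊆ Finset.univ.biUnion D := Finset.subset_biUnion_of_mem D (Finset.mem_univ l)
    obtain ⟨t, ht⟩ := dsn_pair (hob l).connG (h := h)
      (fun u hu v hv => hl u (hQ (hGl (by exact_mod_cast hu))) v (hQ (hGl (by exact_mod_cast hv))))
      (fun u hu => hB u (hGl (by exact_mod_cast hu)))
    refine ⟨t, fun u hu => ?_, fun u hu => ?_⟩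
    · have := ht u (by exact_mod_cast hu)
      show h u - 4 * t = 0 ∨ h u - 4 * t = 1
      omega
    · have h1 := ht u (by exact_mod_cast (hob l).sub hu)
      have h2 := hW u (hDl hu)
      show h u - 4 * t = 0
      omega
  · intro hall
    refine ⟨fun u hu => ?_, fun u hu => ?_⟩
    · obtain ⟨l, _, hul⟩ := Finset.mem_biUnion.1 hu
      obtain ⟨t, h1, _⟩ := hall l
      have : h u - 4 * t = 0 ∨ h u - 4 * t = 1 := h1 u hul
      unfold momB
      omega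
    · obtain ⟨l, _, hul⟩ := Finset.mem_biUnion.1 hu
      obtain ⟨t, _, h2⟩ := hall l
      have : h u - 4 * t = 0 := h2 u hul
      omega

/-- indicator of "the two groups do not lie in the same absolute pair" -/
noncomputable def dsnPsi (G₁ D₁ G₂ D₂ : Finset TV) (h : TV → ℤ) : ℝ :=
  pinI (¬ ∃ t : ℤ, PinAbs G₁ D₁ (fun u => h u - t) ∧ PinAbs G₂ D₂ (fun u => h u - t))

theorem dsn_pinI_nonneg (p : Prop) : 0 ≤ pinI p := by
  unfold pinI; split_ifs <;> norm_num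

theorem dsn_pinI_le (p : Prop) : pinI p ≤ 1 := by
  unfold pinI; split_ifs <;> norm_num

theorem dsn_pinI_and (p q : Prop) : pinI (p ∧ q) = pinI q * pinI p := by
  unfold pinI
  by_cases hp : p <;> by_cases hq : q <;> simp [hp, hq]

theorem dsn_pinI_congr {p q : Prop} (h : p ↔ q) : pinI p = pinI q := by
  rw [propext h]

theorem dsn_psi_abs (G₁ D₁ G₂ D₂ : Finset TV) (h : TV → ℤ) : |dsnPsi G₁ D₁ G₂ D₂ h| ≤ 1 := by
  unfold dsnPsi
  rw [abs_of_nonneg (dsn_pinI_nonneg _)]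
  exact dsn_pinI_le _

theorem dsn_abs_congr {G D : Finset TV} {h h' : TV → ℤ} (e : ∀ u ∈ G ∪ D, h u = h' u) : PinAbs G D h ↔ PinAbs G D h' := by
  unfold PinAbs
  refine and_congr (forall₂_congr fun u hu => ?_) (forall₂_congr fun u hu => ?_)
  · rw [e u (Finset.mem_union_left _ hu)]
  · rw [e u (Finset.mem_union_right _ hu)]

theorem dsn_psi_loc (G₁ D₁ G₂ D₂ : Finset TV) : HtLoc ((G₁ ∪ D₁) ∪ (G₂ ∪ D₂)) (dsnPsi G₁ D₁ G₂ D₂) := by
  intro h h' e
  unfold dsnPsi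
  refine dsn_pinI_congr (not_congr (exists_congr fun t => and_congr ?_ ?_))
  · exact dsn_abs_congr fun u hu => by rw [e u (Finset.mem_union_left _ hu)]
  · exact dsn_abs_congr fun u hu => by rw [e u (Finset.mem_union_right _ hu)]

theorem dsn_psi_p4 (G₁ D₁ G₂ D₂ : Finset TV) : PinP4 (dsnPsi G₁ D₁ G₂ D₂) := by
  intro h
  unfold dsnPsi
  refine dsn_pinI_congr (not_congr ⟨?_, ?_⟩)
  · rintro ⟨t, h1, h2⟩
    refine ⟨t - 4, ?_, ?_⟩
    · have e : (fun u => h u - (t - 4)) = fun u => h u + 4 - t := by funext u; ring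
      rw [e]; exact h1
    · have e : (fun u => h u - (t - 4)) = fun u => h u + 4 - t := by funext u; ring
      rw [e]; exact h2
  · rintro ⟨t, h1, h2⟩
    refine ⟨t + 4, ?_, ?_⟩
    · have e : (fun u => h u + 4 - (t + 4)) = fun u => h u - t := by funext u; ring
      rw [e]; exact h1
    · have e : (fun u => h u + 4 - (t + 4)) = fun u => h u - t := by funext u; ring
      rw [e]; exact h2

/-! ### (B) the deterministic step -/

/-- on the separation event every lift of the spins puts the two crossing groups in the same pair -/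
theorem dsn_det (x : ℝ) (V : Finset TV) (E : Finset (TV × TV)) (hE : ∀ e ∈ E, e.1 = e.2 ∨ triAdj e.1 e.2) (ω : ClCfg TV TV)
    (z : TV) (r L : ℕ) (hV : latBall z (L + 1) ⊆ V) (hrL : r ≤ L) (Q₀ : Finset TV) (hbQ : latBall z (L + 1) ⊆ Q₀)
    (G₁ D₁ G₂ D₂ : Finset TV) (ho₁ : PinOb G₁ D₁) (ho₂ : PinOb G₂ D₂) (hQ₁ : G₁ ⊆ Q₀) (hQ₂ : G₂ ⊆ Q₀)
    (hB₁ : G₁ ⊆ ω.B) (hB₂ : G₂ ⊆ ω.B) (hW₁ : D₁ ⊆ ω.W) (hW₂ : D₂ ⊆ ω.W)
    (hi₁ : ∃ u ∈ G₁, u ∈ latBall z r) (hx₁ : ∃ u ∈ G₁, u ∈ V \ latBall z L)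
    (hi₂ : ∃ u ∈ G₂, u ∈ latBall z r) (hx₂ : ∃ u ∈ G₂, u ∈ V \ latBall z L)
    (hsep : ClSep (clAmb x V) true E ω (V \ latBall z L) (latBall z r)) :
    dfiObs Q₀ (dsnPsi G₁ D₁ G₂ D₂) ω = 0 := by
  obtain ⟨I, hI, hIL, hout⟩ := dcn_ball x V true E hE ω z r L hV hrL hsep
  have meet : ∀ G D : Finset TV, PinOb G D → (∃ u ∈ G, u ∈ latBall z r) → (∃ u ∈ G, u ∈ V \ latBall z L) →
      ((↑G : Set TV) ∩ ↑(latOut I)).Nonempty := by
    rintro G D ho ⟨u, hu, hur⟩ ⟨u', hu', hur'⟩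
    exact dcn_blk_meet hI.blk_out ho.connG ⟨u, by exact_mod_cast hu, by exact_mod_cast hur⟩
      ⟨u', by exact_mod_cast hu', by exact_mod_cast hur'⟩
  obtain ⟨a₁, ha₁, ha₁'⟩ := meet G₁ D₁ ho₁ hi₁ hx₁
  obtain ⟨a₂, ha₂, ha₂'⟩ := meet G₂ D₂ ho₂ hi₂ hx₂
  have c1 : TscConn tscG ((↑(latOut I) : Set TV) ∪ ↑G₁) := tsc_conn_union hI.out ho₁.connG ha₁' ha₁ (Or.inl rfl)
  have c2 : TscConn tscG (((↑(latOut I) : Set TV) ∪ ↑G₁) ∪ ↑G₂) := tsc_conn_union c1 ho₂.connG (Or.inl ha₂') ha₂ (Or.inl rfl)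
  have hXQ : ∀ u ∈ ((↑(latOut I) : Set TV) ∪ ↑G₁) ∪ ↑G₂, u ∈ Q₀ := by
    rintro u ((hu | hu) | hu)
    · exact hbQ (Finset.mem_sdiff.1 (hout (by exact_mod_cast hu))).1
    · exact hQ₁ (by exact_mod_cast hu)
    · exact hQ₂ (by exact_mod_cast hu)
  have hXB : ∀ u ∈ ((↑(latOut I) : Set TV) ∪ ↑G₁) ∪ ↑G₂, u ∈ ω.B := by
    rintro u ((hu | hu) | hu)
    · exact (hI.sign (Or.inl rfl) (Finset.mem_union_right _ (by exact_mod_cast hu))).2 rfl
    · exact hB₁ (by exact_mod_cast hu)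
    · exact hB₂ (by exact_mod_cast hu)
  unfold dfiObs
  split_ifs with hex
  · obtain ⟨hs, hl⟩ := hex.choose_spec
    set g := hex.choose
    obtain ⟨t, ht⟩ := dsn_pair c2 (h := g) (fun u hu v hv => hl u (hXQ u hu) v (hXQ v hv))
      (fun u hu => ((hs u (hXQ u hu)).1).1 (hXB u hu))
    have fin : ∀ G D : Finset TV, D ⊆ G → (∀ u ∈ G, u ∈ ((↑(latOut I) : Set TV) ∪ ↑G₁) ∪ ↑G₂) → D ⊆ ω.W →
        PinAbs G D (fun u => g u - 4 * t) := by
      intro G D hDG hGX hDW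
      refine ⟨fun u hu => ?_, fun u hu => ?_⟩
      · have := ht u (hGX u hu)
        show g u - 4 * t = 0 ∨ g u - 4 * t = 1
        omega
      · have h1 := ht u (hGX u (hDG hu))
        have h2 := ((hs u (hXQ u (hGX u (hDG hu)))).2).1 (hDW hu)
        show g u - 4 * t = 0
        omega
    have : ∃ t : ℤ, PinAbs G₁ D₁ (fun u => g u - t) ∧ PinAbs G₂ D₂ (fun u => g u - t) :=
      ⟨4 * t, fin G₁ D₁ ho₁.sub (fun u hu => Or.inl (Or.inr (by exact_mod_cast hu))) hW₁,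
        fin G₂ D₂ ho₂.sub (fun u hu => Or.inr (by exact_mod_cast hu)) hW₂⟩
    unfold dsnPsi pinI
    rw [if_neg (not_not.2 this)]
  · rfl

/-! ### (C) finite volume, free ambient law -/

/-- the constant of the finite volume inequality -/
noncomputable def dsnC (C α : ℝ) (k : ℕ) : ℝ := 2 ^ k * (C * 3 ^ α) + 2 ^ α

theorem dsn_fin (x : ℝ) (hx0 : 0 < x) (hx1 : x ≤ 1) {C α : ℝ} (hC : 0 < C) (hα : 0 < α) (H : DfiStack x C α)
    (k : ℕ) (G D : Fin k → Finset TV) (z : TV) (r1 r2 : ℕ) (i j : Fin k) (hob : ∀ l, PinOb (G l) (D l)) (h1 : 1 ≤ r1) (h12 : r1 ≤ r2)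
    (hD : ∀ l, Disjoint (D l) (latBall z r2))
    (hi₁ : ∃ u ∈ G i, u ∈ latBall z r1) (hx₁ : ∃ u ∈ G i, u ∉ latBall z r2)
    (hi₂ : ∃ u ∈ G j, u ∈ latBall z r1) (hx₂ : ∃ u ∈ G j, u ∉ latBall z r2)
    (V : Finset TV) (hV : DisAmb V) (Q₀ : Finset TV) (hQV : Q₀ ⊆ V) (hbQ : latBall z r2 ⊆ Q₀) (hGQ : Finset.univ.biUnion G ⊆ Q₀) :
    (clAmb x V).N (fun _ => True)
        (fun ω => dfiObs Q₀ (dsnPsi (G i) (D i) (G j) (D j)) ω * dfiPin (Finset.univ.biUnion G) (Finset.univ.biUnion D) ω) ≤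
      dsnC C α k * ((r1 : ℝ) / r2) ^ α *
        (clAmb x V).N (fun _ => True) (fun ω => 1 * dfiPin (Finset.univ.biUnion G) (Finset.univ.biUnion D) ω) := by
  classical
  set GG := Finset.univ.biUnion G with hGG
  set DD := Finset.univ.biUnion D with hDD
  set S := clAmb x V with hSdef
  set Ψ := dsnPsi (G i) (D i) (G j) (D j) with hΨ
  have hS : ClDisk S := dis_amb_disk x hx0 hx1 V hV
  have hok : ClOk S := hS.toClOk
  rw [dfi_N_pin, dfi_N_pin]
  have hGl : ∀ l, G l ⊆ GG := fun l => Finset.subset_biUnion_of_mem G (Finset.mem_univ l)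
  have hDl : ∀ l, D l ⊆ DD := fun l => Finset.subset_biUnion_of_mem D (Finset.mem_univ l)
  have hDG : DD ⊆ GG := by
    intro u hu
    obtain ⟨l, _, hul⟩ := Finset.mem_biUnion.1 hu
    exact hGl l ((hob l).sub hul)
  have hGV : GG ⊆ V := hGQ.trans hQV
  have hDV : DD ⊆ V := hDG.trans hGV
  have hDdis : Disjoint DD (latBall z r2) := by
    rw [hDD, Finset.disjoint_biUnion_left]
    exact fun l _ => hD l
  set K := dfiK GG DD with hK
  have lK : ClLegal S K := dfi_K_legal x V GG DD hDV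
  have fK : 0 < S.Z (K.Holds S) := dis_feas S hok K lK (dfi_K_feas x V GG DD (Finset.union_subset hGV hDV))
  have hobs1 : ∀ ω, dfiObs Q₀ Ψ ω ≤ 1 := fun ω => (abs_le.1 (dfi_obs_abs Q₀ Ψ (dsn_psi_abs _ _ _ _) ω)).2
  set a := S.N (K.Holds S) (fun ω => dfiObs Q₀ Ψ ω * dfiLab DD ω) with ha
  set b := S.N (K.Holds S) (fun ω => 1 * dfiLab DD ω) with hb
  have b0 : 0 ≤ b := dis_N_nonneg S hok _ fun ω => by rw [one_mul]; exact dfi_lab_nonneg DD ω
  have hab : a ≤ b := dis_N_mono S hok _ fun ω _ _ => mul_le_mul_of_nonneg_right (hobs1 ω) (dfi_lab_nonneg DD ω)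
  have hr1 : (0 : ℝ) < r1 := by exact_mod_cast h1
  have hr2 : (0 : ℝ) < r2 := by exact_mod_cast (lt_of_lt_of_le h1 h12)
  have hq0 : 0 ≤ ((r1 : ℝ) / r2) ^ α := Real.rpow_nonneg (div_pos hr1 hr2).le _
  have h3α : (0 : ℝ) < 3 ^ α := Real.rpow_pos_of_pos (by norm_num) _
  have h2α : (0 : ℝ) < 2 ^ α := Real.rpow_pos_of_pos (by norm_num) _
  by_cases hcase : r2 < r1 + 2
  · -- trivial case
    have t2 : 1 ≤ 2 ^ α * ((r1 : ℝ) / r2) ^ α := by
      rw [← Real.mul_rpow (by norm_num) (div_pos hr1 hr2).le]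
      refine Real.one_le_rpow ?_ hα.le
      rw [mul_div_assoc', le_div_iff₀ hr2]
      have : (r2 : ℝ) ≤ r1 + 1 := by exact_mod_cast Nat.lt_succ_iff.1 hcase
      have : (1 : ℝ) ≤ r1 := by exact_mod_cast h1
      linarith
    have t3 : 1 ≤ dsnC C α k * ((r1 : ℝ) / r2) ^ α := by
      unfold dsnC
      have : 0 ≤ 2 ^ k * (C * 3 ^ α) * ((r1 : ℝ) / r2) ^ α := by positivity
      nlinarith
    calc a ≤ 1 * b := by rw [one_mul]; exact hab
      _ ≤ _ := mul_le_mul_of_nonneg_right t3 b0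
  · -- the stack
    push Not at hcase
    obtain ⟨L, hL⟩ : ∃ L, r2 = L + 2 := ⟨r2 - 2, by omega⟩
    have hr1L : r1 ≤ L := by omega
    have hLpos : (0 : ℝ) < L := by exact_mod_cast (lt_of_lt_of_le h1 hr1L)
    have hsubV : latBall z (L + 2) ⊆ V := hL ▸ (hbQ.trans hQV)
    have st := H V hV K lK fK z r1 L h1 hr1L hsubV
      (dfi_K_clear x V GG DD _ (Finset.disjoint_of_subset_right (Finset.sdiff_subset) (hL ▸ hDdis)))
    rw [dis_P_eq, div_le_iff₀ fK] at st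
    have hoff : ∀ l, (∃ u ∈ G l, u ∉ latBall z r2) → ∃ u ∈ G l, u ∈ V \ latBall z L := by
      rintro l ⟨u, hu, hur⟩
      exact ⟨u, hu, Finset.mem_sdiff.2 ⟨hGV (hGl l hu), fun h => hur (plh_ball_mono z (by omega) h)⟩⟩
    -- (a) the bad event is contained in the failure of the separation
    have sa : a ≤ S.N (K.Holds S) (clInd fun ω => ¬ ClSep S true K.Eq ω (V \ latBall z L) (latBall z r1)) := by
      refine dis_N_mono S hok _ fun ω _ hKω => ?_
      have hBω : GG ∪ DD ⊆ ω.B := hKω.1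
      by_cases hsep : ClSep S true K.Eq ω (V \ latBall z L) (latBall z r1)
      · by_cases hW : DD ⊆ ω.W
        · have h0 := dsn_det x V K.Eq (dcn_legal_E x V K lK) ω z r1 L ((plh_ball_mono z (by omega)).trans hsubV) hr1L Q₀
            ((plh_ball_mono z (by omega)).trans hbQ) (G i) (D i) (G j) (D j) (hob i) (hob j) ((hGl i).trans hGQ) ((hGl j).trans hGQ)
            (((hGl i).trans Finset.subset_union_left).trans hBω) (((hGl j).trans Finset.subset_union_left).trans hBω)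
            ((hDl i).trans hW) ((hDl j).trans hW) hi₁ (hoff i hx₁) hi₂ (hoff j hx₂) hsep
          rw [h0, zero_mul]
          exact dis_ind_nonneg _ _
        · have hl : dfiLab DD ω = 0 := if_neg hW
          rw [hl, mul_zero]
          exact dis_ind_nonneg _ _
      · rw [dis_ind_pos (L := fun ω => ¬ ClSep S true K.Eq ω (V \ latBall z L) (latBall z r1)) hsep]
        calc dfiObs Q₀ Ψ ω * dfiLab DD ω ≤ 1 * dfiLab DD ω := mul_le_mul_of_nonneg_right (hobs1 ω) (dfi_lab_nonneg DD ω)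
          _ ≤ 1 := by rw [one_mul]; exact dfi_lab_le DD ω
    -- (c) the labels
    have hDf : DD = (List.ofFn D).foldr (· ∪ ·) ∅ := by
      ext v
      rw [dfi_mem_foldr, hDD, Finset.mem_biUnion]
      constructor
      · rintro ⟨l, _, hl⟩; exact ⟨D l, List.mem_ofFn.2 ⟨l, rfl⟩, hl⟩
      · rintro ⟨Cc, hCc, hv⟩
        obtain ⟨l, rfl⟩ := List.mem_ofFn.1 hCc
        exact ⟨l, Finset.mem_univ _, hv⟩
    have lbl := dis_lbl S hok K (fun e he => ⟨hDV (dfi_mem_Eq.1 he).1, hDV (dfi_mem_Eq.1 he).2.1⟩) (List.ofFn D)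
      (by
        intro Cc hCc
        obtain ⟨l, rfl⟩ := List.mem_ofFn.1 hCc
        exact ⟨(hDl l).trans hDV, dfi_K_conn (hDl l) (hob l).connD⟩)
      rfl (fun _ => 1) (fun _ => zero_le_one) (fun _ _ _ _ => rfl)
    rw [List.length_ofFn, ← hDf, dfi_N_lab S K rfl DD, ← dis_Z_eq] at lbl
    -- arithmetic
    have hpw : ((r1 : ℝ) / L) ^ α ≤ 3 ^ α * ((r1 : ℝ) / r2) ^ α := by
      rw [← Real.mul_rpow (by norm_num) (div_pos hr1 hr2).le]
      refine Real.rpow_le_rpow (div_pos hr1 hLpos).le ?_ hα.le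
      rw [div_le_iff₀ hLpos, mul_div_assoc', div_mul_eq_mul_div, le_div_iff₀ hr2]
      have e : (r2 : ℝ) = L + 2 := by exact_mod_cast hL
      have : (1 : ℝ) ≤ L := by exact_mod_cast (le_trans h1 hr1L)
      rw [e]
      nlinarith
    calc a ≤ C * ((r1 : ℝ) / L) ^ α * S.Z (K.Holds S) := sa.trans st
      _ ≤ C * (3 ^ α * ((r1 : ℝ) / r2) ^ α) * (2 ^ k * b) :=
          mul_le_mul (mul_le_mul_of_nonneg_left hpw hC.le) lbl fK.le (by positivity)
      _ = 2 ^ k * (C * 3 ^ α) * ((r1 : ℝ) / r2) ^ α * b := by ring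
      _ ≤ dsnC C α k * ((r1 : ℝ) / r2) ^ α * b := by
          refine mul_le_mul_of_nonneg_right (mul_le_mul_of_nonneg_right ?_ hq0) b0
          unfold dsnC
          linarith

/-! ### (D) the plane, the bridge -/

theorem dsn_plane (x : ℝ) (hx0 : 0 < x) (hx1 : x ≤ 1) (hT : DisT23 x true) {C α : ℝ} (hC : 0 < C) (hα : 0 < α) (H : DfiStack x C α)
    (k : ℕ) (G D : Fin k → Finset TV) (z : TV) (r1 r2 : ℕ) (i j : Fin k) (hob : ∀ l, PinOb (G l) (D l)) (h1 : 1 ≤ r1) (h12 : r1 ≤ r2)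
    (hD : ∀ l, Disjoint (D l) (latBall z r2))
    (hi₁ : ∃ u ∈ G i, u ∈ latBall z r1) (hx₁ : ∃ u ∈ G i, u ∉ latBall z r2)
    (hi₂ : ∃ u ∈ G j, u ∈ latBall z r1) (hx₂ : ∃ u ∈ G j, u ∉ latBall z r2)
    (Q₀ : Finset TV) (hbQ : latBall z r2 ⊆ Q₀) (hGQ : Finset.univ.biUnion G ∪ Finset.univ.biUnion D ⊆ Q₀) :
    clPlane x (fun ω => dfiObs Q₀ (dsnPsi (G i) (D i) (G j) (D j)) ω * dfiPin (Finset.univ.biUnion G) (Finset.univ.biUnion D) ω) ≤
      dsnC C α k * ((r1 : ℝ) / r2) ^ α * clPlane x (fun ω => 1 * dfiPin (Finset.univ.biUnion G) (Finset.univ.biUnion D) ω) := by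
  have hp : ClLoc Q₀ ∅ (dfiPin (Finset.univ.biUnion G) (Finset.univ.biUnion D)) := dfi_pin_loc _ _ Q₀ hGQ
  have t1 := dis_plane_lim x hx0 hx1 hT Q₀ ∅ _ (dfi_mul_loc (dfi_obs_loc Q₀ (dsnPsi (G i) (D i) (G j) (D j))) hp)
  have t2 := dis_plane_lim x hx0 hx1 hT Q₀ ∅ _ (dfi_mul_loc (F := fun _ => (1 : ℝ)) (fun _ _ _ _ _ => rfl) hp)
  refine le_of_tendsto_of_tendsto t1 (t2.const_mul _) ?_
  filter_upwards [dsy_sub_ball Q₀] with N hN
  have fin := dsn_fin x hx0 hx1 hC hα H k G D z r1 r2 i j hob h1 h12 hD hi₁ hx₁ hi₂ hx₂ (latBall 0 N) (dis_amb_ball 0 N) Q₀ hN hbQ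
    (Finset.subset_union_left.trans hGQ)
  simp only [dis_E_eq]
  rw [← mul_div_assoc]
  exact div_le_div_of_nonneg_right fin (dis_Z_nonneg _ (pcp_amb_ok x hx0 hx1 _) _)

/-- **the body of `exit_dis_sync`** -/
theorem dsn_main (x : ℝ) (hx1 : 1 / Real.sqrt 2 ≤ x) (hx2 : x ≤ 1) :
    ∃ α : ℝ, 0 < α ∧ ∀ k : ℕ, ∃ C : ℝ, 0 < C ∧ ∀ (G D : Fin k → Finset TV) (z : TV) (r1 r2 : ℕ) (i j : Fin k),
      (∀ l, PinOb (G l) (D l)) → 1 ≤ r1 → r1 ≤ r2 → (∀ l, Disjoint (D l) (latBall z r2)) →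
      (∃ u ∈ G i, u ∈ latBall z r1) → (∃ u ∈ G i, u ∉ latBall z r2) → (∃ u ∈ G j, u ∈ latBall z r1) → (∃ u ∈ G j, u ∉ latBall z r2) →
      (pinPer x fun h => pinI ((∀ l, PinLoc (G l) (D l) h) ∧ ¬ ∃ t : ℤ, PinAbs (G i) (D i) (fun u => h u - t) ∧ PinAbs (G j) (D j) (fun u => h u - t))) ≤
        C * ((r1 : ℝ) / r2) ^ α * pinPer x fun h => pinI (∀ l, PinLoc (G l) (D l) h) := by
  have hx0 : 0 < x := lt_of_lt_of_le (by positivity) hx1
  have hT := exit_t23 x hx1 hx2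
  obtain ⟨C, α, hC, hα, H⟩ := dis_stack x hx0 hx2 true hT
  refine ⟨α, hα, fun k => ⟨dsnC C α k, by unfold dsnC; positivity, ?_⟩⟩
  intro G D z r1 r2 i j hob h1 h12 hD hi₁ hx₁ hi₂ hx₂
  set GG := Finset.univ.biUnion G with hGG
  set DD := Finset.univ.biUnion D with hDD
  have hGl : ∀ l, G l ⊆ GG := fun l => Finset.subset_biUnion_of_mem G (Finset.mem_univ l)
  have hDl : ∀ l, D l ⊆ DD := fun l => Finset.subset_biUnion_of_mem D (Finset.mem_univ l)
  -- a large concentric ball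
  obtain ⟨M, hM⟩ : ∃ M : ℕ, latBall z r2 ∪ (GG ∪ DD) ⊆ latBall z M := by
    refine ⟨(latBall z r2 ∪ (GG ∪ DD)).sup (fun u => latN (u - z)), fun u hu => ?_⟩
    rw [lat_mem_ball]
    exact Finset.le_sup (f := fun u => latN (u - z)) hu
  set Q₀ := latBall z M with hQ₀
  have hbQ : latBall z r2 ⊆ Q₀ := Finset.subset_union_left.trans hM
  have hGQ : GG ∪ DD ⊆ Q₀ := Finset.subset_union_right.trans hM
  have hQc : TscConn tscG (↑Q₀ : Set TV) := plh_ball_conn z M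
  set Ψ := dsnPsi (G i) (D i) (G j) (D j) with hΨ
  have hTQ : (G i ∪ D i) ∪ (G j ∪ D j) ⊆ Q₀ := by
    refine Finset.Subset.trans ?_ hGQ
    exact Finset.union_subset (Finset.union_subset_union (hGl i) (hDl i)) (Finset.union_subset_union (hGl j) (hDl j))
  have hp : ClLoc Q₀ ∅ (dfiPin GG DD) := dfi_pin_loc _ _ Q₀ hGQ
  have rep1 : DbrRep Q₀ (fun h => pinI ((∀ l, PinLoc (G l) (D l) h) ∧
      ¬ ∃ t : ℤ, PinAbs (G i) (D i) (fun u => h u - t) ∧ PinAbs (G j) (D j) (fun u => h u - t)))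
      (fun ω => dfiObs Q₀ Ψ ω * dfiPin GG DD ω) := by
    refine dbr_rep_of_loc (dfi_mul_loc (dfi_obs_loc Q₀ Ψ) hp) fun h hl => ?_
    show dfiObs Q₀ Ψ _ * dfiPin GG DD _ = _
    rw [dfi_pin_gray GG DD Q₀ hGQ, dfi_obs_gray hQc subset_rfl hTQ (dsn_psi_loc _ _ _ _) (dsn_psi_p4 _ _ _ _) h hl,
      dsn_pinI_congr (dsn_sp_iff G D hob Q₀ (Finset.subset_union_left.trans hGQ) h hl), dsn_pinI_and]
    rfl
  have rep2 : DbrRep Q₀ (fun h => pinI (∀ l, PinLoc (G l) (D l) h)) (fun ω => 1 * dfiPin GG DD ω) := by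
    refine dbr_rep_of_loc (dfi_mul_loc (F := fun _ => (1 : ℝ)) (fun _ _ _ _ _ => rfl) hp) fun h hl => ?_
    show 1 * dfiPin GG DD _ = _
    rw [dfi_pin_gray GG DD Q₀ hGQ, one_mul, dsn_pinI_congr (dsn_sp_iff G D hob Q₀ (Finset.subset_union_left.trans hGQ) h hl)]
  rw [dbr_main x hx0 hx2 hT Q₀ _ _ rep1, dbr_main x hx0 hx2 hT Q₀ _ _ rep2]
  exact dsn_plane x hx0 hx2 hT hC hα H k G D z r1 r2 i j hob h1 h12 hD hi₁ hx₁ hi₂ hx₂ Q₀ hbQ hGQ

/-- the equation lemmas of the definitions of this file are generated HERE (RULES.md, rule 6) -/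
theorem dsn_defs_eqns_cite : True := by
  have := @dsnPsi.eq_1
  have := @dsnC.eq_1
  trivial

end Claimed.Agent.R291
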